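import Vale.Agent.P239.ASB

/-! The acyclic carrier theorem. -/

namespace Vale.Agent.P239.AS

open scoped Pointwise symmDiff
open Filter Topology

variable {ι : Type*} [Fintype ι] [DecidableEq ι] {Q : Type*} [AddCommGroup Q] [Module (ZMod 2) Q]

namespace ACXAux

/-- The boundary as a linear map. -/
def bdL : (Finset ι → ZMod 2) →ₗ[ZMod 2] (Finset ι → ZMod 2) where
  toFun := bd
  map_add' a b := by funext τ; simp [bd, Finset.sum_add_distrib]
  map_smul' c a := by funext τ; simp [bd, Finset.mul_sum]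

/-- The cone with vertex `v`. -/
def cone (v : ι) (c : Finset ι → ZMod 2) : Finset ι → ZMod 2 :=
  fun τ => if v ∈ τ then c (τ.erase v) else 0

theorem bd_cone (v : ι) {z : Finset ι → ZMod 2} (hz : bd z = 0) : bd (cone v z) = z := by
  funext τ
  by_cases hv : v ∈ τ
  · have h := congrFun hz (τ.erase v)
    simp only [bd, Pi.zero_apply] at h
    rw [Finset.compl_erase, Finset.sum_insert (by simpa using hv), Finset.insert_erase hv] at h
    have e : bd (cone v z) τ = ∑ i ∈ τᶜ, z (insert i (τ.erase v)) := by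
      refine Finset.sum_congr rfl fun i hi => ?_
      have hi' : i ≠ v := fun e => (Finset.mem_compl.1 hi) (e ▸ hv)
      rw [cone, if_pos (Finset.mem_insert_of_mem hv), Finset.erase_insert_of_ne hi']
    rw [e]
    exact (CharTwo.add_eq_zero.1 h).symm
  · rw [bd, Finset.sum_eq_single v]
    · rw [cone, if_pos (Finset.mem_insert_self _ _), Finset.erase_insert hv]
    · intro i _ hi
      rw [cone, if_neg]
      rw [Finset.mem_insert]
      exact fun h => h.elim (fun e => hi e.symm) hv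
    · exact fun h => absurd (Finset.mem_compl.2 hv) h

theorem bd_single (σ : Finset ι) : bd (Pi.single σ (1 : ZMod 2) : Finset ι → ZMod 2) =
    ∑ i ∈ σ, Pi.single (σ.erase i) 1 := by
  funext τ
  simp only [bd, Finset.sum_apply, Pi.single_apply]
  rw [← Finset.sum_filter, ← Finset.sum_filter]
  congr 1
  ext i
  simp only [Finset.mem_filter, Finset.mem_compl]
  constructor
  · rintro ⟨h, rfl⟩
    exact ⟨Finset.mem_insert_self _ _, (Finset.erase_insert h).symm⟩
  · rintro ⟨h, rfl⟩
    exact ⟨Finset.notMem_erase _ _, Finset.insert_erase h⟩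

omit [Fintype ι] in
theorem exists_rec {M : Type*} [AddCommMonoid M] (C : Finset ι → M → M) :
    ∃ F : Finset ι → M, ∀ σ, F σ = C σ (∑ i ∈ σ, F (σ.erase i)) := by
  refine ⟨Finset.strongInduction fun σ G =>
    C σ (∑ i ∈ σ.attach, G (σ.erase i.1) (Finset.erase_ssubset i.2)), fun σ => ?_⟩
  rw [Finset.strongInduction_eq, ← Finset.sum_attach σ]

theorem build (Φ : Finset ι → Finset ι) (hΦ : Monotone Φ) (hne : ∀ σ, σ ≠ ∅ → Φ σ ≠ ∅) (s : ℕ)
    (R : (Finset ι → ZMod 2) →ₗ[ZMod 2] (Finset ι → ZMod 2)) (b : Finset ι → ZMod 2)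
    (hR : ∀ c, bd (R c) = R (bd c))
    (hRs : ∀ σ τ, R (Pi.single σ 1) τ ≠ 0 → τ ⊆ Φ σ ∧ τ.card + 1 = σ.card + s)
    (hb : bd b = R (Pi.single ∅ 1)) (hbs : ∀ τ, b τ ≠ 0 → τ ⊆ Φ ∅ ∧ τ.card = s) :
    ∃ F, Carr Φ s F ∧ F (Pi.single ∅ 1) = b ∧ ∀ c, bd (F c) = R c + F (bd c) := by
  have hv : ∀ σ, σ ≠ ∅ → ∃ v, v ∈ Φ σ := fun σ h => Finset.nonempty_iff_ne_empty.2 (hne σ h)
  choose v hv using hv
  obtain ⟨f, hf⟩ := exists_rec fun σ (z : Finset ι → ZMod 2) =>
    if h : σ = ∅ then b else cone (v σ h) (R (Pi.single σ 1) + z)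
  set F := Fintype.linearCombination (ZMod 2) f with hF
  have e : ∀ σ, F (Pi.single σ 1) = f σ := fun σ => by
    rw [hF, Fintype.linearCombination_apply_single, one_smul]
  have e2 : ∀ σ, F (bd (Pi.single σ 1)) = ∑ i ∈ σ, f (σ.erase i) := fun σ => by
    rw [bd_single, map_sum]
    exact Finset.sum_congr rfl fun i _ => e _
  have e0 : f ∅ = b := by rw [hf, dif_pos rfl]
  have h1 : ∀ σ τ, f σ τ ≠ 0 → τ ⊆ Φ σ ∧ τ.card = σ.card + s := by
    intro σ
    induction σ using Finset.strongInduction with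
    | H σ ih =>
      intro τ hτ
      by_cases h : σ = ∅
      · subst h
        rw [e0] at hτ
        simpa using hbs τ hτ
      · rw [hf, dif_neg h, cone] at hτ
        obtain ⟨a1, a2⟩ := ite_ne_right_iff.1 hτ
        have a3 : τ.erase (v σ h) ⊆ Φ σ ∧ (τ.erase (v σ h)).card + 1 = σ.card + s := by
          by_cases a4 : R (Pi.single σ 1) (τ.erase (v σ h)) = 0
          · rw [Pi.add_apply, a4, zero_add, Finset.sum_apply] at a2
            obtain ⟨i, hi, a5⟩ := Finset.exists_ne_zero_of_sum_ne_zero a2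
            obtain ⟨a6, a7⟩ := ih _ (Finset.erase_ssubset hi) _ a5
            have a8 := Finset.card_erase_add_one hi
            exact ⟨a6.trans (hΦ (Finset.erase_subset _ _)), by omega⟩
          · exact hRs _ _ a4
        rw [Finset.card_erase_add_one a1] at a3
        refine ⟨fun x hx => ?_, a3.2⟩
        by_cases a9 : x = v σ h
        · rw [a9]
          exact hv σ h
        · exact a3.1 (Finset.mem_erase.2 ⟨a9, hx⟩)
  have h2 : ∀ σ, bd (f σ) = R (Pi.single σ 1) + F (bd (Pi.single σ 1)) := by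
    intro σ
    induction σ using Finset.strongInduction with
    | H σ ih =>
      rw [e2]
      by_cases h : σ = ∅
      · subst h
        rw [e0, hb, Finset.sum_empty, add_zero]
      · have a1 : bd (∑ i ∈ σ, f (σ.erase i)) = R (bd (Pi.single σ 1)) := by
          have a2 : bd (∑ i ∈ σ, f (σ.erase i)) = ∑ i ∈ σ, bd (f (σ.erase i)) := map_sum bdL _ _
          have a3 : ∑ i ∈ σ, bd (Pi.single (σ.erase i) (1 : ZMod 2) : Finset ι → ZMod 2) = 0 := by
            have a4 : bd (∑ i ∈ σ, (Pi.single (σ.erase i) (1 : ZMod 2) : Finset ι → ZMod 2)) =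
              ∑ i ∈ σ, bd (Pi.single (σ.erase i) 1) := map_sum bdL _ _
            rw [← a4, ← bd_single, bd_bd]
          rw [a2, Finset.sum_congr rfl fun i hi => ih _ (Finset.erase_ssubset hi),
            Finset.sum_add_distrib, ← map_sum, ← map_sum, a3, map_zero, add_zero, bd_single]
        conv_lhs => rw [hf, dif_neg h]
        refine bd_cone _ ?_
        rw [bd_add, a1, hR, two_self]
  refine ⟨F, fun σ τ h => h1 σ τ (by rwa [e] at h), by rw [e, e0], fun c => ?_⟩
  have h3 : bdL ∘ₗ F = R + F ∘ₗ bdL := by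
    refine (Pi.basisFun (ZMod 2) (Finset ι)).ext fun σ => ?_
    rw [Pi.basisFun_apply]
    show bd (F _) = R _ + F (bd _)
    rw [e, h2]
  exact LinearMap.congr_fun h3 c

end ACXAux

theorem ac : AC ι := by
  intro Φ hΦ hne
  refine ⟨?_, fun φ ψ h1 h2 h3 h4 => ?_⟩
  · obtain ⟨F, a1, a2, a3⟩ := ACXAux.build Φ hΦ hne 0 0 (Pi.single ∅ 1) (fun c => bd_zero)
      (fun _ _ h => absurd rfl h) (by rw [ACXAux.bd_single, Finset.sum_empty]; rfl) fun τ h => by
        obtain rfl : τ = ∅ := by_contra fun e => h (Pi.single_eq_of_ne e _)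
        exact ⟨Finset.empty_subset _, rfl⟩
    exact ⟨F, a1, fun c => by rw [a3, LinearMap.zero_apply, zero_add], a2⟩
  · obtain ⟨F, a1, -, a3⟩ := ACXAux.build Φ hΦ hne 1 (φ + ψ) 0
      (fun c => by rw [LinearMap.add_apply, LinearMap.add_apply, bd_add, h2.1, h4.1])
      (fun σ τ h => by
        rw [LinearMap.add_apply, Pi.add_apply] at h
        by_cases e : φ (Pi.single σ 1) τ = 0
        · rw [e, zero_add] at h
          exact ⟨(h3 σ τ h).1, by rw [(h3 σ τ h).2]⟩
        · exact ⟨(h1 σ τ e).1, by rw [(h1 σ τ e).2]⟩)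
      (by rw [LinearMap.add_apply, h2.2, h4.2, two_self, bd_zero]) fun τ h => absurd rfl h
    exact ⟨F, a1, fun c => by rw [a3, add_assoc, two_self, add_zero, LinearMap.add_apply]⟩

end Vale.Agent.P239.AS
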