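import Vale.Agent.P239.BasY

/-! Existence of atoms and finiteness of heavy atoms. -/

namespace Vale.Agent.P239

open scoped Pointwise symmDiff
open Filter Topology

namespace AEXAux

variable {Γ : Type*} [Group Γ] {Z : Type*} [MetricSpace Z] [MulAction Γ Z] {D : Dat Γ Z}

/-- The heavy cuts of the class. -/
def Hv (D : Dat Γ Z) (Q₀ : Set Γ) (ξ : Z) (δ : ℝ) (Q : Set Γ) : Prop :=
  D.Cut Q ξ ∧ D.Same Q₀ Q ∧ 1 - δ < D.m Q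

variable {Q₀ : Set Γ} {ξ : Z} {δ : ℝ}

theorem mk_hv (hδ : 0 < δ)
    (hd : ∀ Q, D.Cut Q ξ → D.Same Q₀ Q → D.m Q < δ ∨ 1 - δ < D.m Q) {P : Set Γ}
    (h1 : vote D.V P = P) (h2 : D.Conv (tails D.S Q₀ ∪ tails D.S P) ξ) (h3 : δ ≤ D.m P)
    (h4 : D.m P < 1) : Hv D Q₀ ξ δ P := by
  have hc : D.Cut P ξ := ⟨h1, h2.subset Set.subset_union_right, by linarith, h4⟩
  have hs : D.Same Q₀ P := ⟨ξ, h2⟩
  exact ⟨hc, hs, (hd P hc hs).resolve_left (not_lt.2 h3)⟩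

theorem hv_or (H : D.OK)
    (hd : ∀ Q, D.Cut Q ξ → D.Same Q₀ Q → D.m Q < δ ∨ 1 - δ < D.m Q) {Q : Set Γ}
    (hc : D.Cut Q ξ) (hs : D.Same Q₀ Q) : Hv D Q₀ ξ δ Q ∨ Hv D Q₀ ξ δ Qᶜ := by
  rcases hd Q hc hs with h | h
  · refine Or.inr ⟨H.cut_compl hc, hs.compl, ?_⟩
    rw [H.m_compl]
    linarith
  · exact Or.inl ⟨hc, hs, h⟩

theorem hv_inter (H : D.OK) (h1 : D.VT) (h0 : D.Cut Q₀ ξ) (hδ : 0 < δ) (hδ' : δ ≤ 1 / 4)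
    (hd : ∀ Q, D.Cut Q ξ → D.Same Q₀ Q → D.m Q < δ ∨ 1 - δ < D.m Q) {Q Q' : Set Γ}
    (hQ : Hv D Q₀ ξ δ Q) (hQ' : Hv D Q₀ ξ δ Q') :
    ∃ P, Hv D Q₀ ξ δ P ∧ D.m P = D.m (Q ∩ Q') := by
  have c1 : D.Conv (tails D.S Q ∪ tails D.S Q₀) ξ :=
    (H.same_conv h0 hQ.2.1).subset (Set.union_comm _ _).le
  have c2 := H.conv_glue c1 (H.same_conv h0 hQ'.2.1) (H.cut_tails_infinite h0)
  have c3 : D.Conv (tails D.S Q₀ ∪ tails D.S (Q ∩ Q')) ξ := c2.subset (by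
    rintro x (hx | hx)
    · exact Or.inl (Or.inr hx)
    · rcases tails_inter Q Q' hx with hx | hx
      · exact Or.inl (Or.inl hx)
      · exact Or.inr hx)
  obtain ⟨a1, a2, -⟩ := h1 _ _ _ c3
  have a3 := H.m_abs_sub (Q ∩ Q') (vote D.V (Q ∩ Q'))
  rw [a2] at a3
  have a4 : D.m (vote D.V (Q ∩ Q')) = D.m (Q ∩ Q') := by
    have := abs_le.1 a3
    linarith [this.1, this.2]
  have a5 := H.m_union_le Qᶜ Q'ᶜ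
  rw [← Set.compl_inter, H.m_compl, H.m_compl, H.m_compl] at a5
  have a6 : D.m (Q ∩ Q') ≤ D.m Q := H.m_mono Set.inter_subset_left
  refine ⟨_, mk_hv hδ hd (H.vote_congr a2).symm a1 ?_ ?_, a4⟩
  · rw [a4]
    linarith [hQ.2.2, hQ'.2.2]
  · rw [a4]
    linarith [hQ.1.2.2.2]

theorem hv_min (H : D.OK) (h2 : D.ZL) (h3 : D.UH) (h0 : D.Cut Q₀ ξ) (hδ : 0 < δ)
    (hδ' : δ ≤ 1 / 4) (hd : ∀ Q, D.Cut Q ξ → D.Same Q₀ Q → D.m Q < δ ∨ 1 - δ < D.m Q) :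
    ∃ P, Hv D Q₀ ξ δ P ∧ ∀ Q, Hv D Q₀ ξ δ Q → D.m P ≤ D.m Q := by
  obtain ⟨Q₁, hQ₁⟩ : ∃ Q, Hv D Q₀ ξ δ Q := (hv_or H hd h0 h0.same_self).elim (fun h => ⟨_, h⟩)
    fun h => ⟨_, h⟩
  have hne : (D.m '' {Q | Hv D Q₀ ξ δ Q}).Nonempty := ⟨_, Q₁, hQ₁, rfl⟩
  have hlow : ∀ y ∈ D.m '' {Q | Hv D Q₀ ξ δ Q}, 1 - δ ≤ y := by
    rintro _ ⟨Q, hQ, rfl⟩
    exact hQ.2.2.le
  have s1 : ∀ Q, Hv D Q₀ ξ δ Q → sInf (D.m '' {Q | Hv D Q₀ ξ δ Q}) ≤ D.m Q := fun Q hQ =>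
    csInf_le ⟨_, hlow⟩ ⟨Q, hQ, rfl⟩
  have s2 : 1 - δ ≤ sInf (D.m '' {Q | Hv D Q₀ ξ δ Q}) := le_csInf hne hlow
  have s3 : ∀ n : ℕ, ∃ Q, Hv D Q₀ ξ δ Q ∧
      D.m Q < sInf (D.m '' {Q | Hv D Q₀ ξ δ Q}) + 1 / ((n : ℝ) + 1) := fun n => by
    obtain ⟨_, ⟨Q, hQ, rfl⟩, h⟩ := Real.lt_sInf_add_pos hne (Nat.one_div_pos_of_nat (n := n))
    exact ⟨Q, hQ, h⟩
  generalize sInf (D.m '' {Q | Hv D Q₀ ξ δ Q}) = s at s1 s2 s3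
  choose C hC hC' using s3
  obtain ⟨P, p1, p2, p3⟩ := h2 (hyperfilter ℕ) C (tails D.S Q₀) ξ
    (fun ε hε => by
      obtain ⟨K, hK, hK'⟩ := h3 (D.c / 2) ε (half_pos H.c_pos) hε
      exact ⟨K, hK, Eventually.of_forall fun n =>
        (H.cut_tails_Th (hC n).1).trans (hK' _ _ (hC n).1)⟩)
    fun ε hε K hK => Eventually.of_forall fun n => H.same_conv h0 (hC n).2.1 ε hε K hK
  have key : ∀ η : ℝ, 0 < η → D.m P ≤ s + η ∧ s ≤ D.m P + η := fun η hη => by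
    have e1 : ∀ᶠ n : ℕ in atTop, 1 / ((n : ℝ) + 1) < η / 2 :=
      tendsto_one_div_add_atTop_nhds_zero_nat.eventually (gt_mem_nhds (half_pos hη))
    have e2 : ∀ᶠ n : ℕ in (hyperfilter ℕ : Filter ℕ), 1 / ((n : ℝ) + 1) < η / 2 :=
      e1.filter_mono Nat.hyperfilter_le_atTop
    obtain ⟨n, n1, n2⟩ := (e2.and (p3 (η / 2) (half_pos hη))).exists
    have n3 := abs_le.1 ((H.m_abs_sub (C n) P).trans n2)
    have n4 := s1 _ (hC n)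
    have n5 := hC' n
    constructor <;> linarith [n3.1, n3.2]
  have k1 : D.m P ≤ s := le_of_forall_pos_le_add fun η hη => (key η hη).1
  have k2 : s ≤ D.m P := le_of_forall_pos_le_add fun η hη => (key η hη).2
  refine ⟨P, mk_hv hδ hd p1 p2 (by linarith) ?_, fun Q hQ => k1.trans (s1 Q hQ)⟩
  linarith [s1 Q₁ hQ₁, hQ₁.1.2.2.2]

end AEXAux

variable {Γ : Type*} [Group Γ] {Z : Type*} [MetricSpace Z] [CompactSpace Z] [MulAction Γ Z]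
  [ContinuousConstSMul Γ Z] {D : Dat Γ Z} {π : Z → ℝ}

theorem ae (H : D.OK) (h1 : D.VT) (h2 : D.ZL) (h3 : D.UH) : D.AE := by
  intro Q₀ ξ δ h0 hδ hδ' hd
  obtain ⟨P, hP, hmin⟩ := AEXAux.hv_min H h2 h3 h0 hδ hδ' hd
  have key : ∀ Q, AEXAux.Hv D Q₀ ξ δ Q → P ⊆ Q := fun Q hQ => by
    obtain ⟨P', a1, a2⟩ := AEXAux.hv_inter H h1 h0 hδ hδ' hd hP hQ
    have a3 := hmin P' a1
    have a4 := H.mean.add (P ∩ Q) (P \ Q) Set.disjoint_sdiff_inter.symm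
    rw [Set.inter_union_sdiff] at a4
    exact H.cut_sub_of_null hP.1 hQ.1 (le_antisymm (by linarith) (H.mean.nonneg _))
  refine ⟨P, ⟨hP.1, fun Q hQ hs => ?_⟩, hP.2.1, hP.2.2⟩
  exact (AEXAux.hv_or H hd hQ (H.same_trans hP.1 hP.2.1 hs)).imp (key Q) (key Qᶜ)

theorem af (H : D.OK) (h1 : D.HF) : D.AF := by
  intro δ hδ
  obtain ⟨R, hR, hc, h⟩ := h1 δ hδ
  have key : ∀ p ∈ R, {A | (∃ ξ, D.Atom A ξ) ∧ δ ≤ D.m A ∧ D.Same A p.1}.Finite := fun p hp => by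
    refine H.finite_of_disjoint hδ (fun A hA => hA.2.1) ?_
    rintro A ⟨⟨ξ, a1⟩, -, a2⟩ A' ⟨⟨ξ', b1⟩, -, b2⟩ hne
    exact (H.atom_eq_or_disj a1 b1 (H.same_trans (hc p hp) a2 b2.symm)).resolve_left hne
  refine (hR.biUnion key).subset ?_
  rintro A ⟨⟨ξ, a1⟩, a2, a3⟩
  obtain ⟨p, hp, a4, -⟩ := h A ξ a1.1 a2 a3
  exact Set.mem_biUnion hp ⟨⟨ξ, a1⟩, a2, a4⟩

end Vale.Agent.P239
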