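import Vale.Agent.P239.Core3

/-! Basic lemmas on cochains, algebraic part. -/

namespace Vale.Agent.P239.AS

open Filter Topology

variable {k : Type*} [Field k] {X Y : Type*}

@[simp] theorem d_nil (f : Co k X) : d f [] = 0 := rfl

theorem d_cons (f : Co k X) (x : X) (l : List X) :
    d f (x :: l) = f l - d (fun l' => f (x :: l') : Co k X) l := rfl

theorem d_single (f : Co k X) (x : X) : d f [x] = f [] := by
  rw [d_cons, d_nil, sub_zero]

theorem d_pair (f : Co k X) (x y : X) : d f [x, y] = f [y] - f [x] := by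
  rw [d_cons, d_single]

@[simp] theorem d_d (f : Co k X) : d (d f) = 0 := by
  funext l
  induction l generalizing f with
  | nil => rfl
  | cons x l ih =>
    have h : (fun l' => d f (x :: l') : Co k X) = f - d (fun l' => f (x :: l') : Co k X) := rfl
    rw [d_cons, h, map_sub, Pi.sub_apply, ih]
    simp

/-- `d f l` only depends on the values of `f` on sublists of `l` with one entry less. -/
theorem d_congr {f g : Co k X} {l : List X}
    (h : ∀ l', l'.Sublist l → l'.length + 1 = l.length → f l' = g l') : d f l = d g l := by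
  induction l generalizing f g with
  | nil => rfl
  | cons x l ih =>
    rw [d_cons, d_cons, h l (List.sublist_cons_self x l) rfl]
    congr 1
    exact ih fun l' h1 h2 => h (x :: l') (h1.cons_cons x) (by simpa using h2)

theorem Deg.zero (n : ℕ) : Deg n (0 : Co k X) := fun _ _ => rfl

theorem Deg.add {n : ℕ} {f g : Co k X} (hf : Deg n f) (hg : Deg n g) : Deg n (f + g) :=
  fun l hl => by simp [hf l hl, hg l hl]

theorem Deg.sub {n : ℕ} {f g : Co k X} (hf : Deg n f) (hg : Deg n g) : Deg n (f - g) :=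
  fun l hl => by simp [hf l hl, hg l hl]

theorem Deg.smul {n : ℕ} {f : Co k X} (c : k) (hf : Deg n f) : Deg n (c • f) :=
  fun l hl => by simp [hf l hl]

theorem Deg.sum {ι : Type*} {n : ℕ} {s : Finset ι} {f : ι → Co k X} (h : ∀ i ∈ s, Deg n (f i)) :
    Deg n (∑ i ∈ s, f i) := fun l hl => by
  rw [Finset.sum_apply]
  exact Finset.sum_eq_zero fun i hi => h i hi l hl

theorem Deg.d {n : ℕ} {f : Co k X} (hf : Deg n f) : Deg (n + 1) (d f) := fun l hl => by
  have h : AS.d f l = AS.d (0 : Co k X) l := d_congr fun l' _ h2 => hf l' (by omega)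
  rw [h, map_zero, Pi.zero_apply]

theorem Deg.nil {n : ℕ} {f : Co k X} (hf : Deg (n + 1) f) : f [] = 0 := hf [] (by simp)

theorem deg_proj (n : ℕ) (f : Co k X) : Deg n (proj n f) := fun _ hl => if_neg hl

theorem Deg.proj_eq {n : ℕ} {f : Co k X} (hf : Deg n f) : proj n f = f := by
  funext l
  by_cases h : l.length = n
  · exact if_pos h
  · exact (if_neg h).trans (hf l h).symm

theorem d_proj (n : ℕ) (f : Co k X) : d (proj n f) = proj (n + 1) (d f) := by
  funext l
  by_cases h : l.length = n + 1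
  · refine Eq.trans (d_congr fun l' _ h2 => ?_) (if_pos h).symm
    exact if_pos (by omega)
  · exact ((deg_proj n f).d l h).trans (deg_proj (n + 1) (d f) l h).symm

@[simp] theorem cut_nil (O : Set X) (f : Co k X) : cut O f [] = 0 := by
  simp [cut]

theorem cut_cons_of_mem {O : Set X} (f : Co k X) {x : X} (h : x ∈ O) (l : List X) :
    cut O f (x :: l) = f (x :: l) := by
  simp [cut, h]

theorem cut_cons_of_notMem {O : Set X} (f : Co k X) {x : X} (h : x ∉ O) (l : List X) :
    cut O f (x :: l) = 0 := by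
  simp [cut, h]

theorem Deg.cut {n : ℕ} {f : Co k X} (O : Set X) (hf : Deg n f) : Deg n (cut O f) := fun l hl => by
  simp [AS.cut, hf l hl]

theorem d_pull (φ : X → Y) (f : Co k Y) : d (pull φ f) = pull φ (d f) := by
  funext l
  induction l generalizing f with
  | nil => rfl
  | cons x l ih =>
    rw [d_cons]
    exact congrArg (fun t => f (l.map φ) - t) (ih fun l' => f (φ x :: l'))

theorem Deg.pull {n : ℕ} {f : Co k Y} (φ : X → Y) (hf : Deg n f) : Deg n (pull φ f) :=
  fun l hl => hf (l.map φ) (by simpa using hl)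

theorem pull_pull {W : Type*} (φ : X → Y) (ψ : Y → W) (f : Co k W) :
    pull φ (pull ψ f) = pull (fun x => ψ (φ x)) f := by
  funext l
  show f ((l.map φ).map ψ) = f (l.map fun x => ψ (φ x))
  rw [List.map_map]
  rfl

@[simp] theorem pull_id (f : Co k X) : pull (fun x => x) f = f := by
  funext l
  show f (l.map fun x => x) = f l
  rw [List.map_id']

theorem pull_cut (φ : X → Y) (O : Set Y) (f : Co k Y) :
    pull φ (cut O f) = cut (φ ⁻¹' O) (pull φ f) := by
  funext l
  cases l with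
  | nil => exact (cut_nil O f).trans (cut_nil _ _).symm
  | cons x l =>
    by_cases h : φ x ∈ O
    · exact (cut_cons_of_mem f h _).trans (cut_cons_of_mem (O := φ ⁻¹' O) (pull φ f) h l).symm
    · exact (cut_cons_of_notMem f h _).trans
        (cut_cons_of_notMem (O := φ ⁻¹' O) (pull φ f) h l).symm

variable [TopologicalSpace X] [TopologicalSpace Y]

theorem mem_Nul {K : Set X} {f : Co k X} : f ∈ Nul k K ↔ f [] = 0 ∧ ∀ y ∈ K, Van f y := Iff.rfl

theorem mem_Sc {U : Set X} {f : Co k X} :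
    f ∈ Sc k U ↔ ∃ K, IsCompact K ∧ K ⊆ U ∧ f ∈ Nul k Kᶜ := Iff.rfl

theorem Van.nil {f : Co k X} {y : X} (h : Van f y) : f [] = 0 := by
  obtain ⟨W, -, h⟩ := h
  exact h [] (by simp)

theorem Van.zero (y : X) : Van (0 : Co k X) y := ⟨Set.univ, univ_mem, fun _ _ => rfl⟩

theorem Van.add {f g : Co k X} {y : X} (hf : Van f y) (hg : Van g y) : Van (f + g) y := by
  obtain ⟨W, hW, h⟩ := hf
  obtain ⟨W', hW', h'⟩ := hg
  exact ⟨W ∩ W', inter_mem hW hW', fun l hl => by
    simp [h l fun x hx => (hl x hx).1, h' l fun x hx => (hl x hx).2]⟩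

theorem Van.sub {f g : Co k X} {y : X} (hf : Van f y) (hg : Van g y) : Van (f - g) y := by
  obtain ⟨W, hW, h⟩ := hf
  obtain ⟨W', hW', h'⟩ := hg
  exact ⟨W ∩ W', inter_mem hW hW', fun l hl => by
    simp [h l fun x hx => (hl x hx).1, h' l fun x hx => (hl x hx).2]⟩

theorem Van.neg {f : Co k X} {y : X} (hf : Van f y) : Van (-f) y := by
  obtain ⟨W, hW, h⟩ := hf
  exact ⟨W, hW, fun l hl => by simp [h l hl]⟩

theorem Van.d {f : Co k X} {y : X} (hf : Van f y) : Van (d f) y := by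
  obtain ⟨W, hW, h⟩ := hf
  refine ⟨W, hW, fun l hl => ?_⟩
  have h1 : AS.d f l = AS.d (0 : Co k X) l :=
    d_congr fun l' h2 _ => h l' fun x hx => hl x (h2.subset hx)
  rw [h1, map_zero, Pi.zero_apply]

theorem Van.proj {f : Co k X} {y : X} (n : ℕ) (hf : Van f y) : Van (proj n f) y := by
  obtain ⟨W, hW, h⟩ := hf
  exact ⟨W, hW, fun l hl => by simp [AS.proj, h l hl]⟩

theorem Van.cut {f : Co k X} {y : X} (O : Set X) (hf : Van f y) : Van (cut O f) y := by
  obtain ⟨W, hW, h⟩ := hf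
  exact ⟨W, hW, fun l hl => by simp [AS.cut, h l hl]⟩

theorem van_cut_of_compl {O : Set X} {y : X} (h : Oᶜ ∈ 𝓝 y) (f : Co k X) :
    Van (cut O f) y := by
  refine ⟨Oᶜ, h, fun l hl => ?_⟩
  cases l with
  | nil => exact cut_nil O f
  | cons x l => exact cut_cons_of_notMem f (hl x List.mem_cons_self) l

theorem van_sub_cut {O : Set X} {y : X} (h : O ∈ 𝓝 y) {f : Co k X} (h0 : f [] = 0) :
    Van (f - cut O f) y := by
  refine ⟨O, h, fun l hl => ?_⟩
  cases l with
  | nil => rw [Pi.sub_apply, cut_nil, h0, sub_zero]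
  | cons x l => rw [Pi.sub_apply, cut_cons_of_mem f (hl x List.mem_cons_self), sub_self]

theorem Van.pull {φ : X → Y} {f : Co k Y} {y : X} (hφ : ContinuousAt φ y) (hf : Van f (φ y)) :
    Van (pull φ f) y := by
  obtain ⟨W, hW, h⟩ := hf
  refine ⟨φ ⁻¹' W, hφ hW, fun l hl => h (l.map φ) fun x hx => ?_⟩
  obtain ⟨z, hz, rfl⟩ := List.mem_map.1 hx
  exact hl z hz

theorem isOpen_van (f : Co k X) : IsOpen {y | Van f y} := by
  rw [isOpen_iff_mem_nhds]
  rintro y ⟨W, hW, h⟩
  filter_upwards [eventually_mem_nhds_iff.2 hW] with z hz using ⟨W, hz, h⟩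

theorem Nul.mono {K K' : Set X} (h : K ⊆ K') : Nul k K' ≤ Nul k K :=
  fun _ hf => ⟨hf.1, fun y hy => hf.2 y (h hy)⟩

theorem Nul.union {K K' : Set X} {f : Co k X} (h : f ∈ Nul k K) (h' : f ∈ Nul k K') :
    f ∈ Nul k (K ∪ K') := ⟨h.1, fun y hy => hy.elim (h.2 y) (h'.2 y)⟩

theorem d_mem_Nul {K : Set X} {f : Co k X} (h : f ∈ Nul k K) : d f ∈ Nul k K :=
  ⟨rfl, fun y hy => (h.2 y hy).d⟩

theorem proj_mem_Nul {K : Set X} {f : Co k X} (n : ℕ) (h : f ∈ Nul k K) :
    proj n f ∈ Nul k K := ⟨by simp [proj, h.1], fun y hy => (h.2 y hy).proj n⟩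

theorem cut_mem_Nul {K : Set X} {f : Co k X} (O : Set X) (h : f ∈ Nul k K) :
    cut O f ∈ Nul k K := ⟨cut_nil O f, fun y hy => (h.2 y hy).cut O⟩

theorem pull_mem_Nul {φ : X → Y} {K : Set X} {L : Set Y} (hφ : ∀ y ∈ K, ContinuousAt φ y)
    (hL : ∀ y ∈ K, φ y ∈ L) {f : Co k Y} (h : f ∈ Nul k L) : pull φ f ∈ Nul k K :=
  ⟨h.1, fun y hy => (h.2 _ (hL y hy)).pull (hφ y hy)⟩

/-- Poincare lemma at a point. -/
theorem Van.cone {f : Co k X} {y : X} (h : Van (AS.d f) y) : ∃ g, Van (f - AS.d g) y := by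
  obtain ⟨W, hW, h⟩ := h
  refine ⟨fun l' => f (y :: l'), W, hW, fun l hl => h (y :: l) fun x hx => ?_⟩
  rcases List.mem_cons.1 hx with rfl | hx
  · exact mem_of_mem_nhds hW
  · exact hl x hx

theorem Van.const {a : Co k X} {y : X} (h : Van (AS.d a) y) : ∀ᶠ z in 𝓝 y, a [z] = a [y] := by
  obtain ⟨W, hW, h⟩ := h
  filter_upwards [hW] with z hz
  have h1 := h [y, z] (by simp [hz, mem_of_mem_nhds hW])
  rwa [d_pair, sub_eq_zero] at h1

theorem const_of_preconnected {a : Co k X} {P : Set X} (hP : IsPreconnected P)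
    (h : ∀ y ∈ P, Van (d a) y) {y y' : X} (hy : y ∈ P) (hy' : y' ∈ P) : a [y] = a [y'] :=
  hP.induction₂' (fun x z => a [x] = a [z])
    (fun x hx => ((h x hx).const.filter_mono nhdsWithin_le_nhds).mono fun _ hz => ⟨hz.symm, hz⟩)
    (fun _ _ _ _ _ _ h1 h2 => h1.trans h2) hy hy'

end Vale.Agent.P239.AS
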