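import Vale.Agent.P239.ASA

/-! Basic lemmas on cochains: Mayer-Vietoris and compact supports. -/

namespace Vale.Agent.P239.AS

open Filter Topology

variable {k : Type*} [Field k] {X : Type*} [TopologicalSpace X]

theorem Ex.mono {K K' : Set X} {f : Co k X} (h : Ex K' f) (hK : K ⊆ K') : Ex K f :=
  h.imp fun _ hg => Nul.mono hK hg

theorem Ex.add {K : Set X} {f g : Co k X} (hf : Ex K f) (hg : Ex K g) : Ex K (f + g) := by
  obtain ⟨a, ha⟩ := hf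
  obtain ⟨b, hb⟩ := hg
  exact ⟨a + b, by rw [map_add, add_sub_add_comm]; exact add_mem ha hb⟩

theorem Ex.sub {K : Set X} {f g : Co k X} (hf : Ex K f) (hg : Ex K g) : Ex K (f - g) := by
  obtain ⟨a, ha⟩ := hf
  obtain ⟨b, hb⟩ := hg
  exact ⟨a - b, by rw [map_sub, sub_sub_sub_comm]; exact sub_mem ha hb⟩

theorem Ex.of_nul {K : Set X} {f : Co k X} (h : f ∈ Nul k K) : Ex K f :=
  ⟨0, by simpa using h⟩

theorem ex_d (K : Set X) (g : Co k X) : Ex K (d g) := ⟨g, by simp⟩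

theorem Ex.congr {K : Set X} {f g : Co k X} (hf : Ex K f) (h : f - g ∈ Nul k K) : Ex K g := by
  simpa using hf.sub (Ex.of_nul h)

theorem Ex.graded {K : Set X} {n : ℕ} {f : Co k X} (h : Ex K f) (hf : Deg (n + 1) f) :
    ∃ g, Deg n g ∧ f - d g ∈ Nul k K := by
  obtain ⟨g, hg⟩ := h
  refine ⟨proj n g, deg_proj n g, ?_⟩
  have := proj_mem_Nul (n + 1) hg
  rwa [map_sub, hf.proj_eq, ← d_proj] at this

theorem Ex.graded_zero {K : Set X} {f : Co k X} (h : Ex K f) (hf : Deg 0 f) : f = 0 := by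
  obtain ⟨g, hg⟩ := h
  funext l
  rcases l with _ | ⟨x, l⟩
  · simpa using hg.1
  · exact hf _ (by simp)

theorem Acyc.hk {K : Set X} (h : Acyc k K) (n : ℕ) : HK k n K := fun f _ hf => h f hf

theorem hk_subsingleton {K : Set X} (h : K.Subsingleton) (n : ℕ) : HK k (n + 1) K := by
  intro f hf hd
  rcases h.eq_empty_or_singleton with rfl | ⟨y, rfl⟩
  · exact Ex.of_nul ⟨hf.nil, fun _ h => h.elim⟩
  · obtain ⟨g, hg⟩ := (hd.2 y rfl).cone
    exact ⟨g, hg.nil, fun z hz => hz ▸ hg⟩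

/-- Mayer-Vietoris splitting. -/
theorem split [T2Space X] {A B : Set X} (hA : IsCompact A) (hB : IsCompact B) {f : Co k X}
    (h : f ∈ Nul k (A ∩ B)) : ∃ O : Set X, f - cut O f ∈ Nul k A ∧ cut O f ∈ Nul k B := by
  obtain ⟨O, O', h1, h2, h3, h4, h5⟩ := SeparatedNhds.of_isCompact_isCompact
    (hA.diff (isOpen_van f)) (hB.diff (isOpen_van f))
    (Set.disjoint_left.2 fun y a b => a.2 (h.2 y ⟨a.1, b.1⟩))
  refine ⟨O, ⟨by simpa using h.1, fun y hy => ?_⟩, cut_nil _ _, fun y hy => ?_⟩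
  · by_cases hv : Van f y
    · exact hv.sub (hv.cut O)
    · exact van_sub_cut (h1.mem_nhds (h3 ⟨hy, hv⟩)) h.1
  · by_cases hv : Van f y
    · exact hv.cut O
    · exact van_cut_of_compl (mem_of_superset (h2.mem_nhds (h4 ⟨hy, hv⟩))
        h5.symm.subset_compl_right) f

/-- Gluing of primitives. -/
theorem glue [T2Space X] {A B : Set X} (hA : IsCompact A) (hB : IsCompact B) {f g₁ g₂ : Co k X}
    (h1 : f - d g₁ ∈ Nul k A) (h2 : f - d g₂ ∈ Nul k B) (h : Ex (A ∩ B) (g₁ - g₂)) :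
    Ex (A ∪ B) f := by
  obtain ⟨e, he⟩ := h
  obtain ⟨O, a, b⟩ := split hA hB he
  refine ⟨g₁ - (g₁ - g₂ - d e - cut O (g₁ - g₂ - d e)), Nul.union ?_ ?_⟩
  · have := add_mem h1 (d_mem_Nul a)
    rwa [sub_add, ← map_sub] at this
  · have := sub_mem h2 (d_mem_Nul b)
    generalize cut O (g₁ - g₂ - d e) = c at *
    rwa [show f - d (g₁ - (g₁ - g₂ - d e - c)) = f - d g₂ - d c by
      simp only [map_sub, d_d]; abel]

theorem glue_hk [T2Space X] {A B : Set X} (hA : IsCompact A) (hB : IsCompact B) {n : ℕ}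
    {f : Co k X} (hf : Deg (n + 1) f) (h1 : Ex A f) (h2 : Ex B f) (h : HK k n (A ∩ B)) :
    Ex (A ∪ B) f := by
  obtain ⟨g₁, a1, b1⟩ := h1.graded hf
  obtain ⟨g₂, a2, b2⟩ := h2.graded hf
  refine glue hA hB b1 b2 (h _ (a1.sub a2) ?_)
  have := sub_mem (Nul.mono Set.inter_subset_right b2) (Nul.mono Set.inter_subset_left b1)
  rwa [sub_sub_sub_cancel_left, ← map_sub] at this

theorem Sc.mono {U U' : Set X} (h : U ⊆ U') : Sc k U ≤ Sc k U' :=
  fun _ ⟨K, h1, h2, h3⟩ => ⟨K, h1, h2.trans h, h3⟩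

theorem Sc.inter [T2Space X] {U U' : Set X} {f : Co k X} (h : f ∈ Sc k U) (h' : f ∈ Sc k U') :
    f ∈ Sc k (U ∩ U') := by
  obtain ⟨K, h1, h2, h3⟩ := h
  obtain ⟨K', h1', h2', h3'⟩ := h'
  exact ⟨K ∩ K', h1.inter h1', Set.inter_subset_inter h2 h2', by
    rw [Set.compl_inter]; exact Nul.union h3 h3'⟩

theorem nul_le_Sc (U : Set X) : Nul k (Set.univ : Set X) ≤ Sc k U :=
  fun _ h => ⟨∅, isCompact_empty, Set.empty_subset _, Nul.mono (Set.subset_univ _) h⟩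

theorem Sc_empty : Sc k (∅ : Set X) = Nul k (Set.univ : Set X) := by
  refine le_antisymm (fun f ⟨K, _, h2, h3⟩ => ?_) (nul_le_Sc _)
  rwa [Set.subset_empty_iff.1 h2, Set.compl_empty] at h3

theorem d_mem_Sc {U : Set X} {f : Co k X} (h : f ∈ Sc k U) : d f ∈ Sc k U :=
  h.imp fun _ h => ⟨h.1, h.2.1, d_mem_Nul h.2.2⟩

theorem proj_mem_Sc {U : Set X} {f : Co k X} (n : ℕ) (h : f ∈ Sc k U) :
    proj n f ∈ Sc k U :=
  h.imp fun _ h => ⟨h.1, h.2.1, proj_mem_Nul n h.2.2⟩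

theorem cut_mem_Sc [T2Space X] {U U' O L : Set X} {f : Co k X} (h : f ∈ Sc k U)
    (hL : IsCompact L) (hO : O ⊆ L) (hU : L ⊆ U') : cut O f ∈ Sc k (U ∩ U') := by
  obtain ⟨K, h1, h2, h3⟩ := h
  refine ⟨K ∩ L, h1.inter hL, Set.inter_subset_inter h2 hU, cut_nil _ _, fun y hy => ?_⟩
  by_cases hK : y ∈ K
  · exact van_cut_of_compl (mem_of_superset
      (hL.isClosed.isOpen_compl.mem_nhds fun h => hy ⟨hK, h⟩) (Set.compl_subset_compl.2 hO)) f
  · exact (h3.2 y hK).cut O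

theorem Zc.mono {n : ℕ} {U U' : Set X} {f : Co k X} (h : Zc n U f) (hU : U ⊆ U') :
    Zc n U' f :=
  ⟨h.1, Sc.mono hU h.2.1, h.2.2⟩

theorem Zc.add {n : ℕ} {U : Set X} {f g : Co k X} (hf : Zc n U f) (hg : Zc n U g) :
    Zc n U (f + g) :=
  ⟨hf.1.add hg.1, add_mem hf.2.1 hg.2.1, by rw [map_add]; exact add_mem hf.2.2 hg.2.2⟩

theorem Zc.sub {n : ℕ} {U : Set X} {f g : Co k X} (hf : Zc n U f) (hg : Zc n U g) :
    Zc n U (f - g) :=
  ⟨hf.1.sub hg.1, sub_mem hf.2.1 hg.2.1, by rw [map_sub]; exact sub_mem hf.2.2 hg.2.2⟩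

theorem Exc.mono {U U' : Set X} {f : Co k X} (h : Exc U f) (hU : U ⊆ U') : Exc U' f :=
  h.imp fun _ h => ⟨Sc.mono hU h.1, h.2⟩

theorem Exc.add {U : Set X} {f g : Co k X} (hf : Exc U f) (hg : Exc U g) : Exc U (f + g) := by
  obtain ⟨a, ha, ha'⟩ := hf
  obtain ⟨b, hb, hb'⟩ := hg
  exact ⟨a + b, add_mem ha hb, by rw [map_add, add_sub_add_comm]; exact add_mem ha' hb'⟩

theorem Exc.sub {U : Set X} {f g : Co k X} (hf : Exc U f) (hg : Exc U g) : Exc U (f - g) := by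
  obtain ⟨a, ha, ha'⟩ := hf
  obtain ⟨b, hb, hb'⟩ := hg
  exact ⟨a - b, sub_mem ha hb, by rw [map_sub, sub_sub_sub_comm]; exact sub_mem ha' hb'⟩

theorem Exc.congr {U : Set X} {f g : Co k X} (hf : Exc U f)
    (h : f - g ∈ Nul k (Set.univ : Set X)) : Exc U g := by
  obtain ⟨a, ha, ha'⟩ := hf
  exact ⟨a, ha, by simpa [sub_sub_sub_cancel_left, sub_right_comm f] using sub_mem ha' h⟩

theorem Exc.of_nul {U : Set X} {f : Co k X} (h : f ∈ Nul k (Set.univ : Set X)) : Exc U f :=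
  ⟨0, zero_mem _, by simpa using h⟩

theorem Exc.graded {U : Set X} {n : ℕ} {f : Co k X} (h : Exc U f) (hf : Deg (n + 1) f) :
    ∃ g, Deg n g ∧ g ∈ Sc k U ∧ f - d g ∈ Nul k (Set.univ : Set X) := by
  obtain ⟨g, hg, hg'⟩ := h
  refine ⟨proj n g, deg_proj n g, proj_mem_Sc n hg, ?_⟩
  have := proj_mem_Nul (n + 1) hg'
  rwa [map_sub, hf.proj_eq, ← d_proj] at this

/-- Cutting off a cochain that vanishes near the rim. -/
theorem cut_rim [T2Space X] {V L : Set X} (hV : IsOpen V) (hL : IsCompact L) (hVL : V ⊆ L)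
    {g : Co k X} (h : g ∈ Nul k (L \ V)) : cut L g ∈ Sc k V ∧ g - cut L g ∈ Nul k L ∧
      (d g ∈ Nul k L → d (cut L g) ∈ Nul k (Set.univ : Set X)) := by
  have hc : ∀ y, y ∉ L → Van (cut L g) y := fun y hy =>
    van_cut_of_compl (hL.isClosed.isOpen_compl.mem_nhds hy) g
  have h2 : g - cut L g ∈ Nul k L := by
    refine ⟨by simpa using h.1, fun y hy => ?_⟩
    by_cases hv : y ∈ V
    · exact van_sub_cut (mem_of_superset (hV.mem_nhds hv) hVL) h.1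
    · exact (h.2 y ⟨hy, hv⟩).sub ((h.2 y ⟨hy, hv⟩).cut L)
  refine ⟨⟨L \ {y | Van g y}, hL.diff (isOpen_van g), fun y hy => ?_, cut_nil _ _,
    fun y hy => ?_⟩, h2, fun hd => ⟨d_nil _, fun y _ => ?_⟩⟩
  · by_contra hv
    exact hy.2 (h.2 y ⟨hy.1, hv⟩)
  · by_cases hl : y ∈ L
    · exact Van.cut L (not_not.1 fun hv => hy ⟨hl, hv⟩)
    · exact hc y hl
  · by_cases hl : y ∈ L
    · simpa using (hd.2 y hl).sub (h2.2 y hl).d
    · exact (hc y hl).d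

theorem exc_of_ex [T2Space X] {V L : Set X} (hV : IsOpen V) (hL : IsCompact L) (hVL : V ⊆ L)
    {f g : Co k X} (hf : f ∈ Sc k V) (h1 : f - d g ∈ Nul k L) (h2 : Ex (L \ V) g) :
    Exc V f := by
  obtain ⟨e, he⟩ := h2
  obtain ⟨a, b, -⟩ := cut_rim hV hL hVL he
  obtain ⟨K, -, k2, k3⟩ := hf
  refine ⟨_, a, by simpa using k3.1, fun y _ => ?_⟩
  by_cases hl : y ∈ L
  · have := (h1.2 y hl).add (b.2 y hl).d
    generalize cut L (g - d e) = c at *
    simpa using this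
  · exact (k3.2 y fun h => hl (hVL (k2 h))).sub
      (van_cut_of_compl (hL.isClosed.isOpen_compl.mem_nhds hl) _).d

theorem ex_of_exc [T2Space X] {V L : Set X} (hL : Acyc k L) {f g : Co k X} (h0 : Exc V f)
    (h1 : f - d g ∈ Nul k L) : Ex (L \ V) g := by
  obtain ⟨g₀, ⟨K, -, k2, k3⟩, h2⟩ := h0
  have := sub_mem (Nul.mono (Set.subset_univ L) h2) h1
  rw [sub_sub_sub_cancel_left, ← map_sub] at this
  simpa using ((hL _ this).mono Set.diff_subset).add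
    (Ex.of_nul (Nul.mono (fun y (hy : y ∈ L \ V) h => hy.2 (k2 h)) k3))

section
variable {I : Type*} [Fintype I] [DecidableEq I] {Q : Type*} [AddCommGroup Q]

theorem bd_add (a b : Finset I → Q) : bd (a + b) = bd a + bd b := by
  funext τ; simp [bd, Finset.sum_add_distrib]

@[simp] theorem bd_zero : bd (0 : Finset I → Q) = 0 := by
  funext τ; simp [bd]

theorem bd_bd [Module (ZMod 2) Q] (a : Finset I → Q) : bd (bd a) = 0 := by
  funext τ
  have t : ∀ x : Q, x + x = 0 := fun x => by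
    rw [← two_smul (ZMod 2), show (2 : ZMod 2) = 0 from rfl, zero_smul]
  simp only [bd, Finset.compl_insert, ← Finset.filter_ne', Finset.sum_filter, Pi.zero_apply]
  rw [← Finset.sum_product']
  refine Finset.sum_involution (fun p _ => p.swap) (fun p _ => ?_) (fun p _ h e => h ?_)
    (fun p h => by simpa [and_comm] using h) fun p _ => rfl
  · simp only [Prod.fst_swap, Prod.snd_swap, ne_comm (a := p.1), Finset.insert_comm p.1, t]
  · exact if_neg (not_not.2 (congrArg Prod.fst e))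

theorem bd_map {Q' : Type*} [AddCommGroup Q'] (φ : Q →+ Q') (a : Finset I → Q) :
    bd (fun σ => φ (a σ)) = fun τ => φ (bd a τ) := by
  funext τ; simp [bd]

theorem two_self [Module (ZMod 2) Q] (x : Q) : x + x = 0 := by
  rw [← two_smul (ZMod 2), show (2 : ZMod 2) = 0 from rfl, zero_smul]

end

theorem exists_isD : ∃ δ : QQ X →ₗ[ZMod 2] QQ X, IsD δ :=
  ⟨Submodule.mapQ _ _ d fun _ h => d_mem_Nul h, fun _ => rfl⟩

theorem SQ.mono (n : ℕ) {U U' : Set X} (h : U ⊆ U') : SQ n U ≤ SQ n U' :=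
  fun _ ⟨f, h1, h2, h3⟩ => ⟨f, h1, Sc.mono h h2, h3⟩

theorem SQ_empty {n : ℕ} {x : QQ X} (h : x ∈ SQ n (∅ : Set X)) : x = 0 := by
  obtain ⟨f, -, h2, rfl⟩ := h
  exact (Submodule.Quotient.mk_eq_zero _).2 (Sc_empty (k := ZMod 2) (X := X) ▸ h2)

theorem IsD.mem {δ : QQ X →ₗ[ZMod 2] QQ X} (hδ : IsD δ) {n : ℕ} {U : Set X} {x : QQ X}
    (h : x ∈ SQ n U) : δ x ∈ SQ (n + 1) U := by
  obtain ⟨f, h1, h2, rfl⟩ := h
  exact ⟨d f, h1.d, d_mem_Sc h2, (hδ f).symm⟩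

theorem IsD.dd {δ : QQ X →ₗ[ZMod 2] QQ X} (hδ : IsD δ) (x : QQ X) : δ (δ x) = 0 := by
  obtain ⟨f, rfl⟩ := Submodule.Quotient.mk_surjective _ x
  rw [hδ, hδ, d_d, Submodule.Quotient.mk_zero]

theorem IsD.zc {δ : QQ X →ₗ[ZMod 2] QQ X} (hδ : IsD δ) {n : ℕ} {U : Set X} {x : QQ X}
    (h : x ∈ SQ n U) (h0 : δ x = 0) : ∃ f, Zc n U f ∧ Submodule.Quotient.mk f = x := by
  obtain ⟨f, h1, h2, rfl⟩ := h
  exact ⟨f, ⟨h1, h2, (Submodule.Quotient.mk_eq_zero _).1 ((hδ f).symm.trans h0)⟩, rfl⟩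

theorem IsD.exc {δ : QQ X →ₗ[ZMod 2] QQ X} (hδ : IsD δ) {n : ℕ} {U : Set X}
    {f : Co (ZMod 2) X} (hf : Deg (n + 1) f) :
    Exc U f ↔ ∃ y ∈ SQ n U, δ y = Submodule.Quotient.mk f := by
  constructor
  · intro h
    obtain ⟨g, h1, h2, h3⟩ := h.graded hf
    exact ⟨_, ⟨g, h1, h2, rfl⟩, (hδ g).trans ((Submodule.Quotient.eq _).2 h3).symm⟩
  · rintro ⟨_, ⟨g, -, h2, rfl⟩, h⟩
    exact ⟨g, h2, (Submodule.Quotient.eq _).1 (h.symm.trans (hδ g))⟩

end Vale.Agent.P239.AS
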