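import Mathlib

/-! Combinatorial core: Cayley graph, cuts, defects, interface statements. -/

namespace Vale.Agent.P239

open scoped Pointwise symmDiff

variable {Γ : Type*} [Group Γ]

/-- `y` is at word distance at most `n` from `x`. -/
def Near (S : Finset Γ) (n : ℕ) (x y : Γ) : Prop := x⁻¹ * y ∈ (S : Set Γ) ^ n

/-- Finite symmetric generating set containing `1`. -/
structure Gen (S : Finset Γ) : Prop where
  one : (1 : Γ) ∈ S
  inv : ∀ s ∈ S, s⁻¹ ∈ S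
  gen : ∀ g : Γ, ∃ n : ℕ, g ∈ (S : Set Γ) ^ n

/-- Edge coboundary of a vertex set; the edge with data `x, s` goes from `x` (its tail) to `x * s`. -/
def cob (S : Finset Γ) (A : Set Γ) : Set (Γ × S) := {e | ¬ (e.1 ∈ A ↔ e.1 * e.2 ∈ A)}

/-- Defect of an edge set: points near which it is not a coboundary. -/
def Def (S : Finset Γ) (r : ℕ) (W : Set (Γ × S)) : Set Γ :=
  {x | ¬ ∃ A : Set Γ, ∀ e : Γ × S, Near S r x e.1 → (e ∈ W ↔ e ∈ cob S A)}

/-- Connected vertex set (in the Cayley graph). -/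
def Conn (S : Finset Γ) (Ω : Set Γ) : Prop :=
  ∀ A : Set Γ, (∀ e : Γ × S, e.1 ∈ Ω → e.1 * e.2 ∈ Ω → e ∉ cob S A) →
    ∀ x ∈ Ω, ∀ y ∈ Ω, (x ∈ A ↔ y ∈ A)

/-- Coarsely connected vertex set (steps of length at most `w`). -/
def CConn (S : Finset Γ) (w : ℕ) (T : Set Γ) : Prop :=
  ∀ A : Set Γ, (∀ x ∈ T, ∀ y ∈ T, Near S w x y → (x ∈ A ↔ y ∈ A)) →
    ∀ x ∈ T, ∀ y ∈ T, (x ∈ A ↔ y ∈ A)

/-- Left translate of a vertex set. -/
def tr (g : Γ) (A : Set Γ) : Set Γ := {x | g⁻¹ * x ∈ A}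

/-- Left translate of an edge set. -/
def trE {S : Finset Γ} (g : Γ) (W : Set (Γ × S)) : Set (Γ × S) := {e | (g⁻¹ * e.1, e.2) ∈ W}

/-- One of the four corners is empty. -/
def Nested (X Y : Set Γ) : Prop :=
  X ∩ Y = ∅ ∨ X ∩ Yᶜ = ∅ ∨ Xᶜ ∩ Y = ∅ ∨ Xᶜ ∩ Yᶜ = ∅

/-- Finite Dirichlet energy. -/
def FinEn (S : Finset Γ) (u : Γ → ℝ) : Prop :=
  ∀ s ∈ S, Summable fun x => (u (x * s) - u x) ^ 2

/-- `u` is an energy limit of finitely supported functions. -/
def Approx (S : Finset Γ) (u : Γ → ℝ) : Prop :=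
  ∀ ε : ℝ, 0 < ε → ∃ f : Γ → ℝ, (Function.support f).Finite ∧
    ∀ s ∈ S, ∑' x, ((u (x * s) - f (x * s)) - (u x - f x)) ^ 2 < ε

/-- The four geometric axioms extracted from Poincare duality and the filling inequality. -/
structure Iface (S : Finset Γ) (r : ℕ) : Prop where
  r_pos : 1 ≤ r
  ha : ∀ W : Set (Γ × S), Def S r W = ∅ → ∃ A, W = cob S A
  hb : ∀ A : Set Γ, (cob S A).Finite → A.Finite ∨ Aᶜ.Finite
  hc1 : ∃ C q : ℝ, 0 < C ∧ 0 < q ∧ q < 4 ∧ ∀ (j : ℕ) (W : Set (Γ × S)), (Def S r W).Finite →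
    (Def S r W).ncard ≤ 2 ^ j → ∃ (β : Set (Γ × S)) (A : Set Γ), β.Finite ∧
      (β.ncard : ℝ) ≤ C * q ^ j ∧ W ∆ β = cob S A
  hc2 : ∃ w : ℕ, ∀ k : ℕ, ∃ M : ℕ, ∀ W : Set (Γ × S), (Def S r W).Finite →
    (∀ x ∈ Def S r W, ∃ T : Set Γ, T.Finite ∧ T.ncard ≤ k ∧ x ∈ T ∧
      ∀ y ∈ T, ∀ z ∈ Def S r W, Near S w y z → z ∈ T) →
    ∃ (β : Set (Γ × S)) (A : Set Γ), β.Finite ∧
      (∀ e ∈ β, ∃ x ∈ Def S r W, Near S M x e.1) ∧ W ∆ β = cob S A

/-- Folner condition. -/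
def Folner (S : Finset Γ) : Prop :=
  ∀ ε : ℝ, 0 < ε → ∃ F : Finset Γ, F.Nonempty ∧
    (({x | x ∈ F ∧ ∃ s ∈ S, x * s ∉ F} : Set Γ).ncard : ℝ) ≤ ε * F.card

/-- Spectral gap of the averaging operator. -/
def GapProp (S : Finset Γ) : Prop :=
  ∃ θ : ℝ, 0 ≤ θ ∧ θ < 1 ∧ ∀ f : Γ → ℝ, (Summable fun x => f x ^ 2) →
    ∑' x, ((∑ s ∈ S, f (x * s)) / (S.card : ℝ)) ^ 2 ≤ θ * ∑' x, f x ^ 2

/-- A self dual monotone vote on subsets modulo finite sets, local for finite energy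
functions. -/
def VoteProp (S : Finset Γ) : Prop :=
  ∃ V : Set (Set Γ), (∀ D ∈ V, ∀ D' : Set Γ, (D \ D').Finite → D' ∈ V) ∧
    (∀ D : Set Γ, Dᶜ ∈ V ↔ D ∉ V) ∧
    ∀ u : Γ → ℝ, FinEn S u → ∀ lam : ℝ, 0 < lam → ∀ B : Set Γ, B.Finite →
      ∃ K : Set Γ, K.Finite ∧ ∀ x, x ∉ K → ∀ (a : ℝ) (Ω : Set Γ), x ∈ Ω → a + lam ≤ u x →
        (∀ y ∈ Ω, ∀ s ∈ S, y * s ∉ B → a < u (y * s) → y * s ∈ Ω) → {y | x * y ∈ Ω} ∈ V

/-- A wall lying high cannot split a far connected valley into two infinite parts. -/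
def TDProp (S : Finset Γ) : Prop :=
  ∀ u : Γ → ℝ, FinEn S u → ∀ lam : ℝ, 0 < lam → ∃ B : Set Γ, B.Finite ∧
    ∀ (a : ℝ) (W β : Set (Γ × S)) (C Ω : Set Γ), β.Finite → W ∆ β = cob S C → Conn S Ω →
      (∀ x ∈ Ω, x ∉ B ∧ u x ≤ a) → (∀ e ∈ W, a + lam ≤ u e.1) →
      (Ω ∩ C).Finite ∨ (Ω \ C).Finite

/-- Square summable oscillation bound. -/
def OscProp (S : Finset Γ) : Prop :=
  ∀ u : Γ → ℝ, FinEn S u → ∀ n : ℕ, ∃ ω : Γ → ℝ, (∀ x, 0 ≤ ω x) ∧
    (Summable fun x => ω x ^ 2) ∧ ∀ x y, Near S n x y → |u y - u x| ≤ ω x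

/-- Good level: all translates of `u` oscillate little on far coarse pieces of the wall. -/
def Good (S : Finset Γ) (w : ℕ) (u : Γ → ℝ) (t : ℝ) : Prop :=
  ∀ (g : Γ) (η : ℝ), 0 < η → ∃ K : Set Γ, K.Finite ∧ ∀ T : Set Γ,
    (∀ x ∈ T, x ∉ K ∧ ∃ s : S, (x, s) ∈ cob S {y | t < u y}) → CConn S w T →
      ∀ x ∈ T, ∀ y ∈ T, |u (g * x) - u (g * y)| ≤ η

def GoodProp (S : Finset Γ) : Prop :=
  ∀ (w : ℕ) (u : Γ → ℝ), FinEn S u → ∀ (E : Set ℝ), E.Countable → ∀ a b : ℝ, a < b →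
    ∃ t ∈ Set.Ioo a b, t ∉ E ∧ Good S w u t

/-- Existence of an essential coarse component of a wall. -/
def EssProp (S : Finset Γ) (r : ℕ) : Prop :=
  ∀ (A Op Om K : Set Γ), Op.Infinite → Om.Infinite → Conn S Op → Conn S Om → Op ⊆ A →
    (∀ x ∈ Om, x ∉ A) → K.Finite →
    (∀ (W β : Set (Γ × S)) (C : Set Γ), (∀ e ∈ W, e ∈ cob S A ∧ e.1 ∉ K) → β.Finite →
      W ∆ β = cob S C → ((Op ∩ C).Finite ∨ (Op \ C).Finite) ∧
        ((Om ∩ C).Finite ∨ (Om \ C).Finite)) →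
    ∃ (T C : Set Γ) (β : Set (Γ × S)),
      (∀ x ∈ T, x ∉ K ∧ ∃ s : S, (x, s) ∈ cob S A) ∧ CConn S (2 * r) T ∧ β.Finite ∧
      {e | e ∈ cob S A ∧ e.1 ∈ T} ∆ β = cob S C ∧ (Op \ C).Finite ∧ (Om ∩ C).Finite

/-- A doubly indexed system of cuts. -/
structure CutSys (S : Finset Γ) (B : ℕ × ℕ → Set Γ) (Op Om : Set Γ) : Prop where
  nest : ∀ n m, n ≠ m → ∀ g, Nested (tr g (B n)) (B m)
  fin : ∀ n m, n ≠ m → (cob S (B n) ∩ cob S (B m)).Finite
  fin2 : ∀ i i', i ≠ i' → ∃ K : Set (Γ × S), K.Finite ∧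
    ∀ l l', cob S (B (i, l)) ∩ cob S (B (i', l')) ⊆ K
  inf_p : Op.Infinite
  inf_m : Om.Infinite
  conn_p : Conn S Op
  conn_m : Conn S Om
  sub_p : ∀ n, Op ⊆ B n
  dis_m : ∀ n, ∀ x ∈ Om, x ∉ B n
  far : ∀ M : ℕ, ∃ K : Set Γ, K.Finite ∧ ∀ n, ∀ e ∈ cob S (B n), e.1 ∉ K →
    ∀ y ∈ Op ∪ Om, ¬ Near S M e.1 y

/-- A closed invariant nested family with an infinite localized chain. -/
structure NFam (S : Finset Γ) (N : Set (Set Γ)) (A : ℕ → Set Γ) (Op Om : Set Γ) : Prop where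
  tr_mem : ∀ X ∈ N, ∀ g, tr g X ∈ N
  compl_mem : ∀ X ∈ N, Xᶜ ∈ N
  nest : ∀ X ∈ N, ∀ Y ∈ N, Nested X Y
  closed : ∀ X : Set Γ, (∀ K : Finset Γ, ∃ Y ∈ N, ∀ x ∈ K, (x ∈ X ↔ x ∈ Y)) → X ∈ N
  star : ∀ X ∈ N, ∀ Y ∈ N, ∀ Z ∈ N, X ⊂ Y → Y ⊂ Z → (cob S X ∩ cob S Z).Finite
  A_mem : ∀ i, A i ∈ N
  A_inj : Function.Injective A
  inf_p : Op.Infinite
  inf_m : Om.Infinite
  conn_p : Conn S Op
  conn_m : Conn S Om
  sub_p : ∀ i, Op ⊆ A i
  dis_m : ∀ i, ∀ x ∈ Om, x ∉ A i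
  far : ∀ M : ℕ, ∃ K : Set Γ, K.Finite ∧ ∀ i, ∀ e ∈ cob S (A i), e.1 ∉ K →
    ∀ y ∈ Op ∪ Om, ¬ Near S M e.1 y

/-- Bounded synchronous combing of linear length with respect to `S`. -/
def Comb (S : Finset Γ) : Prop :=
  ∃ (σ : Γ → ℕ → Γ) (D L : ℕ), (∀ g, σ g 0 = 1) ∧ (∀ g t, Near S D (σ g t) (σ g (t + 1))) ∧
    (∀ g t, ∀ s ∈ S, Near S D (σ g t) (σ (g * s) t)) ∧
    ∀ (n : ℕ) (g : Γ), g ∈ (S : Set Γ) ^ n → ∀ t, L * (n + 1) ≤ t → σ g t = g

/-! ### Basic lemmas -/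

variable {S : Finset Γ}

theorem Gen.pow_mono (hS : Gen S) {m n : ℕ} (h : m ≤ n) : (S : Set Γ) ^ m ⊆ (S : Set Γ) ^ n :=
  Set.pow_subset_pow_right (by exact_mod_cast hS.one) h

theorem Gen.inv_mem_pow (hS : Gen S) {n : ℕ} {g : Γ} (h : g ∈ (S : Set Γ) ^ n) :
    g⁻¹ ∈ (S : Set Γ) ^ n := by
  have : (S : Set Γ)⁻¹ = S := by
    ext x
    simp only [Set.mem_inv, Finset.mem_coe]
    exact ⟨fun hx => by simpa using hS.inv _ hx, fun hx => hS.inv _ hx⟩
  rw [← this, inv_pow]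
  simpa using h

theorem Near.mono (hS : Gen S) {m n : ℕ} {x y : Γ} (h : Near S m x y) (hmn : m ≤ n) :
    Near S n x y := hS.pow_mono hmn h

theorem Near.refl (hS : Gen S) (n : ℕ) (x : Γ) : Near S n x x := by
  unfold Near
  rw [inv_mul_cancel]
  exact hS.pow_mono (Nat.zero_le n) (by simp)

theorem Near.symm (hS : Gen S) {n : ℕ} {x y : Γ} (h : Near S n x y) : Near S n y x := by
  have := hS.inv_mem_pow h
  unfold Near
  simpa using this

theorem Near.trans {m n : ℕ} {x y z : Γ} (h : Near S m x y) (h' : Near S n y z) :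
    Near S (m + n) x z := by
  unfold Near at *
  rw [pow_add]
  exact ⟨_, h, _, h', by simp [mul_assoc]⟩

theorem near_step (x : Γ) {s : Γ} (hs : s ∈ S) : Near S 1 x (x * s) := by
  unfold Near
  simpa using hs

theorem near_edge (e : Γ × S) : Near S 1 e.1 (e.1 * e.2) := near_step _ e.2.2

theorem near_zero {x y : Γ} : Near S 0 x y ↔ x = y := by
  unfold Near
  simp [inv_mul_eq_one]

theorem near_succ {n : ℕ} {x y : Γ} :
    Near S (n + 1) x y ↔ ∃ z, ∃ s ∈ S, Near S n x z ∧ y = z * s := by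
  unfold Near
  rw [pow_succ]
  constructor
  · rintro ⟨a, ha, s, hs, h⟩
    refine ⟨x * a, s, hs, by simpa using ha, ?_⟩
    have h' : a * s = x⁻¹ * y := h
    rw [mul_assoc, h']; simp
  · rintro ⟨z, s, hs, hz, rfl⟩
    exact ⟨_, hz, s, hs, by simp [mul_assoc]⟩

@[simp] theorem near_mul_left {n : ℕ} (g x y : Γ) : Near S n (g * x) (g * y) ↔ Near S n x y := by
  unfold Near
  simp [mul_assoc]

theorem near_one_iff {n : ℕ} {y : Γ} : Near S n 1 y ↔ y ∈ (S : Set Γ) ^ n := by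
  unfold Near; simp

theorem Gen.exists_near (hS : Gen S) (x y : Γ) : ∃ n, Near S n x y := hS.gen _

theorem pow_finite (S : Finset Γ) (n : ℕ) : ((S : Set Γ) ^ n).Finite := by
  induction n with
  | zero => simp
  | succ n ih => rw [pow_succ]; exact ih.mul S.finite_toSet

theorem ball_eq (n : ℕ) (x : Γ) : {y | Near S n x y} = (fun a => x * a) '' (S : Set Γ) ^ n := by
  ext y
  simp only [Set.mem_ofPred_eq, Set.mem_image, Near]
  exact ⟨fun h => ⟨_, h, by simp⟩, by rintro ⟨a, ha, rfl⟩; simpa using ha⟩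

theorem ball_finite (n : ℕ) (x : Γ) : {y | Near S n x y}.Finite := by
  rw [ball_eq]; exact (pow_finite S n).image _

theorem ball_ncard (n : ℕ) (x : Γ) : {y | Near S n x y}.ncard = ((S : Set Γ) ^ n).ncard := by
  rw [ball_eq, Set.ncard_image_of_injective _ (mul_right_injective x)]

/-- The `n`-neighbourhood of a finite set is finite. -/
theorem nbhd_finite (n : ℕ) {K : Set Γ} (hK : K.Finite) :
    {y | ∃ x ∈ K, Near S n x y}.Finite := by
  have := hK.biUnion (fun x _ => ball_finite (S := S) n x)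
  refine this.subset ?_
  rintro y ⟨x, hx, h⟩
  simp only [Set.mem_iUnion]
  exact ⟨x, hx, h⟩

theorem nbhd_finite' (hS : Gen S) (n : ℕ) {K : Set Γ} (hK : K.Finite) :
    {y | ∃ x ∈ K, Near S n y x}.Finite :=
  (nbhd_finite (S := S) n hK).subset fun _ ⟨x, hx, h⟩ => ⟨x, hx, h.symm hS⟩

theorem nbhd_ncard (n : ℕ) {K : Set Γ} (hK : K.Finite) :
    {y | ∃ x ∈ K, Near S n x y}.ncard ≤ K.ncard * ((S : Set Γ) ^ n).ncard := by
  have h1 : {y | ∃ x ∈ K, Near S n x y} =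
      (fun p : Γ × Γ => p.1 * p.2) '' (K ×ˢ ((S : Set Γ) ^ n)) := by
    ext y
    simp only [Set.mem_ofPred_eq, Set.mem_image, Set.mem_prod, Near]
    constructor
    · rintro ⟨x, hx, h⟩
      exact ⟨(x, x⁻¹ * y), ⟨hx, h⟩, by simp⟩
    · rintro ⟨⟨x, a⟩, ⟨hx, ha⟩, rfl⟩
      exact ⟨x, hx, by simpa using ha⟩
  rw [h1, ← Set.ncard_prod]
  exact Set.ncard_image_le (hK.prod (pow_finite S n))

/-- Every finite set lies in a ball around any point. -/
theorem Gen.finite_sub_ball (hS : Gen S) {K : Set Γ} (hK : K.Finite) (x : Γ) :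
    ∃ n, ∀ y ∈ K, Near S n x y := by
  induction K, hK using Set.Finite.induction_on with
  | empty => exact ⟨0, by simp⟩
  | @insert a K _ _ ih =>
    obtain ⟨n, hn⟩ := ih
    obtain ⟨m, hm⟩ := hS.exists_near x a
    refine ⟨max m n, ?_⟩
    rintro y (rfl | hy)
    · exact hm.mono hS (le_max_left _ _)
    · exact (hn y hy).mono hS (le_max_right _ _)

theorem Gen.countable (hS : Gen S) : Countable Γ := by
  have : (Set.univ : Set Γ) = ⋃ n : ℕ, (S : Set Γ) ^ n := by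
    ext g; simpa using hS.gen g
  rw [← Set.countable_univ_iff, this]
  exact Set.countable_iUnion fun n => (pow_finite S n).countable

omit [Group Γ] in
/-- Edges with tail in a finite set form a finite set. -/
theorem edges_finite {K : Set Γ} (hK : K.Finite) : {e : Γ × S | e.1 ∈ K}.Finite := by
  have : {e : Γ × S | e.1 ∈ K} = K ×ˢ (Set.univ : Set S) := by ext e; simp
  rw [this]; exact hK.prod Set.finite_univ

omit [Group Γ] in
theorem tails_finite {W : Set (Γ × S)} (hW : W.Finite) : {x | ∃ s : S, (x, s) ∈ W}.Finite :=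
  (hW.image Prod.fst).subset fun x ⟨s, h⟩ => ⟨(x, s), h, rfl⟩

@[simp] theorem mem_cob {A : Set Γ} {e : Γ × S} :
    e ∈ cob S A ↔ ¬ (e.1 ∈ A ↔ e.1 * e.2 ∈ A) := Iff.rfl

theorem cob_symmDiff (A B : Set Γ) : cob S (A ∆ B) = cob S A ∆ cob S B := by
  ext e; simp only [mem_cob, Set.mem_symmDiff]; tauto

@[simp] theorem cob_compl (A : Set Γ) : cob S Aᶜ = cob S A := by
  ext e; simp only [mem_cob, Set.mem_compl_iff]; tauto

@[simp] theorem cob_empty : cob S (∅ : Set Γ) = ∅ := by ext e; simp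

theorem cob_finite_of_finite (hS : Gen S) {A : Set Γ} (hA : A.Finite) : (cob S A).Finite := by
  refine (edges_finite (nbhd_finite' hS 1 hA)).subset fun e he => ?_
  by_cases h : e.1 ∈ A
  · exact ⟨e.1, h, Near.refl hS _ _⟩
  · exact ⟨e.1 * e.2, by simpa [h] using he, near_edge e⟩

@[simp] theorem mem_tr {g x : Γ} {A : Set Γ} : x ∈ tr g A ↔ g⁻¹ * x ∈ A := Iff.rfl

@[simp] theorem mem_trE {g : Γ} {e : Γ × S} {W : Set (Γ × S)} :
    e ∈ trE g W ↔ (g⁻¹ * e.1, e.2) ∈ W := Iff.rfl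

theorem cob_tr (g : Γ) (A : Set Γ) : cob S (tr g A) = trE g (cob S A) := by
  ext e; simp [mul_assoc]

theorem trE_eq_image (g : Γ) (W : Set (Γ × S)) :
    trE g W = (fun e : Γ × S => (g * e.1, e.2)) '' W := by
  ext e
  simp only [mem_trE, Set.mem_image]
  constructor
  · intro h; exact ⟨_, h, by simp⟩
  · rintro ⟨e', h, rfl⟩; simpa using h

theorem trE_finite (g : Γ) {W : Set (Γ × S)} (h : W.Finite) : (trE g W).Finite := by
  rw [trE_eq_image]; exact h.image _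

theorem trE_ncard (g : Γ) (W : Set (Γ × S)) : (trE g W).ncard = W.ncard := by
  rw [trE_eq_image]
  refine Set.ncard_image_of_injective _ fun e e' h => ?_
  simp only [Prod.mk.injEq, mul_right_inj] at h
  exact Prod.ext h.1 h.2

theorem tr_finite (g : Γ) {A : Set Γ} (h : A.Finite) : (tr g A).Finite :=
  h.preimage (f := fun x => g⁻¹ * x) (mul_right_injective _).injOn

/-- A point of the defect is near an edge of `W`. -/
theorem Def.exists_edge {r : ℕ} {W : Set (Γ × S)} {x : Γ} (h : x ∈ Def S r W) :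
    ∃ e ∈ W, Near S r x e.1 := by
  by_contra hc
  push Not at hc
  exact h ⟨∅, fun e he => by simpa using fun hW => hc e hW he⟩

theorem Def.finite (hS : Gen S) {r : ℕ} {W : Set (Γ × S)} (hW : W.Finite) :
    (Def S r W).Finite := by
  refine (nbhd_finite' hS r (tails_finite hW)).subset fun x hx => ?_
  obtain ⟨e, he, h⟩ := Def.exists_edge hx
  exact ⟨e.1, ⟨e.2, he⟩, h⟩

theorem Def.congr {r : ℕ} {W W' : Set (Γ × S)} {x : Γ}
    (h : ∀ e : Γ × S, Near S r x e.1 → (e ∈ W ↔ e ∈ W')) : x ∈ Def S r W ↔ x ∈ Def S r W' := by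
  unfold Def
  simp only [Set.mem_ofPred_eq, not_iff_not]
  exact ⟨fun ⟨A, hA⟩ => ⟨A, fun e he => (h e he).symm.trans (hA e he)⟩,
    fun ⟨A, hA⟩ => ⟨A, fun e he => (h e he).trans (hA e he)⟩⟩

theorem Def.of_symmDiff {r : ℕ} {W β : Set (Γ × S)} {C : Set Γ} (h : W ∆ β = cob S C) :
    Def S r β = Def S r W := by
  have key : ∀ e, e ∈ W ∆ β ↔ e ∈ cob S C := fun e => by rw [h]
  ext x
  unfold Def
  simp only [Set.mem_ofPred_eq, not_iff_not]
  constructor
  · rintro ⟨A, hA⟩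
    refine ⟨A ∆ C, fun e he => ?_⟩
    have h1 := hA e he
    have h2 := key e
    rw [cob_symmDiff]
    simp only [Set.mem_symmDiff] at *
    tauto
  · rintro ⟨A, hA⟩
    refine ⟨A ∆ C, fun e he => ?_⟩
    have h1 := hA e he
    have h2 := key e
    rw [cob_symmDiff]
    simp only [Set.mem_symmDiff] at *
    tauto

theorem not_mem_Def_cob {r : ℕ} (A : Set Γ) (x : Γ) : x ∉ Def S r (cob S A) :=
  fun h => h ⟨A, fun _ _ => Iff.rfl⟩

/-- A set without coboundary edges with tail in a ball is constant on the ball. -/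
theorem ball_const (hS : Gen S) {A : Set Γ} {x : Γ} {n : ℕ}
    (h : ∀ e : Γ × S, Near S n x e.1 → e ∉ cob S A) {y : Γ} (hy : Near S n x y) :
    x ∈ A ↔ y ∈ A := by
  have : ∀ m ≤ n, ∀ y, Near S m x y → (x ∈ A ↔ y ∈ A) := by
    intro m
    induction m with
    | zero => intro _ y hy; rw [near_zero.1 hy]
    | succ m ih =>
      intro hm y hy
      obtain ⟨z, s, hs, hz, rfl⟩ := near_succ.1 hy
      have h1 := h (z, ⟨s, hs⟩) (hz.mono hS (by omega))
      have h2 := ih (by omega) z hz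
      simp only [mem_cob, not_not] at h1
      exact h2.trans h1
  exact this n le_rfl y hy

/-- Gap lemma: a finite set with at most `k` points has an empty annulus around any point. -/
theorem gap_lemma (hS : Gen S) {T : Set Γ} (hT : T.Finite) {k : ℕ} (hk : T.ncard ≤ k) (w : ℕ)
    (x : Γ) : ∃ i ≤ k, ∀ y ∈ T, Near S ((i + 1) * w) x y → Near S (i * w) x y := by
  by_contra hc
  push Not at hc
  have h1 : ∀ i ≤ k + 1, i ≤ {y | y ∈ T ∧ Near S (i * w) x y}.ncard := by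
    intro i
    induction i with
    | zero => intro _; exact Nat.zero_le _
    | succ i ih =>
      intro hi
      obtain ⟨y, hy, h2, h3⟩ := hc i (by omega)
      have h4 : {y | y ∈ T ∧ Near S (i * w) x y} ⊂ {y | y ∈ T ∧ Near S ((i + 1) * w) x y} := by
        refine ⟨fun z hz => ⟨hz.1, hz.2.mono hS (by nlinarith)⟩, fun h => h3 (h ⟨hy, h2⟩).2⟩
      have := Set.ncard_lt_ncard h4 (hT.subset fun z hz => hz.1)
      have := ih (by omega)
      omega
  have h2 := h1 (k + 1) le_rfl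
  have h3 : {y | y ∈ T ∧ Near S ((k + 1) * w) x y}.ncard ≤ T.ncard :=
    Set.ncard_le_ncard (fun z hz => hz.1) hT
  omega

/-- The component of `x` inside `U`. -/
def comp (S : Finset Γ) (U : Set Γ) (x : Γ) : Set Γ :=
  {y | Relation.ReflTransGen (fun a b => b ∈ U ∧ ∃ s ∈ S, b = a * s) x y}

theorem mem_comp_self (U : Set Γ) (x : Γ) : x ∈ comp S U x := Relation.ReflTransGen.refl

theorem comp_step {U : Set Γ} {x y s : Γ} (hy : y ∈ comp S U x) (hs : s ∈ S) (h : y * s ∈ U) :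
    y * s ∈ comp S U x := Relation.ReflTransGen.tail hy ⟨h, s, hs, rfl⟩

theorem comp_subset {U : Set Γ} {x : Γ} (hx : x ∈ U) : comp S U x ⊆ U := by
  intro y hy
  induction hy with
  | refl => exact hx
  | tail _ h _ => exact h.1

theorem comp_conn (U : Set Γ) (x : Γ) : Conn S (comp S U x) := by
  intro A hA
  have : ∀ y ∈ comp S U x, (x ∈ A ↔ y ∈ A) := by
    intro y hy
    induction hy with
    | refl => rfl
    | @tail b c hb h ih =>
      obtain ⟨hc, s, hs, rfl⟩ := h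
      have := hA (b, ⟨s, hs⟩) hb (comp_step hb hs hc)
      simp only [mem_cob, not_not] at this
      exact ih.trans this
  intro y hy z hz
  exact (this y hy).symm.trans (this z hz)

/-- The thickening of a coarsely connected set is connected. -/
theorem CConn.thick (hS : Gen S) {w n : ℕ} {T : Set Γ} (hT : CConn S w T) (hn : w ≤ n) :
    Conn S {y | ∃ x ∈ T, Near S n x y} := by
  intro A hA
  have h1 : ∀ x ∈ T, ∀ y, Near S n x y → (x ∈ A ↔ y ∈ A) := by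
    intro x hx
    have : ∀ m ≤ n, ∀ y, Near S m x y → (x ∈ A ↔ y ∈ A) := by
      intro m
      induction m with
      | zero => intro _ y hy; rw [near_zero.1 hy]
      | succ m ih =>
        intro hm y hy
        obtain ⟨z, s, hs, hz, rfl⟩ := near_succ.1 hy
        have h1 := hA (z, ⟨s, hs⟩) ⟨x, hx, hz.mono hS (by omega)⟩ ⟨x, hx, hy.mono hS hm⟩
        simp only [mem_cob, not_not] at h1
        exact (ih (by omega) z hz).trans h1
    exact this n le_rfl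
  have h2 := hT A fun x hx y _ h => h1 x hx y (h.mono hS hn)
  rintro y ⟨x, hx, hxy⟩ z ⟨x', hx', hxz⟩
  exact ((h1 x hx y hxy).symm.trans (h2 x hx x' hx')).trans (h1 x' hx' z hxz)

theorem FinEn.neg {u : Γ → ℝ} (h : FinEn S u) : FinEn S fun x => -u x := fun s hs =>
  (h s hs).congr fun x => by ring

theorem FinEn.lip {u : Γ → ℝ} (h : FinEn S u) {φ : ℝ → ℝ} {L : ℝ}
    (hφ : ∀ a b, |φ a - φ b| ≤ L * |a - b|) : FinEn S fun x => φ (u x) := fun s hs => by
  refine Summable.of_nonneg_of_le (fun x => sq_nonneg _) (fun x => ?_) ((h s hs).mul_left (L ^ 2))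
  have := hφ (u (x * s)) (u x)
  calc (φ (u (x * s)) - φ (u x)) ^ 2 = |φ (u (x * s)) - φ (u x)| ^ 2 := (sq_abs _).symm
    _ ≤ (L * |u (x * s) - u x|) ^ 2 := by gcongr
    _ = L ^ 2 * (u (x * s) - u x) ^ 2 := by rw [mul_pow, sq_abs]

theorem FinEn.translate {u : Γ → ℝ} (h : FinEn S u) (g : Γ) : FinEn S fun x => u (g * x) :=
  fun s hs => by
    have := (Equiv.mulLeft g).summable_iff.2 (h s hs)
    refine this.congr fun x => ?_
    simp [mul_assoc]

theorem oscProp (S : Finset Γ) : OscProp S := by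
  classical
  intro u hu n
  have h1 : ∀ n : ℕ, ∀ g ∈ (S : Set Γ) ^ n, Summable fun x => (u (x * g) - u x) ^ 2 := by
    intro n
    induction n with
    | zero => intro g hg; simp only [pow_zero, Set.mem_one] at hg; subst hg; simp [summable_zero]
    | succ n ih =>
      intro g hg
      rw [pow_succ] at hg
      obtain ⟨a, ha, s, hs, rfl⟩ := hg
      have h2 := (Equiv.mulRight a).summable_iff.2 (hu s hs)
      refine Summable.of_nonneg_of_le (fun x => sq_nonneg _) (fun x => ?_)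
        ((h2.add (ih a ha)).mul_left 2)
      simp only [Function.comp, Equiv.coe_mulRight, mul_assoc]
      nlinarith [sq_nonneg ((u (x * (a * s)) - u (x * a)) - (u (x * a) - u x))]
  let F := (pow_finite S n).toFinset
  refine ⟨fun x => ∑ g ∈ F, |u (x * g) - u x|,
    fun x => Finset.sum_nonneg fun _ _ => abs_nonneg _, ?_, fun x y h => ?_⟩
  · refine Summable.of_nonneg_of_le (fun x => sq_nonneg _) (fun x => ?_)
      ((summable_sum (s := F) fun g hg => h1 n g (by simpa [F] using hg)).mul_left (F.card : ℝ))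
    refine (sq_sum_le_card_mul_sum_sq).trans (le_of_eq ?_)
    simp [sq_abs]
  · have := Finset.single_le_sum (f := fun g => |u (x * g) - u x|) (s := F)
      (fun _ _ => abs_nonneg _) (a := x⁻¹ * y) (by simpa [F, Near] using h)
    simpa using this

/-- Slow variation far away. -/
theorem FinEn.slow {u : Γ → ℝ} (hu : FinEn S u) (n : ℕ) {lam : ℝ} (hl : 0 < lam) :
    ∃ K : Set Γ, K.Finite ∧ ∀ x, x ∉ K → ∀ y, Near S n x y → |u y - u x| ≤ lam := by
  obtain ⟨ω, h0, h1, h2⟩ := oscProp S u hu n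
  have h3 := h1.tendsto_cofinite_zero.eventually (gt_mem_nhds (sq_pos_of_pos hl))
  refine ⟨_, h3, fun x hx y hy => (h2 x y hy).trans ?_⟩
  simp only [Set.mem_compl_iff, Set.mem_ofPred_eq, not_not] at hx
  exact (abs_le_of_sq_le_sq' hx.le hl.le).2

end Vale.Agent.P239
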