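import Vale.Agent.P239.Defs
import Vale.Agent.P239.Core

/-! Chains with positions in the group, equivariant maps, bounded fillings. -/

namespace Vale.Agent.P239

open scoped Pointwise Matrix

/-- Finitely supported mod 2 chains on cells given by a position and a type. -/
abbrev Ch (Γ ι : Type*) : Type _ := (Γ × ι) →₀ ZMod 2

section general

variable {Γ : Type*} [Group Γ] {ι κ : Type*}

/-- Left translation of chains. -/
noncomputable def trC (g : Γ) : Ch Γ ι →ₗ[ZMod 2] Ch Γ ι :=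
  Finsupp.lmapDomain _ _ fun p => (g * p.1, p.2)

/-- Equivariant linear map. -/
def Eqv (f : Ch Γ ι →ₗ[ZMod 2] Ch Γ κ) : Prop := ∀ g c, f (trC g c) = trC g (f c)

/-- All cells of `c` are within distance `D` of `g`. -/
def Within (S : Finset Γ) (D : ℕ) (g : Γ) (c : Ch Γ ι) : Prop :=
  ∀ p ∈ c.support, Near S D g p.1

/-- Cone type inequality for fillings through `f`. -/
def Cone (S : Finset Γ) (f : Ch Γ ι →ₗ[ZMod 2] Ch Γ κ) : Prop :=
  ∃ K : ℕ, ∀ (g : Γ) (R : ℕ) (z : Ch Γ κ), (∃ c, f c = z) → Within S R g z →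
    ∃ c, f c = z ∧ c.support.card ≤ K * (R + 1) * z.support.card ∧ Within S (K * (R + 1)) g c

/-- Subquadratic filling through `f`, dyadic form. -/
def SubQ (f : Ch Γ ι →ₗ[ZMod 2] Ch Γ κ) : Prop :=
  ∃ C q : ℝ, 0 < C ∧ 0 < q ∧ q < 4 ∧ ∀ (j : ℕ) (z : Ch Γ κ), (∃ c, f c = z) →
    z.support.card ≤ 2 ^ j → ∃ c, f c = z ∧ (c.support.card : ℝ) ≤ C * q ^ j

/-- The beginning of an equivariant free resolution of the field with two elements. -/
structure Res3 {ι₀ ι₁ ι₂ ι₃ : Type*} (ε : Ch Γ ι₀ →ₗ[ZMod 2] ZMod 2)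
    (f₁ : Ch Γ ι₁ →ₗ[ZMod 2] Ch Γ ι₀) (f₂ : Ch Γ ι₂ →ₗ[ZMod 2] Ch Γ ι₁)
    (f₃ : Ch Γ ι₃ →ₗ[ZMod 2] Ch Γ ι₂) : Prop where
  inv : ∀ g c, ε (trC g c) = ε c
  surj : Function.Surjective ε
  e₁ : Eqv f₁
  e₂ : Eqv f₂
  e₃ : Eqv f₃
  x₀ : Function.Exact f₁ ε
  x₁ : Function.Exact f₂ f₁
  x₂ : Function.Exact f₃ f₂

theorem trC_inj (g : Γ) : Function.Injective fun p : Γ × ι => (g * p.1, p.2) := by
  intro p q h
  simp only [Prod.mk.injEq, mul_right_inj] at h
  exact Prod.ext h.1 h.2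

@[simp] theorem trC_apply (g : Γ) (c : Ch Γ ι) (p : Γ × ι) : trC g c p = c (g⁻¹ * p.1, p.2) := by
  have := Finsupp.mapDomain_apply (trC_inj (ι := ι) g) c (g⁻¹ * p.1, p.2)
  simpa [trC] using this

theorem trC_single (g : Γ) (p : Γ × ι) (a : ZMod 2) :
    trC g (Finsupp.single p a) = Finsupp.single (g * p.1, p.2) a := by
  simp [trC, Finsupp.mapDomain_single]

theorem trC_trC (g h : Γ) (c : Ch Γ ι) : trC g (trC h c) = trC (g * h) c := by
  ext p; simp [mul_assoc]

@[simp] theorem trC_one (c : Ch Γ ι) : trC (1 : Γ) c = c := by ext p; simp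

theorem trC_card (g : Γ) (c : Ch Γ ι) : (trC g c).support.card = c.support.card := by
  classical
  have : (trC g c).support = c.support.image fun p => (g * p.1, p.2) := by
    simp [trC, Finsupp.mapDomain_support_of_injective (trC_inj (ι := ι) g)]
  rw [this, Finset.card_image_of_injective _ (trC_inj g)]

variable {S : Finset Γ}

theorem Within.mono (hS : Gen S) {D D' : ℕ} {g : Γ} {c : Ch Γ ι} (h : Within S D g c)
    (hD : D ≤ D') : Within S D' g c := fun p hp => (h p hp).mono hS hD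

theorem Within.shift {D D' : ℕ} {g g' : Γ} {c : Ch Γ ι} (h : Within S D g c)
    (h' : Near S D' g' g) : Within S (D' + D) g' c := fun p hp => h'.trans (h p hp)

theorem within_zero (D : ℕ) (g : Γ) : Within S D g (0 : Ch Γ ι) := by simp [Within]

theorem Within.add {D : ℕ} {g : Γ} {c c' : Ch Γ ι} (h : Within S D g c) (h' : Within S D g c') :
    Within S D g (c + c') := by
  classical
  intro p hp
  rcases Finset.mem_union.1 (Finsupp.support_add hp) with h1 | h1
  exacts [h p h1, h' p h1]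

theorem Within.sum {α : Type*} {D : ℕ} {g : Γ} {s : Finset α} {c : α → Ch Γ ι}
    (h : ∀ a ∈ s, Within S D g (c a)) : Within S D g (∑ a ∈ s, c a) := by
  classical
  induction s using Finset.induction_on with
  | empty => simpa using within_zero D g
  | insert a s ha ih =>
    rw [Finset.sum_insert ha]
    exact (h a (by simp)).add (ih fun b hb => h b (by simp [hb]))

theorem within_trC {D : ℕ} {g h : Γ} {c : Ch Γ ι} :
    Within S D (h * g) (trC h c) ↔ Within S D g c := by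
  constructor
  · intro H p hp
    have := H (h * p.1, p.2) (by simpa using hp)
    simpa using this
  · intro H p hp
    have := H (h⁻¹ * p.1, p.2) (by simpa using hp)
    have h2 := (near_mul_left (S := S) (n := D) h g (h⁻¹ * p.1)).2 this
    simpa using h2

theorem exists_within (hS : Gen S) (g : Γ) (c : Ch Γ ι) : ∃ D, Within S D g c := by
  obtain ⟨n, hn⟩ := hS.finite_sub_ball (c.support.finite_toSet.image Prod.fst) g
  exact ⟨n, fun p hp => hn _ ⟨p, hp, rfl⟩⟩

theorem Within.card_le [Fintype ι] {D : ℕ} {g : Γ} {c : Ch Γ ι} (h : Within S D g c) :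
    c.support.card ≤ ((S : Set Γ) ^ D).ncard * Fintype.card ι := by
  have h1 : (c.support : Set (Γ × ι)) ⊆ {y | Near S D g y} ×ˢ (Set.univ : Set ι) :=
    fun p hp => ⟨h p hp, trivial⟩
  have h2 := Set.ncard_le_ncard h1 ((ball_finite D g).prod Set.finite_univ)
  rwa [Set.ncard_coe_finset, Set.ncard_prod, ball_ncard, Set.ncard_univ,
    Nat.card_eq_fintype_card] at h2

theorem within_finite [Finite ι] (D : ℕ) (g : Γ) : {c : Ch Γ ι | Within S D g c}.Finite := by
  classical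
  have h0 : ({y | Near S D g y} ×ˢ (Set.univ : Set ι)).Finite :=
    (ball_finite D g).prod Set.finite_univ
  refine Set.Finite.of_finite_image (f := fun c : Ch Γ ι => c.support)
    ((h0.toFinset.powerset.finite_toSet).subset ?_) ?_
  · rintro _ ⟨c, hc, rfl⟩
    simp only [Finset.coe_powerset, Set.mem_preimage, Set.mem_powerset_iff, Set.Finite.coe_toFinset]
    exact fun p hp => ⟨hc p hp, trivial⟩
  · intro c _ c' _ h
    ext p
    have : c p ≠ 0 ↔ c' p ≠ 0 := by
      rw [← Finsupp.mem_support_iff, ← Finsupp.mem_support_iff, show c.support = c'.support from h]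
    revert this
    generalize c p = a
    generalize c' p = b
    revert a b
    decide

omit [Group Γ] in
theorem ch_eq_sum (c : Ch Γ ι) : c = ∑ p ∈ c.support, Finsupp.single p 1 := by
  conv_lhs => rw [← Finsupp.sum_single c]
  refine Finset.sum_congr rfl fun p hp => ?_
  have : c p ≠ 0 := Finsupp.mem_support_iff.1 hp
  have h2 : ∀ a : ZMod 2, a ≠ 0 → a = 1 := by decide
  rw [h2 _ this]

omit [Group Γ] in
theorem ch_add_self (c : Ch Γ ι) : c + c = 0 := by
  ext p
  have h2 : ∀ a : ZMod 2, a + a = 0 := by decide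
  simp [h2]

omit [Group Γ] in
/-- A cell of `f c` comes from a cell of `c`. -/
theorem support_map {M : Type*} (f : Ch Γ ι →ₗ[ZMod 2] (M →₀ ZMod 2)) (c : Ch Γ ι) {q : M}
    (hq : q ∈ (f c).support) : ∃ p ∈ c.support, q ∈ (f (Finsupp.single p 1)).support := by
  classical
  rw [ch_eq_sum c, map_sum] at hq
  simpa using Finsupp.support_finsetSum hq

omit [Group Γ] in
theorem card_map_le {M : Type*} (f : Ch Γ ι →ₗ[ZMod 2] (M →₀ ZMod 2)) (c : Ch Γ ι) {N : ℕ}
    (h : ∀ p ∈ c.support, (f (Finsupp.single p 1)).support.card ≤ N) :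
    (f c).support.card ≤ N * c.support.card := by
  classical
  have h1 : (f c).support ⊆ c.support.biUnion fun p => (f (Finsupp.single p 1)).support := by
    intro q hq
    simpa using support_map f c hq
  refine (Finset.card_le_card h1).trans (Finset.card_biUnion_le.trans ?_)
  rw [mul_comm]
  simpa using Finset.sum_le_card_nsmul _ _ N h

/-- Bounded propagation on basis cells. -/
theorem Eqv.single_within [Finite ι] (hS : Gen S) {f : Ch Γ ι →ₗ[ZMod 2] Ch Γ κ} (hf : Eqv f) :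
    ∃ b, ∀ p : Γ × ι, Within S b p.1 (f (Finsupp.single p 1)) := by
  choose D hD using fun i : ι => exists_within hS 1 (f (Finsupp.single (1, i) 1))
  obtain ⟨b, hb⟩ := (Set.finite_range D).bddAbove
  refine ⟨b, fun p => ?_⟩
  have h1 : (Finsupp.single p 1 : Ch Γ ι) = trC p.1 (Finsupp.single (1, p.2) 1) := by
    simp [trC_single]
  rw [h1, hf]
  have := (within_trC (h := p.1)).2 ((hD p.2).mono hS (hb ⟨_, rfl⟩))
  simpa using this

theorem Eqv.prop [Finite ι] (hS : Gen S) {f : Ch Γ ι →ₗ[ZMod 2] Ch Γ κ} (hf : Eqv f) :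
    ∃ b, ∀ (c : Ch Γ ι), ∀ q ∈ (f c).support, ∃ p ∈ c.support, Near S b p.1 q.1 := by
  obtain ⟨b, hb⟩ := hf.single_within hS
  refine ⟨b, fun c q hq => ?_⟩
  obtain ⟨p, hp, h⟩ := support_map f c hq
  exact ⟨p, hp, hb p q h⟩

theorem Eqv.mass [Finite ι] {f : Ch Γ ι →ₗ[ZMod 2] Ch Γ κ} (hf : Eqv f) :
    ∃ N, ∀ c : Ch Γ ι, (f c).support.card ≤ N * c.support.card := by
  obtain ⟨N, hN⟩ := (Set.finite_range fun i : ι =>
    (f (Finsupp.single (1, i) 1)).support.card).bddAbove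
  refine ⟨N, fun c => card_map_le f c fun p _ => ?_⟩
  have h1 : (Finsupp.single p 1 : Ch Γ ι) = trC p.1 (Finsupp.single (1, p.2) 1) := by
    simp [trC_single]
  rw [h1, hf, trC_card]
  exact hN ⟨_, rfl⟩

/-- Uniformly bounded fillings. -/
theorem bounded_fill [Finite κ] (hS : Gen S) {f : Ch Γ ι →ₗ[ZMod 2] Ch Γ κ} (hf : Eqv f) :
    ∃ ρ : ℕ → ℕ, ∀ z : Ch Γ κ, (∃ c, f c = z) →
      ∃ c, f c = z ∧ (z = 0 → c = 0) ∧ ∀ g D, Within S D g z → Within S (ρ D) g c := by
  classical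
  have h1 : ∀ D : ℕ, ∃ D' : ℕ, ∀ z : Ch Γ κ, (∃ c, f c = z) → Within S D 1 z →
      ∃ c, f c = z ∧ Within S D' 1 c := by
    intro D
    have hfin : {z : Ch Γ κ | Within S D 1 z ∧ ∃ c, f c = z}.Finite :=
      (within_finite D 1).subset fun z hz => hz.1
    have : ∀ z : Ch Γ κ, ∃ D', (∃ c, f c = z) → ∃ c, f c = z ∧ Within S D' 1 c := by
      intro z
      by_cases h : ∃ c, f c = z
      · obtain ⟨c, hc⟩ := h
        obtain ⟨D', hD'⟩ := exists_within hS 1 c
        exact ⟨D', fun _ => ⟨c, hc, hD'⟩⟩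
      · exact ⟨0, fun h' => absurd h' h⟩
    choose E hE using this
    obtain ⟨D', hD'⟩ := (hfin.image E).bddAbove
    refine ⟨D', fun z hz hw => ?_⟩
    obtain ⟨c, hc, h⟩ := hE z hz
    exact ⟨c, hc, h.mono hS (hD' ⟨z, ⟨hw, hz⟩, rfl⟩)⟩
  choose φ hφ using h1
  refine ⟨fun D => D + (Finset.range (D + D + 1)).sup φ, fun z hz => ?_⟩
  by_cases h0 : z = 0
  · exact ⟨0, by simp [h0], fun _ => rfl, fun g D _ => within_zero _ _⟩
  obtain ⟨p₀, hp₀⟩ := Finsupp.support_nonempty_iff.2 h0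
  have hex := exists_within hS p₀.1 z
  have hw : Within S (Nat.find hex) 1 (trC p₀.1⁻¹ z) := by
    have := (within_trC (h := p₀.1⁻¹)).2 (Nat.find_spec hex)
    simpa using this
  obtain ⟨c₀, hc₀⟩ := hz
  obtain ⟨c, hc, hcw⟩ := hφ _ (trC p₀.1⁻¹ z) ⟨trC p₀.1⁻¹ c₀, by rw [hf, hc₀]⟩ hw
  refine ⟨trC p₀.1 c, by rw [hf, hc, trC_trC]; simp, fun h => absurd h h0, fun g D hD => ?_⟩
  have h2 : Nat.find hex ≤ D + D := Nat.find_min' hex (hD.shift ((hD p₀ hp₀).symm hS))
  have h3 : Within S (φ (Nat.find hex)) p₀.1 (trC p₀.1 c) := by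
    have := (within_trC (h := p₀.1)).2 hcw
    simpa using this
  refine (h3.mono hS (Finset.le_sup (f := φ) (Finset.mem_range.2 (by omega)))).shift (hD p₀ hp₀)

end general

section matrices

variable {Γ : Type} [Group Γ] {m n : ℕ}

/-- Vectors over the group ring as chains. -/
noncomputable def vecE (e : Γ ≃ Γ) : (Fin n → GR Γ) ≃ₗ[ZMod 2] Ch Γ (Fin n) :=
  (LinearEquiv.piCongrRight fun _ => MonoidAlgebra.coeffLinearEquiv (ZMod 2)).trans <|
    (Finsupp.linearEquivFunOnFinite (ZMod 2) (Γ →₀ ZMod 2) (Fin n)).symm.trans <|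
      (Finsupp.curryLinearEquiv (ZMod 2)).symm.trans <|
        Finsupp.domLCongr ((Equiv.prodComm _ _).trans (Equiv.prodCongr e.symm (Equiv.refl _)))

@[simp] theorem vecE_apply (e : Γ ≃ Γ) (w : Fin n → GR Γ) (p : Γ × Fin n) :
    vecE e w p = (w p.2).coeff (e p.1) := by
  obtain ⟨x, i⟩ := p
  simp [vecE, Finsupp.equivMapDomain_apply, Finsupp.uncurry_apply_pair]

theorem vecE_symm_coeff (e : Γ ≃ Γ) (c : Ch Γ (Fin n)) (i : Fin n) (x : Γ) :
    ((vecE e).symm c i).coeff x = c (e.symm x, i) := by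
  have := vecE_apply e ((vecE e).symm c) (e.symm x, i)
  simpa using this.symm

theorem vecE_card (e : Γ ≃ Γ) (w : Fin n → GR Γ) : (vecE e w).support.card = mass w := by
  classical
  unfold mass
  rw [Finset.card_eq_sum_card_fiberwise (f := Prod.snd) (t := Finset.univ) (by simp)]
  refine Finset.sum_congr rfl fun i _ => ?_
  refine Finset.card_bij (fun p _ => e p.1) ?_ ?_ ?_
  · intro p hp
    simp only [Finset.mem_filter, Finsupp.mem_support_iff, vecE_apply] at hp
    simpa [← hp.2] using hp.1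
  · intro p hp q hq h
    simp only [Finset.mem_filter] at hp hq
    exact Prod.ext (e.injective h) (hp.2.trans hq.2.symm)
  · intro x hx
    exact ⟨(e.symm x, i), by simpa using hx, by simp⟩

/-- Column vectors as finitely supported cochains. -/
noncomputable def toCol : (Fin n → GR Γ) ≃ₗ[ZMod 2] Ch Γ (Fin n) := vecE (Equiv.inv Γ)

/-- Row vectors as chains. -/
noncomputable def toRow : (Fin n → GR Γ) ≃ₗ[ZMod 2] Ch Γ (Fin n) := vecE (Equiv.refl Γ)

/-- `w ↦ d *ᵥ w` as a linear map over the field. -/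
noncomputable def mulVecL (d : Matrix (Fin m) (Fin n) (GR Γ)) :
    (Fin n → GR Γ) →ₗ[ZMod 2] (Fin m → GR Γ) where
  toFun w := d *ᵥ w
  map_add' := Matrix.mulVec_add d
  map_smul' := Matrix.mulVec_smul d

/-- `v ↦ v ᵥ* d` as a linear map over the field. -/
noncomputable def vecMulL (d : Matrix (Fin m) (Fin n) (GR Γ)) :
    (Fin m → GR Γ) →ₗ[ZMod 2] (Fin n → GR Γ) where
  toFun v := v ᵥ* d
  map_add' := Matrix.add_vecMul d
  map_smul' b v := Matrix.smul_vecMul b v d

/-- The coboundary on finitely supported cochains. -/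
noncomputable def colOp (d : Matrix (Fin m) (Fin n) (GR Γ)) :
    Ch Γ (Fin n) →ₗ[ZMod 2] Ch Γ (Fin m) :=
  toCol.toLinearMap ∘ₗ mulVecL d ∘ₗ toCol.symm.toLinearMap

/-- The boundary on chains. -/
noncomputable def rowOp (d : Matrix (Fin m) (Fin n) (GR Γ)) :
    Ch Γ (Fin m) →ₗ[ZMod 2] Ch Γ (Fin n) :=
  toRow.toLinearMap ∘ₗ vecMulL d ∘ₗ toRow.symm.toLinearMap

theorem colOp_toCol (d : Matrix (Fin m) (Fin n) (GR Γ)) (w : Fin n → GR Γ) :
    colOp d (toCol w) = toCol (d *ᵥ w) := by simp [colOp, mulVecL]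

theorem rowOp_toRow (d : Matrix (Fin m) (Fin n) (GR Γ)) (v : Fin m → GR Γ) :
    rowOp d (toRow v) = toRow (v ᵥ* d) := by simp [rowOp, vecMulL]

theorem colOp_apply (d : Matrix (Fin m) (Fin n) (GR Γ)) (c : Ch Γ (Fin n)) (p : Γ × Fin m) :
    colOp d c p = ∑ i, (d p.2 i).coeff.sum fun a k => k * c (p.1 * a, i) := by
  obtain ⟨w, rfl⟩ := toCol.surjective c
  rw [colOp_toCol]
  simp [toCol, Matrix.mulVec, dotProduct, MonoidAlgebra.coeff_sum, Finsupp.finsetSum_apply,
    MonoidAlgebra.coeff_mul_apply_left]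

theorem rowOp_apply (d : Matrix (Fin m) (Fin n) (GR Γ)) (c : Ch Γ (Fin m)) (p : Γ × Fin n) :
    rowOp d c p = ∑ j, (d j p.2).coeff.sum fun a k => c (p.1 * a⁻¹, j) * k := by
  obtain ⟨w, rfl⟩ := toRow.surjective c
  rw [rowOp_toRow]
  simp [toRow, Matrix.vecMul, dotProduct, MonoidAlgebra.coeff_sum, Finsupp.finsetSum_apply,
    MonoidAlgebra.coeff_mul_apply_right]

theorem colOp_eqv (d : Matrix (Fin m) (Fin n) (GR Γ)) : Eqv (colOp d) := by
  intro g c; ext p; simp [colOp_apply, mul_assoc]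

theorem rowOp_eqv (d : Matrix (Fin m) (Fin n) (GR Γ)) : Eqv (rowOp d) := by
  intro g c; ext p; simp [rowOp_apply, mul_assoc]

theorem colOp_exact {l : ℕ} {d : Matrix (Fin m) (Fin n) (GR Γ)}
    {d' : Matrix (Fin l) (Fin m) (GR Γ)}
    (h : Function.Exact (fun w => d *ᵥ w) (fun w => d' *ᵥ w)) :
    Function.Exact (colOp d) (colOp d') := by
  intro c
  obtain ⟨w, rfl⟩ := toCol.surjective c
  rw [colOp_toCol, map_eq_zero_iff _ toCol.injective, h w]
  constructor
  · rintro ⟨v, rfl⟩; exact ⟨toCol v, colOp_toCol _ _⟩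
  · rintro ⟨c, hc⟩
    obtain ⟨v, rfl⟩ := toCol.surjective c
    exact ⟨v, toCol.injective (by rw [← hc, colOp_toCol])⟩

theorem rowOp_exact {l : ℕ} {d : Matrix (Fin m) (Fin n) (GR Γ)}
    {d' : Matrix (Fin l) (Fin m) (GR Γ)}
    (h : Function.Exact (fun v => v ᵥ* d') (fun v => v ᵥ* d)) :
    Function.Exact (rowOp d') (rowOp d) := by
  intro c
  obtain ⟨w, rfl⟩ := toRow.surjective c
  rw [rowOp_toRow, map_eq_zero_iff _ toRow.injective, h w]
  constructor
  · rintro ⟨v, rfl⟩; exact ⟨toRow v, rowOp_toRow _ _⟩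
  · rintro ⟨c, hc⟩
    obtain ⟨v, rfl⟩ := toRow.surjective c
    exact ⟨v, toRow.injective (by rw [← hc, rowOp_toRow])⟩

end matrices

end Vale.Agent.P239
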