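import Vale.Agent.P239.Alg

namespace Vale.Agent.P239

open scoped Pointwise

variable {Γ : Type*} [Group Γ] {S : Finset Γ} {ι κ : Type*}

omit [Group Γ] in
theorem ch_eq_of_add_eq_zero {c c' : Ch Γ ι} (h : c + c' = 0) : c = c' := by
  have : c + c' + c' = c' := by rw [h, zero_add]
  rwa [add_assoc, ch_add_self, add_zero] at this

/-- Separated parts of a cycle are cycles. -/
theorem split_zero (hS : Gen S) {f : Ch Γ ι →ₗ[ZMod 2] Ch Γ κ} {b : ℕ}
    (hb : ∀ (c : Ch Γ ι), ∀ q ∈ (f c).support, ∃ p ∈ c.support, Near S b p.1 q.1)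
    {y₁ y₂ : Ch Γ ι} (h : f (y₁ + y₂) = 0)
    (hsep : ∀ p ∈ y₁.support, ∀ p' ∈ y₂.support, ¬ Near S (b + b) p.1 p'.1) :
    f y₁ = 0 ∧ f y₂ = 0 := by
  rw [map_add] at h
  have h1 := ch_eq_of_add_eq_zero h
  have h2 : f y₁ = 0 := by
    rw [← Finsupp.support_eq_empty, Finset.eq_empty_iff_forall_notMem]
    intro q hq
    obtain ⟨p, hp, a1⟩ := hb _ q hq
    obtain ⟨p', hp', a2⟩ := hb _ q (h1 ▸ hq)
    exact hsep p hp p' hp' (a1.trans (a2.symm hS))
  exact ⟨h2, h1 ▸ h2⟩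

omit [Group Γ] in
theorem filter_split (z : Ch Γ ι) (P : Γ × ι → Prop) :
    ∃ z₁ z₂ : Ch Γ ι, z = z₁ + z₂ ∧ (∀ p, p ∈ z₁.support ↔ p ∈ z.support ∧ P p) ∧
      (∀ p, p ∈ z₂.support ↔ p ∈ z.support ∧ ¬ P p) ∧
      z₁.support.card + z₂.support.card = z.support.card := by
  classical
  refine ⟨z.filter P, z.filter fun p => ¬ P p, (Finsupp.filter_add_filter_not z P).symm, ?_, ?_, ?_⟩
  · intro p; rw [Finsupp.support_filter, Finset.mem_filter]
  · intro p; rw [Finsupp.support_filter, Finset.mem_filter]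
  · rw [Finsupp.support_filter, Finsupp.support_filter, Finset.card_filter_add_card_filter_not]

/-- Splitting off a bounded separated piece. -/
theorem piece (hS : Gen S) (z : Ch Γ ι) {T : Set Γ} (hT : T.Finite) {k w : ℕ} (hk : T.ncard ≤ k)
    (hcl : ∀ y ∈ T, ∀ p ∈ z.support, Near S w y p.1 → p.1 ∈ T) {p₀ : Γ × ι}
    (hp₀ : p₀ ∈ z.support) (hp₀T : p₀.1 ∈ T) :
    ∃ z₁ z₂ : Ch Γ ι, z = z₁ + z₂ ∧ Within S (k * w) p₀.1 z₁ ∧ z₂.support ⊆ z.support ∧
      z₁.support.card + z₂.support.card = z.support.card ∧ p₀ ∈ z₁.support ∧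
      ∀ p ∈ z₁.support, ∀ p' ∈ z₂.support, ¬ Near S w p.1 p'.1 := by
  obtain ⟨i, hi, h⟩ := gap_lemma hS hT hk w p₀.1
  obtain ⟨z₁, z₂, h1, h2, h3, h4⟩ := filter_split z fun p => p.1 ∈ T ∧ Near S (i * w) p₀.1 p.1
  refine ⟨z₁, z₂, h1, fun p hp => ((h2 p).1 hp).2.2.mono hS (Nat.mul_le_mul_right _ hi),
    fun p hp => ((h3 p).1 hp).1, h4, (h2 _).2 ⟨hp₀, hp₀T, Near.refl hS _ _⟩, ?_⟩
  intro p hp p' hp' hn
  have a1 := (h2 p).1 hp
  have a2 := (h3 p').1 hp'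
  have a3 := hcl _ a1.2.1 p' a2.1 hn
  refine a2.2 ⟨a3, h _ a3 ?_⟩
  rw [add_mul, one_mul]
  exact a1.2.2.trans hn

omit [Group Γ] in
theorem card_add_le (c c' : Ch Γ ι) :
    (c + c').support.card ≤ c.support.card + c'.support.card := by
  classical
  exact (Finset.card_le_card Finsupp.support_add).trans (Finset.card_union_le _ _)

omit [Group Γ] in
theorem mem_support_add {c c' : Ch Γ ι} {p : Γ × ι} (h : p ∈ (c + c').support) :
    p ∈ c.support ∨ p ∈ c'.support := by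
  classical
  exact Finset.mem_union.1 (Finsupp.support_add h)

end Vale.Agent.P239
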