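import Vale.Agent.P239.AmenA

/-! On a Folner group every finite energy function is an energy limit of finitely supported
functions. -/

namespace Vale.Agent.P239

open scoped Pointwise symmDiff Matrix
open Filter Topology

variable {Γ : Type*} [Group Γ] {S : Finset Γ} {r : ℕ}

/-- Edge Hilbert space. -/
abbrev AmH (S : Finset Γ) := lp (fun _ : S × Γ => ℝ) 2

theorem amen_mem {k : S × Γ → ℝ} (h : ∀ s : S, Summable fun x => k (s, x) ^ 2) :
    Memℓp k 2 := by
  rw [memℓp_gen_iff (by norm_num)]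
  have e : (fun i => ‖k i‖ ^ (2 : ENNReal).toReal) = fun i => k i ^ 2 := by
    funext i
    simp
  rw [e, summable_prod_of_nonneg fun i => sq_nonneg _]
  exact ⟨h, Summable.of_finite⟩

theorem amen_summ (k : AmH S) : Summable fun e => k e ^ 2 := by
  have h := (memℓp_gen_iff (p := 2) (by norm_num)).1 (lp.memℓp k)
  have e : (fun i => ‖k i‖ ^ (2 : ENNReal).toReal) = fun i => k i ^ 2 := by
    funext i
    simp
  rwa [e] at h

theorem amen_norm (k : AmH S) : ∑' e, k e ^ 2 = ‖k‖ ^ 2 := by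
  have h := lp.norm_rpow_eq_tsum (p := 2) (by norm_num) k
  have e : (fun i => ‖k i‖ ^ (2 : ENNReal).toReal) = fun i => k i ^ 2 := by
    funext i
    simp
  rw [e] at h
  rw [← h]
  simp

theorem amen_slice (k : AmH S) (s : S) : Summable fun x => k (s, x) ^ 2 :=
  (amen_summ k).comp_injective (Prod.mk_right_injective s)

theorem amen_slice_le (k : AmH S) (s : S) : ∑' x, k (s, x) ^ 2 ≤ ‖k‖ ^ 2 := by
  rw [← amen_norm k]
  exact (amen_slice k s).tsum_le_tsum_of_inj (fun x => (s, x)) (Prod.mk_right_injective s)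
    (fun c _ => sq_nonneg _) (fun _ => le_rfl) (amen_summ k)

/-- Gradients of finitely supported functions. -/
def gradSub (S : Finset Γ) : Submodule ℝ (AmH S) where
  carrier := {k | ∃ f : Γ → ℝ, (Function.support f).Finite ∧
    ∀ e : S × Γ, k e = f (e.2 * e.1) - f e.2}
  add_mem' := by
    rintro a b ⟨f, hf, ha⟩ ⟨g, hg, hb⟩
    refine ⟨f + g, (hf.union hg).subset (Function.support_add f g), fun e => ?_⟩
    rw [lp.coeFn_add, Pi.add_apply, ha e, hb e]
    simp only [Pi.add_apply]
    ring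
  zero_mem' := ⟨0, by simp, fun e => by simp⟩
  smul_mem' := by
    rintro c a ⟨f, hf, ha⟩
    refine ⟨c • f, hf.subset (Function.support_const_smul_subset c f), fun e => ?_⟩
    rw [lp.coeFn_smul, Pi.smul_apply, ha e]
    simp only [Pi.smul_apply, smul_eq_mul]
    ring

theorem amen_closure (hS : Gen S) (y : AmH S) (hy : y ∈ (gradSub S).topologicalClosure) :
    ∃ c : Γ → ℝ, ∀ e : S × Γ, y e = c (e.2 * e.1) - c e.2 := by
  have hy' : y ∈ closure (gradSub S : Set (AmH S)) := hy
  obtain ⟨k, hk, hlim⟩ := mem_closure_iff_seq_limit.1 hy'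
  choose f _ hf using hk
  have hco : ∀ e, Tendsto (fun n => f n (e.2 * e.1) - f n e.2) atTop (𝓝 (y e)) := by
    intro e
    have h1 : Tendsto (fun n => ‖k n - y‖) atTop (𝓝 0) := tendsto_iff_norm_sub_tendsto_zero.1 hlim
    rw [tendsto_iff_norm_sub_tendsto_zero]
    refine squeeze_zero (fun n => norm_nonneg _) (fun n => ?_) h1
    have := lp.norm_apply_le_norm (p := 2) (by norm_num) (k n - y) e
    rwa [lp.coeFn_sub, Pi.sub_apply, hf n e] at this
  have hall : ∀ n : ℕ, ∀ g ∈ (S : Set Γ) ^ n, ∃ c : ℝ,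
      Tendsto (fun m => f m g - f m 1) atTop (𝓝 c) := by
    intro n
    induction n with
    | zero =>
      intro g hg
      have : g = 1 := by simpa using hg
      subst this
      exact ⟨0, by simp⟩
    | succ n ih =>
      intro g hg
      rw [pow_succ] at hg
      obtain ⟨a, ha, s, hs, rfl⟩ := hg
      obtain ⟨c, hc⟩ := ih a ha
      refine ⟨y (⟨s, hs⟩, a) + c, ?_⟩
      have := (hco (⟨s, hs⟩, a)).add hc
      simpa using this
  have hall' : ∀ g : Γ, ∃ c : ℝ, Tendsto (fun m => f m g - f m 1) atTop (𝓝 c) := by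
    intro g
    obtain ⟨n, hn⟩ := hS.gen g
    exact hall n g hn
  choose c hc using hall'
  refine ⟨c, fun e => ?_⟩
  have h1 := (hc (e.2 * e.1)).sub (hc e.2)
  refine tendsto_nhds_unique (hco e) ?_
  simpa using h1

theorem amen_orth (hS : Gen S) (z : AmH S) (hz : z ∈ (gradSub S)ᗮ) (v : Γ → ℝ)
    (hv : ∀ e : S × Γ, z e = v (e.2 * e.1) - v e.2) : v ∈ harmSub S := by
  classical
  intro a
  let k : AmH S := ∑ s : S, (lp.single 2 (s, a * s.1⁻¹) (1 : ℝ) - lp.single 2 (s, a) (1 : ℝ))
  have hk : k ∈ gradSub S := by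
    refine ⟨Pi.single a 1, (Set.finite_singleton a).subset Pi.support_single_subset, fun e => ?_⟩
    obtain ⟨t, x⟩ := e
    simp only [k]
    rw [lp.coeFn_sum, Finset.sum_apply, Finset.sum_eq_single t]
    · rw [lp.coeFn_sub, Pi.sub_apply, lp.single_apply, lp.single_apply]
      simp only [Pi.single_apply, Prod.mk.injEq, true_and, eq_mul_inv_iff_mul_eq]
    · intro s _ hs
      rw [lp.coeFn_sub, Pi.sub_apply, lp.single_apply, lp.single_apply]
      simp [Pi.single_apply, hs.symm]
    · simp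
  have h0 := (Submodule.mem_orthogonal _ _).1 hz k hk
  simp only [k] at h0
  rw [sum_inner] at h0
  have h1 : ∀ s : S, inner ℝ
      (lp.single 2 (s, a * s.1⁻¹) (1 : ℝ) - lp.single 2 (s, a) (1 : ℝ) : AmH S) z =
      -(v (a * s.1⁻¹) - v a) - (v (a * s.1) - v a) := by
    intro s
    rw [inner_sub_left, lp.inner_single_left, lp.inner_single_left, hv, hv]
    simp
  simp only [h1] at h0
  rw [Finset.sum_sub_distrib, Finset.sum_neg_distrib,
    Finset.sum_coe_sort S (fun s => v (a * s⁻¹) - v a),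
    Finset.sum_coe_sort S (fun s => v (a * s) - v a)] at h0
  have h2 : ∑ s ∈ S, (v (a * s⁻¹) - v a) = ∑ s ∈ S, (v (a * s) - v a) := by
    refine Finset.sum_nbij' (fun s => s⁻¹) (fun s => s⁻¹) ?_ ?_ ?_ ?_ ?_
    · intro s hs; exact hS.inv s hs
    · intro s hs; exact hS.inv s hs
    · intro s _; simp
    · intro s _; simp
    · intro s _; rfl
  rw [h2] at h0
  linarith

theorem approx_of_folner (hS : Gen S) (hF : Folner S) {u : Γ → ℝ} (hu : FinEn S u) :
    Approx S u := by
  let g : AmH S := ⟨fun e => u (e.2 * e.1) - u e.2, amen_mem fun s => hu s.1 s.2⟩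
  have hg : ∀ e : S × Γ, g e = u (e.2 * e.1) - u e.2 := fun e => rfl
  obtain ⟨y, hy, z, hz, hyz⟩ :=
    Submodule.exists_add_mem_mem_orthogonal (K := (gradSub S).topologicalClosure) g
  obtain ⟨c, hc⟩ := amen_closure hS y hy
  have hz' : z ∈ (gradSub S)ᗮ :=
    Submodule.orthogonal_le (Submodule.le_topologicalClosure _) hz
  have hv : ∀ e : S × Γ, z e = (u - c) (e.2 * e.1) - (u - c) e.2 := by
    intro e
    have h1 := hg e
    rw [hyz, lp.coeFn_add, Pi.add_apply, hc e] at h1
    simp only [Pi.sub_apply]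
    linarith
  have hharm := amen_orth hS z hz' (u - c) hv
  have hz0 : z = 0 := by
    ext e
    have hsum : Summable fun x => ((u - c) (x * e.1) - (u - c) x) ^ 2 := by
      have := amen_slice z e.1
      simpa only [hv] using this
    have := amen_harm hS hF (u - c) hharm e.1.2 hsum e.2
    rw [hv e, this, sub_self]
    simp
  rw [hz0, add_zero] at hyz
  have hy' : g ∈ closure (gradSub S : Set (AmH S)) := by
    rw [hyz]; exact hy
  intro ε hε
  obtain ⟨k, ⟨f, hf, hk⟩, hd⟩ := Metric.mem_closure_iff.1 hy' (√ε) (Real.sqrt_pos.2 hε)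
  refine ⟨f, hf, fun s hs => ?_⟩
  have h1 := amen_slice_le (g - k) ⟨s, hs⟩
  have h2 : ∀ x, (g - k) (⟨s, hs⟩, x) = (u (x * s) - f (x * s)) - (u x - f x) := by
    intro x
    rw [lp.coeFn_sub, Pi.sub_apply, hg, hk]
    ring
  simp only [h2] at h1
  rw [dist_eq_norm] at hd
  have h3 : ‖g - k‖ ^ 2 < ε := by
    have := pow_lt_pow_left₀ hd (norm_nonneg _) two_ne_zero
    rwa [Real.sq_sqrt hε.le] at this
  exact h1.trans_lt h3

end Vale.Agent.P239
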