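import Vale.Agent.P239.Core

/-! Dimension count: harmonic functions of finite energy on a Folner group are constant. -/

namespace Vale.Agent.P239

open scoped Pointwise symmDiff Matrix

variable {Γ : Type*} [Group Γ] {S : Finset Γ}

theorem amen_coord {ι : Type*} [Fintype ι] (V : Submodule ℝ (EuclideanSpace ℝ ι)) (y : V)
    (x : ι) : ((y : EuclideanSpace ℝ ι) x) ^ 2 ≤ ‖y‖ ^ 2 *
      ∑ i, ((stdOrthonormalBasis ℝ V i : EuclideanSpace ℝ ι) x) ^ 2 := by
  set b := stdOrthonormalBasis ℝ V with hb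
  have h1 : (y : EuclideanSpace ℝ ι) x =
      ∑ i, (inner ℝ (b i) y) * ((b i : EuclideanSpace ℝ ι) x) := by
    conv_lhs => rw [← b.sum_repr' y]
    simp
  rw [h1, ← b.sum_sq_inner_right y]
  exact Finset.sum_mul_sq_le_sq_mul_sq _ _ _

theorem amen_dim {ι : Type*} [Fintype ι] (V : Submodule ℝ (EuclideanSpace ℝ ι))
    (w : ι → EuclideanSpace ℝ ι) (hw : ∀ x, w x ∈ V) (E δ : ℝ) (hE : ∀ x, ‖w x‖ ^ 2 ≤ E)
    (hδ : ∀ x, w x x = δ) : δ ^ 2 * Fintype.card ι ≤ E * Module.finrank ℝ V := by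
  set b := stdOrthonormalBasis ℝ V with hb
  have h1 : ∀ x, δ ^ 2 ≤ E * ∑ i, ((b i : EuclideanSpace ℝ ι) x) ^ 2 := by
    intro x
    have h := amen_coord V ⟨w x, hw x⟩ x
    have h2 : ‖(⟨w x, hw x⟩ : V)‖ = ‖w x‖ := rfl
    rw [h2] at h
    have h3 : (((⟨w x, hw x⟩ : V) : EuclideanSpace ℝ ι) x) = δ := hδ x
    rw [h3] at h
    refine h.trans (mul_le_mul_of_nonneg_right (hE x) ?_)
    exact Finset.sum_nonneg fun i _ => sq_nonneg _
  have h2 : ∀ i, ∑ x, ((b i : EuclideanSpace ℝ ι) x) ^ 2 = 1 := by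
    intro i
    rw [← EuclideanSpace.real_norm_sq_eq]
    have : ‖(b i : EuclideanSpace ℝ ι)‖ = 1 := b.orthonormal.1 i
    rw [this]; norm_num
  calc δ ^ 2 * Fintype.card ι = ∑ _x : ι, δ ^ 2 := by
        simp [mul_comm]
    _ ≤ ∑ x : ι, E * ∑ i, ((b i : EuclideanSpace ℝ ι) x) ^ 2 :=
        Finset.sum_le_sum fun x _ => h1 x
    _ = E * Module.finrank ℝ V := by
        rw [← Finset.mul_sum, Finset.sum_comm]
        simp [h2]

theorem amen_rank {H A B : Type*} [AddCommGroup H] [Module ℝ H] [AddCommGroup A] [Module ℝ A]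
    [AddCommGroup B] [Module ℝ B] [FiniteDimensional ℝ B] (ρ : H →ₗ[ℝ] A) (res : H →ₗ[ℝ] B)
    (h : LinearMap.ker res ≤ LinearMap.ker ρ) :
    Module.finrank ℝ (LinearMap.range ρ) ≤ Module.finrank ℝ B := by
  have h1 : LinearMap.range ρ = LinearMap.range
      (((LinearMap.ker res).liftQ ρ h) ∘ₗ res.quotKerEquivRange.symm.toLinearMap) := by
    rw [LinearMap.range_comp_of_range_eq_top _ (LinearEquiv.range _), Submodule.range_liftQ]
  rw [h1]
  exact (LinearMap.finrank_range_le _).trans (Submodule.finrank_le _)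

/-- Harmonic functions. -/
def harmSub (S : Finset Γ) : Submodule ℝ (Γ → ℝ) where
  carrier := {w | ∀ x, ∑ s ∈ S, (w (x * s) - w x) = 0}
  add_mem' := by
    intro a b ha hb x
    have : ∑ s ∈ S, ((a + b) (x * s) - (a + b) x) =
        ∑ s ∈ S, (a (x * s) - a x) + ∑ s ∈ S, (b (x * s) - b x) := by
      rw [← Finset.sum_add_distrib]
      refine Finset.sum_congr rfl fun s _ => ?_
      simp only [Pi.add_apply]; ring
    rw [this, ha x, hb x, add_zero]
  zero_mem' := by
    intro x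
    simp
  smul_mem' := by
    intro c a ha x
    have : ∑ s ∈ S, ((c • a) (x * s) - (c • a) x) = c * ∑ s ∈ S, (a (x * s) - a x) := by
      rw [Finset.mul_sum]
      refine Finset.sum_congr rfl fun s _ => ?_
      simp only [Pi.smul_apply, smul_eq_mul]; ring
    rw [this, ha x, mul_zero]

theorem amen_max (hS : Gen S) (F : Finset Γ) (w : Γ → ℝ) (hw : w ∈ harmSub S)
    (h0 : ∀ x ∈ F, (∃ s ∈ S, x * s ∉ F) → w x = 0) :
    (∀ x ∈ F, w x ≤ 0) ∨ ∀ x y, w x = w y := by
  by_cases hne : ∀ x ∈ F, w x ≤ 0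
  · exact Or.inl hne
  right
  push Not at hne
  obtain ⟨x0, hx0, hpos⟩ := hne
  obtain ⟨x1, hx1, hmax⟩ := F.exists_max_image w ⟨x0, hx0⟩
  have hm : 0 < w x1 := hpos.trans_le (hmax x0 hx0)
  have step : ∀ x, x ∈ F → w x = w x1 → ∀ s ∈ S, x * s ∈ F ∧ w (x * s) = w x1 := by
    intro x hx hwx
    have hin : ∀ s ∈ S, x * s ∈ F := by
      intro s hs
      by_contra hc
      have := h0 x hx ⟨s, hs, hc⟩
      linarith
    have hle : ∀ s ∈ S, w (x * s) - w x ≤ 0 := by
      intro s hs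
      have := hmax _ (hin s hs)
      linarith
    have hz := (Finset.sum_eq_zero_iff_of_nonpos hle).1 (hw x)
    intro s hs
    refine ⟨hin s hs, ?_⟩
    have := hz s hs
    linarith
  have all : ∀ n : ℕ, ∀ g ∈ (S : Set Γ) ^ n, x1 * g ∈ F ∧ w (x1 * g) = w x1 := by
    intro n
    induction n with
    | zero =>
      intro g hg
      have : g = 1 := by simpa using hg
      subst this
      simpa using hx1
    | succ n ih =>
      intro g hg
      rw [pow_succ] at hg
      obtain ⟨a, ha, s, hs, rfl⟩ := hg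
      have := step _ (ih a ha).1 (ih a ha).2 s hs
      simpa [mul_assoc] using this
  have hc : ∀ x, w x = w x1 := by
    intro x
    obtain ⟨n, hn⟩ := hS.gen (x1⁻¹ * x)
    have := (all n _ hn).2
    simpa using this
  intro x y
  rw [hc x, hc y]

theorem amen_uniq (hS : Gen S) (F : Finset Γ) (w : Γ → ℝ) (hw : w ∈ harmSub S)
    (h0 : ∀ x ∈ F, (∃ s ∈ S, x * s ∉ F) → w x = 0) :
    ∀ x ∈ F, ∀ y ∈ F, w x = w y := by
  intro x hx y hy
  rcases amen_max hS F w hw h0 with h1 | h1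
  · rcases amen_max hS F (-w) (neg_mem hw) (fun z hz h => by simp [h0 z hz h]) with h2 | h2
    · have a1 := h1 x hx
      have a2 := h1 y hy
      have a3 := h2 x hx
      have a4 := h2 y hy
      simp only [Pi.neg_apply] at a3 a4
      linarith
    · have := h2 x y
      simp only [Pi.neg_apply] at this
      linarith
  · exact h1 x y

theorem amen_energy (v : Γ → ℝ) (s0 : Γ) (hsum : Summable fun x => (v (x * s0) - v x) ^ 2)
    (I : Finset Γ) (g : Γ) :
    ∑ y : I, (v (g * (y.1 * s0)) - v (g * y.1)) ^ 2 ≤ ∑' x, (v (x * s0) - v x) ^ 2 := by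
  have e1 : ∑ y : I, (v (g * (y.1 * s0)) - v (g * y.1)) ^ 2 =
      ∑ y ∈ I, (v (g * y * s0) - v (g * y)) ^ 2 := by
    rw [← Finset.sum_coe_sort I]
    refine Finset.sum_congr rfl fun y _ => ?_
    rw [mul_assoc g y.1 s0]
  have hs2 : Summable fun y => (v (g * y * s0) - v (g * y)) ^ 2 :=
    hsum.comp_injective (mul_right_injective g)
  have e2 : ∑' y, (v (g * y * s0) - v (g * y)) ^ 2 = ∑' x, (v (x * s0) - v x) ^ 2 :=
    (Equiv.mulLeft g).tsum_eq fun x => (v (x * s0) - v x) ^ 2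
  rw [e1, ← e2]
  exact hs2.sum_le_tsum I fun y _ => sq_nonneg _

theorem amen_count (hS : Gen S) (v : Γ → ℝ) (hv : v ∈ harmSub S) {s0 : Γ} (_hs0 : s0 ∈ S)
    (hsum : Summable fun x => (v (x * s0) - v x) ^ 2) (x0 : Γ) (F I B : Finset Γ)
    (hI : ∀ x ∈ I, x ∈ F ∧ x * s0 ∈ F) (hB : ∀ x ∈ F, (∃ s ∈ S, x * s ∉ F) → x ∈ B) :
    (v (x0 * s0) - v x0) ^ 2 * I.card ≤ (∑' x, (v (x * s0) - v x) ^ 2) * B.card := by
  let ρ : harmSub S →ₗ[ℝ] EuclideanSpace ℝ I :=
    { toFun := fun w => WithLp.toLp 2 fun x : I => w.1 (x.1 * s0) - w.1 x.1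
      map_add' := by
        intro a b
        ext x
        simp only [Submodule.coe_add, Pi.add_apply, PiLp.add_apply]
        ring
      map_smul' := by
        intro c a
        ext x
        simp only [Submodule.coe_smul, Pi.smul_apply, PiLp.smul_apply, smul_eq_mul,
          RingHom.id_apply]
        ring }
  let res : harmSub S →ₗ[ℝ] (B → ℝ) :=
    { toFun := fun w x => w.1 x.1
      map_add' := fun _ _ => rfl
      map_smul' := fun _ _ => rfl }
  have hker : LinearMap.ker res ≤ LinearMap.ker ρ := by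
    intro w hw
    rw [LinearMap.mem_ker] at hw ⊢
    have h0 : ∀ x ∈ F, (∃ s ∈ S, x * s ∉ F) → w.1 x = 0 := fun x hx h =>
      congrFun hw ⟨x, hB x hx h⟩
    ext x
    have := amen_uniq hS F w.1 w.2 h0 _ (hI x.1 x.2).2 _ (hI x.1 x.2).1
    show w.1 (x.1 * s0) - w.1 x.1 = 0
    rw [this, sub_self]
  have hrank := amen_rank ρ res hker
  have hB' : Module.finrank ℝ (B → ℝ) = B.card := by simp
  rw [hB'] at hrank
  have htr : ∀ g : Γ, (fun y => v (g * y)) ∈ harmSub S := by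
    intro g y
    have := hv (g * y)
    simpa [mul_assoc] using this
  have hE0 : 0 ≤ ∑' x, (v (x * s0) - v x) ^ 2 := tsum_nonneg fun x => sq_nonneg _
  have key := amen_dim (LinearMap.range ρ) (fun x : I => ρ ⟨_, htr (x0 * x.1⁻¹)⟩)
    (fun x => LinearMap.mem_range_self _ _) (∑' x, (v (x * s0) - v x) ^ 2)
    (v (x0 * s0) - v x0) ?_ ?_
  · rw [Fintype.card_coe] at key
    refine key.trans (mul_le_mul_of_nonneg_left ?_ hE0)
    exact_mod_cast hrank
  · intro x
    rw [EuclideanSpace.real_norm_sq_eq]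
    exact amen_energy v s0 hsum I (x0 * x.1⁻¹)
  · intro x
    show v (x0 * x.1⁻¹ * (x.1 * s0)) - v (x0 * x.1⁻¹ * x.1) = _
    simp [mul_assoc]

theorem amen_harm (hS : Gen S) (hF : Folner S) (v : Γ → ℝ) (hv : v ∈ harmSub S) {s0 : Γ}
    (hs0 : s0 ∈ S) (hsum : Summable fun x => (v (x * s0) - v x) ^ 2) (x0 : Γ) :
    v (x0 * s0) = v x0 := by
  classical
  by_contra hne
  set E := ∑' x, (v (x * s0) - v x) ^ 2 with hE
  set d := (v (x0 * s0) - v x0) ^ 2 with hd
  have hd0 : 0 < d := sq_pos_of_ne_zero (sub_ne_zero.2 hne)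
  have hE0 : 0 ≤ E := tsum_nonneg fun x => sq_nonneg _
  have hpos : 0 < d / (2 * (d + E)) := by positivity
  obtain ⟨F, hFne, hFb⟩ := hF _ hpos
  set B := F.filter fun x => ∃ s ∈ S, x * s ∉ F with hB
  set I := F.filter fun x => ¬ ∃ s ∈ S, x * s ∉ F with hI
  have hset : ({x | x ∈ F ∧ ∃ s ∈ S, x * s ∉ F} : Set Γ) = (B : Set Γ) := by
    ext x
    simp [hB]
  rw [hset, Set.ncard_coe_finset] at hFb
  have hcard : (B.card : ℝ) + I.card = F.card := by
    exact_mod_cast Finset.card_filter_add_card_filter_not (s := F) _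
  have key := amen_count hS v hv hs0 hsum x0 F I B ?_ ?_
  · have hF0 : (0 : ℝ) < F.card := by exact_mod_cast hFne.card_pos
    rw [← hE, ← hd] at key
    have h1 : (d + E) * B.card ≤ (d + E) * (d / (2 * (d + E)) * F.card) :=
      mul_le_mul_of_nonneg_left hFb (by positivity)
    have h2 : (d + E) * (d / (2 * (d + E)) * F.card) = d * F.card / 2 := by
      field_simp
    have h3 : d * F.card = d * B.card + d * I.card := by rw [← hcard]; ring
    have h4 : 0 < d * F.card := mul_pos hd0 hF0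
    nlinarith
  · intro x hx
    rw [hI, Finset.mem_filter] at hx
    refine ⟨hx.1, ?_⟩
    by_contra hc
    exact hx.2 ⟨s0, hs0, hc⟩
  · intro x hx h
    rw [hB, Finset.mem_filter]
    exact ⟨hx, h⟩

end Vale.Agent.P239
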