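import Vale.Agent.P239.Core2

/-! Basic graph lemmas: tails, components, fillings. -/

namespace Vale.Agent.P239

open scoped Pointwise symmDiff
open Filter Topology

variable {Γ : Type*} [Group Γ] {S : Finset Γ} {r : ℕ}

theorem mem_tails {C : Set Γ} {x : Γ} : x ∈ tails S C ↔ ∃ s ∈ S, ¬ (x ∈ C ↔ x * s ∈ C) :=
  ⟨fun ⟨s, h⟩ => ⟨s.1, s.2, h⟩, fun ⟨s, hs, h⟩ => ⟨⟨s, hs⟩, h⟩⟩

theorem tail_mem {C : Set Γ} {e : Γ × S} (h : e ∈ cob S C) : e.1 ∈ tails S C := ⟨e.2, h⟩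

theorem head_mem (hS : Gen S) {C : Set Γ} {e : Γ × S} (h : e ∈ cob S C) :
    e.1 * e.2 ∈ tails S C := by
  refine mem_tails.2 ⟨(e.2 : Γ)⁻¹, hS.inv _ e.2.2, fun h' => h ?_⟩
  rw [mul_inv_cancel_right] at h'
  exact h'.symm

@[simp] theorem tails_compl (C : Set Γ) : tails S Cᶜ = tails S C := by
  unfold tails
  rw [cob_compl]

theorem tails_tr (g : Γ) (C : Set Γ) : tails S (tr g C) = tr g (tails S C) := by
  ext x
  simp only [mem_tr, mem_tails, mul_assoc]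

theorem tails_inter (C C' : Set Γ) : tails S (C ∩ C') ⊆ tails S C ∪ tails S C' := by
  intro x hx
  obtain ⟨s, hs, h⟩ := mem_tails.1 hx
  by_cases h1 : (x ∈ C ↔ x * s ∈ C)
  · exact Or.inr (mem_tails.2 ⟨s, hs, fun h2 => h (and_congr h1 h2)⟩)
  · exact Or.inl (mem_tails.2 ⟨s, hs, h1⟩)

theorem tails_union (C C' : Set Γ) : tails S (C ∪ C') ⊆ tails S C ∪ tails S C' := by
  intro x hx
  obtain ⟨s, hs, h⟩ := mem_tails.1 hx
  by_cases h1 : (x ∈ C ↔ x * s ∈ C)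
  · exact Or.inr (mem_tails.2 ⟨s, hs, fun h2 => h (or_congr h1 h2)⟩)
  · exact Or.inl (mem_tails.2 ⟨s, hs, h1⟩)

theorem tails_symmDiff (C C' : Set Γ) : tails S (C ∆ C') ⊆ tails S C ∪ tails S C' := by
  intro x hx
  obtain ⟨s, hs, h⟩ := mem_tails.1 hx
  by_cases h1 : (x ∈ C ↔ x * s ∈ C)
  · refine Or.inr (mem_tails.2 ⟨s, hs, fun h2 => h ?_⟩)
    simp only [Set.mem_symmDiff, h1, h2]
  · exact Or.inl (mem_tails.2 ⟨s, hs, h1⟩)

theorem cob_finite_iff {C : Set Γ} : (cob S C).Finite ↔ (tails S C).Finite :=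
  ⟨fun h => tails_finite h, fun h => (edges_finite h).subset fun _ he => tail_mem he⟩

theorem tails_congr_fin (hS : Gen S) {C C' : Set Γ} (h : (C ∆ C').Finite) :
    (tails S C \ tails S C').Finite := by
  refine (cob_finite_iff.1 (cob_finite_of_finite hS h)).subset fun x hx => ?_
  have h1 : x ∈ tails S ((C ∆ C') ∆ C') := by
    rw [symmDiff_symmDiff_cancel_right]
    exact hx.1
  exact (tails_symmDiff _ _ h1).resolve_right hx.2

/-- Infinitely many wall points lie on each side. -/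
theorem tails_inter_infinite (hS : Gen S) {C : Set Γ} (h : (tails S C).Infinite) :
    (tails S C ∩ C).Infinite := by
  intro hf
  refine h ((nbhd_finite' hS 1 hf).subset fun x hx => ?_)
  by_cases hc : x ∈ C
  · exact ⟨x, ⟨hx, hc⟩, Near.refl hS _ _⟩
  · obtain ⟨s, hs⟩ := hx
    refine ⟨x * s, ⟨head_mem hS hs, ?_⟩, near_step x s.2⟩
    by_contra h2
    exact hs (iff_of_false hc h2)

/-- Edges of the wall not having both ends in `Ω`. -/
theorem cob_out_finite (hS : Gen S) {C Ω : Set Γ} (h : (tails S C \ Ω).Finite) :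
    {e | e ∈ cob S C ∧ ¬ (e.1 ∈ Ω ∧ e.1 * e.2 ∈ Ω)}.Finite := by
  refine (edges_finite (nbhd_finite' hS 1 h)).subset fun e he => ?_
  by_cases h1 : e.1 ∈ Ω
  · exact ⟨e.1 * e.2, ⟨head_mem hS he.1, fun h2 => he.2 ⟨h1, h2⟩⟩, near_edge e⟩
  · exact ⟨e.1, ⟨tail_mem he.1, h1⟩, Near.refl hS _ _⟩

theorem Conn.const {Ω C : Set Γ} (h : Conn S Ω) (hC : ∀ x ∈ Ω, x ∉ tails S C) :
    Ω ⊆ C ∨ Ω ⊆ Cᶜ := by
  have h1 := h C fun e he _ hc => hC _ he (tail_mem hc)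
  by_cases h2 : ∃ x ∈ Ω, x ∈ C
  · obtain ⟨x, hx, hxC⟩ := h2
    exact Or.inl fun y hy => (h1 x hx y hy).1 hxC
  · exact Or.inr fun y hy hc => h2 ⟨y, hy, hc⟩

theorem conn_univ (hS : Gen S) : Conn S (Set.univ : Set Γ) := by
  intro A hA x _ y _
  obtain ⟨n, hn⟩ := hS.exists_near x y
  exact ball_const hS (fun e _ => hA e trivial trivial) hn

theorem conn_ball (hS : Gen S) (n : ℕ) (x : Γ) : Conn S {y | Near S n x y} := by
  have h1 : CConn S 0 ({x} : Set Γ) := by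
    rintro A _ y rfl z rfl
    rfl
  have h2 := h1.thick hS (Nat.zero_le n)
  simpa using h2

theorem conn_sUnion {F : Set (Set Γ)} {p : Γ} (h : ∀ X ∈ F, Conn S X ∧ p ∈ X) :
    Conn S (⋃₀ F) := by
  intro A hA
  have h1 : ∀ X ∈ F, ∀ x ∈ X, (p ∈ A ↔ x ∈ A) := fun X hX x hx =>
    (h X hX).1 A (fun e h1 h2 => hA e ⟨X, hX, h1⟩ ⟨X, hX, h2⟩) p (h X hX).2 x hx
  rintro x ⟨X, hX, hx⟩ y ⟨Y, hY, hy⟩
  exact (h1 X hX x hx).symm.trans (h1 Y hY y hy)

theorem Conn.union {X Y : Set Γ} (hX : Conn S X) (hY : Conn S Y) (h : (X ∩ Y).Nonempty) :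
    Conn S (X ∪ Y) := by
  obtain ⟨p, hp⟩ := h
  rw [← Set.sUnion_pair]
  refine conn_sUnion (p := p) ?_
  rintro Z (rfl | rfl)
  exacts [⟨hX, hp.1⟩, ⟨hY, hp.2⟩]

theorem Conn.tr {X : Set Γ} (h : Conn S X) (g : Γ) : Conn S (tr g X) := by
  intro A hA x hx y hy
  have := h {z | g * z ∈ A} (fun e h1 h2 hc => hA (g * e.1, e.2) (by simpa using h1)
    (by simpa [mul_assoc] using h2) (by simpa [mul_assoc] using hc)) (g⁻¹ * x) hx (g⁻¹ * y) hy
  simpa using this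

theorem tails_nonempty (hS : Gen S) {C : Set Γ} (h1 : C.Nonempty) (h2 : Cᶜ.Nonempty) :
    (tails S C).Nonempty := by
  by_contra hc
  obtain ⟨x, hx⟩ := h1
  obtain ⟨y, hy⟩ := h2
  rcases (conn_univ hS).const (C := C) (fun z _ hz => hc ⟨z, hz⟩) with h | h
  · exact hy (h trivial)
  · exact h trivial hx

theorem cmp_subset (U : Set Γ) (x : Γ) : cmp S U x ⊆ U := fun _ hy => comp_subset hy.1 hy.2

theorem cmp_conn (U : Set Γ) (x : Γ) : Conn S (cmp S U x) := by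
  intro A hA y hy z hz
  exact comp_conn U x A (fun e h1 h2 => hA e ⟨hy.1, h1⟩ ⟨hy.1, h2⟩) y hy.2 z hz.2

theorem mem_cmp_self {U : Set Γ} {x : Γ} (h : x ∈ U) : x ∈ cmp S U x := ⟨h, mem_comp_self U x⟩

theorem cmp_step {U : Set Γ} {x y s : Γ} (hy : y ∈ cmp S U x) (hs : s ∈ S) (h : y * s ∈ U) :
    y * s ∈ cmp S U x := ⟨hy.1, comp_step hy.2 hs h⟩

theorem cmp_edge (hS : Gen S) {U : Set Γ} (x : Γ) {y s : Γ} (hs : s ∈ S) (h1 : y ∈ U)
    (h2 : y * s ∈ U) : y ∈ cmp S U x ↔ y * s ∈ cmp S U x := by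
  refine ⟨fun h => cmp_step h hs h2, fun h => ?_⟩
  have := cmp_step h (hS.inv s hs) (by simpa using h1)
  simpa using this

theorem Conn.sub_cmp (hS : Gen S) {Ω U : Set Γ} (h : Conn S Ω) (hU : Ω ⊆ U) {x y : Γ}
    (hy : y ∈ Ω) (hx : y ∈ cmp S U x) : Ω ⊆ cmp S U x := fun z hz =>
  (h (cmp S U x) (fun e h1 h2 hc => hc (cmp_edge hS x e.2.2 (hU h1) (hU h2))) y hy z hz).1 hx

theorem cmp_eq (hS : Gen S) {U : Set Γ} {x y : Γ} (h : y ∈ cmp S U x) :
    cmp S U y = cmp S U x := by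
  have hy := mem_cmp_self (S := S) (cmp_subset U x h)
  exact Set.Subset.antisymm ((cmp_conn U y).sub_cmp hS (cmp_subset U y) hy h)
    ((cmp_conn U x).sub_cmp hS (cmp_subset U x) h hy)

theorem cmp_eq_of_mem (hS : Gen S) {U : Set Γ} {x x' y : Γ} (h : y ∈ cmp S U x)
    (h' : y ∈ cmp S U x') : cmp S U x = cmp S U x' := (cmp_eq hS h).symm.trans (cmp_eq hS h')

theorem cmp_mono {U U' : Set Γ} (h : U ⊆ U') (x : Γ) : cmp S U x ⊆ cmp S U' x := by
  rintro y ⟨hx, hy⟩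
  refine ⟨h hx, ?_⟩
  induction hy with
  | refl => exact mem_comp_self _ _
  | tail _ h2 ih =>
    obtain ⟨hc, s, hs, rfl⟩ := h2
    exact comp_step ih hs (h hc)

theorem cmp_tr_aux (g : Γ) {U : Set Γ} {x y : Γ} (h : y ∈ cmp S U x) :
    g * y ∈ cmp S (tr g U) (g * x) := by
  obtain ⟨hx, hy⟩ := h
  refine ⟨by simpa using hx, ?_⟩
  induction hy with
  | refl => exact mem_comp_self _ _
  | tail _ h2 ih =>
    obtain ⟨hc, s, hs, rfl⟩ := h2
    rw [← mul_assoc]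
    exact comp_step ih hs (by simpa [mul_assoc] using hc)

theorem cmp_tr (g : Γ) (U : Set Γ) (x : Γ) :
    tr g (cmp S U x) = cmp S (tr g U) (g * x) := by
  ext y
  constructor
  · intro h
    simpa using cmp_tr_aux g (mem_tr.1 h)
  · intro h
    have := cmp_tr_aux g⁻¹ h
    rw [tr_tr, inv_mul_cancel, tr_one, inv_mul_cancel_left] at this
    exact this

end Vale.Agent.P239
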