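import Vale.Agent.P239.BasC

/-! Basic graph lemmas: fillings and coarse components. -/

namespace Vale.Agent.P239

open scoped Pointwise symmDiff
open Filter Topology

variable {Γ : Type*} [Group Γ] {S : Finset Γ} {r : ℕ}

/-- A defect of a part of a wall sees wall points inside and outside the part. -/
theorem def_split {C Y : Set Γ} {x : Γ} (h : x ∈ Def S r {e | e ∈ cob S C ∧ e.1 ∈ Y}) :
    (∃ y ∈ tails S C, y ∈ Y ∧ Near S r x y) ∧ ∃ y ∈ tails S C, y ∉ Y ∧ Near S r x y := by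
  refine ⟨?_, ?_⟩
  · obtain ⟨e, he, hn⟩ := Def.exists_edge h
    exact ⟨e.1, tail_mem he.1, he.2, hn⟩
  · by_contra hc
    refine h ⟨C, fun e he => ⟨fun h1 => h1.1, fun h1 => ⟨h1, ?_⟩⟩⟩
    by_contra hY
    exact hc ⟨e.1, tail_mem h1, hY, he⟩

theorem Ifc.fill (hI : Ifc S r) (k : ℕ) : ∃ M : ℕ, ∀ W : Set (Γ × S), (Def S r W).Finite →
    (Def S r W).ncard ≤ k → ∃ (β : Set (Γ × S)) (A : Set Γ), β.Finite ∧
      (∀ e ∈ β, ∃ x ∈ Def S r W, Near S M x e.1) ∧ W ∆ β = cob S A := by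
  obtain ⟨w, hw⟩ := hI.hc2
  obtain ⟨M, hM⟩ := hw k
  exact ⟨M, fun W h1 h2 => hM W h1 fun x hx => ⟨_, h1, h2, hx, fun _ _ z hz _ => hz⟩⟩

theorem BasD_tr_ncard (g : Γ) (K : Set Γ) : (tr g K).ncard = K.ncard := by
  have : tr g K = (fun x => g * x) '' K := by
    ext x
    simp only [mem_tr, Set.mem_image]
    exact ⟨fun h => ⟨_, h, by simp⟩, by rintro ⟨y, hy, rfl⟩; simpa using hy⟩
  rw [this, Set.ncard_image_of_injective _ (mul_right_injective g)]

/-- A finite edge set with localized defect is the coboundary of a finite set off a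
localized region. -/
theorem Ifc.fill_fin (hS : Gen S) (hI : Ifc S r) {K : Set Γ} (hK : K.Finite) :
    ∃ K' : Set Γ, K'.Finite ∧ ∀ (g : Γ) (W : Set (Γ × S)), W.Finite → Def S r W ⊆ tr g K →
      ∃ F : Set Γ, F.Finite ∧ ∀ e : Γ × S, e.1 ∉ tr g K' → (e ∈ W ↔ e ∈ cob S F) := by
  obtain ⟨M, hM⟩ := hI.fill K.ncard
  refine ⟨{y | ∃ x ∈ K, Near S M x y}, nbhd_finite M hK, fun g W hW hD => ?_⟩
  obtain ⟨β, A, hβ, hn, hA⟩ := hM W (Def.finite hS hW)
    ((Set.ncard_le_ncard hD (tr_finite g hK)).trans (BasD_tr_ncard g K).le)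
  have hfin : (cob S A).Finite := by
    rw [← hA]
    exact (hW.union hβ).subset Set.symmDiff_subset_union
  have key : ∀ e : Γ × S, e.1 ∉ tr g {y | ∃ x ∈ K, Near S M x y} → (e ∈ W ↔ e ∈ cob S A) := by
    intro e he
    have h1 : e ∉ β := fun hb => by
      obtain ⟨x, hx, h2⟩ := hn e hb
      exact he ⟨g⁻¹ * x, hD hx, (near_mul_left _ _ _).2 h2⟩
    rw [← hA, Set.mem_symmDiff]
    tauto
  rcases hI.hb A hfin with h | h
  · exact ⟨A, h, key⟩
  · exact ⟨Aᶜ, h, fun e he => by rw [cob_compl]; exact key e he⟩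

/-- A part of a wall with finite defect is a wall up to finitely many edges. -/
theorem Ifc.part (hS : Gen S) (hI : Ifc S r) {A Y : Set Γ}
    (h : (Def S r {e | e ∈ cob S A ∧ e.1 ∈ Y}).Finite) :
    ∃ C : Set Γ, ({e | e ∈ cob S A ∧ e.1 ∈ Y} ∆ cob S C).Finite := by
  obtain ⟨M, hM⟩ := hI.fill (Def S r {e | e ∈ cob S A ∧ e.1 ∈ Y}).ncard
  obtain ⟨β, C, hβ, -, hC⟩ := hM _ h le_rfl
  refine ⟨C, ?_⟩
  rw [← hC, symmDiff_symmDiff_cancel_left]
  exact hβ

theorem Ifc.fin_or (hI : Ifc S r) {C : Set Γ} (h : (tails S C).Finite) :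
    C.Finite ∨ Cᶜ.Finite := hI.hb C (cob_finite_iff.2 h)

/-- The wall of a set with connected sides is coarsely connected. -/
theorem Ifc.wc (hS : Gen S) (hI : Ifc S r) {A : Set Γ} (h1 : Conn S A) (h2 : Conn S Aᶜ) :
    CConn S (2 * r) (tails S A) := by
  intro B hB
  have hD : Def S r {e | e ∈ cob S A ∧ e.1 ∈ B} = ∅ := by
    refine Set.eq_empty_of_forall_notMem fun x hx => ?_
    obtain ⟨⟨y, hy, hyB, hxy⟩, z, hz, hzB, hxz⟩ := def_split hx
    have h3 : Near S (2 * r) y z := by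
      rw [two_mul]
      exact (hxy.symm hS).trans hxz
    exact hzB ((hB y hy z hz h3).1 hyB)
  obtain ⟨E, hE⟩ := hI.ha _ hD
  have hE' : ∀ e : Γ × S, (e ∈ cob S A ∧ e.1 ∈ B) ↔ e ∈ cob S E := fun e => by
    rw [← hE]; rfl
  have c1 := h1 E fun e h3 h4 h5 => ((hE' e).2 h5).1 (iff_of_true h3 h4)
  have c2 := h2 E fun e h3 h4 h5 => ((hE' e).2 h5).1 (iff_of_false h3 h4)
  have key : ∀ x ∈ tails S A, ∀ y ∈ tails S A, x ∈ B → y ∈ B := by
    rintro x ⟨s, hs⟩ y ⟨t, ht⟩ hx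
    have h3 := (hE' (x, s)).1 ⟨hs, hx⟩
    refine ((hE' (y, t)).2 ?_).2
    simp only [mem_cob] at hs ht h3 ⊢
    by_cases hxA : x ∈ A <;> by_cases hyA : y ∈ A
    · have a1 : x * s ∉ A := fun h => hs (iff_of_true hxA h)
      have a2 : y * t ∉ A := fun h => ht (iff_of_true hyA h)
      rw [← c1 x hxA y hyA, ← c2 _ a1 _ a2]
      exact h3
    · have a1 : x * s ∉ A := fun h => hs (iff_of_true hxA h)
      have a2 : y * t ∈ A := by
        by_contra h
        exact ht (iff_of_false hyA h)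
      rw [← c1 x hxA _ a2, ← c2 _ a1 y hyA]
      exact fun h => h3 h.symm
    · have a1 : x * s ∈ A := by
        by_contra h
        exact hs (iff_of_false hxA h)
      have a2 : y * t ∉ A := fun h => ht (iff_of_true hyA h)
      rw [← c1 _ a1 y hyA, ← c2 x hxA _ a2]
      exact fun h => h3 h.symm
    · have a1 : x * s ∈ A := by
        by_contra h
        exact hs (iff_of_false hxA h)
      have a2 : y * t ∈ A := by
        by_contra h
        exact ht (iff_of_false hyA h)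
      rw [← c1 _ a1 _ a2, ← c2 x hxA y hyA]
      exact h3
  exact fun x hx y hy => ⟨key x hx y hy, key y hy x hx⟩

/-- The corner opposite to both walls is trivial. -/
theorem BasD_corner (hS : Gen S) {A B : Set Γ} (hA : tails S A ⊆ B) (hB : tails S B ⊆ A) :
    Aᶜ ∩ Bᶜ = ∅ ∨ A ∩ B = ∅ := by
  have h0 : ∀ x ∈ (Set.univ : Set Γ), x ∉ tails S (Aᶜ ∩ Bᶜ) := by
    rintro x - ⟨s, hs⟩
    simp only [mem_cob, Set.mem_inter_iff, Set.mem_compl_iff] at hs
    have a1 : ¬ (x ∈ A ↔ x * s ∈ A) → x ∈ B ∧ x * s ∈ B := fun h =>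
      ⟨hA (tail_mem (e := (x, s)) h), hA (head_mem hS (e := (x, s)) h)⟩
    have a2 : ¬ (x ∈ B ↔ x * s ∈ B) → x ∈ A ∧ x * s ∈ A := fun h =>
      ⟨hB (tail_mem (e := (x, s)) h), hB (head_mem hS (e := (x, s)) h)⟩
    tauto
  rcases (conn_univ hS).const h0 with h | h
  · refine Or.inr (Set.eq_empty_of_forall_notMem fun x hx => ?_)
    exact (h (Set.mem_univ x)).1 hx.1
  · exact Or.inl (Set.eq_empty_of_forall_notMem fun x hx => h (Set.mem_univ x) hx)

theorem BasD_side (hS : Gen S) {w : ℕ} {A B : Set Γ} (hA : CConn S w (tails S A))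
    (h : ∀ x ∈ tails S A, ∀ y ∈ tails S B, ¬ Near S w x y) :
    tails S A ⊆ B ∨ tails S A ⊆ Bᶜ := by
  have h1 : tails S A ⊆ {y | ∃ x ∈ tails S A, Near S w x y} :=
    fun x hx => ⟨x, hx, Near.refl hS _ _⟩
  rcases (hA.thick hS le_rfl).const (C := B) (by
    rintro y ⟨x, hx, hxy⟩ hy
    exact h x hx y hy hxy) with h2 | h2
  · exact Or.inl (h1.trans h2)
  · exact Or.inr (h1.trans h2)

/-- Sets with coarsely connected distant walls are nested. -/
theorem nested_of_far (hS : Gen S) {w : ℕ} {A B : Set Γ} (hA : CConn S w (tails S A))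
    (hB : CConn S w (tails S B))
    (h : ∀ x ∈ tails S A, ∀ y ∈ tails S B, ¬ Near S w x y) : Nested A B := by
  have h' : ∀ x ∈ tails S B, ∀ y ∈ tails S A, ¬ Near S w x y :=
    fun x hx y hy hn => h y hy x hx (hn.symm hS)
  unfold Nested
  rcases BasD_side hS hA h with h1 | h1 <;> rcases BasD_side hS hB h' with h2 | h2
  · rcases BasD_corner hS h1 h2 with h3 | h3 <;> tauto
  · rcases BasD_corner hS (A := Aᶜ) (B := B) (by rwa [tails_compl]) h2 with h3 | h3
    · rw [compl_compl] at h3; tauto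
    · tauto
  · rcases BasD_corner hS (A := A) (B := Bᶜ) h1 (by rwa [tails_compl]) with h3 | h3
    · rw [compl_compl] at h3; tauto
    · tauto
  · rcases BasD_corner hS (A := Aᶜ) (B := Bᶜ) (by rwa [tails_compl]) (by rwa [tails_compl])
      with h3 | h3
    · rw [compl_compl, compl_compl] at h3; tauto
    · tauto

/-- Coarse component. -/
def ccomp (S : Finset Γ) (w : ℕ) (T : Set Γ) (x : Γ) : Set Γ :=
  {y | Relation.ReflTransGen (fun a b => b ∈ T ∧ Near S w a b) x y}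

theorem mem_ccomp_self (w : ℕ) (T : Set Γ) (x : Γ) : x ∈ ccomp S w T x :=
  Relation.ReflTransGen.refl

theorem ccomp_step {w : ℕ} {T : Set Γ} {x y z : Γ} (hy : y ∈ ccomp S w T x) (hz : z ∈ T)
    (h : Near S w y z) : z ∈ ccomp S w T x := Relation.ReflTransGen.tail hy ⟨hz, h⟩

theorem ccomp_subset {w : ℕ} {T : Set Γ} {x : Γ} (hx : x ∈ T) : ccomp S w T x ⊆ T := by
  intro y hy
  induction hy with
  | refl => exact hx
  | tail _ h _ => exact h.1

theorem ccomp_cconn (w : ℕ) (T : Set Γ) (x : Γ) : CConn S w (ccomp S w T x) := by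
  intro A hA
  have : ∀ y ∈ ccomp S w T x, (x ∈ A ↔ y ∈ A) := by
    intro y hy
    induction hy with
    | refl => rfl
    | @tail b c hb h ih => exact ih.trans (hA b hb c (ccomp_step hb h.1 h.2) h.2)
  intro y hy z hz
  exact (this y hy).symm.trans (this z hz)

theorem ccomp_eq (hS : Gen S) {w : ℕ} {T : Set Γ} {x y : Γ} (hx : x ∈ T)
    (h : y ∈ ccomp S w T x) : ccomp S w T y = ccomp S w T x := by
  have h1 : x ∈ ccomp S w T y := by
    induction h with
    | refl => exact mem_ccomp_self _ _ _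
    | @tail b c hb h ih =>
      exact Relation.ReflTransGen.head ⟨ccomp_subset hx hb, h.2.symm hS⟩ ih
  ext z
  exact ⟨fun hz => Relation.ReflTransGen.trans h hz, fun hz => Relation.ReflTransGen.trans h1 hz⟩

/-- Removing a finite set creates only finitely many points in new finite components. -/
theorem ccomp_bad_finite (hS : Gen S) {w : ℕ} {T K : Set Γ} (hK : K.Finite)
    (hT : ∀ x ∈ T, (ccomp S w T x).Infinite) :
    {x | x ∈ T \ K ∧ (ccomp S w (T \ K) x).Finite}.Finite := by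
  have h1 : {a | (∃ b ∈ K, Near S w a b) ∧ (ccomp S w (T \ K) a).Finite}.Finite :=
    (nbhd_finite' hS w hK).subset fun a ha => ha.1
  refine (h1.biUnion (t := fun a => ccomp S w (T \ K) a) fun a ha => ha.2).subset ?_
  rintro x ⟨hx, hf⟩
  by_contra hc
  simp only [Set.mem_iUnion, not_exists] at hc
  refine hT x hx.1 (hf.subset fun y hy => ?_)
  induction hy with
  | refl => exact mem_ccomp_self _ _ _
  | @tail b c _ h ih =>
    refine ccomp_step ih ⟨h.1, fun hK' => ?_⟩ h.2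
    have h2 := ccomp_eq hS hx ih
    refine hc b ⟨⟨c, hK', h.2⟩, by rw [h2]; exact hf⟩ ?_
    rw [h2]
    exact mem_ccomp_self _ _ _

theorem CConn.mono (hS : Gen S) {w w' : ℕ} {T : Set Γ} (h : CConn S w T) (hw : w ≤ w') :
    CConn S w' T := fun A hA => h A fun x hx y hy hn => hA x hx y hy (hn.mono hS hw)

theorem CConn.insert (hS : Gen S) {w : ℕ} {T : Set Γ} (h : CConn S w T) {x z : Γ} (hx : x ∈ T)
    (hz : Near S w z x) : CConn S w (insert z T) := by
  intro A hA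
  have h1 := h A fun a ha b hb hn => hA a (Or.inr ha) b (Or.inr hb) hn
  have h2 : ∀ a ∈ Insert.insert z T, (a ∈ A ↔ x ∈ A) := by
    rintro a (rfl | ha)
    · exact hA _ (Or.inl rfl) x (Or.inr hx) hz
    · exact h1 a ha x hx
  exact fun a ha b hb => (h2 a ha).trans (h2 b hb).symm

theorem CConn.exists_pair (hS : Gen S) {w : ℕ} {T A : Set Γ} (h : CConn S w T) {x y : Γ}
    (hx : x ∈ T) (hy : y ∈ T) (h1 : x ∈ A) (h2 : y ∉ A) :
    ∃ x' ∈ T, ∃ y' ∈ T, Near S w x' y' ∧ x' ∈ A ∧ y' ∉ A := by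
  by_contra hc
  have h3 : ∀ a ∈ T, ∀ b ∈ T, Near S w a b → a ∈ A → b ∈ A := fun a ha b hb hn h4 => by
    by_contra h5
    exact hc ⟨a, ha, b, hb, hn, h4, h5⟩
  exact h2 ((h A (fun a ha b hb hn => ⟨h3 a ha b hb hn, h3 b hb a ha (hn.symm hS)⟩)
    x hx y hy).1 h1)

/-- Powers of a nontrivial element leave every finite set. -/
theorem pow_tendsto (htf : ∀ g : Γ, IsOfFinOrder g → g = 1) {g : Γ} (hg : g ≠ 1) :
    Tendsto (fun k : ℕ => g ^ k) atTop cofinite := by
  have h1 : Function.Injective fun k : ℕ => g ^ k :=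
    injective_pow_iff_not_isOfFinOrder.2 fun h => hg (htf g h)
  rw [← Nat.cofinite_eq_atTop]
  exact h1.tendsto_cofinite

end Vale.Agent.P239
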