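import Vale.Agent.P239.BasD

/-! Basic lemmas on the mean and the vote. -/

namespace Vale.Agent.P239

open scoped Pointwise symmDiff
open Filter Topology

variable {Γ : Type*} [Group Γ] {Z : Type*} [MetricSpace Z] [MulAction Γ Z] {D : Dat Γ Z}

namespace Dat

theorem h_one (C : Set Γ) : D.h C 1 = D.m C := by
  simp [h]

theorem h_tr (g : Γ) (C : Set Γ) (x : Γ) : D.h (tr g C) x = D.h C (g⁻¹ * x) := by
  simp only [h, mem_tr, mul_assoc]

theorem m_tr_inv (C : Set Γ) (x : Γ) : D.m (tr x⁻¹ C) = D.h C x := by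
  simp only [h, tr, inv_inv]

theorem mem_Th_tr {δ : ℝ} {g x : Γ} {C : Set Γ} :
    x ∈ D.Th δ (tr g C) ↔ g⁻¹ * x ∈ D.Th δ C := by
  simp only [Th, Set.mem_ofPred_eq, h_tr]

theorem Th_mono {δ δ' : ℝ} (h : δ ≤ δ') (C : Set Γ) : D.Th δ' C ⊆ D.Th δ C :=
  fun _ hx => ⟨h.trans hx.1, by linarith [hx.2]⟩

namespace OK

variable (H : D.OK)
include H

theorem c_pos : 0 < D.c := inv_pos.2 (Vote.card_pos H.gen)

theorem c_le_one : D.c ≤ 1 :=
  inv_le_one_of_one_le₀ (by exact_mod_cast Finset.card_pos.2 ⟨1, H.gen.one⟩)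

theorem h_nonneg (C : Set Γ) (x : Γ) : 0 ≤ D.h C x := H.mean.nonneg _

theorem h_le_one (C : Set Γ) (x : Γ) : D.h C x ≤ 1 := by
  have h1 := H.mean.add {y | x * y ∈ C} {y | x * y ∈ C}ᶜ disjoint_compl_right
  rw [Set.union_compl_self, H.mean.univ] at h1
  have h2 := H.mean.nonneg {y | x * y ∈ C}ᶜ
  unfold h
  linarith

theorem h_univ (x : Γ) : D.h Set.univ x = 1 := H.mean.univ

theorem h_add {C C' : Set Γ} (h : Disjoint C C') (x : Γ) :
    D.h (C ∪ C') x = D.h C x + D.h C' x :=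
  H.mean.add {y | x * y ∈ C} {y | x * y ∈ C'} (h.preimage fun y => x * y)

theorem h_mono {C C' : Set Γ} (h : C ⊆ C') (x : Γ) : D.h C x ≤ D.h C' x := by
  have h1 := H.h_add (C := C) (C' := C' \ C) Set.disjoint_sdiff_right x
  rw [Set.union_sdiff_cancel h] at h1
  linarith [H.h_nonneg (C' \ C) x]

theorem h_compl (C : Set Γ) (x : Γ) : D.h Cᶜ x = 1 - D.h C x := by
  have h1 := H.h_add (C := C) (C' := Cᶜ) disjoint_compl_right x
  rw [Set.union_compl_self, H.h_univ] at h1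
  linarith

theorem h_union_le (C C' : Set Γ) (x : Γ) : D.h (C ∪ C') x ≤ D.h C x + D.h C' x := by
  have h1 := H.h_add (C := C) (C' := C' \ C) Set.disjoint_sdiff_right x
  rw [Set.union_sdiff_self] at h1
  linarith [H.h_mono (C := C' \ C) (C' := C') Set.sdiff_subset x]

theorem h_diff (C B : Set Γ) (x : Γ) : D.h C x - D.h B x ≤ D.h (C \ B) x := by
  linarith [H.h_mono (Set.subset_sdiff_union C B) x, H.h_union_le (C \ B) B x]

theorem h_abs_sub (C C' : Set Γ) (x : Γ) : |D.h C x - D.h C' x| ≤ D.h (C ∆ C') x := by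
  rw [abs_le]
  constructor
  · linarith [H.h_diff C' C x, H.h_mono (C := C' \ C) (C' := C ∆ C') Set.subset_union_right x]
  · linarith [H.h_diff C C' x, H.h_mono (C := C \ C') (C' := C ∆ C') Set.subset_union_left x]

theorem h_fin {C : Set Γ} (h : C.Finite) (x : Γ) : D.h C x = 0 :=
  H.mean.fin _ (h.preimage (mul_right_injective x).injOn)

theorem h_mono_fin {C C' : Set Γ} (h : (C \ C').Finite) (x : Γ) : D.h C x ≤ D.h C' x := by
  linarith [H.h_diff C C' x, H.h_fin h x]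

theorem h_congr_fin {C C' : Set Γ} (h : (C ∆ C').Finite) (x : Γ) : D.h C x = D.h C' x := by
  have h1 := H.h_abs_sub C C' x
  rw [H.h_fin h x] at h1
  exact sub_eq_zero.1 (abs_nonpos_iff.1 h1)

theorem m_mono {C C' : Set Γ} (h : C ⊆ C') : D.m C ≤ D.m C' := by
  simpa only [h_one] using H.h_mono h 1

theorem m_le_one (C : Set Γ) : D.m C ≤ 1 := by
  simpa only [h_one] using H.h_le_one C 1

theorem m_compl (C : Set Γ) : D.m Cᶜ = 1 - D.m C := by
  simpa only [h_one] using H.h_compl C 1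

theorem m_union_le (C C' : Set Γ) : D.m (C ∪ C') ≤ D.m C + D.m C' := by
  simpa only [h_one] using H.h_union_le C C' 1

theorem m_mono_fin {C C' : Set Γ} (h : (C \ C').Finite) : D.m C ≤ D.m C' := by
  simpa only [h_one] using H.h_mono_fin h 1

theorem m_abs_sub (C C' : Set Γ) : |D.m C - D.m C'| ≤ D.m (C ∆ C') := by
  simpa only [h_one] using H.h_abs_sub C C' 1

theorem m_symmDiff_le (A B C : Set Γ) : D.m (A ∆ C) ≤ D.m (A ∆ B) + D.m (B ∆ C) :=
  (H.m_mono (symmDiff_triangle A B C)).trans (H.m_union_le _ _)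

/-- Pairwise disjoint sets of measure at least `δ` are finitely many. -/
theorem finite_of_disjoint {F : Set (Set Γ)} {δ : ℝ} (hδ : 0 < δ) (h1 : ∀ A ∈ F, δ ≤ D.m A)
    (h2 : F.Pairwise Disjoint) : F.Finite := by
  classical
  have key : ∀ T : Finset (Set Γ), ↑T ⊆ F → T.card * δ ≤ D.m (⋃₀ (T : Set (Set Γ))) := by
    intro T
    induction T using Finset.induction_on with
    | empty => intro _; simpa using H.mean.nonneg ∅
    | insert A T hA ih =>
      intro hT
      rw [Finset.coe_insert] at hT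
      have hAF := hT (Set.mem_insert _ _)
      have hTF := (Set.subset_insert _ _).trans hT
      rw [Finset.coe_insert, Set.sUnion_insert, H.mean.add _ _ (Set.disjoint_sUnion_right.2
        fun B hB => h2 hAF (hTF hB) fun e => hA (e ▸ hB)), Finset.card_insert_of_notMem hA]
      push_cast
      linarith [ih hTF, h1 A hAF]
  by_contra hF
  obtain ⟨n, hn⟩ := exists_nat_gt (1 / δ)
  obtain ⟨T, a, b⟩ := Set.Infinite.exists_subset_card_eq hF n
  have := (key T a).trans (H.m_le_one _)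
  rw [b] at this
  rw [div_lt_iff₀ hδ] at hn
  linarith

theorem h_harm (C : Set Γ) (x : Γ) : D.h C x = Vote.P D.S (D.h C) x := by
  have h1 := H.mean.harm {y | x * y ∈ C}
  simpa only [h, Vote.P, Set.mem_ofPred_eq, mul_assoc] using h1

/-- Harnack inequality for nonnegative superharmonic functions. -/
theorem harnack {f : Γ → ℝ} (h0 : ∀ x, 0 ≤ f x) (h1 : ∀ x, Vote.P D.S f x ≤ f x) {n : ℕ}
    {x y : Γ} (h : Near D.S n x y) : D.c ^ n * f y ≤ f x := by
  induction n generalizing y with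
  | zero => simp [near_zero.1 h]
  | succ n ih =>
    obtain ⟨z, s, hs, h2, rfl⟩ := near_succ.1 h
    have h3 : D.c * f (z * s) ≤ f z := by
      refine le_trans ?_ (h1 z)
      rw [c, Vote.P, inv_mul_eq_div]
      exact div_le_div_of_nonneg_right
        (Finset.single_le_sum (f := fun s => f (z * s)) (fun _ _ => h0 _) hs) (Nat.cast_nonneg _)
    rw [pow_succ, mul_assoc]
    exact (mul_le_mul_of_nonneg_left h3 (pow_pos H.c_pos n).le).trans (ih h2)

theorem harnack_h (C : Set Γ) {n : ℕ} {x y : Γ} (h : Near D.S n x y) :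
    D.c ^ n * D.h C y ≤ D.h C x :=
  H.harnack (H.h_nonneg C) (fun x => (H.h_harm C x).ge) h

theorem h_pos {C : Set Γ} {x : Γ} (h : 0 < D.h C x) (y : Γ) : 0 < D.h C y := by
  obtain ⟨n, hn⟩ := H.gen.exists_near y x
  exact (mul_pos (pow_pos H.c_pos n) h).trans_le (H.harnack_h C hn)

theorem h_null {C : Set Γ} (h : D.m C = 0) (x : Γ) : D.h C x = 0 := by
  by_contra h1
  have h2 := H.h_pos (lt_of_le_of_ne (H.h_nonneg C x) (Ne.symm h1)) 1
  rw [h_one, h] at h2
  exact lt_irrefl _ h2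

theorem small_on_finite {K : Set Γ} (hK : K.Finite) {η : ℝ} (hη : 0 < η) :
    ∃ δ : ℝ, 0 < δ ∧ ∀ C, D.m C < δ → ∀ x ∈ K, D.h C x < η := by
  obtain ⟨n, hn⟩ : ∃ n, ∀ x ∈ K, Near D.S n 1 x := by
    choose f hf using H.gen.exists_near (1 : Γ)
    obtain ⟨n, hn⟩ := (hK.image f).bddAbove
    exact ⟨n, fun x hx => (hf x).mono H.gen (hn ⟨x, hx, rfl⟩)⟩
  have hc := pow_pos H.c_pos n
  refine ⟨D.c ^ n * η, mul_pos hc hη, fun C hC x hx => lt_of_mul_lt_mul_left ?_ hc.le⟩
  have h1 := H.harnack_h C (hn x hx)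
  rw [h_one] at h1
  exact h1.trans_lt hC

theorem infinite_of_h_pos {C : Set Γ} {x : Γ} (h : 0 < D.h C x) : C.Infinite :=
  fun hC => h.ne' (H.h_fin hC x)

theorem infinite_univ : (Set.univ : Set Γ).Infinite :=
  H.infinite_of_h_pos (x := 1) (by rw [H.h_univ]; exact one_pos)

theorem vv : VV D.V :=
  ⟨fun C hC C' h => H.vm.mono C hC C' (H.mean.fin _ h), H.vm.dual⟩

theorem mem_vote {C : Set Γ} {x : Γ} (h : 1 / 2 < D.h C x) : x ∈ vote D.V C := H.vm.big _ h

theorem not_mem_vote {C : Set Γ} {x : Γ} (h : D.h C x < 1 / 2) : x ∉ vote D.V C := by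
  have h1 := H.mem_vote (C := Cᶜ) (x := x) (by rw [H.h_compl]; linarith)
  rwa [H.vv.vote_compl] at h1

theorem vote_mono_null {C C' : Set Γ} (h : D.m (C \ C') = 0) :
    vote D.V C ⊆ vote D.V C' :=
  fun x hx => H.vm.mono _ hx _ (H.h_null h x)

theorem vote_congr {C C' : Set Γ} (h : D.m (C ∆ C') = 0) : vote D.V C = vote D.V C' := by
  refine Set.Subset.antisymm (H.vote_mono_null ?_) (H.vote_mono_null ?_)
  · exact le_antisymm ((H.m_mono Set.subset_union_left).trans h.le) (H.mean.nonneg _)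
  · exact le_antisymm ((H.m_mono Set.subset_union_right).trans h.le) (H.mean.nonneg _)

theorem tails_vote (C : Set Γ) : tails D.S (vote D.V C) ⊆ D.Th (D.c / 2) C := by
  rintro x ⟨s, hs⟩
  have hc := H.c_pos
  have hc1 := H.c_le_one
  have a1 := H.harnack_h C (near_step x s.2)
  have a2 := H.harnack_h Cᶜ (near_step x s.2)
  rw [H.h_compl, H.h_compl] at a2
  rw [pow_one] at a1 a2
  have hs' : ¬ (x ∈ vote D.V C ↔ x * s ∈ vote D.V C) := hs
  by_cases hx : x ∈ vote D.V C
  · have b1 : 1 / 2 ≤ D.h C x := not_lt.1 fun b => H.not_mem_vote b hx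
    have b2 : D.h C (x * s) ≤ 1 / 2 := not_lt.1 fun b => hs' (iff_of_true hx (H.mem_vote b))
    exact ⟨by linarith, by nlinarith⟩
  · have b1 : D.h C x ≤ 1 / 2 := not_lt.1 fun b => hx (H.mem_vote b)
    have b2 : 1 / 2 ≤ D.h C (x * s) :=
      not_lt.1 fun b => hs' (iff_of_false hx (H.not_mem_vote b))
    exact ⟨by nlinarith, by linarith⟩

theorem Th_compl (δ : ℝ) (C : Set Γ) : D.Th δ Cᶜ = D.Th δ C := by
  ext x
  simp only [Th, Set.mem_ofPred_eq, H.h_compl]
  constructor <;> rintro ⟨a, b⟩ <;> constructor <;> linarith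

end OK

end Dat

end Vale.Agent.P239
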