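import Vale.Agent.P239.BasM

/-! Basic lemmas on locality. -/

namespace Vale.Agent.P239

open scoped Pointwise symmDiff
open Filter Topology

variable {Γ : Type*} [Group Γ] {Z : Type*} [MetricSpace Z] [MulAction Γ Z] {D : Dat Γ Z}

namespace Dat

theorem lip_dist (ξ : Z) : D.Lip fun y => dist (D.ι y) ξ :=
  fun _ _ => abs_dist_sub_le _ _ _

theorem Lip.neg {φ : Γ → ℝ} (h : D.Lip φ) : D.Lip fun y => -φ y := by
  intro y y'
  have h1 := h y y'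
  rwa [← abs_neg, show -(φ y - φ y') = -φ y - -φ y' by ring] at h1

namespace OK

variable (H : D.OK)
include H

theorem mv_at {f : Γ → ℝ} (hf : ∀ x, f x ≤ Vote.P D.S f x) (C : Set Γ) {a b : ℝ}
    (h1 : ∀ y ∈ C, f y ≤ a) (h2 : ∀ y, y ∉ C → f y ≤ b) (x : Γ) :
    f x ≤ a * D.h C x + b * (1 - D.h C x) := by
  have h := H.mean.mv (fun y => f (x * y)) (fun y => by rw [Vote.P_tr]; exact hf _)
    {y | x * y ∈ C} a b (fun y hy => h1 _ hy) (fun y hy => h2 _ hy)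
  simpa [Dat.h] using h

/-- Maximum principle: superlevel components of subharmonic functions are infinite. -/
theorem maxp {f : Γ → ℝ} (hf : ∀ x, f x ≤ Vote.P D.S f x) {τ : ℝ} {x : Γ} (h : τ < f x) :
    (cmp D.S {y | τ < f y} x).Infinite := by
  intro hfin
  have hx : x ∈ cmp D.S {y | τ < f y} x := mem_cmp_self h
  obtain ⟨y₀, hy₀, hmax⟩ := Set.exists_max_image _ f hfin ⟨x, hx⟩
  have hτ : τ < f y₀ := (cmp_subset {y | τ < f y} x hy₀ :)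
  set A : Set Γ := {y | y ∈ cmp D.S {y | τ < f y} x ∧ f y = f y₀} with hA
  have hcl : ∀ y ∈ A, ∀ s ∈ D.S, y * s ∈ A := by
    intro y hy s hs
    have hle : ∀ t ∈ D.S, f (y * t) ≤ f y₀ := by
      intro t ht
      by_cases h1 : τ < f (y * t)
      · exact hmax _ (cmp_step hy.1 ht h1)
      · linarith [not_lt.1 h1]
    have hc : (0 : ℝ) < D.S.card := by
      exact_mod_cast Finset.card_pos.2 ⟨1, H.gen.one⟩
    have heq : f (y * s) = f y₀ := by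
      by_contra hne
      have hlt : ∑ t ∈ D.S, f (y * t) < ∑ _t ∈ D.S, f y₀ :=
        Finset.sum_lt_sum hle ⟨s, hs, lt_of_le_of_ne (hle s hs) hne⟩
      have h2 := hf y
      rw [Vote.P, le_div_iff₀ hc, hy.2] at h2
      rw [Finset.sum_const, nsmul_eq_mul] at hlt
      linarith
    exact ⟨cmp_step hy.1 hs (by simpa [heq] using hτ), heq⟩
  have hno : ∀ y ∈ (Set.univ : Set Γ), y ∉ tails D.S A := by
    intro y _ hy
    obtain ⟨s, hs, hns⟩ := mem_tails.1 hy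
    refine hns ⟨fun h1 => hcl y h1 s hs, fun h1 => ?_⟩
    simpa using hcl _ h1 s⁻¹ (H.gen.inv s hs)
  rcases (conn_univ H.gen).const hno with h1 | h1
  · exact H.infinite_univ (hfin.subset fun y hy => (h1 hy).1)
  · exact h1 (Set.mem_univ y₀) ⟨hy₀, rfl⟩

/-- Locality. -/
theorem loc {lam δ : ℝ} (hl : 0 < lam) (hδ : 0 < δ) {K : Set Γ} (hK : K.Finite) :
    ∃ K' : Set Γ, K'.Finite ∧ K ⊆ K' ∧ ∀ φ : Γ → ℝ, D.Lip φ → ∀ (a : ℝ) (x : Γ), x ∉ K' →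
      a + lam ≤ φ x → 1 - δ ≤ D.h (cmp D.S ({y | a < φ y} \ K) x) x := by
  obtain ⟨ω, h0, h1, h2⟩ := H.fr.en
  obtain ⟨K₁, hK₁, h⟩ := H.mean.loc ω h0 h1 lam δ hl hδ K hK
  refine ⟨K ∪ K₁, hK.union hK₁, Set.subset_union_left, fun φ hφ a x hx ha => ?_⟩
  refine h φ (fun y s hs => (hφ _ _).trans (h2 y s hs)) x (fun h' => hx (Or.inr h')) a _
    (mem_cmp_self ⟨?_, fun h' => hx (Or.inl h')⟩) ha
    fun y hy s hs hB hlt => cmp_step hy hs ⟨hlt, hB⟩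
  show a < φ x
  linarith

theorem loc_nb {lam δ : ℝ} (hl : 0 < lam) (hδ : 0 < δ) {K : Set Γ} (hK : K.Finite) :
    ∃ K' : Set Γ, K'.Finite ∧ K ⊆ K' ∧ ∀ (ξ : Z) (ε : ℝ) (x : Γ), x ∉ K' →
      dist (D.ι x) ξ + lam ≤ ε → 1 - δ ≤ D.h (cmp D.S (D.nb ξ ε \ K) x) x := by
  obtain ⟨K', hK', hKK, h⟩ := H.loc hl hδ hK
  refine ⟨K', hK', hKK, fun ξ ε x hx hd => ?_⟩
  refine (h _ (lip_dist ξ).neg (-ε) x hx (by linarith)).trans (H.h_mono (cmp_mono ?_ x) x)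
  rintro y ⟨hy, hy'⟩
  refine ⟨?_, hy'⟩
  have h1 : -ε < -dist (D.ι y) ξ := hy
  show dist (D.ι y) ξ ≤ ε
  linarith

/-- Far above the wall a set is seen with almost full measure from its own points. -/
theorem vq {φ : Γ → ℝ} (hφ : D.Lip φ) {a lam δ : ℝ} (hl : 0 < lam) (hδ : 0 < δ) {C : Set Γ}
    (h : (tails D.S C ∩ {y | a < φ y}).Finite) :
    {x | a + lam ≤ φ x ∧ x ∈ C ∧ D.h C x < 1 - δ}.Finite := by
  obtain ⟨K', hK', hKK, h'⟩ := H.loc hl hδ h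
  refine hK'.subset fun x hx => ?_
  obtain ⟨h1, h2, h3⟩ := hx
  by_contra hxK
  have h4 := h' φ hφ a x hxK h1
  have hx0 : x ∈ {y | a < φ y} \ (tails D.S C ∩ {y | a < φ y}) :=
    ⟨show a < φ x by linarith, fun h5 => hxK (hKK h5)⟩
  rcases (cmp_conn (S := D.S) ({y | a < φ y} \ (tails D.S C ∩ {y | a < φ y})) x).const (C := C)
    (fun y hy h5 => (cmp_subset _ _ hy).2 ⟨h5, (cmp_subset _ _ hy).1⟩) with h5 | h5
  · linarith [H.h_mono h5 x]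
  · exact h5 (mem_cmp_self hx0) h2

theorem vq_vote {φ : Γ → ℝ} (hφ : D.Lip φ) {a lam : ℝ} (hl : 0 < lam) {C : Set Γ}
    (h : (tails D.S C ∩ {y | a < φ y}).Finite) :
    {x | a + lam ≤ φ x ∧ x ∈ C ∆ vote D.V C}.Finite := by
  have h1 := H.vq hφ hl (δ := 1 / 4) (by norm_num) h
  have h2 := H.vq hφ hl (δ := 1 / 4) (by norm_num) (C := Cᶜ) (by rwa [tails_compl])
  refine (h1.union h2).subset fun x hx => ?_
  obtain ⟨h3, h4⟩ := hx
  rcases Set.mem_symmDiff.1 h4 with ⟨h5, h6⟩ | ⟨h5, h6⟩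
  · refine Or.inl ⟨h3, h5, ?_⟩
    by_contra h7
    exact h6 (H.mem_vote (by linarith [not_lt.1 h7]))
  · refine Or.inr ⟨h3, h6, ?_⟩
    by_contra h7
    have h8 := H.h_compl C x
    exact H.not_mem_vote (by linarith [not_lt.1 h7]) h5

theorem m_symm_vote {ξ : Z} {ε ε' : ℝ} (hε : ε' < ε) {C : Set Γ}
    (h : (tails D.S C \ D.nb ξ ε').Finite) : D.m (C ∆ vote D.V C) ≤ D.m (D.nb ξ ε) := by
  have h1 := H.vq_vote (lip_dist ξ) (a := ε') (lam := ε - ε') (by linarith) (C := C)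
    (h.subset fun y hy => ⟨hy.1, fun h2 => (not_lt.2 h2 : ¬ ε' < dist (D.ι y) ξ) hy.2⟩)
  refine H.m_mono_fin (h1.subset fun y hy => ⟨?_, hy.1⟩)
  have h2 : ¬ dist (D.ι y) ξ ≤ ε := hy.2
  linarith [not_le.1 h2]

theorem pos_of_level {φ : Γ → ℝ} (hφ : D.Lip φ) {a lam : ℝ} (hl : 0 < lam)
    (h : {x | a + lam ≤ φ x}.Infinite) {K : Set Γ} (hK : K.Finite) :
    ∃ x, 0 < D.m (cmp D.S ({y | a < φ y} \ K) x) := by
  obtain ⟨K', hK', -, h'⟩ := H.loc hl (δ := 1 / 2) (by norm_num) hK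
  obtain ⟨x, hx, hxK⟩ := h.exists_notMem_finite hK'
  refine ⟨x, ?_⟩
  rw [← h_one]
  exact H.h_pos (x := x) (by linarith [h' φ hφ a x hxK hx]) 1

end OK

end Dat

end Vale.Agent.P239
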