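import Vale.Agent.P239.BasZ

/-! Basic lemmas on cuts. -/

namespace Vale.Agent.P239

open scoped Pointwise symmDiff
open Filter Topology

variable {Γ : Type*} [Group Γ] {Z : Type*} [MetricSpace Z] [MulAction Γ Z] {D : Dat Γ Z}

namespace Dat

namespace OK

variable (H : D.OK)
include H

theorem cut_compl {Q : Set Γ} {ξ : Z} (h : D.Cut Q ξ) : D.Cut Qᶜ ξ := by
  obtain ⟨h1, h2, h3, h4⟩ := h
  refine ⟨by rw [H.vv.vote_compl, h1], by rwa [tails_compl], ?_, ?_⟩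
  · rw [H.m_compl]
    linarith
  · rw [H.m_compl]
    linarith

theorem cut_tr [CompactSpace Z] [ContinuousConstSMul Γ Z] {Q : Set Γ} {ξ : Z} (h : D.Cut Q ξ)
    (g : Γ) : D.Cut (tr g Q) (g • ξ) := by
  have hc := (H.cut_compl h).2.2.1
  obtain ⟨h1, h2, h3, -⟩ := h
  have e := m_tr_inv (D := D) Q g⁻¹
  rw [inv_inv] at e
  rw [← h_one] at h3 hc
  have h5 := H.h_pos hc g⁻¹
  rw [H.h_compl] at h5
  refine ⟨by rw [vote_tr, h1], by rw [tails_tr]; exact H.conv_tr h2 g, ?_, ?_⟩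
  · rw [e]
    exact H.h_pos h3 _
  · rw [e]
    linarith

theorem cut_infinite {Q : Set Γ} {ξ : Z} (h : D.Cut Q ξ) : Q.Infinite ∧ Qᶜ.Infinite := by
  have h1 := h.2.2.1
  have h2 := (H.cut_compl h).2.2.1
  rw [← h_one] at h1 h2
  exact ⟨H.infinite_of_h_pos h1, H.infinite_of_h_pos h2⟩

theorem cut_tails_infinite {Q : Set Γ} {ξ : Z} (h : D.Cut Q ξ) :
    (tails D.S Q).Infinite := fun hf =>
  (H.ifc.fin_or hf).elim (H.cut_infinite h).1 (H.cut_infinite h).2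

theorem cut_tails_Th {Q : Set Γ} {ξ : Z} (h : D.Cut Q ξ) :
    tails D.S Q ⊆ D.Th (D.c / 2) Q := by
  have h1 := H.tails_vote Q
  rwa [h.1] at h1

theorem cut_unique {Q : Set Γ} {ξ ξ' : Z} (h : D.Cut Q ξ) (h' : D.Cut Q ξ') : ξ = ξ' :=
  h.2.1.unique h'.2.1 (H.cut_tails_infinite h)

theorem same_conv {Q Q' : Set Γ} {ξ : Z} (h : D.Cut Q ξ) (hs : D.Same Q Q') :
    D.Conv (tails D.S Q ∪ tails D.S Q') ξ := by
  obtain ⟨ζ, hζ⟩ := hs
  rw [h.2.1.unique (hζ.subset Set.subset_union_left) (H.cut_tails_infinite h)]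
  exact hζ

theorem same_point {Q Q' : Set Γ} {ξ ξ' : Z} (h : D.Cut Q ξ) (h' : D.Cut Q' ξ')
    (hs : D.Same Q Q') : ξ = ξ' :=
  ((H.same_conv h hs).subset Set.subset_union_right).unique h'.2.1 (H.cut_tails_infinite h')

theorem same_trans {Q Q' Q'' : Set Γ} {ξ : Z} (h : D.Cut Q' ξ) (h1 : D.Same Q Q')
    (h2 : D.Same Q' Q'') : D.Same Q Q'' := by
  obtain ⟨ζ, hζ⟩ := h1
  obtain ⟨ζ', hζ'⟩ := h2
  exact ⟨ζ, (H.conv_glue hζ hζ' (H.cut_tails_infinite h)).subset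
    (Set.union_subset_union_left _ Set.subset_union_left)⟩

theorem same_tr [CompactSpace Z] [ContinuousConstSMul Γ Z] {Q Q' : Set Γ} (h : D.Same Q Q')
    (g : Γ) : D.Same (tr g Q) (tr g Q') := by
  obtain ⟨ζ, hζ⟩ := h
  refine ⟨g • ζ, ?_⟩
  rw [tails_tr, tails_tr]
  exact H.conv_tr hζ g

theorem cut_sub_of_null {Q Q' : Set Γ} {ξ ξ' : Z} (h : D.Cut Q ξ) (h' : D.Cut Q' ξ')
    (h0 : D.m (Q \ Q') = 0) : Q ⊆ Q' := by
  have h1 := H.vote_mono_null h0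
  rwa [h.1, h'.1] at h1

theorem atom_tr [CompactSpace Z] [ContinuousConstSMul Γ Z] {A : Set Γ} {ξ : Z}
    (h : D.Atom A ξ) (g : Γ) : D.Atom (tr g A) (g • ξ) := by
  refine ⟨H.cut_tr h.1 g, fun Q hQ hs => ?_⟩
  have h1 := H.cut_tr hQ g⁻¹
  have h2 := H.same_tr hs g⁻¹
  rw [inv_smul_smul] at h1
  rw [tr_tr, inv_mul_cancel, tr_one] at h2
  refine (h.2 _ h1 h2).imp (fun h3 x hx => ?_) fun h3 x hx hx' => h3 hx ?_
  · have h4 := h3 hx
    rwa [mem_tr, inv_inv, mul_inv_cancel_left] at h4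
  · rwa [mem_tr, inv_inv, mul_inv_cancel_left]

theorem atom_eq_or_disj {A A' : Set Γ} {ξ ξ' : Z} (h : D.Atom A ξ) (h' : D.Atom A' ξ')
    (hs : D.Same A A') : A = A' ∨ Disjoint A A' := by
  obtain rfl := H.same_point h.1 h'.1 hs
  rcases h.2 A' h'.1 hs with h1 | h1
  · rcases h'.2 A h.1 hs.symm with h2 | h2
    · exact Or.inl (Set.Subset.antisymm h1 h2)
    · exact Or.inr (Set.disjoint_right.2 fun x hx => h2 hx)
  · exact Or.inr (Set.disjoint_left.2 fun x hx => h1 hx)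

/-- Trichotomy for hanging pieces. -/
theorem hang_tri (hCF : D.CF) {π : Z → ℝ} {a δ : ℝ} (hδ : δ ≤ 1 / 2) {B B' : Set Γ}
    (h : B ∈ D.Hang π a δ) (h' : B' ∈ D.Hang π a δ) :
    B ⊆ B' ∨ B' ⊆ B ∨ (Disjoint B B' ∧ ¬ D.Same Bᶜ B'ᶜ) := by
  obtain ⟨ζ, h1, -, h2⟩ := h
  obtain ⟨ζ', h1', -, h2'⟩ := h'
  have hn : ¬ Bᶜ ⊆ B' := fun hs => by
    have h3 := H.m_mono hs
    rw [H.m_compl] at h3
    linarith
  by_cases hs : D.Same Bᶜ B'ᶜ
  · rcases H.atom_eq_or_disj h1 h1' hs with h3 | h3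
    · exact Or.inl (compl_injective h3).le
    · exact absurd (fun x hx => not_not.1 (Set.disjoint_left.1 h3 hx)) hn
  · have h3 := hCF.nest Bᶜ ⟨ζ, h1.1⟩ B'ᶜ ⟨ζ', h1'.1⟩ hs
    simp only [Nested, compl_compl, Set.eq_empty_iff_forall_notMem] at h3
    rcases h3 with h3 | h3 | h3 | h3
    · exact absurd (fun x hx => not_not.1 fun hx' => h3 x ⟨hx, hx'⟩) hn
    · exact Or.inr (Or.inl fun x hx => not_not.1 fun hx' => h3 x ⟨hx', hx⟩)
    · exact Or.inl fun x hx => not_not.1 fun hx' => h3 x ⟨hx, hx'⟩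
    · exact Or.inr (Or.inr ⟨Set.disjoint_left.2 fun x hx hx' => h3 x ⟨hx, hx'⟩, hs⟩)

end OK

end Dat

end Vale.Agent.P239
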