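import Vale.Agent.P239.BasN

/-! Basic lemmas on convergence of sets and on cuts. -/

namespace Vale.Agent.P239

open scoped Pointwise symmDiff
open Filter Topology

variable {Γ : Type*} [Group Γ] {Z : Type*} [MetricSpace Z] [MulAction Γ Z] {D : Dat Γ Z}

theorem unif_smul [CompactSpace Z] [ContinuousConstSMul Γ Z] {F : Set Γ} (hF : F.Finite) {ε : ℝ}
    (hε : 0 < ε) : ∃ δ : ℝ, 0 < δ ∧ ∀ g ∈ F, ∀ z z' : Z, dist z z' ≤ δ →
      dist (g • z) (g • z') ≤ ε := by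
  induction F, hF using Set.Finite.induction_on with
  | empty => exact ⟨1, one_pos, by simp⟩
  | @insert a F _ _ ih =>
    obtain ⟨δ, hδ, h⟩ := ih
    have hu : UniformContinuous fun z : Z => a • z :=
      CompactSpace.uniformContinuous_of_continuous (continuous_const_smul a)
    obtain ⟨δ', hδ', h'⟩ := Metric.uniformContinuous_iff_le.1 hu ε hε
    refine ⟨min δ δ', lt_min hδ hδ', ?_⟩
    rintro g (rfl | hg) z z' hz
    · exact h' (hz.trans (min_le_right _ _))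
    · exact h g hg z z' (hz.trans (min_le_left _ _))

theorem Mono.flip {S : Finset Γ} {u : Γ → ℝ} (h : Mono S u) : Mono S fun x => 1 - u x := by
  refine ⟨fun s hs => (h.en s hs).congr fun x => by ring, fun x => ?_, fun τ => ?_, fun τ => ?_,
    ?_, ?_⟩
  · have := h.bd x
    constructor <;> linarith [this.1, this.2]
  · have e : {x | τ < 1 - u x} = {x | u x < 1 - τ} := by
      ext x; simp only [Set.mem_setOf_eq]; constructor <;> intro h <;> linarith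
    rw [e]; exact h.dn _
  · have e : {x | 1 - u x < τ} = {x | 1 - τ < u x} := by
      ext x; simp only [Set.mem_setOf_eq]; constructor <;> intro h <;> linarith
    rw [e]; exact h.up _
  · have e : {x | 1 - u x = 0} = {x | u x = 1} := by
      ext x; simp only [Set.mem_setOf_eq]; constructor <;> intro h <;> linarith
    rw [e]; exact h.i1
  · have e : {x | 1 - u x = 1} = {x | u x = 0} := by
      ext x; simp only [Set.mem_setOf_eq]; constructor <;> intro h <;> linarith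
    rw [e]; exact h.i0

theorem Coord.flip {S : Finset Γ} {ι : Γ → Z} {π : Z → ℝ} (h : Coord S ι π) :
    Coord S ι fun z => 1 - π z := by
  refine ⟨fun z z' => ?_, fun z => ?_, h.mono.flip, fun ε hε => ?_⟩
  · have e : 1 - π z - (1 - π z') = -(π z - π z') := by ring
    rw [e, abs_neg]; exact h.lip z z'
  · have := h.bd z
    constructor <;> linarith [this.1, this.2]
  · obtain ⟨F, lam, hl, hF⟩ := h.sep ε hε
    refine ⟨F, lam, hl, fun z z' hz => hF z z' fun g hg => ?_⟩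
    have e : 1 - π (g • z) - (1 - π (g • z')) = -(π (g • z) - π (g • z')) := by ring
    have := hz g hg
    rwa [e, abs_neg] at this

theorem Frame.slow {S : Finset Γ} {ι : Γ → Z} (hS : Gen S) (h : Frame S ι) (n : ℕ) {ε : ℝ}
    (hε : 0 < ε) : ∃ K : Set Γ, K.Finite ∧ ∀ x, x ∉ K → ∀ y, Near S n x y →
      dist (ι y) (ι x) ≤ ε := by
  obtain ⟨ω, h0, hs, hω⟩ := h.en
  induction n generalizing ε with
  | zero =>
    refine ⟨∅, Set.finite_empty, fun x _ y hy => ?_⟩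
    rw [near_zero.1 hy, dist_self]; exact hε.le
  | succ n ih =>
    obtain ⟨K, hK, h1⟩ := ih (half_pos hε)
    have hB : {y | ε / 2 < ω y}.Finite := by
      have h2 := hs.tendsto_cofinite_zero.eventually
        (gt_mem_nhds (show (0 : ℝ) < (ε / 2) ^ 2 by positivity))
      refine (Filter.eventually_cofinite.1 h2).subset fun y hy => ?_
      simp only [Set.mem_setOf_eq, not_lt] at hy ⊢
      nlinarith [h0 y]
    refine ⟨K ∪ {y | ∃ x ∈ {y | ε / 2 < ω y}, Near S n y x}, hK.union (nbhd_finite' hS n hB),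
      fun x hx y hy => ?_⟩
    obtain ⟨z, s, hs', hz, rfl⟩ := near_succ.1 hy
    have h2 := h1 x (fun h => hx (Or.inl h)) z hz
    have h3 : ω z ≤ ε / 2 := not_lt.1 fun h => hx (Or.inr ⟨z, h, hz⟩)
    have h4 := hω z s hs'
    linarith [dist_triangle (ι (z * s)) (ι z) (ι x)]

theorem Frame.slow_mul {S : Finset Γ} {ι : Γ → Z} (hS : Gen S) (h : Frame S ι) {F : Set Γ}
    (hF : F.Finite) {ε : ℝ} (hε : 0 < ε) : ∃ K : Set Γ, K.Finite ∧ ∀ x, x ∉ K → ∀ f ∈ F,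
      dist (ι (x * f)) (ι x) ≤ ε := by
  obtain ⟨n, hn⟩ := hS.finite_sub_ball hF 1
  obtain ⟨K, hK, h1⟩ := h.slow hS n hε
  refine ⟨K, hK, fun x hx f hf => h1 x hx _ ?_⟩
  have := (near_mul_left x 1 f).2 (hn f hf)
  rwa [mul_one] at this

namespace Dat

theorem lip_coord {π : Z → ℝ} (h : Coord D.S D.ι π) : D.Lip fun y => π (D.ι y) :=
  fun _ _ => h.lip _ _

theorem nb_mono (ξ : Z) {ε ε' : ℝ} (h : ε ≤ ε') : D.nb ξ ε ⊆ D.nb ξ ε' :=
  fun _ hy => le_trans hy h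

theorem Conv.mono {T T' : Set Γ} {ξ : Z} (h : D.Conv T ξ) (h' : (T' \ T).Finite) :
    D.Conv T' ξ := by
  intro ε hε K hK
  obtain ⟨x₀, hx⟩ := h ε hε K hK
  refine ⟨x₀, (hx.union h').subset fun y hy => ?_⟩
  by_cases hT : y ∈ T
  · exact Or.inl ⟨hT, hy.2⟩
  · exact Or.inr ⟨hy.1, hT⟩

theorem Conv.subset {T T' : Set Γ} {ξ : Z} (h : D.Conv T ξ) (h' : T' ⊆ T) :
    D.Conv T' ξ :=
  h.mono (by rw [Set.diff_eq_empty.2 h']; exact Set.finite_empty)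

theorem Conv.out {T : Set Γ} {ξ : Z} (h : D.Conv T ξ) {ε : ℝ} (hε : 0 < ε) :
    (T \ D.nb ξ ε).Finite := by
  obtain ⟨x₀, hx⟩ := h ε hε ∅ Set.finite_empty
  exact hx.subset fun y hy => ⟨hy.1, fun h => hy.2 (cmp_subset _ _ h).1⟩

theorem Conv.unique {T : Set Γ} {ξ ξ' : Z} (h : D.Conv T ξ) (h' : D.Conv T ξ')
    (hT : T.Infinite) : ξ = ξ' := by
  by_contra hne
  have hd : 0 < dist ξ ξ' := dist_pos.2 hne
  have hε : 0 < dist ξ ξ' / 3 := by positivity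
  refine hT (((h.out hε).union (h'.out hε)).subset fun y hy => ?_)
  by_contra hc
  have h1 : y ∈ D.nb ξ (dist ξ ξ' / 3) := by
    by_contra h1; exact hc (Or.inl ⟨hy, h1⟩)
  have h2 : y ∈ D.nb ξ' (dist ξ ξ' / 3) := by
    by_contra h2; exact hc (Or.inr ⟨hy, h2⟩)
  have h3 : dist (D.ι y) ξ ≤ dist ξ ξ' / 3 := h1
  have h4 : dist (D.ι y) ξ' ≤ dist ξ ξ' / 3 := h2
  linarith [dist_triangle_left ξ ξ' (D.ι y)]

theorem Same.symm {Q Q' : Set Γ} (h : D.Same Q Q') : D.Same Q' Q := by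
  obtain ⟨ξ, hξ⟩ := h
  exact ⟨ξ, by rwa [Set.union_comm]⟩

theorem Same.compl {Q Q' : Set Γ} (h : D.Same Q Q') : D.Same Q Q'ᶜ := by
  obtain ⟨ξ, hξ⟩ := h
  exact ⟨ξ, by rwa [tails_compl]⟩

theorem Cut.same_self {Q : Set Γ} {ξ : Z} (h : D.Cut Q ξ) : D.Same Q Q :=
  ⟨ξ, by rw [Set.union_self]; exact h.2.1⟩

namespace OK

variable (H : D.OK)
include H

theorem conv_glue {T₁ T₂ T₃ : Set Γ} {ξ ξ' : Z} (h : D.Conv (T₁ ∪ T₂) ξ)
    (h' : D.Conv (T₂ ∪ T₃) ξ') (hT : T₂.Infinite) : D.Conv (T₁ ∪ T₂ ∪ T₃) ξ := by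
  have e : ξ = ξ' :=
    (h.subset Set.subset_union_right).unique (h'.subset Set.subset_union_left) hT
  subst e
  intro ε hε K hK
  obtain ⟨x₁, h1⟩ := h ε hε K hK
  obtain ⟨x₂, h2⟩ := h' ε hε K hK
  obtain ⟨y, hy, hy'⟩ := (hT.diff (h1.union h2)).nonempty
  have h3 : y ∈ cmp D.S (D.nb ξ ε \ K) x₁ := by
    by_contra h3; exact hy' (Or.inl ⟨Or.inr hy, h3⟩)
  have h4 : y ∈ cmp D.S (D.nb ξ ε \ K) x₂ := by
    by_contra h4; exact hy' (Or.inr ⟨Or.inl hy, h4⟩)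
  have e := cmp_eq_of_mem H.gen h3 h4
  refine ⟨x₁, (h1.union h2).subset ?_⟩
  rintro z ⟨hz | hz, hz'⟩
  · exact Or.inl ⟨hz, hz'⟩
  · exact Or.inr ⟨Or.inr hz, e ▸ hz'⟩

theorem conv_tr [CompactSpace Z] [ContinuousConstSMul Γ Z] {T : Set Γ} {ξ : Z}
    (h : D.Conv T ξ) (g : Γ) : D.Conv (tr g T) (g • ξ) := by
  intro ε hε K hK
  obtain ⟨δ, hδ, hu⟩ := unif_smul (Z := Z) (Set.finite_singleton g) hε
  obtain ⟨x₀, hx⟩ := h δ hδ (tr g⁻¹ K) (tr_finite _ hK)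
  have hsub : tr g (D.nb ξ δ \ tr g⁻¹ K) ⊆ D.nb (g • ξ) ε \ K := by
    intro z hz
    have h1 : dist (D.ι (g⁻¹ * z)) ξ ≤ δ := hz.1
    have h2 := hu g rfl _ _ h1
    rw [← H.fr.eqv, mul_inv_cancel_left] at h2
    refine ⟨h2, fun hk => hz.2 ?_⟩
    simpa using hk
  refine ⟨g * x₀, (tr_finite g hx).subset fun y hy => ⟨hy.1, fun hc => hy.2 ?_⟩⟩
  have h1 : y ∈ tr g (cmp D.S (D.nb ξ δ \ tr g⁻¹ K) x₀) := hc
  rw [cmp_tr] at h1
  exact cmp_mono hsub _ h1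

/-- Separation of inequivalent converging sets. -/
theorem sep {T T' : Set Γ} {ξ ξ' : Z} (h : D.Conv T ξ) (h' : D.Conv T' ξ')
    (hn : ¬ ∃ ζ, D.Conv (T ∪ T') ζ) :
    ∃ Ω : Set Γ, Conn D.S Ω ∧ (T \ Ω).Finite ∧ ∀ x ∈ Ω, x ∉ T' := by
  by_cases hT : T.Finite
  · exact ⟨∅, fun _ _ x hx => hx.elim, hT.subset Set.diff_subset, fun x hx => hx.elim⟩
  by_cases hne : ξ = ξ'
  · subst hne
    have h0 : ¬ D.Conv (T ∪ T') ξ := fun h0 => hn ⟨ξ, h0⟩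
    unfold Conv at h0
    push Not at h0
    obtain ⟨ε, hε, K, hK, h0⟩ := h0
    obtain ⟨x₁, h1⟩ := h ε hε K hK
    obtain ⟨x₂, h2⟩ := h' ε hε K hK
    have hdis : ∀ y, y ∈ cmp D.S (D.nb ξ ε \ K) x₁ → y ∉ cmp D.S (D.nb ξ ε \ K) x₂ := by
      intro y h3 h4
      have e := cmp_eq_of_mem H.gen h3 h4
      refine h0 x₁ ((h1.union h2).subset ?_)
      rintro z ⟨hz | hz, hz'⟩
      · exact Or.inl ⟨hz, hz'⟩
      · exact Or.inr ⟨hz, e ▸ hz'⟩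
    obtain ⟨x₃, h3⟩ := h ε hε (K ∪ (T' \ cmp D.S (D.nb ξ ε \ K) x₂)) (hK.union h2)
    refine ⟨_, cmp_conn _ x₃, h3, fun x hx hx' => ?_⟩
    obtain ⟨y, hy, hy'⟩ := (Set.Infinite.diff hT (h1.union h3)).nonempty
    have h4 : y ∈ cmp D.S (D.nb ξ ε \ K) x₁ := by
      by_contra h4; exact hy' (Or.inl ⟨hy, h4⟩)
    have h5 : y ∈ cmp D.S (D.nb ξ ε \ (K ∪ (T' \ cmp D.S (D.nb ξ ε \ K) x₂))) x₃ := by
      by_contra h5; exact hy' (Or.inr ⟨hy, h5⟩)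
    have h6 := (cmp_conn _ x₃).sub_cmp H.gen (U := D.nb ξ ε \ K)
      (fun z hz => ⟨(cmp_subset _ _ hz).1, fun hk => (cmp_subset _ _ hz).2 (Or.inl hk)⟩) h5 h4
    exact (cmp_subset _ _ hx).2 (Or.inr ⟨hx', hdis x (h6 hx)⟩)
  · have hd : 0 < dist ξ ξ' := dist_pos.2 hne
    have hε : 0 < dist ξ ξ' / 3 := by positivity
    obtain ⟨x₀, hx₀⟩ := h _ hε _ (h'.out hε)
    refine ⟨_, cmp_conn _ x₀, hx₀, fun x hx hx' => ?_⟩
    have h1 := cmp_subset _ _ hx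
    have h2 : x ∈ D.nb ξ' (dist ξ ξ' / 3) := by
      by_contra h2; exact h1.2 ⟨hx', h2⟩
    have h3 : dist (D.ι x) ξ ≤ dist ξ ξ' / 3 := h1.1
    have h4 : dist (D.ι x) ξ' ≤ dist ξ ξ' / 3 := h2
    linarith [dist_triangle_left ξ ξ' (D.ι x)]

/-- A small far coarsely connected set lies in one component. -/
theorem tc (w : ℕ) {ε : ℝ} (hε : 0 < ε) {K : Set Γ} (hK : K.Finite) :
    ∃ K' : Set Γ, K'.Finite ∧ ∀ (ξ : Z) (T : Set Γ), CConn D.S w T →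
      T ⊆ D.nb ξ (ε / 2) \ K' → ∃ x₀, T ⊆ cmp D.S (D.nb ξ ε \ K) x₀ := by
  obtain ⟨K₁, hK₁, h1⟩ := H.fr.slow H.gen w (half_pos hε)
  refine ⟨K₁ ∪ {y | ∃ x ∈ K, Near D.S w y x}, hK₁.union (nbhd_finite' H.gen w hK),
    fun ξ T hT hsub => ?_⟩
  rcases T.eq_empty_or_nonempty with rfl | ⟨x₀, hx₀⟩
  · exact ⟨1, Set.empty_subset _⟩
  have hc := hT.thick H.gen le_rfl
  have hU : {y | ∃ x ∈ T, Near D.S w x y} ⊆ D.nb ξ ε \ K := by
    rintro y ⟨x, hx, hxy⟩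
    have h2 := hsub hx
    have h3 := h1 x (fun h => h2.2 (Or.inl h)) y hxy
    have h4 : dist (D.ι x) ξ ≤ ε / 2 := h2.1
    refine ⟨?_, fun hk => h2.2 (Or.inr ⟨y, hk, hxy⟩)⟩
    show dist (D.ι y) ξ ≤ ε
    linarith [dist_triangle (D.ι y) (D.ι x) ξ]
  have hm : ∀ x ∈ T, x ∈ {y | ∃ x ∈ T, Near D.S w x y} :=
    fun x hx => ⟨x, hx, Near.refl H.gen _ _⟩
  exact ⟨x₀, fun x hx => hc.sub_cmp H.gen hU (hm x₀ hx₀) (mem_cmp_self (hU (hm x₀ hx₀))) (hm x hx)⟩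

/-- A set with a small far wall is small or co-small. -/
theorem sm {ε : ℝ} (hε : 0 < ε) : ∃ K : Set Γ, K.Finite ∧ ∀ (ξ : Z) (C : Set Γ),
    tails D.S C ⊆ D.nb ξ ε \ K → C ⊆ D.nb ξ ε ∪ K ∨ Cᶜ ⊆ D.nb ξ ε ∪ K := by
  obtain ⟨K, hK, -, hc⟩ := H.fr.con ε hε ∅ Set.finite_empty
  refine ⟨K, hK, fun ξ C hC => ?_⟩
  have h1 := (hc ξ).const (C := C) (by
    rintro x (hx | hx) ht
    · have h2 : dist (D.ι x) ξ ≤ ε := (hC ht).1
      exact absurd hx (not_lt.2 h2)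
    · exact (hC ht).2 hx)
  rcases h1 with h1 | h1
  · refine Or.inr fun x hx => Or.inl ?_
    by_contra h2
    have h3 : ε < dist (D.ι x) ξ := not_le.1 h2
    exact hx (h1 (Or.inl h3))
  · refine Or.inl fun x hx => Or.inl ?_
    by_contra h2
    have h3 : ε < dist (D.ι x) ξ := not_le.1 h2
    exact h1 (Or.inl h3) hx

end OK

end Dat

end Vale.Agent.P239
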