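import Vale.Agent.P239.BridgeA

namespace Vale.Agent.P239

open scoped Pointwise symmDiff Matrix

variable {Γ : Type} [Group Γ] {S : Finset Γ} {n : ℕ}

open Classical in
/-- Indicator cochain of an edge set. -/
noncomputable def ind (gen : Fin n → Γ) (h1 : ∀ i, gen i ∈ S) (W : Set (Γ × S))
    (p : Γ × Fin n) : ZMod 2 := if (p.1, (⟨gen p.2, h1 p.2⟩ : S)) ∈ W then 1 else 0

open Classical in
/-- Indicator cochain of a vertex set. -/
noncomputable def chi (A : Set Γ) (p : Γ × Fin 1) : ZMod 2 := if p.1 ∈ A then 1 else 0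

theorem ind_cob (gen : Fin n → Γ) (h1 : ∀ i, gen i ∈ S) (A : Set Γ) :
    ind gen h1 (cob S A) = DD (d₁ gen) (chi A) := by
  funext p
  rw [DD_d₁]
  unfold ind chi
  by_cases a : p.1 ∈ A <;> by_cases b : p.1 * gen p.2 ∈ A <;> simp [a, b] <;> decide

omit [Group Γ] in
theorem exists_chi (a : Γ × Fin 1 → ZMod 2) : ∃ A : Set Γ, chi A = a := by
  refine ⟨{x | a (x, 0) = 1}, funext fun p => ?_⟩
  obtain ⟨x, i⟩ := p
  obtain rfl : i = 0 := Subsingleton.elim _ _
  unfold chi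
  have : ∀ t : ZMod 2, t ≠ 1 → t = 0 := by decide
  by_cases h : a (x, 0) = 1
  · rw [if_pos (show (x, (0 : Fin 1)).1 ∈ {x | a (x, 0) = 1} from h), h]
  · rw [if_neg (show (x, (0 : Fin 1)).1 ∉ {x | a (x, 0) = 1} from h), this _ h]

/-- Agreement on generator edges gives agreement on all edges. -/
theorem step_of_gen {gen : Fin n → Γ} (h1 : ∀ i, gen i ∈ S)
    (h2 : ∀ s ∈ S, s = 1 ∨ ∃ i, s = gen i ∨ s = (gen i)⁻¹) {A : Set Γ} {e : Γ × S}
    (he : e ∈ cob S A) : ∃ y i, (y = e.1 ∨ y = e.1 * e.2) ∧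
      (y, (⟨gen i, h1 i⟩ : S)) ∈ cob S A := by
  obtain ⟨x, s, hs⟩ := e
  rcases h2 s hs with rfl | ⟨i, rfl | rfl⟩
  · simp at he
  · exact ⟨x, i, Or.inl rfl, he⟩
  · refine ⟨x * (gen i)⁻¹, i, Or.inr rfl, ?_⟩
    simp only [mem_cob, inv_mul_cancel_right] at he ⊢
    tauto

theorem lift_fill (hS : Gen S) {gen : Fin n → Γ} (h1 : ∀ i, gen i ∈ S)
    (h2 : ∀ s ∈ S, s = 1 ∨ ∃ i, s = gen i ∨ s = (gen i)⁻¹) {r : ℕ} (hr : 1 ≤ r)
    {W : Set (Γ × S)} {c : Ch Γ (Fin n)} {A : Set Γ}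
    (h : DD (d₁ gen) (chi A) = ind gen h1 W + c) {e : Γ × S} (he : e ∈ W ∆ cob S A) :
    e.1 ∈ Def S r W ∨ ∃ p ∈ c.support, Near S 1 p.1 e.1 := by
  by_contra hc
  rw [not_or] at hc
  obtain ⟨hc0, hc⟩ := hc
  obtain ⟨A', hA'⟩ := not_not.1 hc0
  simp only [not_exists, not_and] at hc
  have a1 : e ∈ cob S (A' ∆ A) := by
    have := hA' e (Near.refl hS _ _)
    rw [cob_symmDiff]
    simp only [Set.mem_symmDiff] at he ⊢
    tauto
  obtain ⟨y, i, hy, a2⟩ := step_of_gen h1 h2 a1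
  have a3 : Near S 1 e.1 y := by
    rcases hy with rfl | rfl
    exacts [Near.refl hS _ _, near_edge e]
  have a4 : c (y, i) = 0 := by
    by_contra h0
    exact hc (y, i) (Finsupp.mem_support_iff.2 h0) (a3.symm hS)
  have a5 := hA' (y, ⟨gen i, h1 i⟩) (a3.mono hS hr)
  have a6 := congrFun h (y, i)
  rw [← ind_cob gen h1, Pi.add_apply, a4, add_zero] at a6
  rw [cob_symmDiff] at a2
  simp only [ind] at a6
  simp only [Set.mem_symmDiff] at a2
  by_cases b1 : (y, (⟨gen i, h1 i⟩ : S)) ∈ cob S A <;>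
    by_cases b2 : (y, (⟨gen i, h1 i⟩ : S)) ∈ W <;> simp only [b1, b2] at a6 a5 a2 <;> simp_all

theorem bridge (X : PD4Complex Γ) (hS : Gen S) (h1 : ∀ i, X.gen i ∈ S)
    (h2 : ∀ s ∈ S, s = 1 ∨ ∃ i, s = X.gen i ∨ s = (X.gen i)⁻¹) (hq : SubQ (colOp X.d₂)) :
    ∃ r, Iface S r := by
  classical
  obtain ⟨b, hb⟩ := exists_rad hS X.d₂
  have x1 := colOp_exact X.cochain₁
  have x2 := colOp_exact X.cochain₂
  have z1 : ∀ w, DD X.d₂ (DD (d₁ X.gen) w) = 0 := DD_DD hS fun c => (x1 _).2 ⟨c, rfl⟩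
  have z2 : ∀ w, DD X.d₃ (DD X.d₂ w) = 0 := DD_DD hS fun c => (x2 _).2 ⟨c, rfl⟩
  have hr : 1 ≤ b + 1 := by omega
  have hdef : ∀ (W : Set (Γ × S)) (p : Γ × Fin X.n₂), DD X.d₂ (ind X.gen h1 W) p ≠ 0 →
      p.1 ∈ Def S (b + 1) W := by
    rintro W p hp ⟨A, hA⟩
    apply hp
    rw [DD_congr hb (w' := ind X.gen h1 (cob S A)) fun e he => by
      unfold ind
      rw [if_congr (hA (e.1, _) (he.mono hS (by omega))) rfl rfl], ind_cob, z1]
    rfl
  have hz : ∀ W : Set (Γ × S), (Def S (b + 1) W).Finite → ∃ z : Ch Γ (Fin X.n₂),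
      ⇑z = DD X.d₂ (ind X.gen h1 W) ∧ colOp X.d₃ z = 0 ∧
      ∀ p ∈ z.support, p.1 ∈ Def S (b + 1) W := by
    intro W hW
    have hfin : (Function.support (DD X.d₂ (ind X.gen h1 W))).Finite :=
      (hW.prod Set.finite_univ).subset fun p hp => ⟨hdef W p hp, trivial⟩
    refine ⟨Finsupp.ofSupportFinite _ hfin, rfl, ?_, fun p hp =>
      hdef W p (Finsupp.mem_support_iff.1 hp)⟩
    apply DFunLike.coe_injective
    rw [colOp_eq]
    exact z2 _
  have hA : ∀ (W : Set (Γ × S)) (c : Ch Γ (Fin X.n₁)),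
      ⇑(colOp X.d₂ c) = DD X.d₂ (ind X.gen h1 W) →
      ∃ A, ∀ e ∈ W ∆ cob S A, e.1 ∈ Def S (b + 1) W ∨ ∃ p ∈ c.support, Near S 1 p.1 e.1 := by
    intro W c hc
    obtain ⟨a, ha⟩ := exists_prim (rowOp_exact X.chain₁) (w := ind X.gen h1 W + c) (by
      rw [DD_add, ← colOp_eq, hc]
      funext p
      exact CharTwo.add_self_eq_zero _)
    obtain ⟨A, rfl⟩ := exists_chi a
    exact ⟨A, fun e he => lift_fill hS h1 h2 hr ha he⟩
  have hfinβ : ∀ (W β : Set (Γ × S)) (c : Ch Γ (Fin X.n₁)), (Def S (b + 1) W).Finite →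
      (∀ e ∈ β, e.1 ∈ Def S (b + 1) W ∨ ∃ p ∈ c.support, Near S 1 p.1 e.1) →
      β.Finite ∧ β.ncard ≤ ((Def S (b + 1) W).ncard +
        c.support.card * ((S : Set Γ) ^ 1).ncard) * S.card := by
    intro W β c hW h
    have f1 := c.support.finite_toSet.image Prod.fst
    have f2 := hW.union (nbhd_finite (S := S) 1 f1)
    have hsub : β ⊆ (Def S (b + 1) W ∪ {y | ∃ x ∈ Prod.fst '' (c.support : Set _), Near S 1 x y})
        ×ˢ (Set.univ : Set S) := fun e he =>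
      ⟨(h e he).imp id fun ⟨p, hp, h'⟩ => ⟨p.1, ⟨p, hp, rfl⟩, h'⟩, trivial⟩
    refine ⟨(f2.prod Set.finite_univ).subset hsub,
      (Set.ncard_le_ncard hsub (f2.prod Set.finite_univ)).trans ?_⟩
    rw [Set.ncard_prod, Set.ncard_univ, Nat.card_eq_fintype_card, Fintype.card_coe]
    refine Nat.mul_le_mul_right _ ((Set.ncard_union_le _ _).trans (add_le_add le_rfl ?_))
    refine (nbhd_ncard 1 f1).trans (Nat.mul_le_mul_right _ ?_)
    exact (Set.ncard_image_le c.support.finite_toSet).trans (by rw [Set.ncard_coe_finset])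
  refine ⟨b + 1, hr, ?_, ?_, ?_, ?_⟩
  · intro W hW
    obtain ⟨A, h⟩ := hA W 0 (by
      funext p
      by_contra hc
      have := hdef W p (fun h => hc (by simp [h]))
      simp [hW] at this)
    refine ⟨A, symmDiff_eq_bot.1 (Set.eq_empty_of_forall_notMem fun e he => ?_)⟩
    simpa [hW] using h e he
  · intro A hfin
    have hf : (Function.support (ind X.gen h1 (cob S A))).Finite := by
      refine ((tails_finite hfin).prod Set.finite_univ).subset fun p hp => ⟨?_, trivial⟩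
      refine ⟨⟨X.gen p.2, h1 p.2⟩, ?_⟩
      by_contra hc
      exact hp (if_neg hc)
    obtain ⟨a, ha⟩ := (x1 (Finsupp.ofSupportFinite _ hf)).1 (by
      apply DFunLike.coe_injective
      rw [colOp_eq]
      exact (congrArg (DD X.d₂) (ind_cob X.gen h1 A)).trans (z1 _))
    obtain ⟨A', hA'⟩ := exists_chi a
    have hA'f : A'.Finite := by
      refine (a.support.finite_toSet.image Prod.fst).subset fun x hx => ⟨(x, 0), ?_, rfl⟩
      have := congrFun hA' (x, 0)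
      simp only [chi, hx, if_true] at this
      simp [← this]
    have e1 : ind X.gen h1 (cob S A') = ind X.gen h1 (cob S A) := by
      rw [ind_cob, hA', ← colOp_eq, ha]; rfl
    have e2 : ∀ e, e ∉ cob S (A' ∆ A) := by
      intro e he
      obtain ⟨y, i, -, a2⟩ := step_of_gen h1 h2 he
      have a6 := congrFun e1 (y, i)
      rw [cob_symmDiff] at a2
      simp only [ind] at a6
      simp only [Set.mem_symmDiff] at a2
      by_cases b1 : (y, (⟨X.gen i, h1 i⟩ : S)) ∈ cob S A <;>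
        by_cases b2 : (y, (⟨X.gen i, h1 i⟩ : S)) ∈ cob S A' <;>
        simp only [b1, b2] at a6 a2 <;> simp_all
    have e3 : ∀ y, (1 : Γ) ∈ A' ∆ A ↔ y ∈ A' ∆ A := fun y => by
      obtain ⟨k, hk⟩ := hS.exists_near 1 y
      exact ball_const hS (fun e _ => e2 e) hk
    by_cases h0 : (1 : Γ) ∈ A' ∆ A
    · refine Or.inr (hA'f.subset fun y hy => ?_)
      have := (e3 y).1 h0
      simp only [Set.mem_symmDiff, Set.mem_compl_iff] at this hy
      tauto
    · refine Or.inl (hA'f.subset fun y hy => ?_)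
      have := mt (e3 y).2 h0
      simp only [Set.mem_symmDiff] at this
      tauto
  · obtain ⟨C, q, hC, hq0, hq4, hq⟩ := hq
    refine ⟨(1 + C * q ^ X.n₂ * ((S : Set Γ) ^ 1).ncard) * S.card + 1, max q 2, by positivity,
      by positivity, max_lt hq4 (by norm_num), fun j W hW hj => ?_⟩
    obtain ⟨z, a1, a2, a3⟩ := hz W hW
    have a4 : z.support.card ≤ 2 ^ (j + X.n₂) := by
      have : (z.support : Set _) ⊆ Def S (b + 1) W ×ˢ (Set.univ : Set (Fin X.n₂)) :=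
        fun p hp => ⟨a3 p hp, trivial⟩
      have := Set.ncard_le_ncard this (hW.prod Set.finite_univ)
      rw [Set.ncard_coe_finset, Set.ncard_prod, Set.ncard_univ, Nat.card_eq_fintype_card,
        Fintype.card_fin] at this
      rw [pow_add]
      exact this.trans (Nat.mul_le_mul hj Nat.lt_two_pow_self.le)
    obtain ⟨c, c1, c2⟩ := hq _ z ((x2 z).1 a2) a4
    obtain ⟨A, h⟩ := hA W c (by rw [c1, a1])
    obtain ⟨d1, d2⟩ := hfinβ W _ c hW h
    refine ⟨_, A, d1, ?_, symmDiff_symmDiff_cancel_left _ _⟩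
    have e1 : ((Def S (b + 1) W).ncard : ℝ) ≤ (max q 2) ^ j :=
      le_trans (by exact_mod_cast hj) (pow_le_pow_left₀ (by norm_num) (le_max_right _ _) j)
    have e2 : (c.support.card : ℝ) ≤ C * q ^ X.n₂ * (max q 2) ^ j := by
      refine c2.trans ?_
      rw [pow_add, mul_comm (q ^ j), ← mul_assoc]
      gcongr
      exact le_max_left _ _
    have e3 : (0 : ℝ) ≤ (max q 2) ^ j := by positivity
    calc ((W ∆ cob S A).ncard : ℝ)
        ≤ ((Def S (b + 1) W).ncard + c.support.card * ((S : Set Γ) ^ 1).ncard) * S.card := by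
          exact_mod_cast d2
      _ ≤ ((max q 2) ^ j + C * q ^ X.n₂ * (max q 2) ^ j * ((S : Set Γ) ^ 1).ncard) * S.card := by
          gcongr
      _ = (1 + C * q ^ X.n₂ * ((S : Set Γ) ^ 1).ncard) * S.card * (max q 2) ^ j := by ring
      _ ≤ _ := by gcongr; linarith
  · obtain ⟨b3, hb3⟩ := (colOp_eqv X.d₃).prop hS
    obtain ⟨ρ, hρ⟩ := bounded_fill hS (colOp_eqv X.d₂)
    refine ⟨b3 + b3, fun k => ⟨ρ (k * (b3 + b3)) + 1, fun W hW hT => ?_⟩⟩
    have key : ∀ z : Ch Γ (Fin X.n₂), colOp X.d₃ z = 0 →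
        (∀ p ∈ z.support, p.1 ∈ Def S (b + 1) W) → ∃ c, colOp X.d₂ c = z ∧
          ∀ p ∈ c.support, ∃ x ∈ Def S (b + 1) W, Near S (ρ (k * (b3 + b3))) x p.1 := by
      intro z
      induction' hn : z.support.card using Nat.strong_induction_on with N ih generalizing z
      intro hz0 hzD
      by_cases h0 : z = 0
      · exact ⟨0, by simp [h0], by simp⟩
      obtain ⟨p₀, hp₀⟩ := Finsupp.support_nonempty_iff.2 h0
      obtain ⟨T, t1, t2, t3, t4⟩ := hT _ (hzD p₀ hp₀)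
      obtain ⟨z₁, z₂, s1, s2, s3, s4, s5, s6⟩ := piece hS z t1 t2
        (fun y hy p hp h => t4 y hy _ (hzD p hp) h) hp₀ t3
      obtain ⟨a1, a2⟩ := split_zero hS hb3 (s1 ▸ hz0) s6
      have hpos : 0 < z₁.support.card := Finset.card_pos.2 ⟨_, s5⟩
      obtain ⟨c₁, b1, -, b2⟩ := hρ z₁ ((x2 _).1 a1)
      obtain ⟨c₂, d1, d2⟩ := ih z₂.support.card (by omega) z₂ rfl a2 fun p hp => hzD p (s3 hp)
      refine ⟨c₁ + c₂, by rw [map_add, b1, d1, s1], fun p hp => ?_⟩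
      rcases mem_support_add hp with h | h
      · exact ⟨_, hzD p₀ hp₀, b2 _ _ s2 p h⟩
      · exact d2 p h
    obtain ⟨z, a1, a2, a3⟩ := hz W hW
    obtain ⟨c, c1, c2⟩ := key z a2 a3
    obtain ⟨A, h⟩ := hA W c (by rw [c1, a1])
    refine ⟨_, A, (hfinβ W _ c hW h).1, fun e he => ?_, symmDiff_symmDiff_cancel_left _ _⟩
    rcases h e he with h' | ⟨p, hp, h'⟩
    · exact ⟨_, h', Near.refl hS _ _⟩
    · obtain ⟨x, hx, h''⟩ := c2 p hp
      exact ⟨x, hx, h''.trans h'⟩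

end Vale.Agent.P239
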