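import Vale.Agent.P239.Core2
import Vale.Agent.P239.Bridge

/-! The geometric axioms from Poincare duality, without the filling inequality. -/

namespace Vale.Agent.P239

open scoped Pointwise symmDiff
open Filter Topology

variable {Γ : Type} [Group Γ] {S : Finset Γ}

theorem bridge2 (X : PD4Complex Γ) (hS : Gen S) (h1 : ∀ i, X.gen i ∈ S)
    (h2 : ∀ s ∈ S, s = 1 ∨ ∃ i, s = X.gen i ∨ s = (X.gen i)⁻¹) : ∃ r, Ifc S r := by
  classical
  obtain ⟨b, hb⟩ := exists_rad hS X.d₂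
  have x1 := colOp_exact X.cochain₁
  have x2 := colOp_exact X.cochain₂
  have z1 : ∀ w, DD X.d₂ (DD (d₁ X.gen) w) = 0 := DD_DD hS fun c => (x1 _).2 ⟨c, rfl⟩
  have z2 : ∀ w, DD X.d₃ (DD X.d₂ w) = 0 := DD_DD hS fun c => (x2 _).2 ⟨c, rfl⟩
  have hr : 1 ≤ b + 1 := by omega
  have hdef : ∀ (W : Set (Γ × S)) (p : Γ × Fin X.n₂), DD X.d₂ (ind X.gen h1 W) p ≠ 0 →
      p.1 ∈ Def S (b + 1) W := by
    rintro W p hp ⟨A, hA⟩
    apply hp
    rw [DD_congr hb (w' := ind X.gen h1 (cob S A)) fun e he => by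
      unfold ind
      rw [if_congr (hA (e.1, _) (he.mono hS (by omega))) rfl rfl], ind_cob, z1]
    rfl
  have hz : ∀ W : Set (Γ × S), (Def S (b + 1) W).Finite → ∃ z : Ch Γ (Fin X.n₂),
      ⇑z = DD X.d₂ (ind X.gen h1 W) ∧ colOp X.d₃ z = 0 ∧
      ∀ p ∈ z.support, p.1 ∈ Def S (b + 1) W := by
    intro W hW
    have hfin : (Function.support (DD X.d₂ (ind X.gen h1 W))).Finite :=
      (hW.prod Set.finite_univ).subset fun p hp => ⟨hdef W p hp, trivial⟩
    refine ⟨Finsupp.ofSupportFinite _ hfin, rfl, ?_, fun p hp =>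
      hdef W p (Finsupp.mem_support_iff.1 hp)⟩
    apply DFunLike.coe_injective
    rw [colOp_eq]
    exact z2 _
  have hA : ∀ (W : Set (Γ × S)) (c : Ch Γ (Fin X.n₁)),
      ⇑(colOp X.d₂ c) = DD X.d₂ (ind X.gen h1 W) →
      ∃ A, ∀ e ∈ W ∆ cob S A, e.1 ∈ Def S (b + 1) W ∨ ∃ p ∈ c.support, Near S 1 p.1 e.1 := by
    intro W c hc
    obtain ⟨a, ha⟩ := exists_prim (rowOp_exact X.chain₁) (w := ind X.gen h1 W + c) (by
      rw [DD_add, ← colOp_eq, hc]
      funext p
      exact CharTwo.add_self_eq_zero _)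
    obtain ⟨A, rfl⟩ := exists_chi a
    exact ⟨A, fun e he => lift_fill hS h1 h2 hr ha he⟩
  have hfinβ : ∀ (W β : Set (Γ × S)) (c : Ch Γ (Fin X.n₁)), (Def S (b + 1) W).Finite →
      (∀ e ∈ β, e.1 ∈ Def S (b + 1) W ∨ ∃ p ∈ c.support, Near S 1 p.1 e.1) →
      β.Finite ∧ β.ncard ≤ ((Def S (b + 1) W).ncard +
        c.support.card * ((S : Set Γ) ^ 1).ncard) * S.card := by
    intro W β c hW h
    have f1 := c.support.finite_toSet.image Prod.fst
    have f2 := hW.union (nbhd_finite (S := S) 1 f1)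
    have hsub : β ⊆ (Def S (b + 1) W ∪ {y | ∃ x ∈ Prod.fst '' (c.support : Set _), Near S 1 x y})
        ×ˢ (Set.univ : Set S) := fun e he =>
      ⟨(h e he).imp id fun ⟨p, hp, h'⟩ => ⟨p.1, ⟨p, hp, rfl⟩, h'⟩, trivial⟩
    refine ⟨(f2.prod Set.finite_univ).subset hsub,
      (Set.ncard_le_ncard hsub (f2.prod Set.finite_univ)).trans ?_⟩
    rw [Set.ncard_prod, Set.ncard_univ, Nat.card_eq_fintype_card, Fintype.card_coe]
    refine Nat.mul_le_mul_right _ ((Set.ncard_union_le _ _).trans (add_le_add le_rfl ?_))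
    refine (nbhd_ncard 1 f1).trans (Nat.mul_le_mul_right _ ?_)
    exact (Set.ncard_image_le c.support.finite_toSet).trans (by rw [Set.ncard_coe_finset])
  refine ⟨b + 1, hr, ?_, ?_, ?_⟩
  · intro W hW
    obtain ⟨A, h⟩ := hA W 0 (by
      funext p
      by_contra hc
      have := hdef W p (fun h => hc (by simp [h]))
      simp [hW] at this)
    refine ⟨A, symmDiff_eq_bot.1 (Set.eq_empty_of_forall_notMem fun e he => ?_)⟩
    simpa [hW] using h e he
  · intro A hfin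
    have hf : (Function.support (ind X.gen h1 (cob S A))).Finite := by
      refine ((tails_finite hfin).prod Set.finite_univ).subset fun p hp => ⟨?_, trivial⟩
      refine ⟨⟨X.gen p.2, h1 p.2⟩, ?_⟩
      by_contra hc
      exact hp (if_neg hc)
    obtain ⟨a, ha⟩ := (x1 (Finsupp.ofSupportFinite _ hf)).1 (by
      apply DFunLike.coe_injective
      rw [colOp_eq]
      exact (congrArg (DD X.d₂) (ind_cob X.gen h1 A)).trans (z1 _))
    obtain ⟨A', hA'⟩ := exists_chi a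
    have hA'f : A'.Finite := by
      refine (a.support.finite_toSet.image Prod.fst).subset fun x hx => ⟨(x, 0), ?_, rfl⟩
      have := congrFun hA' (x, 0)
      simp only [chi, hx, if_true] at this
      simp [← this]
    have e1 : ind X.gen h1 (cob S A') = ind X.gen h1 (cob S A) := by
      rw [ind_cob, hA', ← colOp_eq, ha]; rfl
    have e2 : ∀ e, e ∉ cob S (A' ∆ A) := by
      intro e he
      obtain ⟨y, i, -, a2⟩ := step_of_gen h1 h2 he
      have a6 := congrFun e1 (y, i)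
      rw [cob_symmDiff] at a2
      simp only [ind] at a6
      simp only [Set.mem_symmDiff] at a2
      by_cases b1 : (y, (⟨X.gen i, h1 i⟩ : S)) ∈ cob S A <;>
        by_cases b2 : (y, (⟨X.gen i, h1 i⟩ : S)) ∈ cob S A' <;>
        simp only [b1, b2] at a6 a2 <;> simp_all
    have e3 : ∀ y, (1 : Γ) ∈ A' ∆ A ↔ y ∈ A' ∆ A := fun y => by
      obtain ⟨k, hk⟩ := hS.exists_near 1 y
      exact ball_const hS (fun e _ => e2 e) hk
    by_cases h0 : (1 : Γ) ∈ A' ∆ A
    · refine Or.inr (hA'f.subset fun y hy => ?_)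
      have := (e3 y).1 h0
      simp only [Set.mem_symmDiff, Set.mem_compl_iff] at this hy
      tauto
    · refine Or.inl (hA'f.subset fun y hy => ?_)
      have := mt (e3 y).2 h0
      simp only [Set.mem_symmDiff] at this
      tauto
  · obtain ⟨b3, hb3⟩ := (colOp_eqv X.d₃).prop hS
    obtain ⟨ρ, hρ⟩ := bounded_fill hS (colOp_eqv X.d₂)
    refine ⟨b3 + b3, fun k => ⟨ρ (k * (b3 + b3)) + 1, fun W hW hT => ?_⟩⟩
    have key : ∀ z : Ch Γ (Fin X.n₂), colOp X.d₃ z = 0 →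
        (∀ p ∈ z.support, p.1 ∈ Def S (b + 1) W) → ∃ c, colOp X.d₂ c = z ∧
          ∀ p ∈ c.support, ∃ x ∈ Def S (b + 1) W, Near S (ρ (k * (b3 + b3))) x p.1 := by
      intro z
      induction' hn : z.support.card using Nat.strong_induction_on with N ih generalizing z
      intro hz0 hzD
      by_cases h0 : z = 0
      · exact ⟨0, by simp [h0], by simp⟩
      obtain ⟨p₀, hp₀⟩ := Finsupp.support_nonempty_iff.2 h0
      obtain ⟨T, t1, t2, t3, t4⟩ := hT _ (hzD p₀ hp₀)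
      obtain ⟨z₁, z₂, s1, s2, s3, s4, s5, s6⟩ := piece hS z t1 t2
        (fun y hy p hp h => t4 y hy _ (hzD p hp) h) hp₀ t3
      obtain ⟨a1, a2⟩ := split_zero hS hb3 (s1 ▸ hz0) s6
      have hpos : 0 < z₁.support.card := Finset.card_pos.2 ⟨_, s5⟩
      obtain ⟨c₁, b1, -, b2⟩ := hρ z₁ ((x2 _).1 a1)
      obtain ⟨c₂, d1, d2⟩ := ih z₂.support.card (by omega) z₂ rfl a2 fun p hp => hzD p (s3 hp)
      refine ⟨c₁ + c₂, by rw [map_add, b1, d1, s1], fun p hp => ?_⟩
      rcases mem_support_add hp with h | h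
      · exact ⟨_, hzD p₀ hp₀, b2 _ _ s2 p h⟩
      · exact d2 p h
    obtain ⟨z, a1, a2, a3⟩ := hz W hW
    obtain ⟨c, c1, c2⟩ := key z a2 a3
    obtain ⟨A, h⟩ := hA W c (by rw [c1, a1])
    refine ⟨_, A, (hfinβ W _ c hW h).1, fun e he => ?_, symmDiff_symmDiff_cancel_left _ _⟩
    rcases h e he with h' | ⟨p, hp, h'⟩
    · exact ⟨_, h', Near.refl hS _ _⟩
    · obtain ⟨x, hx, h''⟩ := c2 p hp
      exact ⟨x, hx, h''.trans h'⟩

end Vale.Agent.P239
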