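import Vale.Agent.P239.AlgB

namespace Vale.Agent.P239

open scoped Pointwise symmDiff Matrix

variable {Γ : Type} [Group Γ] {S : Finset Γ} {l m n : ℕ}

/-- The coboundary of an arbitrary cochain. -/
noncomputable def DD (d : Matrix (Fin m) (Fin n) (GR Γ)) (w : Γ × Fin n → ZMod 2)
    (p : Γ × Fin m) : ZMod 2 :=
  ∑ i, (d p.2 i).coeff.sum fun a k => k * w (p.1 * a, i)

theorem colOp_eq (d : Matrix (Fin m) (Fin n) (GR Γ)) (c : Ch Γ (Fin n)) :
    ⇑(colOp d c) = DD d c := funext (colOp_apply d c)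

/-- Radius of the supports of the entries. -/
def Rad (S : Finset Γ) (d : Matrix (Fin m) (Fin n) (GR Γ)) (b : ℕ) : Prop :=
  ∀ j i, ∀ a ∈ (d j i).coeff.support, a ∈ (S : Set Γ) ^ b

theorem exists_rad (hS : Gen S) (d : Matrix (Fin m) (Fin n) (GR Γ)) : ∃ b, Rad S d b := by
  obtain ⟨b, hb⟩ := hS.finite_sub_ball (K := ⋃ j, ⋃ i, ((d j i).coeff.support : Set Γ))
    (Set.finite_iUnion fun j => Set.finite_iUnion fun i => Finset.finite_toSet _) 1
  exact ⟨b, fun j i a ha => near_one_iff.1 (hb a (by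
    simp only [Set.mem_iUnion]; exact ⟨j, i, ha⟩))⟩

theorem DD_congr {d : Matrix (Fin m) (Fin n) (GR Γ)} {b : ℕ} (hb : Rad S d b)
    {w w' : Γ × Fin n → ZMod 2} {p : Γ × Fin m} (h : ∀ e, Near S b p.1 e.1 → w e = w' e) :
    DD d w p = DD d w' p := by
  unfold DD
  refine Finset.sum_congr rfl fun i _ => Finsupp.sum_congr fun a ha => ?_
  rw [h (p.1 * a, i) (by simpa [Near] using hb _ _ a ha)]

theorem DD_add (d : Matrix (Fin m) (Fin n) (GR Γ)) (w w' : Γ × Fin n → ZMod 2) :
    DD d (w + w') = DD d w + DD d w' := by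
  funext p
  simp [DD, mul_add, Finsupp.sum_add, Finset.sum_add_distrib]

theorem exists_trunc (w : Γ × Fin n → ZMod 2) (x : Γ) (D : ℕ) :
    ∃ c : Ch Γ (Fin n), ∀ e, Near S D x e.1 → c e = w e := by
  classical
  have h0 : ({y | Near S D x y} ×ˢ (Set.univ : Set (Fin n))).Finite :=
    (ball_finite D x).prod Set.finite_univ
  refine ⟨Finsupp.onFinset h0.toFinset (fun e => if Near S D x e.1 then w e else 0) ?_, ?_⟩
  · intro e he
    by_cases h : Near S D x e.1
    · simpa using h
    · simp [h] at he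
  · intro e he
    simp [he]

theorem DD_DD (hS : Gen S) {d : Matrix (Fin m) (Fin n) (GR Γ)}
    {d' : Matrix (Fin l) (Fin m) (GR Γ)} (h : ∀ c, colOp d' (colOp d c) = 0)
    (w : Γ × Fin n → ZMod 2) : DD d' (DD d w) = 0 := by
  obtain ⟨b, hb⟩ := exists_rad hS d
  obtain ⟨b', hb'⟩ := exists_rad hS d'
  funext p
  obtain ⟨c, hc⟩ := exists_trunc (S := S) w p.1 (b' + b)
  have h1 : DD d' (DD d w) p = DD d' (DD d c) p :=
    DD_congr hb' fun e he => DD_congr hb fun e' he' => (hc e' (he.trans he')).symm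
  rw [h1, ← colOp_eq, ← colOp_eq, h]
  rfl

theorem DD_d₁ (gen : Fin n → Γ) (w : Γ × Fin 1 → ZMod 2) (p : Γ × Fin n) :
    DD (d₁ gen) w p = w (p.1 * gen p.2, 0) + w (p.1, 0) := by
  simp only [DD, d₁, Finset.univ_unique, Fin.default_eq_zero, Finset.sum_singleton,
    MonoidAlgebra.of_apply, MonoidAlgebra.one_def, MonoidAlgebra.coeff_sub,
    MonoidAlgebra.coeff_single]
  rw [Finsupp.sum_sub_index (fun a b c => sub_mul b c _)]
  simp [CharTwo.sub_eq_add]

theorem rowOp_single (d : Matrix (Fin m) (Fin n) (GR Γ)) (p : Γ × Fin m) :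
    rowOp d (Finsupp.single p 1) =
      ∑ i, (d p.2 i).coeff.sum fun a k => Finsupp.single (p.1 * a, i) k := by
  classical
  obtain ⟨x, j⟩ := p
  ext ⟨y, i⟩
  have h1 : rowOp d (Finsupp.single (x, j) 1) (y, i) = (d j i).coeff (x⁻¹ * y) := by
    rw [rowOp_apply, Finset.sum_eq_single j]
    · rw [Finsupp.sum, Finset.sum_eq_single (x⁻¹ * y)]
      · simp
      · intro a _ ha
        rw [Finsupp.single_eq_of_ne, zero_mul]
        intro h
        apply ha
        have : y * a⁻¹ = x := congrArg Prod.fst h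
        rw [← this]; simp
      · intro h
        simp [Finsupp.notMem_support_iff.1 h]
    · intro j' _ hj
      refine Finset.sum_eq_zero fun a _ => ?_
      beta_reduce
      rw [Finsupp.single_eq_of_ne, zero_mul]
      exact fun h => hj (congrArg Prod.snd h)
    · simp
  rw [h1, Finsupp.finsetSum_apply, Finset.sum_eq_single i]
  · rw [Finsupp.sum, Finsupp.finsetSum_apply, Finset.sum_eq_single (x⁻¹ * y)]
    · simp
    · intro a _ ha
      rw [Finsupp.single_eq_of_ne]
      intro h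
      apply ha
      have : y = x * a := congrArg Prod.fst h
      rw [this]; simp
    · intro h
      simp [Finsupp.notMem_support_iff.1 h]
  · intro i' _ hi
    rw [Finsupp.sum, Finsupp.finsetSum_apply]
    refine Finset.sum_eq_zero fun a _ => ?_
    rw [Finsupp.single_eq_of_ne]
    exact fun h => hi (congrArg Prod.snd h).symm
  · simp

theorem pair_rowOp (d : Matrix (Fin m) (Fin n) (GR Γ)) (w : Γ × Fin n → ZMod 2)
    (p : Γ × Fin m) :
    Finsupp.linearCombination (ZMod 2) w (rowOp d (Finsupp.single p 1)) = DD d w p := by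
  rw [rowOp_single, map_sum]
  refine Finset.sum_congr rfl fun i _ => ?_
  rw [map_finsuppSum]
  simp

/-- A cocycle is a coboundary, for arbitrary supports. -/
theorem exists_prim {d : Matrix (Fin m) (Fin n) (GR Γ)} {d' : Matrix (Fin l) (Fin m) (GR Γ)}
    (h : Function.Exact (rowOp d') (rowOp d)) {w : Γ × Fin m → ZMod 2} (hw : DD d' w = 0) :
    ∃ a, DD d a = w := by
  have : Fact (Nat.Prime 2) := ⟨Nat.prime_two⟩
  have h1 : Finsupp.linearCombination (ZMod 2) w ∈ (LinearMap.ker (rowOp d)).dualAnnihilator := by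
    rw [Submodule.mem_dualAnnihilator]
    intro c hc
    obtain ⟨c', rfl⟩ := (h c).1 hc
    rw [ch_eq_sum c', map_sum, map_sum]
    exact Finset.sum_eq_zero fun p _ => by rw [pair_rowOp, hw]; rfl
  rw [← LinearMap.range_dualMap_eq_dualAnnihilator_ker] at h1
  obtain ⟨ψ, hψ⟩ := h1
  refine ⟨fun q => ψ (Finsupp.single q 1), funext fun p => ?_⟩
  have h2 : Finsupp.linearCombination (ZMod 2) (fun q => ψ (Finsupp.single q 1)) = ψ := by
    ext q; simp
  rw [← pair_rowOp, h2]
  have := LinearMap.congr_fun hψ (Finsupp.single p 1)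
  simpa using this

end Vale.Agent.P239
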