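import Vale.Agent.P239.BasY

/-! The cuts form a family with classes. -/

namespace Vale.Agent.P239

open scoped Pointwise symmDiff
open Filter Topology

variable {Γ : Type*} [Group Γ] {Z : Type*} [MetricSpace Z] [CompactSpace Z] [MulAction Γ Z]
  [ContinuousConstSMul Γ Z] {D : Dat Γ Z} {π : Z → ℝ}

namespace CFXAux

omit [CompactSpace Z] [ContinuousConstSMul Γ Z] in
theorem split (S : Finset Γ) (C Ω : Set Γ) :
    {e : Γ × S | e ∈ cob S C ∧ (e.1 ∈ Ω ∧ e.1 * e.2 ∈ Ω)} ∆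
      {e : Γ × S | e ∈ cob S C ∧ ¬ (e.1 ∈ Ω ∧ e.1 * e.2 ∈ Ω)} = cob S C := by
  ext e
  simp only [Set.mem_symmDiff, Set.mem_ofPred_eq]
  by_cases h1 : e ∈ cob S C <;> by_cases h2 : (e.1 ∈ Ω ∧ e.1 * e.2 ∈ Ω) <;> simp [h1, h2]

omit [Group Γ] in
theorem side {Ω C : Set Γ} (h : Ω ⊆ C ∨ Ω ⊆ Cᶜ) : (Ω ∩ C).Finite ∨ (Ω \ C).Finite := by
  rcases h with h | h
  · right
    rw [Set.sdiff_eq_empty.2 h]
    exact Set.finite_empty
  · left
    have : Ω ∩ C = ∅ := by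
      ext x
      simp only [Set.mem_inter_iff, Set.mem_empty_iff_false, iff_false, not_and]
      exact fun hx => h hx
    rw [this]
    exact Set.finite_empty

omit [Group Γ] in
theorem fin_edges {S : Finset Γ} {T : Set Γ} (hT : T.Finite) :
    {e : Γ × S | e.1 ∈ T}.Finite := by
  have : {e : Γ × S | e.1 ∈ T} = T ×ˢ (Set.univ : Set S) := by
    ext e
    simp
  rw [this]
  exact hT.prod Set.finite_univ

omit [CompactSpace Z] [ContinuousConstSMul Γ Z] in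
theorem nest (H : D.OK) {X Y : Set Γ} {ξ ζ : Z} (hX : D.Cut X ξ) (hY : D.Cut Y ζ)
    (hn : ¬ D.Same X Y) : Nested X Y := by
  obtain ⟨Ω, hΩ, hf, hav⟩ := H.sep hX.2.1 hY.2.1 hn
  obtain ⟨Ω', hΩ', hf', hav'⟩ := H.sep hY.2.1 hX.2.1 (fun h => hn (Dat.Same.symm h))
  have key := nested_vote (N := Ω) (N' := Ω') H.gen H.vv H.ifc.hb
    (cob_out_finite H.gen hf) (cob_out_finite H.gen hf') (split D.S X Ω) (split D.S Y Ω')
    (fun e he => he.2) (fun e he => he.2) (side (hΩ.const hav)) (side (hΩ'.const hav'))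
    (H.cut_infinite hX).1 (H.cut_infinite hX).2
  rwa [hX.1, hY.1] at key

omit [CompactSpace Z] [ContinuousConstSMul Γ Z] in
theorem fin (H : D.OK) {X Y : Set Γ} {ξ ζ : Z} (hX : D.Cut X ξ) (hY : D.Cut Y ζ)
    (hn : ¬ D.Same X Y) : (cob D.S X ∩ cob D.S Y).Finite := by
  obtain ⟨Ω, -, hf, hav⟩ := H.sep hX.2.1 hY.2.1 hn
  refine (fin_edges hf).subset fun e he => ?_
  exact ⟨tail_mem he.1, fun h => hav _ h (tail_mem he.2)⟩

omit [CompactSpace Z] [ContinuousConstSMul Γ Z] in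
theorem ord (H : D.OK) {X Y W : Set Γ} {ξ ζ η : Z} (hX : D.Cut X ξ) (hY : D.Cut Y ζ)
    (hW : D.Cut W η) (h1 : X ⊆ Y) (h2 : Y ⊆ W) (hs : D.Same X W) : D.Same X Y := by
  by_contra hn
  obtain ⟨θ, hθ⟩ := hs
  have hn' : ¬ ∃ ρ, D.Conv (tails D.S X ∪ tails D.S W ∪ tails D.S Y) ρ := by
    rintro ⟨ρ, hρ⟩
    refine hn ⟨ρ, hρ.subset ?_⟩
    rintro x (hx | hx)
    · exact Or.inl (Or.inl hx)
    · exact Or.inr hx
  obtain ⟨Ω, hΩ, hf, hav⟩ := H.sep hθ hY.2.1 hn'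
  rcases hΩ.const hav with h | h
  · have hi : (tails D.S Wᶜ ∩ Wᶜ).Infinite :=
      tails_inter_infinite H.gen (by rw [tails_compl]; exact H.cut_tails_infinite hW)
    refine hi (hf.subset ?_)
    rintro x ⟨hx, hx'⟩
    rw [tails_compl] at hx
    exact ⟨Or.inr hx, fun h0 => hx' (h2 (h h0))⟩
  · have hi : (tails D.S X ∩ X).Infinite :=
      tails_inter_infinite H.gen (H.cut_tails_infinite hX)
    refine hi (hf.subset ?_)
    rintro x ⟨hx, hx'⟩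
    exact ⟨Or.inl hx, fun h0 => h h0 (h1 hx')⟩

end CFXAux

theorem cf (H : D.OK) : D.CF where
  tr_mem := by
    rintro X ⟨ξ, hX⟩ g
    exact ⟨g • ξ, H.cut_tr hX g⟩
  compl_mem := by
    rintro X ⟨ξ, hX⟩
    exact ⟨ξ, H.cut_compl hX⟩
  refl := by
    rintro X ⟨ξ, hX⟩
    exact hX.same_self
  symm := fun _ _ h => h.symm
  trans := by
    rintro X Y ⟨ξ, hY⟩ W h1 h2
    exact H.same_trans hY h1 h2
  e_tr := fun _ _ g h => H.same_tr h g
  e_compl := fun _ _ h => h.compl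
  nest := by
    rintro X ⟨ξ, hX⟩ Y ⟨ζ, hY⟩ hn
    exact CFXAux.nest H hX hY hn
  fin := by
    rintro X ⟨ξ, hX⟩ Y ⟨ζ, hY⟩ hn
    exact CFXAux.fin H hX hY hn
  ord := by
    rintro X ⟨ξ, hX⟩ Y ⟨ζ, hY⟩ W ⟨η, hW⟩ h1 h2 hs
    exact CFXAux.ord H hX hY hW h1 h2 hs

end Vale.Agent.P239
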