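import Vale.Agent.P239.BasY

/-! The convergence property of a monotone coordinate. -/

namespace Vale.Agent.P239

open scoped Pointwise symmDiff
open Filter Topology

variable {Γ : Type*} [Group Γ] {S : Finset Γ} {r : ℕ}

namespace CVXAux

open MeasureTheory Set

theorem coef {ω : Γ → ℝ} (h1 : Summable fun x => ω x ^ 2) {ε : ℝ} (hε : 0 < ε) :
    ∃ K : Set Γ, K.Finite ∧ ∀ c, c ∉ K → ∃ b : Γ → ℝ, Summable b ∧ (∀ x, 0 ≤ b x) ∧
      (∀ x, 2 * ω x * (2 * ω (c * x)) ≤ b x) ∧ ∑' x, b x < ε := by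
  have hE : 0 ≤ ∑' x, ω x ^ 2 := tsum_nonneg fun x => sq_nonneg _
  set E := ∑' x, ω x ^ 2 with hE'
  set t : ℝ := ε / (8 * (E + 1)) with ht
  have ht0 : 0 < t := by positivity
  obtain ⟨F, hF⟩ := ((tendsto_tsum_compl_atTop_zero fun x => ω x ^ 2).eventually
    (gt_mem_nhds (show 0 < t * ε / 8 by positivity))).exists
  set g : Γ → ℝ := ((F : Set Γ)ᶜ).indicator fun x => ω x ^ 2 with hg
  have hg1 : Summable g := h1.indicator _
  have hg0 : ∀ x, 0 ≤ g x := fun x => indicator_nonneg (fun y _ => sq_nonneg _) x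
  have hg2 : ∑' x, g x < t * ε / 8 := by
    rw [hg, ← tsum_subtype]
    exact hF
  refine ⟨image2 (fun a b => a * b⁻¹) (F : Set Γ) F, F.finite_toSet.image2 _ F.finite_toSet,
    fun c hc => ?_⟩
  have s1 := (hg1.hasSum.add ((Equiv.mulLeft c).hasSum_iff.2 hg1.hasSum)).mul_left (2 / t)
  have s2 := (h1.hasSum.add ((Equiv.mulLeft c).hasSum_iff.2 h1.hasSum)).mul_left (2 * t)
  have s3 := s1.add s2
  simp only [Function.comp_apply, Equiv.coe_mulLeft] at s3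
  have key : ∀ a b : ℝ, 2 * a * (2 * b) ≤ 2 / t * a ^ 2 + 2 * t * b ^ 2 := by
    intro a b
    have h2 : 2 / t * a ^ 2 + 2 * t * b ^ 2 - 2 * a * (2 * b) = 2 / t * (a - t * b) ^ 2 := by
      field_simp
      ring
    have h3 : 0 ≤ 2 / t * (a - t * b) ^ 2 := by positivity
    linarith
  refine ⟨_, s3.summable, fun x => ?_, fun x => ?_, ?_⟩
  · have := hg0 x
    have := hg0 (c * x)
    positivity
  · have h2 : 0 ≤ 2 / t * g x := mul_nonneg (by positivity) (hg0 x)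
    have h3 : 0 ≤ 2 / t * g (c * x) := mul_nonneg (by positivity) (hg0 _)
    have h4 : 0 ≤ 2 * t * ω x ^ 2 := by positivity
    have h5 : 0 ≤ 2 * t * ω (c * x) ^ 2 := by positivity
    by_cases hx : x ∈ (F : Set Γ)
    · have h6 : c * x ∉ (F : Set Γ) := fun h => hc ⟨c * x, h, x, hx, by simp⟩
      have h7 : g (c * x) = ω (c * x) ^ 2 := indicator_of_mem h6 _
      have h8 := key (ω (c * x)) (ω x)
      rw [mul_add, mul_add, h7]
      linarith
    · have h7 : g x = ω x ^ 2 := indicator_of_mem hx _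
      have h8 := key (ω x) (ω (c * x))
      rw [mul_add, mul_add, h7]
      linarith
  · rw [s3.tsum_eq, ← hE']
    have h2 : 2 / t * (∑' x, g x + ∑' x, g x) < 2 / t * (t * ε / 8 + t * ε / 8) :=
      mul_lt_mul_of_pos_left (by linarith) (by positivity)
    have h3 : 2 / t * (t * ε / 8 + t * ε / 8) = ε / 2 := by
      field_simp
      ring
    have h4 : t * (E + 1) = ε / 8 := by
      rw [ht]
      field_simp
    nlinarith

theorem good_pair {N : Set ℝ} (hN : N.Countable) {B : Set (ℝ × ℝ)} {l : ℝ} (hl : 0 < l)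
    (hB : volume B < ENNReal.ofReal (l * l)) (a b : ℝ) :
    ∃ σ ∈ Ioo a (a + l), ∃ τ ∈ Ioo b (b + l), σ ∉ N ∧ τ ∉ N ∧ (σ, τ) ∉ B := by
  by_contra h
  push Not at h
  have h1 : (Ioo a (a + l) \ N) ×ˢ (Ioo b (b + l) \ N) ⊆ B :=
    fun p hp => h p.1 hp.1.1 p.2 hp.2.1 hp.1.2 hp.2.2
  have h2 := measure_mono (μ := volume) h1
  rw [Measure.volume_eq_prod, Measure.prod_prod, measure_sdiff_null (hN.measure_zero _),
    measure_sdiff_null (hN.measure_zero _), Real.volume_Ioo, Real.volume_Ioo, add_sub_cancel_left,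
    add_sub_cancel_left, ← ENNReal.ofReal_mul hl.le, ← Measure.volume_eq_prod] at h2
  exact absurd hB (not_lt.2 h2)

omit [Group Γ] in
theorem vol_bad [Countable Γ] (f g α β b : Γ → ℝ) (hα : ∀ x, 0 ≤ α x) (hb : Summable b)
    (hb0 : ∀ x, 0 ≤ b x) (h : ∀ x, 2 * α x * (2 * β x) ≤ b x) :
    volume (⋃ x, Icc (f x - α x) (f x + α x) ×ˢ Icc (g x - β x) (g x + β x)) ≤
      ENNReal.ofReal (∑' x, b x) := by
  rw [ENNReal.ofReal_tsum_of_nonneg hb0 hb]
  refine (measure_iUnion_le _).trans (ENNReal.tsum_le_tsum fun x => ?_)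
  rw [Measure.volume_eq_prod, Measure.prod_prod, Real.volume_Icc, Real.volume_Icc,
    ← ENNReal.ofReal_mul (by linarith [hα x])]
  refine ENNReal.ofReal_le_ofReal (le_trans (le_of_eq ?_) (h x))
  ring

theorem window {a z η : ℝ} (hη : 0 < η) (h : η < |z - a|) (ha : 0 ≤ a ∧ a ≤ 1)
    (hz : 0 ≤ z ∧ z ≤ 1) : ∃ a' : ℝ, ∀ σ ∈ Ioo a' (a' + η / 2), 0 < σ ∧ σ < 1 ∧
      (σ < z ↔ ¬ σ < a) ∧ ∀ w, |w - a| ≤ η / 4 → (σ < w ↔ σ < a) := by
  rcases lt_abs.1 h with h | h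
  · refine ⟨a + η / 4, fun σ hσ => ⟨by linarith [hσ.1, ha.1], by linarith [hσ.2, hz.2],
      iff_of_true (by linarith [hσ.2]) (by linarith [hσ.1]), fun w hw => ?_⟩⟩
    exact iff_of_false (by linarith [hσ.1, (abs_le.1 hw).2]) (by linarith [hσ.1])
  · refine ⟨a - 3 * η / 4, fun σ hσ => ⟨by linarith [hσ.1, hz.1], by linarith [hσ.2, ha.2],
      iff_of_false (by linarith [hσ.1]) (not_not.2 (by linarith [hσ.2])), fun w hw => ?_⟩⟩
    exact iff_of_true (by linarith [hσ.2, (abs_le.1 hw).1]) (by linarith [hσ.2])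

omit [Group Γ] in
theorem corners {A B : Set Γ} {α β : Prop} {p q p' q' y : Γ} (h1 : p ∈ A) (h2 : q ∉ A)
    (h3 : p ∈ B ↔ β) (h4 : q ∈ B ↔ β) (h5 : p' ∈ B) (h6 : q' ∉ B) (h7 : p' ∈ A ↔ α)
    (h8 : q' ∈ A ↔ α) (h9 : y ∈ A ↔ ¬ α) (h10 : y ∈ B ↔ ¬ β) : ¬ Nested A B := by
  intro h
  rcases h with h | h | h | h <;>
  · have e := Set.eq_empty_iff_forall_notMem.1 h
    have e1 := e p
    have e2 := e q
    have e3 := e p'
    have e4 := e q'
    have e5 := e y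
    simp only [mem_inter_iff, mem_compl_iff, h1, h2, h3, h4, h5, h6, h7, h8, h9, h10]
      at e1 e2 e3 e4 e5
    clear e h h1 h2 h3 h4 h5 h6 h7 h8 h9 h10
    tauto

theorem wall (hS : Gen S) (hI : Ifc S r) {u : Γ → ℝ} (hu : Mono S u) {σ : ℝ}
    (hσ : σ ∉ range u) : CConn S (2 * r) (tails S {x | σ < u x}) := by
  refine hI.wc hS (hu.up σ) ?_
  have h : {x | σ < u x}ᶜ = {x | u x < σ} := by
    ext x
    simp only [mem_compl_iff, mem_ofPred_eq, not_lt]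
    exact ⟨fun h => lt_of_le_of_ne h fun e => hσ ⟨x, e⟩, le_of_lt⟩
  rw [h]
  exact hu.dn σ

theorem between {σ a b m w : ℝ} (h : ¬ (σ < a ↔ σ < b)) (ha : |a - m| ≤ w) (hb : |b - m| ≤ w) :
    σ ∈ Icc (m - w) (m + w) := by
  have h1 := abs_le.1 ha
  have h2 := abs_le.1 hb
  by_cases h3 : σ < a
  · have h4 : b ≤ σ := not_lt.1 fun h' => h (iff_of_true h3 h')
    exact ⟨by linarith, by linarith⟩
  · have h4 : σ < b := by
      by_contra h'
      exact h (iff_of_false h3 h')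
    exact ⟨by linarith [not_lt.1 h3], by linarith⟩

end CVXAux

open CVXAux in
theorem cv_of_mono (hS : Gen S) (hI : Ifc S r) {u : Γ → ℝ} (hu : Mono S u) : CV u := by
  intro η hη
  have := hS.countable
  obtain ⟨ω, h0, h1, h2⟩ := oscProp S u hu.en (2 * r + 1)
  obtain ⟨K1, hK1, hc1⟩ := coef h1 (show 0 < η / 2 * (η / 2) by positivity)
  obtain ⟨p, hp⟩ := hu.i1.nonempty
  obtain ⟨q, hq⟩ := hu.i0.nonempty
  have hp' : u p = 1 := hp
  have hq' : u q = 0 := hq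
  obtain ⟨n, hn⟩ := hS.finite_sub_ball (Set.toFinite {p, q}) 1
  obtain ⟨K2, hK2, hc2⟩ := hu.en.slow n (show 0 < η / 4 by positivity)
  have hc3 : ∀ x, x ∉ K2 → |u (x * p) - u x| ≤ η / 4 ∧ |u (x * q) - u x| ≤ η / 4 := by
    intro x hx
    have e1 := (near_mul_left x 1 p).2 (hn p (by simp))
    have e2 := (near_mul_left x 1 q).2 (hn q (by simp))
    rw [mul_one] at e1 e2
    exact ⟨hc2 x hx _ e1, hc2 x hx _ e2⟩
  refine ⟨K1 ∪ K2 ∪ K2⁻¹, (hK1.union hK2).union hK2.inv, fun c hc y => ?_⟩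
  by_contra hcon
  push Not at hcon
  have hcK1 : c ∉ K1 := fun h => hc (Or.inl (Or.inl h))
  have hcK2 : c ∉ K2 := fun h => hc (Or.inl (Or.inr h))
  have hcK3 : c⁻¹ ∉ K2 := fun h => hc (Or.inr h)
  obtain ⟨b, hb, hb0, hb1, hb2⟩ := hc1 c hcK1
  have hv := (vol_bad u (fun x => u (c * x)) ω (fun x => ω (c * x)) b h0 hb hb0 hb1).trans_lt
    ((ENNReal.ofReal_lt_ofReal_iff (by positivity)).2 hb2)
  obtain ⟨a1, ha1⟩ := window hη hcon.2 (hu.bd _) (hu.bd _)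
  obtain ⟨a2, ha2⟩ := window hη hcon.1 (hu.bd _) (hu.bd _)
  obtain ⟨σ, hσ, τ, hτ, hσN, hτN, hgood⟩ :=
    good_pair (Set.countable_range u) (half_pos hη) hv a1 a2
  obtain ⟨s0, s1, s2, s3⟩ := ha1 σ hσ
  obtain ⟨t0, t1, t2, t3⟩ := ha2 τ hτ
  have hmem : ∀ x, x ∈ tr c⁻¹ {x | τ < u x} ↔ τ < u (c * x) := fun x => by simp
  have hB : CConn S (2 * r) (tails S (tr c⁻¹ {x | τ < u x})) := by
    rw [tails_tr]
    exact (wall hS hI hu hτN).tr _
  have hnest := nested_of_far hS (wall hS hI hu hσN) hB fun x hx x' hx' hnear => by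
    obtain ⟨s, hs, e1⟩ := mem_tails.1 hx
    obtain ⟨s', hs', e2⟩ := mem_tails.1 hx'
    rw [hmem, hmem] at e2
    refine hgood (Set.mem_iUnion.2 ⟨x, ?_, ?_⟩)
    · exact between e1 (h2 x x (Near.refl hS _ _))
        (h2 x _ ((near_step x hs).mono hS (by omega)))
    · exact between e2 (h2 _ _ ((near_mul_left c x x').2 (hnear.mono hS (by omega))))
        (h2 _ _ ((near_mul_left c x _).2 (hnear.trans (near_step x' hs'))))
  refine corners (α := σ < u c⁻¹) (β := τ < u c) (p := p) (q := q) (p' := c⁻¹ * p)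
    (q' := c⁻¹ * q) (y := y) ?_ ?_ ?_ ?_ ?_ ?_ ?_ ?_ s2 ?_ hnest
  · change σ < u p
    rwa [hp']
  · change ¬ σ < u q
    rw [hq']
    exact not_lt.2 s0.le
  · rw [hmem]
    exact t3 _ (hc3 c hcK2).1
  · rw [hmem]
    exact t3 _ (hc3 c hcK2).2
  · rw [hmem, mul_inv_cancel_left, hp']
    exact t1
  · rw [hmem, mul_inv_cancel_left, hq']
    exact not_lt.2 t0.le
  · exact s3 _ (hc3 _ hcK3).1
  · exact s3 _ (hc3 _ hcK3).2
  · rw [hmem]
    exact t2

end Vale.Agent.P239
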