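import Vale.Agent.P239.ASB

/-! Transport along charts and the cohomological dimension of four space. -/

namespace Vale.Agent.P239.AS

open scoped Pointwise symmDiff
open Filter Topology

variable {k : Type*} [Field k] {X Y : Type*} [TopologicalSpace X] [TopologicalSpace Y]

namespace ChartXAux

theorem nul (φ : OpenPartialHomeomorph X Y) {C : Set Y} (hC : C ⊆ φ.target) {f : Co k X}
    (h : d f ∈ Nul k (φ.symm '' C)) : d (pull φ.symm f) ∈ Nul k C := by
  rw [d_pull]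
  exact pull_mem_Nul (fun y hy => φ.continuousAt_symm (hC hy)) (fun y hy => Set.mem_image_of_mem _ hy) h

theorem ex (φ : OpenPartialHomeomorph X Y) {C : Set Y} (hC : C ⊆ φ.target) {f : Co k X}
    (h : Ex C (pull φ.symm f)) : Ex (φ.symm '' C) f := by
  obtain ⟨g, hg⟩ := h
  have hs : ∀ y ∈ φ.symm '' C, y ∈ φ.source := by
    rintro _ ⟨c, hc, rfl⟩
    exact φ.map_target (hC hc)
  have h1 := pull_mem_Nul (φ := φ) (K := φ.symm '' C) (fun y hy => φ.continuousAt (hs y hy))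
    (by rintro _ ⟨c, hc, rfl⟩; rwa [φ.right_inv (hC hc)]) hg
  have h2 : f - pull φ (pull φ.symm f) ∈ Nul k (φ.symm '' C) := by
    have key : ∀ l : List X, (∀ x ∈ l, x ∈ φ.source) → (f - pull φ (pull φ.symm f)) l = 0 := by
      intro l hl
      have : (l.map φ).map φ.symm = l := by
        rw [List.map_map]
        exact (List.map_congr_left fun x hx => φ.left_inv (hl x hx)).trans (List.map_id' l)
      show f l - f ((l.map φ).map φ.symm) = 0
      rw [this, sub_self]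
    exact ⟨key [] (by simp), fun y hy => ⟨_, φ.open_source.mem_nhds (hs y hy), key⟩⟩
  refine ⟨pull φ g, ?_⟩
  have h3 := (Nul k _).add_mem h2 h1
  rwa [map_sub, ← d_pull, sub_add_sub_cancel] at h3

theorem slice [T2Space X] {K : Set X} (hK : IsCompact K) {lam : X → ℝ} (hl : Continuous lam)
    {n : ℕ} (h0 : ∀ t, HK k n (K ∩ lam ⁻¹' {t})) (h1 : ∀ t, HK k (n + 1) (K ∩ lam ⁻¹' {t})) :
    HK k (n + 1) K := by
  intro f hf hd
  have loc : ∀ t : ℝ, ∃ ε > 0, ∀ s ∈ Metric.ball t ε, ∀ s' ∈ Metric.ball t ε,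
      Ex (K ∩ lam ⁻¹' Set.Iic s) f → Ex (K ∩ lam ⁻¹' Set.Iic s') f := by
    intro t
    obtain ⟨g, hg⟩ := h1 t f hf (Nul.mono Set.inter_subset_left hd)
    have hc : IsClosed (lam '' (K \ {y | Van (f - d g) y})) :=
      ((hK.diff (isOpen_van _)).image hl).isClosed
    have ht : t ∉ lam '' (K \ {y | Van (f - d g) y}) := by
      rintro ⟨y, hy, e⟩
      exact hy.2 (hg.2 y ⟨hy.1, e⟩)
    obtain ⟨ε, hε, hb⟩ := Metric.isOpen_iff.1 hc.isOpen_compl t ht
    refine ⟨ε, hε, fun s hs s' hs' he => ?_⟩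
    rcases le_total s' s with c | c
    · exact he.mono fun y hy => ⟨hy.1, le_trans hy.2 c⟩
    have e2 : Ex (K ∩ lam ⁻¹' Set.Icc s s') f := by
      refine ⟨g, hg.1, fun y hy => ?_⟩
      by_contra hn
      exact hb ((convex_ball t ε).ordConnected.out hs hs' hy.2) ⟨y, ⟨hy.1, hn⟩, rfl⟩
    have e3 : (K ∩ lam ⁻¹' Set.Iic s) ∩ (K ∩ lam ⁻¹' Set.Icc s s') = K ∩ lam ⁻¹' {s} := by
      ext y
      simp only [Set.mem_inter_iff, Set.mem_preimage, Set.mem_Iic, Set.mem_Icc,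
        Set.mem_singleton_iff]
      exact ⟨fun h => ⟨h.1.1, le_antisymm h.1.2 h.2.2.1⟩,
        fun h => ⟨⟨h.1, h.2.le⟩, h.1, h.2.ge, h.2.le.trans c⟩⟩
    refine (glue_hk (hK.inter_right (isClosed_Iic.preimage hl))
      (hK.inter_right (isClosed_Icc.preimage hl)) hf he e2 (e3 ▸ h0 s)).mono fun y hy => ?_
    rcases le_total (lam y) s with c' | c'
    · exact Or.inl ⟨hy.1, c'⟩
    · exact Or.inr ⟨hy.1, c', hy.2⟩
  have cl : IsClopen {s : ℝ | Ex (K ∩ lam ⁻¹' Set.Iic s) f} := by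
    constructor
    · rw [← isOpen_compl_iff, Metric.isOpen_iff]
      intro t ht
      obtain ⟨ε, hε, h⟩ := loc t
      exact ⟨ε, hε, fun s hs he => ht (h s hs t (Metric.mem_ball_self hε) he)⟩
    · rw [Metric.isOpen_iff]
      intro t ht
      obtain ⟨ε, hε, h⟩ := loc t
      exact ⟨ε, hε, fun s hs => h t (Metric.mem_ball_self hε) s hs ht⟩
  obtain ⟨a, ha⟩ := (hK.image hl).bddBelow
  obtain ⟨b, hb⟩ := (hK.image hl).bddAbove
  have ne : {s : ℝ | Ex (K ∩ lam ⁻¹' Set.Iic s) f}.Nonempty := by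
    refine ⟨a - 1, Ex.of_nul ⟨hf.nil, fun y hy => ?_⟩⟩
    have h2 : a ≤ lam y := ha ⟨y, hy.1, rfl⟩
    have h3 : lam y ≤ a - 1 := hy.2
    linarith
  have e : Ex (K ∩ lam ⁻¹' Set.Iic b) f := (cl.eq_univ ne).ge (Set.mem_univ b)
  exact e.mono fun y hy => ⟨hy, hb ⟨y, hy, rfl⟩⟩

theorem coords (j : ℕ) (hj : j ≤ 4) : ∀ K : Set R4, IsCompact K →
    (∀ x ∈ K, ∀ y ∈ K, ∀ i : Fin 4, j ≤ i.1 → x i = y i) → ∀ n, j + 1 ≤ n → HK k n K := by
  induction j with
  | zero =>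
    intro K _ h n hn
    obtain ⟨m, rfl⟩ : ∃ m, n = m + 1 := ⟨n - 1, by omega⟩
    exact hk_subsingleton (fun x hx y hy => PiLp.ext fun i => h x hx y hy i (Nat.zero_le _)) m
  | succ j ih =>
    intro K hK h n hn
    obtain ⟨m, rfl⟩ : ∃ m, n = m + 1 := ⟨n - 1, by omega⟩
    have hl : Continuous fun x : R4 => x ⟨j, hj⟩ := by fun_prop
    have key := fun t : ℝ => ih (by omega) (K ∩ (fun x : R4 => x ⟨j, hj⟩) ⁻¹' {t})
      (hK.inter_right (isClosed_singleton.preimage hl)) fun x hx y hy i hi => by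
        rcases hi.eq_or_lt with c | c
        · obtain rfl : i = ⟨j, hj⟩ := Fin.ext c.symm
          exact Eq.trans hx.2 (Eq.symm hy.2)
        · exact h x hx.1 y hy.1 i c
    exact slice hK hl (fun t => key t m (by omega)) fun t => key t (m + 1) (by omega)

end ChartXAux

theorem tr_acyc (φ : OpenPartialHomeomorph X Y) {C : Set Y} (hC : C ⊆ φ.target)
    (h : Acyc k C) : Acyc k (φ.symm '' C) :=
  fun _ hf => ChartXAux.ex φ hC (h _ (ChartXAux.nul φ hC hf))

theorem tr_hk (φ : OpenPartialHomeomorph X Y) {C : Set Y} (hC : C ⊆ φ.target) {n : ℕ}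
    (h : HK k n C) : HK k n (φ.symm '' C) :=
  fun _ h0 hf => ChartXAux.ex φ hC (h _ (h0.pull _) (ChartXAux.nul φ hC hf))

theorem v4 {K : Set R4} (hK : IsCompact K) {n : ℕ} (hn : 5 ≤ n) : HK k n K :=
  ChartXAux.coords 4 le_rfl K hK (fun _ _ _ _ i hi => absurd i.2 (not_lt.2 hi)) n hn

theorem hk_chart (φ : OpenPartialHomeomorph X R4) {K : Set X} (hK : IsCompact K)
    (h : K ⊆ φ.source) {n : ℕ} (hn : 5 ≤ n) : HK k n K := by
  have h1 := tr_hk (k := k) φ (C := φ '' K) (by rintro _ ⟨x, hx, rfl⟩; exact φ.map_source (h hx))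
    (v4 (hK.image_of_continuousOn (φ.continuousOn.mono h)) hn)
  rwa [show φ.symm '' (φ '' K) = K from
    φ.toPartialEquiv.symm_image_image_of_subset_source h] at h1

theorem dim4 [ChartedSpace R4 X] : Dim4 k X := fun x =>
  ⟨(chartAt R4 x).source, chart_source_mem_nhds R4 x, fun _ h hK _ hn => hk_chart _ hK h hn⟩

end Vale.Agent.P239.AS
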