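import Vale.Agent.P239.Core4

/-! Cocycles on cycles that are equivariant boundaries. -/

namespace Vale.Agent.P239.VN

open scoped InnerProductSpace
open Filter Topology

namespace CocXAux

variable {Γ V A R H : Type} [Group Γ] [MulAction Γ V] [Ring R] [AddCommGroup H] [Module R H]
  (ρ : Γ →* R) (s t : A → V) (F : Set A) (c : A → H)

/-- The boundary of a chain of translated edges. -/
noncomputable def bd : (Γ × A →₀ ℤ) →ₗ[ℤ] (V →₀ ℤ) :=
  Finsupp.lmapDomain ℤ ℤ (fun e : Γ × A => e.1 • t e.2) -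
    Finsupp.lmapDomain ℤ ℤ fun e : Γ × A => e.1 • s e.2

/-- The value of the cochain. -/
noncomputable def ev : (Γ × A →₀ ℤ) →ₗ[ℤ] H :=
  Finsupp.linearCombination ℤ fun e : Γ × A => ρ e.1 • c e.2

/-- There is a chain from `x` to `y` with value `h`. -/
def Rel (x y : V) (h : H) : Prop :=
  ∃ w ∈ Finsupp.supported ℤ ℤ {e : Γ × A | e.2 ∈ F},
    bd s t w = Finsupp.single y 1 - Finsupp.single x 1 ∧ ev ρ c w = h

variable {ρ s t F c}

theorem Rel.refl (x : V) : Rel ρ s t F c x x 0 :=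
  ⟨0, zero_mem _, by rw [map_zero, sub_self], map_zero _⟩

theorem Rel.symm {x y : V} {h : H} (h1 : Rel ρ s t F c x y h) : Rel ρ s t F c y x (-h) := by
  obtain ⟨w, a1, a2, a3⟩ := h1
  exact ⟨-w, neg_mem a1, by rw [map_neg, a2, neg_sub], by rw [map_neg, a3]⟩

theorem Rel.trans {x y z : V} {h h' : H} (h1 : Rel ρ s t F c x y h) (h2 : Rel ρ s t F c y z h') :
    Rel ρ s t F c x z (h + h') := by
  obtain ⟨w, a1, a2, a3⟩ := h1
  obtain ⟨w', b1, b2, b3⟩ := h2
  exact ⟨w + w', add_mem a1 b1, by rw [map_add, a2, b2]; abel, by rw [map_add, a3, b3]⟩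

theorem Rel.edge {a : A} (ha : a ∈ F) : Rel ρ s t F c (s a) (t a) (c a) :=
  ⟨Finsupp.single (1, a) 1, Finsupp.single_mem_supported ℤ _ ha, by simp [bd], by simp [ev]⟩

theorem bd_tr (g : Γ) (w : Γ × A →₀ ℤ) :
    bd s t (w.mapDomain fun e => (g * e.1, e.2)) = (bd s t w).mapDomain fun v => g • v := by
  induction w using Finsupp.induction_linear with
  | zero => simp
  | add f f' h h' => rw [Finsupp.mapDomain_add, map_add, map_add, Finsupp.mapDomain_add, h, h']
  | single e n => simp [bd, Finsupp.mapDomain_sub, mul_smul]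

theorem ev_tr (g : Γ) (w : Γ × A →₀ ℤ) :
    ev ρ c (w.mapDomain fun e => (g * e.1, e.2)) = ρ g • ev ρ c w := by
  induction w using Finsupp.induction_linear with
  | zero => simp
  | add f f' h h' => rw [Finsupp.mapDomain_add, map_add, map_add, smul_add, h, h']
  | single e n => simp [ev, mul_smul, smul_comm n]

theorem Rel.smul {x y : V} {h : H} (g : Γ) (h1 : Rel ρ s t F c x y h) :
    Rel ρ s t F c (g • x) (g • y) (ρ g • h) := by
  classical
  obtain ⟨w, a1, a2, a3⟩ := h1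
  refine ⟨w.mapDomain fun e => (g * e.1, e.2), ?_, ?_, by rw [ev_tr, a3]⟩
  · rw [Finsupp.mem_supported] at a1 ⊢
    intro e he
    obtain ⟨e', he', rfl⟩ := Finset.mem_image.1 (Finsupp.mapDomain_support he)
    exact (a1 (Finset.mem_coe.2 he') : e'.2 ∈ F)
  · rw [bd_tr, a2, Finsupp.mapDomain_sub, Finsupp.mapDomain_single, Finsupp.mapDomain_single]

theorem pot (x₀ : V)
    (h1 : ∀ w : Γ × A →₀ ℤ, (∀ e ∈ w.support, e.2 ∈ F) →
      (w.mapDomain fun e => e.1 • t e.2) = (w.mapDomain fun e => e.1 • s e.2) →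
      (w.sum fun e n => n • ρ e.1 • c e.2) = 0)
    (S : Set Γ) (hS : Subgroup.closure S = ⊤) (h2 : ∀ g ∈ S, ∃ a ∈ F, s a = x₀ ∧ t a = g • x₀) :
    ∃ (Y : Set V) (u : V → H), x₀ ∈ Y ∧ (∀ (g : Γ) y, g • y ∈ Y ↔ y ∈ Y) ∧
      (∀ (g : Γ), ∀ y ∈ Y, u (g • y) = u (g • x₀) + ρ g • u y) ∧
      ∀ a ∈ F, s a ∈ Y → t a ∈ Y ∧ u (t a) = u (s a) + c a := by
  have hu : ∀ {x : V} {h : H}, Rel ρ s t F c x x h → h = 0 := by
    rintro x h ⟨w, a1, a2, rfl⟩
    rw [sub_self] at a2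
    exact h1 w (fun e he => (Finsupp.mem_supported ℤ w).1 a1 he) (sub_eq_zero.1 a2)
  have hex : ∀ y, ∃ h : H, ∀ h', Rel ρ s t F c x₀ y h' → h = h' := by
    intro y
    by_cases hy : ∃ h, Rel ρ s t F c x₀ y h
    · obtain ⟨h, hh⟩ := hy
      exact ⟨h, fun h' hh' => add_neg_eq_zero.1 (hu (hh.trans hh'.symm))⟩
    · exact ⟨0, fun h' hh' => absurd ⟨h', hh'⟩ hy⟩
  choose u hu' using hex
  have hg : ∀ g : Γ, ∃ h, Rel ρ s t F c x₀ (g • x₀) h := by
    intro g
    have hm : g ∈ Subgroup.closure S := hS ▸ Subgroup.mem_top g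
    induction hm using Subgroup.closure_induction with
    | mem g hg =>
      obtain ⟨a, ha, e1, e2⟩ := h2 g hg
      exact ⟨c a, e2 ▸ e1 ▸ Rel.edge ha⟩
    | one => exact ⟨0, by rw [one_smul]; exact Rel.refl x₀⟩
    | mul g g' _ _ ih ih' =>
      obtain ⟨h, hh⟩ := ih
      obtain ⟨h', hh'⟩ := ih'
      exact ⟨_, by rw [mul_smul]; exact hh.trans (hh'.smul g)⟩
    | inv g _ ih =>
      obtain ⟨h, hh⟩ := ih
      have := (hh.smul g⁻¹).symm
      rw [inv_smul_smul] at this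
      exact ⟨_, this⟩
  have hY : ∀ (g : Γ) y, (∃ h, Rel ρ s t F c x₀ y h) → ∃ h, Rel ρ s t F c x₀ (g • y) h := by
    rintro g y ⟨h, hh⟩
    obtain ⟨h', hh'⟩ := hg g
    exact ⟨_, hh'.trans (hh.smul g)⟩
  refine ⟨{y | ∃ h, Rel ρ s t F c x₀ y h}, u, ⟨0, Rel.refl x₀⟩, fun g y => ⟨fun h => ?_, hY g y⟩,
    ?_, ?_⟩
  · have := hY g⁻¹ _ h
    rwa [inv_smul_smul] at this
  · rintro g y ⟨h, hh⟩
    obtain ⟨h', hh'⟩ := hg g
    rw [hu' _ _ (hh'.trans (hh.smul g)), hu' _ _ hh', hu' _ _ hh]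
  · rintro a ha ⟨h, hh⟩
    exact ⟨⟨_, hh.trans (Rel.edge ha)⟩, by rw [hu' _ _ (hh.trans (Rel.edge ha)), hu' _ _ hh]⟩

end CocXAux

open CocXAux in
theorem coc {Γ V A R H : Type} [Group Γ] [MulAction Γ V] [Ring R]
    [NormedAddCommGroup H] [Module R H] (hc : ∀ a : R, Continuous fun ξ : H => a • ξ)
    (ρ : Γ →* R) (hR : ∀ β : Γ → H, (∀ g h, β (g * h) = β g + ρ g • β h) →
      ∀ (T : Finset Γ) (ε : ℝ), 0 < ε → ∃ ξ : H, ∀ g ∈ T, ‖β g - (ρ g • ξ - ξ)‖ < ε)
    (s t : A → V) (F : Set A) (c : A → H) (x₀ : V)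
    (h1 : ∀ w : Γ × A →₀ ℤ, (∀ e ∈ w.support, e.2 ∈ F) →
      (w.mapDomain fun e => e.1 • t e.2) = (w.mapDomain fun e => e.1 • s e.2) →
      (w.sum fun e n => n • ρ e.1 • c e.2) = 0)
    (S : Set Γ) (hS : Subgroup.closure S = ⊤) (h2 : ∀ g ∈ S, ∃ a ∈ F, s a = x₀ ∧ t a = g • x₀)
    (z : A →₀ R) (h3 : ∀ a ∈ z.support, a ∈ F ∧ ∃ a' ∈ F, s a' = x₀ ∧ t a' = s a)
    (h4 : z.mapDomain t - z.mapDomain s ∈ Submodule.span R {x | ∃ (g : Γ) (v : V) (a : R),
      x = Finsupp.single (g • v) a - Finsupp.single v (a * ρ g)}) :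
    (z.sum fun a r => r • c a) = 0 := by
  classical
  obtain ⟨Y, u, hx, hY, hu, he⟩ := pot x₀ h1 S hS h2
  have hβ := hR (fun g => u (g • x₀)) fun g h => by
    rw [mul_smul, hu g _ ((hY h x₀).2 hx)]
  choose ξ hξ using fun p : Finset Γ × ℕ => hβ p.1 (1 / ((p.2 : ℝ) + 1)) Nat.one_div_pos_of_nat
  have hlim : ∀ g, Tendsto (fun p => u (g • x₀) - (ρ g • ξ p - ξ p)) atTop (𝓝 0) := by
    intro g
    rw [tendsto_zero_iff_norm_tendsto_zero]
    have h5 : Tendsto (fun p : Finset Γ × ℕ => 1 / ((p.2 : ℝ) + 1)) atTop (𝓝 0) := by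
      rw [← prod_atTop_atTop_eq]
      exact tendsto_one_div_add_atTop_nhds_zero_nat.comp tendsto_snd
    refine squeeze_zero' (.of_forall fun _ => norm_nonneg _) ?_ h5
    filter_upwards [eventually_ge_atTop (({g}, 0) : Finset Γ × ℕ)] with p hp
    exact (hξ p g (hp.1 (Finset.mem_singleton_self g))).le
  let U : H → (V →₀ R) →ₗ[R] H := fun η =>
    Finsupp.linearCombination R fun y => if y ∈ Y then u y + η else 0
  have hU : ∀ η, U η (z.mapDomain t - z.mapDomain s) = z.sum fun a r => r • c a := by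
    intro η
    simp only [U, map_sub, Finsupp.linearCombination_mapDomain]
    rw [Finsupp.linearCombination_apply, Finsupp.linearCombination_apply, Finsupp.sum,
      Finsupp.sum, Finsupp.sum, ← Finset.sum_sub_distrib]
    refine Finset.sum_congr rfl fun a ha => ?_
    obtain ⟨a1, a', a2, a3, a4⟩ := h3 a ha
    have b1 : s a ∈ Y := a4 ▸ (he a' a2 (a3 ▸ hx)).1
    obtain ⟨b2, b3⟩ := he a a1 b1
    rw [Function.comp_apply, Function.comp_apply, if_pos b1, if_pos b2, b3, ← smul_sub]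
    congr 1
    abel
  have hP : Tendsto (fun p => U (ξ p) (z.mapDomain t - z.mapDomain s)) atTop (𝓝 0) := by
    generalize z.mapDomain t - z.mapDomain s = x at h4
    induction h4 using Submodule.span_induction with
    | mem x hx' =>
      obtain ⟨g, v, a, rfl⟩ := hx'
      simp only [U, map_sub, Finsupp.linearCombination_single, hY]
      by_cases hv : v ∈ Y
      · have h6 := ((hc a).tendsto 0).comp (hlim g)
        rw [smul_zero] at h6
        refine h6.congr fun p => ?_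
        rw [if_pos hv, if_pos hv, hu g v hv, mul_smul, ← smul_sub, Function.comp_apply, smul_add]
        congr 1
        abel
      · simp only [if_neg hv, smul_zero, sub_zero]
        exact tendsto_const_nhds
    | zero => simpa only [map_zero] using tendsto_const_nhds
    | add x y _ _ h5 h6 => simpa only [map_add, add_zero] using h5.add h6
    | smul a x _ h5 =>
      have h6 := ((hc a).tendsto 0).comp h5
      rw [smul_zero] at h6
      exact h6.congr fun p => (map_smul _ _ _).symm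
  simp only [hU] at hP
  exact tendsto_nhds_unique tendsto_const_nhds hP

end Vale.Agent.P239.VN
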