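import Vale.Agent.P239.BasY

namespace Vale.Agent.P239

open scoped Pointwise symmDiff
open Filter Topology

variable {Γ : Type*} [Group Γ] {Z : Type*} [MetricSpace Z] [CompactSpace Z] [MulAction Γ Z]
  [ContinuousConstSMul Γ Z] {D : Dat Γ Z} {π : Z → ℝ}

namespace ColXAux

omit [CompactSpace Z] [ContinuousConstSMul Γ Z] in
theorem ge_near (H : D.OK) {Hh : Set (Set Γ)} {C : Set Γ} {κ : ℝ} {n : ℕ} {y y' : Γ}
    (h : Near D.S n y y') (hG : D.Ge Hh C κ y') : D.Ge Hh C (D.c ^ n * κ) y := by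
  have hc := pow_pos H.c_pos n
  exact ⟨(mul_le_mul_of_nonneg_left hG.1 hc.le).trans (H.harnack_h C h),
    fun B hB => (mul_le_mul_of_nonneg_left (hG.2 B hB) hc.le).trans (H.harnack_h _ h)⟩

omit [CompactSpace Z] [ContinuousConstSMul Γ Z] in
theorem col_tr {Hh : Set (Set Γ)} {C : Set Γ} {κ : ℝ} {y : Γ} (hy : D.Tr Hh y) :
    y ∈ D.col Hh κ C ↔ D.Ge Hh C κ y :=
  ⟨fun h => h.elim (fun k => k.2) fun ⟨B, hB, k, _⟩ => absurd (hy B hB) (not_le.2 k),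
    fun h => Or.inl ⟨hy, h⟩⟩

omit [CompactSpace Z] [ContinuousConstSMul Γ Z] in
theorem pair (H : D.OK) {Hh : Set (Set Γ)} {C : Set Γ} {κ : ℝ} {n : ℕ}
    (h2 : ∀ x, D.Tr Hh x → D.Ge Hh C κ x ∨ D.Ge Hh Cᶜ κ x) {y y' : Γ}
    (h : Near D.S n y y') (hy : D.Tr Hh y) (hy' : D.Tr Hh y') (k1 : y ∈ D.col Hh κ C)
    (k2 : y' ∉ D.col Hh κ C) :
    (D.Ge Hh C (D.c ^ n * κ) y ∧ D.Ge Hh Cᶜ (D.c ^ n * κ) y) ∧
      D.Ge Hh C (D.c ^ n * κ) y' ∧ D.Ge Hh Cᶜ (D.c ^ n * κ) y' := by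
  have a1 := (col_tr hy).1 k1
  have a2 := (h2 y' hy').resolve_left fun k => k2 ((col_tr hy').2 k)
  exact ⟨⟨ge_near H (Near.refl H.gen n y) a1, ge_near H h a2⟩,
    ge_near H (h.symm H.gen) a1, ge_near H (Near.refl H.gen n y') a2⟩

omit [CompactSpace Z] [ContinuousConstSMul Γ Z] in
theorem hang_inf (H : D.OK) {a δ : ℝ} {B : Set Γ} (h : B ∈ D.Hang π a δ) : B.Infinite := by
  obtain ⟨ζ, h1, -, -⟩ := h
  simpa using (H.cut_infinite h1.1).2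

omit [CompactSpace Z] [ContinuousConstSMul Γ Z] in
theorem colour_sub (H : D.OK) {a δ : ℝ} {C B B' : Set Γ} (hM : D.MonoC (D.Hang π a δ) C)
    (h : B ∈ D.Hang π a δ) (h' : B' ∈ D.Hang π a δ) (hs : B ⊆ B') :
    (B \ C).Finite ↔ (B' \ C).Finite := by
  refine ⟨fun k => ?_, fun k => k.subset (Set.sdiff_subset_sdiff_left hs)⟩
  rcases hM B' h' with k' | k'
  · exact k'.1
  · refine absurd ((k.union k'.1).subset fun x hx => ?_) (hang_inf H h)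
    by_cases hc : x ∈ C
    · exact Or.inr ⟨hs hx, hc⟩
    · exact Or.inl ⟨hx, hc⟩

omit [CompactSpace Z] [ContinuousConstSMul Γ Z] in
theorem colour_meet (H : D.OK) (hCF : D.CF) {a δ : ℝ} (hδ : δ ≤ 1 / 2) {C B B' : Set Γ}
    (hM : D.MonoC (D.Hang π a δ) C) (h : B ∈ D.Hang π a δ) (h' : B' ∈ D.Hang π a δ) {z : Γ}
    (hz : 1 < D.h B z + D.h B' z) : (B \ C).Finite ↔ (B' \ C).Finite := by
  rcases H.hang_tri hCF hδ h h' with k | k | k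
  · exact colour_sub H hM h h' k
  · exact (colour_sub H hM h' h k).symm
  · have := H.h_add k.1 z
    have := H.h_le_one (B ∪ B') z
    linarith

omit [CompactSpace Z] [ContinuousConstSMul Γ Z] in
theorem deep (H : D.OK) (hCF : D.CF) {a δ κ : ℝ} (hδ : δ ≤ 1 / 2) {C B : Set Γ}
    (hM : D.MonoC (D.Hang π a δ) C) (h : B ∈ D.Hang π a δ) {z : Γ}
    (hz : 1 - D.c / 4 < D.h B z) : z ∈ D.col (D.Hang π a δ) κ C ↔ (B \ C).Finite := by
  refine ⟨fun k => ?_, fun k => Or.inr ⟨B, h, hz, k⟩⟩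
  rcases k with k | ⟨B', h', k1, k2⟩
  · exact absurd (k.1 B h) (not_le.2 hz)
  · have := H.c_le_one
    exact (colour_meet H hCF hδ hM h h' (z := z) (by linarith)).2 k2

theorem exists_max (H : D.OK) (hCF : D.CF) (hAF : D.AF) {a δ : ℝ} (hδ : δ ≤ 1 / 2) {B₀ : Set Γ}
    (h : B₀ ∈ D.Hang π a δ) {z : Γ} (hz : D.Tr (D.Hang π a δ) z) (h0 : D.c / 4 ≤ D.h B₀ z) :
    ∃ B ∈ D.Hang π a δ, B₀ ⊆ B ∧ z ∈ D.Th (D.c / 4) B ∧
      ∀ y ∈ D.Th (D.c / 4) B, D.Tr (D.Hang π a δ) y := by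
  have hc := H.c_pos
  have hth : ∀ B ∈ D.Hang π a δ, B₀ ⊆ B → z ∈ D.Th (D.c / 4) B := fun B hB k =>
    ⟨h0.trans (H.h_mono k z), hz B hB⟩
  have hfin : {B | B ∈ D.Hang π a δ ∧ B₀ ⊆ B}.Finite := by
    refine Set.Finite.of_finite_image (f := fun B => tr z⁻¹ Bᶜ)
      ((hAF (D.c / 4) (by positivity)).subset ?_) ?_
    · rintro _ ⟨B, ⟨hB, k⟩, rfl⟩
      have a1 := hth B hB k
      rw [← H.Th_compl] at a1
      obtain ⟨ζ, b1, -, -⟩ := hB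
      refine ⟨⟨_, H.atom_tr b1 _⟩, ?_, ?_⟩
      · simp only [Dat.m_tr_inv]; exact a1.1
      · simp only [Dat.m_tr_inv]; exact a1.2
    · intro B _ B' _ k
      have k' : tr z⁻¹ Bᶜ = tr z⁻¹ B'ᶜ := k
      have := congrArg (tr z) k'
      rw [tr_tr, tr_tr, mul_inv_cancel, tr_one, tr_one] at this
      exact compl_injective this
  obtain ⟨B, hB⟩ := hfin.exists_maximal ⟨B₀, h, subset_rfl⟩
  refine ⟨B, hB.prop.1, hB.prop.2, hth B hB.prop.1 hB.prop.2, fun y hy B' hB' => ?_⟩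
  rcases H.hang_tri hCF hδ hB.prop.1 hB' with k | k | k
  · exact (H.h_mono (hB.le_of_ge ⟨hB', hB.prop.2.trans k⟩ k) y).trans hy.2
  · exact (H.h_mono k y).trans hy.2
  · have := H.h_add k.1 y
    have := H.h_le_one (B ∪ B') y
    have := hy.1
    linarith

end ColXAux

open ColXAux in
theorem colP (H : D.OK) (hπ : Coord D.S D.ι π) (h1 : D.CF) (h2 : D.AF) (h3 : D.UH) (h4 : D.WG)
    (h5 : D.X1 π) (h6 : D.X2 π) (h7 : D.X3 π) : D.COL π := by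
  intro t l ht hl
  have hc := H.c_pos
  have hc1 := H.c_le_one
  obtain ⟨δ₀, hδ₀, x11, x12⟩ := h5 t l ht hl
  obtain ⟨κ, hκ, hκc, x2⟩ := h6
  obtain ⟨M, wg⟩ := h4 (D.c / 4) (by positivity)
  obtain ⟨B₁, hB₁, sl1⟩ := H.fr.slow H.gen 1 (show 0 < l / 4 by positivity)
  set δ := min δ₀ (1 / 4) with hδ
  have hδ4 : δ ≤ 1 / 4 := min_le_right _ _
  have hδ2 : δ ≤ 1 / 2 := by linarith
  set Hh := D.Hang π (t + l) δ with hHh
  have hsub : Hh ⊆ D.Hang π (t + l) δ₀ := fun B ⟨ζ, a1, a2, a3⟩ =>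
    ⟨ζ, a1, a2, a3.trans_le (min_le_left _ _)⟩
  have hM : ∀ C, D.Adm π t C → D.MonoC Hh C := fun C hC B hB => x12 C hC B (hsub hB)
  set θ := D.c ^ max M 1 * κ with hθ
  have hθ0 : 0 < θ := by positivity
  have x3 := fun C hC => h7 t (2 * l) κ θ Hh C (by positivity) hκ hκc hθ0 hC (hM C hC)
  refine ⟨δ, θ, lt_min hδ₀ (by norm_num), hδ4, hθ0, B₁, hB₁, D.col Hh κ, x3,
    fun ε hε K hK => ?_⟩
  obtain ⟨Ku, hKu, uh⟩ := h3 (D.c / 4) (ε / 3) (by positivity) (by positivity)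
  obtain ⟨Kw, hKw, wg'⟩ := wg (K ∪ Ku) (hK.union hKu)
  obtain ⟨Ks, hKs, sl2⟩ := H.fr.slow H.gen 1 (show 0 < ε / 3 by positivity)
  refine ⟨{y | ∃ x ∈ Kw ∪ (K ∪ Ku), Near D.S 1 y x} ∪ Ks,
    (nbhd_finite' H.gen 1 (hKw.union (hK.union hKu))).union hKs, fun C hC x z hz hu hzB hx => ?_⟩
  obtain ⟨s, hs, hne⟩ := mem_tails.1 hz
  simp only [Set.mem_union, Set.mem_ofPred_eq, not_or, not_exists, not_and] at hx
  have lip := hπ.lip
  have near : ∀ w, Near D.S 1 z w → t + 3 * l - l / 4 ≤ π (D.ι w) ∧ x⁻¹ * w ∉ Kw ∧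
      x⁻¹ * w ∉ K ∧ x⁻¹ * w ∉ Ku ∧ dist (D.ι (x⁻¹ * w)) (D.ι (x⁻¹ * z)) ≤ ε / 3 := by
    intro w hw
    have hw' : Near D.S 1 (x⁻¹ * z) (x⁻¹ * w) := (near_mul_left _ _ _).2 hw
    have a1 := abs_le.1 ((lip _ _).trans (sl1 z hzB w hw))
    exact ⟨by linarith [a1.1], fun k => hx.1 _ (Or.inl k) hw',
      fun k => hx.1 _ (Or.inr (Or.inl k)) hw', fun k => hx.1 _ (Or.inr (Or.inr k)) hw',
      sl2 _ hx.2 _ hw'⟩
  have mixed : ∀ z' z'', Near D.S 1 z z' → Near D.S 1 z' z'' → D.Tr Hh z' → ¬ D.Tr Hh z'' →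
      ¬ (z' ∈ D.col Hh κ C ↔ z'' ∈ D.col Hh κ C) →
      ∃ y ∈ D.Iset π Hh θ (t + 2 * l) C,
        x⁻¹ * y ∉ K ∧ dist (D.ι (x⁻¹ * y)) (D.ι (x⁻¹ * z)) ≤ ε := by
    intro z' z'' n1 n2 t1 t2 hne
    obtain ⟨m1, m2, m3, m4, m5⟩ := near z' n1
    simp only [Dat.Tr, not_forall, not_le] at t2
    obtain ⟨B₀, hB₀, d0⟩ := t2
    have d1 : D.c / 4 ≤ D.h B₀ z' := by
      have := H.harnack_h B₀ n2
      rw [pow_one] at this
      nlinarith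
    obtain ⟨B, hB, s1, s2, s3⟩ := exists_max H h1 h2 hδ2 hB₀ t1 d1
    rw [deep H h1 hδ2 (hM C hC) hB₀ d0, colour_sub H (hM C hC) hB₀ hB s1] at hne
    obtain ⟨ζ, b1, b2, b3⟩ := id hB
    have lev : ∀ y ∈ D.Th (D.c / 4) B, t + 2 * l ≤ π (D.ι y) := fun y hy => by
      have c1 := abs_le.1 ((lip _ _).trans (x11 B ζ b1 (b3.trans_le (min_le_left _ _)) hy))
      have c2 := abs_le.1 ((lip _ _).trans (x11 B ζ b1 (b3.trans_le (min_le_left _ _)) s2))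
      linarith [c1.1, c2.2]
    have th : ∀ y, y ∈ D.Th (D.c / 4) (tr x⁻¹ Bᶜ) ↔ x * y ∈ D.Th (D.c / 4) B := fun y => by
      rw [Dat.mem_Th_tr, H.Th_compl, inv_inv]
    have z0 : x⁻¹ * z' ∈ D.Th (D.c / 4) (tr x⁻¹ Bᶜ) := by rw [th]; simpa using s2
    obtain ⟨T, T1, T2, T3⟩ := wg' _ _ (H.atom_tr b1 x⁻¹) _ z0 m2
    have T4 : ∀ y ∈ insert (x⁻¹ * z') T, y ∈ D.Th (D.c / 4) (tr x⁻¹ Bᶜ) ∧ y ∉ K ∧ y ∉ Ku := by
      rintro y (rfl | hy)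
      · exact ⟨z0, m3, m4⟩
      · exact ⟨(T2 hy).1, fun k => (T2 hy).2 (Or.inl k), fun k => (T2 hy).2 (Or.inr k)⟩
    have T5 : ∀ y ∈ insert (x⁻¹ * z') T, dist (D.ι y) (x⁻¹ • ζ) ≤ ε / 3 := fun y hy =>
      (uh _ _ (H.atom_tr b1 x⁻¹).1 (T4 y hy).1).resolve_right (T4 y hy).2.2
    have fin : ∀ y ∈ insert (x⁻¹ * z') T, D.Ge Hh C θ (x * y) ∧ D.Ge Hh Cᶜ θ (x * y) →
        ∃ y ∈ D.Iset π Hh θ (t + 2 * l) C,
          x⁻¹ * y ∉ K ∧ dist (D.ι (x⁻¹ * y)) (D.ι (x⁻¹ * z)) ≤ ε := by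
      intro y hy hG
      refine ⟨x * y, ⟨lev _ ((th y).1 (T4 y hy).1), hG⟩, by simpa using (T4 y hy).2.1, ?_⟩
      rw [inv_mul_cancel_left]
      have e1 := T5 y hy
      have e2 := T5 _ (Set.mem_insert _ _)
      have e3 := dist_triangle (D.ι y) (D.ι (x⁻¹ * z')) (D.ι (x⁻¹ * z))
      have e4 := dist_triangle_right (D.ι y) (D.ι (x⁻¹ * z')) (x⁻¹ • ζ)
      linarith
    have pr : ∀ y₁ ∈ insert (x⁻¹ * z') T, ∀ y₂ ∈ insert (x⁻¹ * z') T, x * y₁ ∈ D.col Hh κ C →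
        x * y₂ ∉ D.col Hh κ C → ∃ y ∈ D.Iset π Hh θ (t + 2 * l) C,
          x⁻¹ * y ∉ K ∧ dist (D.ι (x⁻¹ * y)) (D.ι (x⁻¹ * z)) ≤ ε := by
      intro y₁ k1 y₂ k2 k3 k4
      obtain ⟨a, ha, b, hb, n, a1, a2⟩ :=
        T3.exists_pair H.gen (A := {y | x * y ∈ D.col Hh κ C}) k1 k2 k3 k4
      exact fin a ha (pair H (x2 _ _ hδ2 C) (((near_mul_left x _ _).2 n).mono H.gen
        (le_max_left M 1)) (s3 _ ((th a).1 (T4 a ha).1)) (s3 _ ((th b).1 (T4 b hb).1)) a1 a2).1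
    have pre : ∀ {F : Set Γ}, F.Finite → ∃ y ∈ T, x * y ∉ F := fun {F} hF =>
      T1.exists_notMem_finite (hF.preimage (f := fun y => x * y) (mul_right_injective x).injOn)
    rcases hM C hC B hB with k | k
    · obtain ⟨y, y1, y2⟩ := pre ((x3 C hC).1.union (k.2 (D.c / 4) (by positivity)))
      have y3 := (th y).1 (T2 y1).1
      have y4 := lev _ y3
      have y5 : x * y ∈ C := by_contra fun k' => y2 (Or.inr ⟨y3, k'⟩)
      have y6 : x * y ∈ D.col Hh κ C := by_contra fun k' => y2 (Or.inl ⟨y4, Or.inr ⟨y5, k'⟩⟩)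
      refine pr y (Set.mem_insert_of_mem _ y1) _ (Set.mem_insert _ _) y6 ?_
      rw [mul_inv_cancel_left]
      exact fun k' => hne (iff_of_true k' k.1)
    · obtain ⟨y, y1, y2⟩ := pre ((x3 C hC).1.union (k.2 (D.c / 4) (by positivity)))
      have y3 := (th y).1 (T2 y1).1
      have y4 := lev _ y3
      have y5 : x * y ∉ C := fun k' => y2 (Or.inr ⟨y3, k'⟩)
      have y6 : x * y ∉ D.col Hh κ C := fun k' => y2 (Or.inl ⟨y4, Or.inl ⟨k', y5⟩⟩)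
      refine pr _ (Set.mem_insert _ _) y (Set.mem_insert_of_mem _ y1) ?_ y6
      rw [mul_inv_cancel_left]
      by_contra k'
      refine hne (iff_of_false k' fun k2 => hang_inf H hB ((k2.union k.1).subset fun w hw => ?_))
      by_cases hc : w ∈ C
      · exact Or.inr ⟨hw, hc⟩
      · exact Or.inl ⟨hw, hc⟩
  have n0 := Near.refl H.gen 1 z
  have n1 := near_step z hs
  by_cases t1 : D.Tr Hh z
  · by_cases t2 : D.Tr Hh (z * s)
    · have hG : D.Ge Hh C θ z ∧ D.Ge Hh Cᶜ θ z := by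
        by_cases k : z ∈ D.col Hh κ C
        · exact (pair H (x2 _ _ hδ2 C) (n1.mono H.gen (le_max_right M 1)) t1 t2 k
            fun k' => hne (iff_of_true k k')).1
        · exact (pair H (x2 _ _ hδ2 C) ((n1.symm H.gen).mono H.gen (le_max_right M 1)) t2 t1
            (by_contra fun k' => hne (iff_of_false k k')) k).2
      exact ⟨z, ⟨by linarith, hG⟩, (near z n0).2.2.1, by simp [hε.le]⟩
    · exact mixed z (z * s) n0 n1 t1 t2 hne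
  · by_cases t2 : D.Tr Hh (z * s)
    · exact mixed (z * s) z n1 (n1.symm H.gen) t2 t1 fun k => hne k.symm
    · simp only [Dat.Tr, not_forall, not_le] at t1 t2
      obtain ⟨B, hB, d⟩ := t1
      obtain ⟨B', hB', d'⟩ := t2
      rw [deep H h1 hδ2 (hM C hC) hB d, deep H h1 hδ2 (hM C hC) hB' d'] at hne
      refine absurd (colour_meet H h1 hδ2 (hM C hC) hB hB' (z := z) ?_) hne
      have := H.harnack_h B' n1
      rw [pow_one] at this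
      nlinarith

end Vale.Agent.P239
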