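import Vale.Agent.P239.Alg

/-! Cone inequalities from a combing. -/

namespace Vale.Agent.P239

open scoped Pointwise symmDiff Matrix

variable {Γ : Type*} [Group Γ] {S : Finset Γ} {r : ℕ}

section
variable {ι κ κ' : Type*}

/-- The linear map `G` is carried by `φ` with radius `D`. -/
def ConeCar (S : Finset Γ) (D : ℕ) (φ : Γ → Γ) (G : Ch Γ ι →ₗ[ZMod 2] Ch Γ κ) : Prop :=
  ∀ p : Γ × ι, Within S D (φ p.1) (G (Finsupp.single p 1))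

omit [Group Γ] in
theorem cone_congr {M : Type*} [AddCommGroup M] [Module (ZMod 2) M] {G G' : Ch Γ ι →ₗ[ZMod 2] M}
    {c : Ch Γ ι} (h : ∀ p ∈ c.support, G (Finsupp.single p 1) = G' (Finsupp.single p 1)) :
    G c = G' c := by
  rw [ch_eq_sum c, map_sum, map_sum]
  exact Finset.sum_congr rfl h

theorem ConeCar.within {D R : ℕ} {φ : Γ → Γ} {G : Ch Γ ι →ₗ[ZMod 2] Ch Γ κ} (h : ConeCar S D φ G)
    {c : Ch Γ ι} {g : Γ} (hc : ∀ p ∈ c.support, Near S R g (φ p.1)) :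
    Within S (R + D) g (G c) := fun q hq => by
  obtain ⟨p, hp, h1⟩ := support_map G c hq
  exact (hc p hp).trans (h p q h1)

theorem ConeCar.card [Fintype κ] {D : ℕ} {φ : Γ → Γ} {G : Ch Γ ι →ₗ[ZMod 2] Ch Γ κ}
    (h : ConeCar S D φ G) (c : Ch Γ ι) :
    (G c).support.card ≤ ((S : Set Γ) ^ D).ncard * Fintype.card κ * c.support.card :=
  card_map_le G c fun p _ => (h p).card_le

theorem ConeCar.comp {D b E : ℕ} {φ : Γ → Γ} {G : Ch Γ ι →ₗ[ZMod 2] Ch Γ κ} (h : ConeCar S D φ G)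
    {f : Ch Γ κ' →ₗ[ZMod 2] Ch Γ ι} (hf : ConeCar S b id f)
    (hφ : ∀ x y, Near S b x y → Near S E (φ x) (φ y)) : ConeCar S (E + D) φ (G ∘ₗ f) :=
  fun p => h.within fun q hq => hφ _ _ (hf p q hq)

theorem ConeCar.add {D : ℕ} {φ : Γ → Γ} {G G' : Ch Γ ι →ₗ[ZMod 2] Ch Γ κ} (h : ConeCar S D φ G)
    (h' : ConeCar S D φ G') : ConeCar S D φ (G + G') := fun p => (h p).add (h' p)

theorem ConeCar.mono (hS : Gen S) {D D' : ℕ} {φ : Γ → Γ} {G : Ch Γ ι →ₗ[ZMod 2] Ch Γ κ}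
    (h : ConeCar S D φ G) (hD : D ≤ D') : ConeCar S D' φ G := fun p => (h p).mono hS hD

theorem ConeCar.shift {D E : ℕ} {φ φ' : Γ → Γ} {G : Ch Γ ι →ₗ[ZMod 2] Ch Γ κ}
    (h : ConeCar S D φ G) (h' : ∀ x, Near S E (φ' x) (φ x)) : ConeCar S (E + D) φ' G :=
  fun p => (h p).shift (h' p.1)

theorem cone_id (hS : Gen S) (n : ℕ) :
    ConeCar S n id (LinearMap.id : Ch Γ ι →ₗ[ZMod 2] Ch Γ ι) := fun p q hq => by
  rw [LinearMap.id_apply] at hq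
  rw [Finset.mem_singleton.1 (Finsupp.support_single_subset hq)]
  exact Near.refl hS _ _

/-- A lifting operator through `f`. -/
structure ConeLift (S : Finset Γ) (f : Ch Γ κ' →ₗ[ZMod 2] Ch Γ κ) (ρ : ℕ → ℕ)
    (l : Ch Γ κ → Ch Γ κ') : Prop where
  eq : ∀ z, (∃ c, f c = z) → f (l z) = z
  zero : l 0 = 0
  within : ∀ z, (∃ c, f c = z) → ∀ g D, Within S D g z → Within S (ρ D) g (l z)

theorem cone_lift [Finite κ] (hS : Gen S) {f : Ch Γ κ' →ₗ[ZMod 2] Ch Γ κ} (hf : Eqv f) :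
    ∃ ρ l, ConeLift S f ρ l := by
  classical
  obtain ⟨ρ, h⟩ := bounded_fill hS hf
  choose l h1 h2 h3 using h
  refine ⟨ρ, fun z => if h : ∃ c, f c = z then l z h else 0, fun z hz => ?_, ?_,
    fun z hz g D hD => ?_⟩
  · rw [dif_pos hz, h1]
  · have : ∃ c, f c = 0 := ⟨0, map_zero _⟩
    rw [dif_pos this, h2 _ _ rfl]
  · rw [dif_pos hz]
    exact h3 z hz g D hD

/-- Lift of a linear map. -/
noncomputable def coneL (l : Ch Γ κ → Ch Γ κ') (G : Ch Γ ι →ₗ[ZMod 2] Ch Γ κ) :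
    Ch Γ ι →ₗ[ZMod 2] Ch Γ κ' :=
  Finsupp.linearCombination (ZMod 2) fun p => l (G (Finsupp.single p 1))

omit [Group Γ] in
theorem coneL_single (l : Ch Γ κ → Ch Γ κ') (G : Ch Γ ι →ₗ[ZMod 2] Ch Γ κ) (p : Γ × ι) :
    coneL l G (Finsupp.single p 1) = l (G (Finsupp.single p 1)) := by simp [coneL]

variable {f : Ch Γ κ' →ₗ[ZMod 2] Ch Γ κ} {ρ : ℕ → ℕ} {l : Ch Γ κ → Ch Γ κ'}

theorem ConeLift.map (h : ConeLift S f ρ l) {G : Ch Γ ι →ₗ[ZMod 2] Ch Γ κ}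
    (hG : ∀ c, ∃ c', f c' = G c) (c : Ch Γ ι) : f (coneL l G c) = G c :=
  cone_congr (G := f ∘ₗ coneL l G) fun p _ => by
    rw [LinearMap.comp_apply, coneL_single, h.eq _ (hG _)]

theorem ConeLift.car (h : ConeLift S f ρ l) {G : Ch Γ ι →ₗ[ZMod 2] Ch Γ κ}
    (hG : ∀ c, ∃ c', f c' = G c) {D : ℕ} {φ : Γ → Γ} (hc : ConeCar S D φ G) :
    ConeCar S (ρ D) φ (coneL l G) := fun p => by
  rw [coneL_single]
  exact h.within _ (hG _) _ _ (hc p)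

theorem ConeLift.eq_zero (h : ConeLift S f ρ l) {G : Ch Γ ι →ₗ[ZMod 2] Ch Γ κ}
    (hG : ∀ c, G c = 0) (c : Ch Γ ι) : coneL l G c = 0 :=
  cone_congr (G' := 0) fun p _ => by rw [coneL_single, hG, h.zero, LinearMap.zero_apply]

theorem cone_fin [Fintype κ'] (hS : Gen S) {D D' b L : ℕ} {φ : Γ → ℕ → Γ → Γ}
    (hφ : ∀ g t x, Near S (t * D) g (φ g t x)) {H : Γ → ℕ → Ch Γ κ →ₗ[ZMod 2] Ch Γ κ'}
    {Hi : Ch Γ κ →ₗ[ZMod 2] Ch Γ κ'} {F : Γ → ℕ → Ch Γ κ → Ch Γ κ} {Fi : Ch Γ κ → Ch Γ κ}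
    (h1 : ∀ g t, ConeCar S D' (φ g t) (H g t)) (h2 : ConeCar S D' id Hi)
    (h3 : ∀ g t z, (∃ c, f c = z) → f (H g t z) = F g t z + F g (t + 1) z)
    (h4 : ∀ z, (∃ c, f c = z) → f (Hi z) = z + Fi z) (h5 : ∀ g z, F g 0 z = 0)
    (h6 : ∀ g R z, Within S R g z → F g (L * (R + b + 1)) z = Fi z) : Cone S f := by
  classical
  generalize hN : ((S : Set Γ) ^ D').ncard * Fintype.card κ' = N
  refine ⟨(L * (b + 1) + 1) * (N + D + 1) + D', fun g R z hz hR => ?_⟩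
  generalize hT : L * (R + b + 1) = T
  have hT' : T + 1 ≤ (L * (b + 1) + 1) * (R + 1) := by
    rw [← hT]
    nlinarith [Nat.zero_le (L * b * R)]
  refine ⟨Hi z + ∑ t ∈ Finset.range T, H g t z, ?_, ?_, ?_⟩
  · have : ∀ n, f (∑ t ∈ Finset.range n, H g t z) = F g n z := fun n => by
      induction n with
      | zero => simp [h5]
      | succ n ih =>
        rw [Finset.sum_range_succ, map_add, ih, h3 g n z hz, ← add_assoc, ch_add_self, zero_add]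
    rw [map_add, this, h4 z hz, ← hT, h6 g R z hR, add_assoc, ch_add_self, add_zero]
  · have a1 : ∀ n, (∑ t ∈ Finset.range n, H g t z).support.card ≤ n * (N * z.support.card) :=
      fun n => by
        induction n with
        | zero => simp
        | succ n ih =>
          rw [Finset.sum_range_succ]
          have := (h1 g n).card z
          rw [hN] at this
          refine (Finset.card_le_card Finsupp.support_add).trans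
            ((Finset.card_union_le _ _).trans ?_)
          rw [Nat.succ_mul]
          omega
    have a2 := h2.card z
    rw [hN] at a2
    refine (Finset.card_le_card Finsupp.support_add).trans ((Finset.card_union_le _ _).trans ?_)
    calc _ ≤ N * z.support.card + T * (N * z.support.card) := add_le_add a2 (a1 T)
      _ = (T + 1) * N * z.support.card := by ring
      _ ≤ (L * (b + 1) + 1) * (R + 1) * N * z.support.card := by gcongr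
      _ = (L * (b + 1) + 1) * N * (R + 1) * z.support.card := by ring
      _ ≤ _ := by
        gcongr
        nlinarith [Nat.zero_le ((L * (b + 1) + 1) * (D + 1))]
  · refine ((h2.within hR).mono hS ?_).add (Within.sum fun t ht =>
      ((h1 g t).within fun p _ => hφ g t p.1).mono hS ?_)
    · nlinarith [Nat.zero_le ((L * (b + 1) * (N + D + 1) + N + D) * (R + 1)), Nat.zero_le (D' * R)]
    · have a1 : t * D ≤ (L * (b + 1) + 1) * (R + 1) * D :=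
        Nat.mul_le_mul_right _ (by have := Finset.mem_range.1 ht; omega)
      nlinarith [Nat.zero_le ((L * (b + 1) + 1) * (N + 1) * (R + 1)), Nat.zero_le (D' * R)]

end

section
variable {ι₀ ι₁ ι₂ ι₃ : Type*} {ε : Ch Γ ι₀ →ₗ[ZMod 2] ZMod 2} {f₁ : Ch Γ ι₁ →ₗ[ZMod 2] Ch Γ ι₀}
  {f₂ : Ch Γ ι₂ →ₗ[ZMod 2] Ch Γ ι₁} {f₃ : Ch Γ ι₃ →ₗ[ZMod 2] Ch Γ ι₂}

/-- A carried chain map in low degrees. -/
structure ConeCM (S : Finset Γ) (ε : Ch Γ ι₀ →ₗ[ZMod 2] ZMod 2) (f₁ : Ch Γ ι₁ →ₗ[ZMod 2] Ch Γ ι₀)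
    (f₂ : Ch Γ ι₂ →ₗ[ZMod 2] Ch Γ ι₁) (D : ℕ) (φ : Γ → Γ) (G₀ : Ch Γ ι₀ →ₗ[ZMod 2] Ch Γ ι₀)
    (G₁ : Ch Γ ι₁ →ₗ[ZMod 2] Ch Γ ι₁) (G₂ : Ch Γ ι₂ →ₗ[ZMod 2] Ch Γ ι₂) : Prop where
  e₀ : ∀ c, ε (G₀ c) = ε c
  e₁ : ∀ c, f₁ (G₁ c) = G₀ (f₁ c)
  e₂ : ∀ c, f₂ (G₂ c) = G₁ (f₂ c)
  c₀ : ConeCar S D φ G₀
  c₁ : ConeCar S D φ G₁
  c₂ : ConeCar S D φ G₂

theorem cone_hom [Finite ι₀] [Finite ι₁] [Finite ι₂] (hS : Gen S) (h : Res3 ε f₁ f₂ f₃)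
    {b : ℕ} (b₁ : ConeCar S b id f₁) (b₂ : ConeCar S b id f₂) (D E : ℕ) :
    ∃ D', ∀ φ G₀ G₁ G₂ G₀' G₁' G₂', (∀ x y, Near S b x y → Near S E (φ x) (φ y)) →
      ConeCM S ε f₁ f₂ D φ G₀ G₁ G₂ → ConeCM S ε f₁ f₂ D φ G₀' G₁' G₂' →
      ∃ (H₁ : Ch Γ ι₁ →ₗ[ZMod 2] Ch Γ ι₂) (H₂ : Ch Γ ι₂ →ₗ[ZMod 2] Ch Γ ι₃),
        ConeCar S D' φ H₁ ∧ ConeCar S D' φ H₂ ∧
        (∀ z, (∃ c, f₂ c = z) → f₂ (H₁ z) = G₁ z + G₁' z) ∧
        ∀ z, (∃ c, f₃ c = z) → f₃ (H₂ z) = G₂ z + G₂' z := by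
  obtain ⟨ρ₁, l₁, L₁⟩ := cone_lift hS h.e₁
  obtain ⟨ρ₂, l₂, L₂⟩ := cone_lift hS h.e₂
  obtain ⟨ρ₃, l₃, L₃⟩ := cone_lift hS h.e₃
  refine ⟨ρ₂ (D + (E + ρ₁ D)) + ρ₃ (D + (E + ρ₂ (D + (E + ρ₁ D)))),
    fun φ G₀ G₁ G₂ G₀' G₁' G₂' hφ g g' => ?_⟩
  have r₀ : ∀ c, ∃ c', f₁ c' = (G₀ + G₀') c := fun c => (h.x₀ _).1 (by
    rw [LinearMap.add_apply, map_add, g.e₀, g'.e₀, CharTwo.add_self_eq_zero])
  have r₁ : ∀ c, ∃ c', f₂ c' = (G₁ + G₁' + coneL l₁ (G₀ + G₀') ∘ₗ f₁) c := fun c =>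
    (h.x₁ _).1 (by
      simp only [LinearMap.add_apply, LinearMap.comp_apply, map_add, g.e₁, g'.e₁, L₁.map r₀,
        ch_add_self])
  have r₂ : ∀ c, ∃ c', f₃ c' =
      (G₂ + G₂' + coneL l₂ (G₁ + G₁' + coneL l₁ (G₀ + G₀') ∘ₗ f₁) ∘ₗ f₂) c := fun c =>
    (h.x₂ _).1 (by
      simp only [LinearMap.add_apply, LinearMap.comp_apply, map_add, g.e₂, g'.e₂, L₂.map r₁,
        h.x₁.apply_apply_eq_zero, map_zero, add_zero, ch_add_self])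
  have c₀ := L₁.car r₀ (g.c₀.add g'.c₀)
  have c₁ := L₂.car r₁ (((g.c₁.add g'.c₁).mono hS (Nat.le_add_right D (E + ρ₁ D))).add
    ((c₀.comp b₁ hφ).mono hS (Nat.le_add_left _ _)))
  have c₂ := L₃.car r₂ (((g.c₂.add g'.c₂).mono hS (Nat.le_add_right D _)).add
    ((c₁.comp b₂ hφ).mono hS (Nat.le_add_left _ _)))
  refine ⟨_, _, c₁.mono hS (Nat.le_add_right _ _), c₂.mono hS (Nat.le_add_left _ _), ?_, ?_⟩
  · rintro _ ⟨c, rfl⟩
    simp only [L₂.map r₁, LinearMap.add_apply, LinearMap.comp_apply, h.x₁.apply_apply_eq_zero,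
      map_zero, add_zero]
  · rintro _ ⟨c, rfl⟩
    simp only [L₃.map r₂, LinearMap.add_apply, LinearMap.comp_apply, h.x₂.apply_apply_eq_zero,
      map_zero, add_zero]

theorem cone_maps [Finite ι₀] [Finite ι₁] (hS : Gen S) (h : Res3 ε f₁ f₂ f₃)
    {b : ℕ} (b₁ : ConeCar S b id f₁) (b₂ : ConeCar S b id f₂) (E : ℕ) :
    ∃ (D : ℕ) (F₀ : (Γ → Γ) → Ch Γ ι₀ →ₗ[ZMod 2] Ch Γ ι₀)
      (F₁ : (Γ → Γ) → Ch Γ ι₁ →ₗ[ZMod 2] Ch Γ ι₁) (F₂ : (Γ → Γ) → Ch Γ ι₂ →ₗ[ZMod 2] Ch Γ ι₂),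
      (∀ φ, (∀ x y, Near S b x y → Near S E (φ x) (φ y)) →
        ConeCM S ε f₁ f₂ D φ (F₀ φ) (F₁ φ) (F₂ φ)) ∧
      (∀ g, (∀ z, F₁ (fun _ => g) z = 0) ∧ ∀ z, F₂ (fun _ => g) z = 0) ∧
      (∀ φ φ' g R z, (∀ x, Near S (R + b) g x → φ x = φ' x) → Within S R g z →
        F₁ φ z = F₁ φ' z) ∧
      ∀ φ φ' g R z, (∀ x, Near S (R + b + b) g x → φ x = φ' x) → Within S R g z →
        F₂ φ z = F₂ φ' z := by
  obtain ⟨ρ₁, l₁, L₁⟩ := cone_lift hS h.e₁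
  obtain ⟨ρ₂, l₂, L₂⟩ := cone_lift hS h.e₂
  obtain ⟨v, hv⟩ := h.surj 1
  obtain ⟨D₀, hD₀⟩ := exists_within hS 1 v
  let F₀ : (Γ → Γ) → Ch Γ ι₀ →ₗ[ZMod 2] Ch Γ ι₀ := fun φ =>
    Finsupp.linearCombination (ZMod 2) fun p => ε (Finsupp.single p 1) • trC (φ p.1) v
  have s₀ : ∀ φ p, F₀ φ (Finsupp.single p 1) = ε (Finsupp.single p 1) • trC (φ p.1) v :=
    fun φ p => by simp [F₀]
  have e₀ : ∀ φ c, ε (F₀ φ c) = ε c := fun φ c => cone_congr (G := ε ∘ₗ F₀ φ) fun p _ => by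
    rw [LinearMap.comp_apply, s₀, map_smul, h.inv, hv, smul_eq_mul, mul_one]
  have c₀ : ∀ φ, ConeCar S D₀ φ (F₀ φ) := fun φ p q hq => by
    rw [s₀] at hq
    have := (within_trC (h := φ p.1)).2 hD₀ q (Finsupp.support_smul hq)
    rwa [mul_one] at this
  have r₁ : ∀ φ c, ∃ c', f₁ c' = (F₀ φ ∘ₗ f₁) c := fun φ c => (h.x₀ _).1 (by
    rw [LinearMap.comp_apply, e₀, h.x₀.apply_apply_eq_zero])
  have r₂ : ∀ φ c, ∃ c', f₂ c' = (coneL l₁ (F₀ φ ∘ₗ f₁) ∘ₗ f₂) c := fun φ c => (h.x₁ _).1 (by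
    rw [LinearMap.comp_apply, L₁.map (r₁ φ), LinearMap.comp_apply, h.x₁.apply_apply_eq_zero,
      map_zero])
  have k₁ : ∀ φ φ' g R z, (∀ x, Near S (R + b) g x → φ x = φ' x) → Within S R g z →
      coneL l₁ (F₀ φ ∘ₗ f₁) z = coneL l₁ (F₀ φ' ∘ₗ f₁) z := fun φ φ' g R z hφ hz =>
    cone_congr fun p hp => by
      rw [coneL_single, coneL_single]
      refine congrArg l₁ (cone_congr (G := F₀ φ) (G' := F₀ φ') fun q hq => ?_)
      rw [s₀, s₀, hφ _ ((hz p hp).trans (b₁ p q hq))]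
  refine ⟨D₀ + (ρ₁ (E + D₀) + ρ₂ (E + ρ₁ (E + D₀))), F₀, fun φ => coneL l₁ (F₀ φ ∘ₗ f₁),
    fun φ => coneL l₂ (coneL l₁ (F₀ φ ∘ₗ f₁) ∘ₗ f₂), fun φ hφ => ?_, fun g => ?_, k₁,
    fun φ φ' g R z hφ hz => cone_congr fun p hp => ?_⟩
  · have c₁ := L₁.car (r₁ φ) ((c₀ φ).comp b₁ hφ)
    have c₂ := L₂.car (r₂ φ) (c₁.comp b₂ hφ)
    exact ⟨e₀ φ, L₁.map (r₁ φ), L₂.map (r₂ φ), (c₀ φ).mono hS (by omega), c₁.mono hS (by omega),
      c₂.mono hS (by omega)⟩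
  · have z₀ : ∀ c, F₀ (fun _ => g) c = ε c • trC g v := fun c =>
      cone_congr (G' := ε.smulRight (trC g v)) fun p _ => s₀ (fun _ => g) p
    have z₁ : ∀ z, coneL l₁ (F₀ (fun _ => g) ∘ₗ f₁) z = 0 := L₁.eq_zero fun c => by
      rw [LinearMap.comp_apply, z₀, h.x₀.apply_apply_eq_zero, zero_smul]
    exact ⟨z₁, L₂.eq_zero fun c => z₁ _⟩
  · rw [coneL_single, coneL_single]
    exact congrArg l₂ (k₁ φ φ' g (R + b) _ hφ ((b₂ p).shift (hz p hp)))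

end

theorem cone {ι₀ ι₁ ι₂ ι₃ : Type*} [Fintype ι₀] [Fintype ι₁] [Fintype ι₂] [Fintype ι₃]
    {ε : Ch Γ ι₀ →ₗ[ZMod 2] ZMod 2} {f₁ : Ch Γ ι₁ →ₗ[ZMod 2] Ch Γ ι₀}
    {f₂ : Ch Γ ι₂ →ₗ[ZMod 2] Ch Γ ι₁} {f₃ : Ch Γ ι₃ →ₗ[ZMod 2] Ch Γ ι₂}
    (hS : Gen S) (hC : Comb S) (h : Res3 ε f₁ f₂ f₃) : Cone S f₂ ∧ Cone S f₃ := by
  obtain ⟨σ, D, L, s0, s1, s2, s3⟩ := hC
  obtain ⟨b', hb'⟩ := h.e₁.single_within hS
  obtain ⟨b'', hb''⟩ := h.e₂.single_within hS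
  generalize hb : b' + b'' = b
  have b₁ : ConeCar S b id f₁ := fun p => (hb' p).mono hS (by omega)
  have b₂ : ConeCar S b id f₂ := fun p => (hb'' p).mono hS (by omega)
  let φ : Γ → ℕ → Γ → Γ := fun g t x => g * σ (g⁻¹ * x) t
  have lip : ∀ g t n x y, Near S n x y → Near S (n * D) (φ g t x) (φ g t y) := fun g t n x => by
    induction n with
    | zero =>
      intro y hy
      rw [near_zero.1 hy]
      exact Near.refl hS _ _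
    | succ n ih =>
      intro y hy
      obtain ⟨z, s, hs, hz, rfl⟩ := near_succ.1 hy
      rw [Nat.succ_mul]
      refine (ih z hz).trans ?_
      simp only [φ, near_mul_left, ← mul_assoc]
      exact s2 _ t s hs
  have lip' : ∀ g t x y, Near S b x y → Near S (b * D + b) (φ g t x) (φ g t y) :=
    fun g t x y k => (lip g t b x y k).mono hS (by omega)
  have lipi : ∀ x y, Near S b x y → Near S (b * D + b) (id x) (id y) :=
    fun x y k => k.mono hS (by omega)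
  have step : ∀ g t x, Near S D (φ g t x) (φ g (t + 1) x) := fun g t x => by
    simp only [φ, near_mul_left]
    exact s1 _ t
  have zero : ∀ g, φ g 0 = fun _ => g := fun g => by
    funext x
    simp only [φ, s0, mul_one]
  have hφ : ∀ g t x, Near S (t * D) g (φ g t x) := fun g t x => by
    induction t with
    | zero =>
      rw [zero]
      exact Near.refl hS _ _
    | succ t ih =>
      rw [Nat.succ_mul]
      exact ih.trans (step g t x)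
  have fin : ∀ g n x, Near S n g x → φ g (L * (n + 1)) x = id x := fun g n x k => by
    simp only [φ, s3 n _ k _ le_rfl, mul_inv_cancel_left, id]
  obtain ⟨D₁, F₀, F₁, F₂, m1, m2, m3, m4⟩ := cone_maps hS h b₁ b₂ (b * D + b)
  obtain ⟨D', hH⟩ := cone_hom hS h b₁ b₂ (D + D₁) (b * D + b)
  have mono : ∀ ψ ψ' : Γ → Γ, (∀ x, Near S D (ψ x) (ψ' x)) →
      ConeCM S ε f₁ f₂ D₁ ψ' (F₀ ψ') (F₁ ψ') (F₂ ψ') →
      ConeCM S ε f₁ f₂ (D + D₁) ψ (F₀ ψ') (F₁ ψ') (F₂ ψ') := fun ψ ψ' k m =>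
    ⟨m.e₀, m.e₁, m.e₂, m.c₀.shift k, m.c₁.shift k, m.c₂.shift k⟩
  choose H₁ H₂ a1 a2 a3 a4 using fun g t => hH (φ g t) _ _ _ _ _ _ (lip' g t)
    (mono _ _ (fun x => Near.refl hS _ _) (m1 _ (lip' g t)))
    (mono _ _ (step g t) (m1 _ (lip' g (t + 1))))
  obtain ⟨I₁, I₂, i1, i2, i3, i4⟩ := hH id LinearMap.id LinearMap.id LinearMap.id _ _ _ lipi
    ⟨fun _ => rfl, fun _ => rfl, fun _ => rfl, cone_id hS _, cone_id hS _, cone_id hS _⟩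
    (mono _ _ (fun x => Near.refl hS _ _) (m1 _ lipi))
  exact ⟨cone_fin hS (b := b) (L := L) (F := fun g t => F₁ (φ g t)) hφ a1 i1 a3 i3
      (fun g z => by simp only [zero, (m2 g).1]) fun g R z hz => m3 _ _ g R z (fin g _) hz,
    cone_fin hS (b := b + b) (L := L) (F := fun g t => F₂ (φ g t)) hφ a2 i2 a4 i4
      (fun g z => by simp only [zero, (m2 g).2]) fun g R z hz =>
        m4 _ _ g R z (by rw [← add_assoc]; exact fin g _) hz⟩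

end Vale.Agent.P239
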