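import Vale.Agent.P239.LDefs

namespace Vale.Agent.P239.VN

namespace ConeXAux

/-- The second barycentric coordinate. -/
noncomputable def time : C(stdSimplex ℝ (Fin 2), unitInterval) :=
  ⟨stdSimplexHomeomorphUnitInterval, stdSimplexHomeomorphUnitInterval.continuous⟩

theorem map_const {n m : ℕ} (j : Fin (m + 1)) (x : stdSimplex ℝ (Fin (n + 1))) :
    stdSimplex.map (fun _ : Fin (n + 1) => j) x = stdSimplex.vertex j := by
  ext i
  simp only [stdSimplex.map_coe, stdSimplex.vertex_coe, FunOnFinite.linearMap_apply_apply]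
  by_cases h : j = i
  · simpa [h] using x.2.2
  · simp [h, Ne.symm h]

variable {E : Type} [TopologicalSpace E]

/-- A simplex of the prism. -/
noncomputable def pz (H : C(unitInterval × E, E)) {n : ℕ} (φ ψ : Fin (n + 1) → Fin 2)
    (σ : Sx 1 E) : Sx n E :=
  ⟨fun x => H (time (stdSimplex.map ψ x), σ (stdSimplex.map φ x)), by
    have := stdSimplex.continuous_map (S := ℝ) φ
    have := stdSimplex.continuous_map (S := ℝ) ψ
    fun_prop⟩

theorem pz_face (H : C(unitInterval × E, E)) {n : ℕ} (φ ψ : Fin (n + 2) → Fin 2) (σ : Sx 1 E)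
    (i : Fin (n + 2)) :
    (pz H φ ψ σ).comp (face i) = pz H (φ ∘ i.succAbove) (ψ ∘ i.succAbove) σ := by
  ext x
  simp [pz, face, stdSimplex.map_comp_apply]

/-- The track of a point. -/
noncomputable def tk (H : C(unitInterval × E, E)) (y : Sx 0 E) : Sx 1 E :=
  ⟨fun x => H (time x, y (stdSimplex.vertex 0)), by fun_prop⟩

end ConeXAux

open ConeXAux

theorem bdry_zero {R : Type} [Ring R] {E : Type} [TopologicalSpace E] (z : Sx 1 E →₀ R) :
    bdry R E 0 z = (z.mapDomain fun σ => σ.comp (face 0)) -
      z.mapDomain fun σ => σ.comp (face 1) := by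
  simp [bdry, Fin.sum_univ_two, sub_eq_add_neg]

theorem bdry_one {R : Type} [Ring R] {E : Type} [TopologicalSpace E] (σ : Sx 2 E) (a : R) :
    bdry R E 1 (Finsupp.single σ a) = Finsupp.single (σ.comp (face 0)) a -
      Finsupp.single (σ.comp (face 1)) a + Finsupp.single (σ.comp (face 2)) a := by
  simp [bdry, Fin.sum_univ_three, sub_eq_add_neg]

theorem cone {R : Type} [Ring R] {E : Type} [TopologicalSpace E] [ContractibleSpace E]
    (z : Sx 1 E →₀ R) (h : bdry R E 0 z = 0) : z ∈ LinearMap.range (bdry R E 1) := by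
  obtain ⟨e, ⟨H⟩⟩ := (contractible_iff_id_nullhomotopic E).1 inferInstance
  have key : ∀ (σ : Sx 1 E) (a : R), Finsupp.single σ a + Finsupp.lmapDomain R R (tk H)
      (bdry R E 0 (Finsupp.single σ a)) ∈ LinearMap.range (bdry R E 1) := by
    intro σ a
    refine ⟨Finsupp.single (pz H ![0, 1, 1] ![0, 0, 1] σ) a -
      Finsupp.single (pz H ![0, 0, 1] ![0, 1, 1] σ) a +
      Finsupp.single (ContinuousMap.const _ e) a, ?_⟩
    have v : ∀ j : Fin 2, ∀ i : Fin 2, i.succAbove 0 = j →
        pz H (fun _ => j) id σ = tk H (σ.comp (face i)) := by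
      intro j i hi
      ext x
      simp [pz, tk, map_const, face, hi]
    have a0 : (pz H ![0, 1, 1] ![0, 0, 1] σ).comp (face 0) = tk H (σ.comp (face 0)) := by
      rw [pz_face, ← v 1 0 rfl]
      congr 1 <;> decide
    have a1 : (pz H ![0, 1, 1] ![0, 0, 1] σ).comp (face 1) = pz H id id σ := by
      rw [pz_face]
      congr 1 <;> decide
    have a2 : (pz H ![0, 1, 1] ![0, 0, 1] σ).comp (face 2) = σ := by
      rw [pz_face, show ![0, 1, 1] ∘ (2 : Fin 3).succAbove = id by decide,
        show ![0, 0, 1] ∘ (2 : Fin 3).succAbove = fun _ => (0 : Fin 2) by decide]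
      ext x
      simp [pz, map_const, time]
    have b0 : (pz H ![0, 0, 1] ![0, 1, 1] σ).comp (face 0) = ContinuousMap.const _ e := by
      rw [pz_face, show ![0, 1, 1] ∘ (0 : Fin 3).succAbove = fun _ => (1 : Fin 2) by decide]
      ext x
      simp [pz, map_const, time]
    have b1 : (pz H ![0, 0, 1] ![0, 1, 1] σ).comp (face 1) = pz H id id σ := by
      rw [pz_face]
      congr 1 <;> decide
    have b2 : (pz H ![0, 0, 1] ![0, 1, 1] σ).comp (face 2) = tk H (σ.comp (face 1)) := by
      rw [pz_face, ← v 0 1 rfl]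
      congr 1 <;> decide
    rw [map_add, map_sub, bdry_one, bdry_one, bdry_one, a0, a1, a2, b0, b1, b2, bdry_zero]
    simp only [ContinuousMap.const_comp, map_sub, Finsupp.lmapDomain_apply,
      Finsupp.mapDomain_single]
    abel
  have : z + Finsupp.lmapDomain R R (tk H) (bdry R E 0 z) ∈ LinearMap.range (bdry R E 1) := by
    clear h
    induction z using Finsupp.induction_linear with
    | zero => simp
    | add f g hf hg =>
      rw [map_add, map_add, add_add_add_comm]
      exact add_mem hf hg
    | single σ a => exact key σ a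
  rwa [h, map_zero, add_zero] at this

theorem exists_edge {E : Type} [TopologicalSpace E] [PathConnectedSpace E] (x y : Sx 0 E) :
    ∃ σ : Sx 1 E, σ.comp (face 1) = x ∧ σ.comp (face 0) = y := by
  let γ := PathConnectedSpace.somePath (x (stdSimplex.vertex 0)) (y (stdSimplex.vertex 0))
  have h : ∀ w : stdSimplex ℝ (Fin 1), w = stdSimplex.vertex 0 := fun w => by
    rw [← map_const 0 w, show (fun _ : Fin (0 + 1) => (0 : Fin (0 + 1))) = id by decide,
      stdSimplex.map_id_apply]
  refine ⟨γ.toContinuousMap.comp time, ?_, ?_⟩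
  · ext w
    rw [h w]
    simp [face, time]
  · ext w
    rw [h w]
    simp [face, time]

end Vale.Agent.P239.VN
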