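import Vale.Agent.P239.Core

/-! A closed invariant nested family has no infinite localized chain. -/

namespace Vale.Agent.P239

open scoped Pointwise symmDiff Matrix

variable {Γ : Type*} [Group Γ] {S : Finset Γ} {r : ℕ}

omit [Group Γ] in
theorem tree_cmp {X Y : Set Γ} (h : Nested X Y) {p q : Γ} (h1 : p ∈ X) (h2 : p ∈ Y) (h3 : q ∉ X)
    (h4 : q ∉ Y) : X ⊆ Y ∨ Y ⊆ X := by
  rcases h with h | h | h | h
  · exact (Set.eq_empty_iff_forall_notMem.1 h p ⟨h1, h2⟩).elim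
  · exact Or.inl fun x hx => not_not.1 fun k => Set.eq_empty_iff_forall_notMem.1 h x ⟨hx, k⟩
  · exact Or.inr fun x hx => not_not.1 fun k => Set.eq_empty_iff_forall_notMem.1 h x ⟨k, hx⟩
  · exact (Set.eq_empty_iff_forall_notMem.1 h q ⟨h3, h4⟩).elim

theorem tree_mono {X X' Y' Y : Set Γ} (h1 : X ⊆ X') (h2 : X' ⊆ Y') (h3 : Y' ⊆ Y) :
    cob S X ∩ cob S Y ⊆ cob S X' ∩ cob S Y' := by
  intro e he
  have a1 := @h1 e.1
  have a2 := @h2 e.1
  have a3 := @h3 e.1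
  have b1 := @h1 (e.1 * e.2)
  have b2 := @h2 (e.1 * e.2)
  have b3 := @h3 (e.1 * e.2)
  simp only [Set.mem_inter_iff, mem_cob] at he ⊢
  tauto

theorem tree_T (htf : ∀ g : Γ, IsOfFinOrder g → g = 1) {G : Set (Γ × S)} (hG : G.Finite)
    (h0 : G.Nonempty) {g : Γ} (h : trE g G ⊆ G ∨ G ⊆ trE g G) : g = 1 := by
  have h1 : G ⊆ trE g G := h.elim (fun k =>
    (Set.eq_of_subset_of_ncard_le k (trE_ncard g G).ge hG).ge) id
  obtain ⟨e, he⟩ := h0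
  have h2 : ∀ n : ℕ, (g⁻¹ ^ n * e.1, e.2) ∈ G := fun n => by
    induction n with
    | zero => simpa using he
    | succ n ih =>
      rw [pow_succ', mul_assoc]
      exact h1 ih
  refine inv_eq_one.1 (htf _ (finite_powers.1 ((hG.image fun e' => e'.1 * e.1⁻¹).subset ?_)))
  rintro _ ⟨n, rfl⟩
  exact ⟨_, h2 n, by simp⟩

/-- The largest member containing `p` and missing `q` and `v`. -/
def treeLo (N : Set (Set Γ)) (p q v : Γ) : Set Γ := ⋃₀ {C | C ∈ N ∧ p ∈ C ∧ q ∉ C ∧ v ∉ C}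

theorem tree_tr_tr (g h : Γ) (A : Set Γ) : tr g (tr h A) = tr (g * h) A := by
  ext x
  simp [mul_assoc]

theorem tree_three {α : Type*} [PartialOrder α] {P : α → Prop} {a b c : α} (ha : P a) (hb : P b)
    (hc : P c) (h1 : a < b ∨ b < a) (h2 : b < c ∨ c < b) (h3 : a < c ∨ c < a) :
    ∃ x z y, P x ∧ P z ∧ P y ∧ x < z ∧ z < y := by
  rcases h1 with h1 | h1 <;> rcases h2 with h2 | h2 <;> rcases h3 with h3 | h3
  · exact ⟨a, b, c, ha, hb, hc, h1, h2⟩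
  · exact ⟨a, b, c, ha, hb, hc, h1, h2⟩
  · exact ⟨a, c, b, ha, hc, hb, h3, h2⟩
  · exact ⟨c, a, b, hc, ha, hb, h3, h1⟩
  · exact ⟨b, a, c, hb, ha, hc, h1, h3⟩
  · exact ⟨b, c, a, hb, hc, ha, h2, h3⟩
  · exact ⟨c, b, a, hc, hb, ha, h2, h1⟩
  · exact ⟨c, b, a, hc, hb, ha, h2, h1⟩

section
variable {N : Set (Set Γ)} {A : ℕ → Set Γ} {Op Om : Set Γ} (h : NFam S N A Op Om)
include h

theorem tree_lo_tr (g p q v : Γ) : treeLo N (g * p) (g * q) (g * v) = tr g (treeLo N p q v) := by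
  ext x
  simp only [treeLo, Set.mem_sUnion, Set.mem_ofPred_eq, mem_tr]
  constructor
  · rintro ⟨C, ⟨c1, c2, c3, c4⟩, hx⟩
    exact ⟨tr g⁻¹ C, ⟨h.tr_mem C c1 _, by simpa using c2, by simpa using c3, by simpa using c4⟩,
      by simpa using hx⟩
  · rintro ⟨C, ⟨c1, c2, c3, c4⟩, hx⟩
    exact ⟨tr g C, ⟨h.tr_mem C c1 _, by simpa using c2, by simpa using c3, by simpa using c4⟩, hx⟩

theorem tree_lo_mem {X : Set Γ} {p q v : Γ} (h1 : X ∈ N) (h2 : p ∈ X) (h3 : q ∉ X) (h4 : v ∉ X) :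
    treeLo N p q v ∈ N := by
  classical
  refine h.closed _ fun K => ?_
  have : ∃ Y, (Y ∈ N ∧ p ∈ Y ∧ q ∉ Y ∧ v ∉ Y) ∧ ∀ x ∈ K, x ∈ treeLo N p q v → x ∈ Y := by
    induction K using Finset.induction_on with
    | empty => exact ⟨X, ⟨h1, h2, h3, h4⟩, by simp⟩
    | insert a K _ ih =>
      obtain ⟨Y, hY, k⟩ := ih
      by_cases ha : a ∈ treeLo N p q v
      · obtain ⟨C, hC, ha⟩ := ha
        rcases tree_cmp (h.nest Y hY.1 C hC.1) hY.2.1 hC.2.1 hY.2.2.1 hC.2.2.1 with k' | k'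
        · exact ⟨C, hC, Finset.forall_mem_insert _ _ _ |>.2
            ⟨fun _ => ha, fun x hx hx' => k' (k x hx hx')⟩⟩
        · exact ⟨Y, hY, Finset.forall_mem_insert _ _ _ |>.2 ⟨fun _ => k' ha, k⟩⟩
      · exact ⟨Y, hY, Finset.forall_mem_insert _ _ _ |>.2 ⟨fun k' => (ha k').elim, k⟩⟩
  obtain ⟨Y, hY, k⟩ := this
  exact ⟨Y, hY.1, fun x hx => ⟨k x hx, fun k' => ⟨Y, hY, k'⟩⟩⟩

theorem tree_bound (ρ : ℕ) : ∃ m : ℕ, ∀ x p q v p' q' v' : Γ, Near S ρ x p → Near S ρ x q →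
    Near S ρ x v → Near S ρ x p' → Near S ρ x q' → Near S ρ x v' →
    (cob S (treeLo N p q v) ∩ cob S (treeLo N q' p' v')ᶜ).ncard ≤ m := by
  have f := pow_finite S ρ
  obtain ⟨m, hm⟩ := (((f.prod (f.prod f)).prod (f.prod (f.prod f))).image
    fun t : (Γ × Γ × Γ) × Γ × Γ × Γ => (cob S (treeLo N t.1.1 t.1.2.1 t.1.2.2) ∩
      cob S (treeLo N t.2.2.1 t.2.1 t.2.2.2)ᶜ).ncard).bddAbove
  refine ⟨m, fun x p q v p' q' v' a1 a2 a3 a4 a5 a6 => ?_⟩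
  refine le_trans (le_of_eq ?_) (hm ⟨((x⁻¹ * p, x⁻¹ * q, x⁻¹ * v), x⁻¹ * p', x⁻¹ * q', x⁻¹ * v'),
    ⟨⟨a1, a2, a3⟩, a4, a5, a6⟩, rfl⟩)
  simp only [tree_lo_tr h, cob_compl, cob_tr]
  exact (trE_ncard x⁻¹ (cob S (treeLo N p q v) ∩ cob S (treeLo N q' p' v'))).symm

end

/-- The consecutive pair determined by an event. -/
structure TreePair (N : Set (Set Γ)) (X Y L H : Set Γ) : Prop where
  l : L ∈ N
  h : H ∈ N
  xl : X ⊆ L
  lh : L ⊂ H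
  hy : H ⊆ Y
  mid : ∀ C ∈ N, X ⊆ C → C ⊆ Y → C ⊆ L ∨ H ⊆ C

section
variable {N : Set (Set Γ)} {A : ℕ → Set Γ} {Op Om : Set Γ} (h : NFam S N A Op Om)
  {X Y Z : Set Γ} (hX : X ∈ N) (hY : Y ∈ N)
include h hX hY

theorem tree_pair (hXY : X ⊆ Y) {p q v : Γ} (h1 : p ∈ X) (h2 : q ∉ Y) (h3 : v ∈ Y) (h4 : v ∉ X) :
    TreePair N X Y (treeLo N p q v) (treeLo N q p v)ᶜ := by
  have a1 := tree_lo_mem h hX h1 (fun k => h2 (hXY k)) h4
  have a2 := h.compl_mem _ (tree_lo_mem h (h.compl_mem _ hY) h2 (not_not.2 (hXY h1))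
    (not_not.2 h3))
  have a3 : X ⊆ treeLo N p q v := fun x hx => ⟨X, ⟨hX, h1, fun k => h2 (hXY k), h4⟩, hx⟩
  have a4 : (treeLo N q p v)ᶜ ⊆ Y := fun x hx => not_not.1 fun k =>
    hx ⟨Yᶜ, ⟨h.compl_mem _ hY, h2, not_not.2 (hXY h1), not_not.2 h3⟩, k⟩
  have a5 : v ∈ (treeLo N q p v)ᶜ := fun ⟨C, c, k⟩ => c.2.2.2 k
  have a6 : v ∉ treeLo N p q v := fun ⟨C, c, k⟩ => c.2.2.2 k
  refine ⟨a1, a2, a3, ⟨?_, fun k => a6 (k a5)⟩, a4, fun C hC c1 c2 => ?_⟩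
  · exact (tree_cmp (h.nest _ a1 _ a2) (a3 h1) (fun ⟨C, c, k⟩ => c.2.2.1 k)
      (fun ⟨C, c, k⟩ => c.2.2.1 k) fun k => h2 (a4 k)).resolve_right fun k => a6 (k a5)
  · by_cases hv : v ∈ C
    · exact Or.inr fun x hx => not_not.1 fun k => hx ⟨Cᶜ, ⟨h.compl_mem _ hC, fun k' => h2 (c2 k'),
        not_not.2 (c1 h1), not_not.2 hv⟩, k⟩
    · exact Or.inl fun x hx => ⟨C, ⟨hC, c1 h1, fun k' => h2 (c2 k'), hv⟩, hx⟩

theorem tree_fix (htf : ∀ g : Γ, IsOfFinOrder g → g = 1) (hZ : Z ∈ N) (h1 : X ⊂ Z) (h2 : Z ⊂ Y)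
    (h0 : (cob S X ∩ cob S Y).Nonempty) {L H : Set Γ} (hP : TreePair N X Y L H) {g p q : Γ}
    (gL : tr g L = L) (gH : tr g H = H) (p1 : p ∈ X) (p2 : g * p ∈ X) (q1 : q ∉ Y)
    (q2 : g * q ∉ Y) : g = 1 := by
  have hXY := h1.1.trans h2.1
  have e : ∀ U V : Set Γ, trE g (cob S U ∩ cob S V) = cob S (tr g U) ∩ cob S (tr g V) :=
    fun U V => by rw [cob_tr, cob_tr]; rfl
  rcases hP.mid Z hZ h1.1 h2.1 with k | k
  · have a1 : X ⊆ H := hP.xl.trans hP.lh.1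
    refine tree_T htf (h.star X hX L hP.l H hP.h (h1.trans_subset k) hP.lh)
      (h0.mono (tree_mono subset_rfl a1 hP.hy)) ?_
    rw [e, gH]
    refine (tree_cmp (h.nest _ (h.tr_mem X hX g) X hX) (p := g * p) (q := g * q) (by simpa using p1)
      p2 (by simpa using fun k => q1 (hXY k)) fun k => q2 (hXY k)).imp
      (fun k' => tree_mono k' a1 subset_rfl) fun k' => tree_mono k' ?_ subset_rfl
    rw [← gH]
    exact fun x hx => a1 hx
  · have a1 : L ⊆ Y := hP.lh.1.trans hP.hy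
    refine tree_T htf (h.star L hP.l H hP.h Y hY hP.lh (k.trans_ssubset h2))
      (h0.mono (tree_mono hP.xl a1 subset_rfl)) ?_
    rw [e, gL]
    refine (tree_cmp (h.nest _ (h.tr_mem Y hY g) Y hY) (p := g * p) (q := g * q)
      (by simpa using hXY p1) (hXY p2) (by simpa using q1) q2).symm.imp
      (fun k' => tree_mono subset_rfl a1 k') fun k' => tree_mono subset_rfl ?_ k'
    rw [← gL]
    exact fun x hx => a1 hx

omit h hX hY in
theorem tree_event (hS : Gen S) (hXY : X ⊆ Y) {x : Γ} (hx : x ∈ Def S r (cob S X ∩ cob S Y)) :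
    ∃ t : Γ × Γ × Γ, (t.1 ∈ X ∧ t.2.1 ∉ Y ∧ t.2.2 ∈ Y ∧ t.2.2 ∉ X) ∧
      Near S (r + 1) x t.1 ∧ Near S (r + 1) x t.2.1 ∧ Near S (r + 1) x t.2.2 := by
  obtain ⟨e, he, k⟩ := Def.exists_edge hx
  obtain ⟨v, v1, v2, v3⟩ : ∃ v, Near S (r + 1) x v ∧ v ∈ Y ∧ v ∉ X := by
    by_contra hc
    push Not at hc
    refine not_mem_Def_cob Y x ((Def.congr fun e' he' => ?_).1 hx)
    have a1 := hc _ (he'.mono hS (Nat.le_succ r))
    have a2 := hc _ (he'.trans (near_edge e'))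
    have a3 := @hXY e'.1
    have a4 := @hXY (e'.1 * e'.2)
    simp only [Set.mem_inter_iff, mem_cob]
    tauto
  have a1 := k.mono hS (Nat.le_succ r)
  have a2 := k.trans (near_edge e)
  have a3 := @hXY e.1
  have a4 := @hXY (e.1 * e.2)
  simp only [Set.mem_inter_iff, mem_cob] at he
  by_cases h1 : e.1 ∈ X
  · exact ⟨(e.1, e.1 * e.2, v), ⟨h1, by tauto, v2, v3⟩, a1, a2, v1⟩
  · exact ⟨(e.1 * e.2, e.1, v), ⟨by tauto, by tauto, v2, v3⟩, a2, a1, v1⟩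

theorem tree_fib (hS : Gen S) (htf : ∀ g : Γ, IsOfFinOrder g → g = 1) (hZ : Z ∈ N) (h1 : X ⊂ Z)
    (h2 : Z ⊂ Y) {w m : ℕ} (hm : ∀ x p q v p' q' v' : Γ, Near S (w + (r + 1)) x p →
      Near S (w + (r + 1)) x q → Near S (w + (r + 1)) x v → Near S (w + (r + 1)) x p' →
      Near S (w + (r + 1)) x q' → Near S (w + (r + 1)) x v' →
      (cob S (treeLo N p q v) ∩ cob S (treeLo N q' p' v')ᶜ).ncard ≤ m)
    (hG : m < (cob S X ∩ cob S Y).ncard) :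
    ∀ x ∈ Def S r (cob S X ∩ cob S Y), ∃ T : Set Γ, T.Finite ∧
      T.ncard ≤ ((S : Set Γ) ^ (r + 1)).ncard * (((S : Set Γ) ^ (r + 1)).ncard *
        ((S : Set Γ) ^ (r + 1)).ncard) ∧ x ∈ T ∧
      ∀ y ∈ T, ∀ z ∈ Def S r (cob S X ∩ cob S Y), Near S w y z → z ∈ T := by
  have hXY := h1.1.trans h2.1
  have h0 : (cob S X ∩ cob S Y).Nonempty := Set.nonempty_of_ncard_ne_zero (by omega)
  generalize hD : Def S r (cob S X ∩ cob S Y) = D
  choose! t t1 t2 using fun x (hx : x ∈ D) => tree_event hS hXY (hD ▸ hx)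
  let L : Γ → Set Γ := fun x => treeLo N (t x).1 (t x).2.1 (t x).2.2
  let H : Γ → Set Γ := fun x => (treeLo N (t x).2.1 (t x).1 (t x).2.2)ᶜ
  have P : ∀ x ∈ D, TreePair N X Y (L x) (H x) := fun x hx =>
    tree_pair h hX hY hXY (t1 x hx).1 (t1 x hx).2.1 (t1 x hx).2.2.1 (t1 x hx).2.2.2
  have a1 : ∀ x ∈ D, ∀ y ∈ D, Near S w x y → ¬ L x ⊂ L y := fun x hx y hy k k' => by
    have b1 := h.star _ (P x hx).l _ (P y hy).l _ (P y hy).h k' (P y hy).lh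
    have b2 := Set.ncard_le_ncard (tree_mono (S := S) (P x hx).xl (k'.1.trans (P y hy).lh.1)
      (P y hy).hy) b1
    have b3 := hm x _ _ _ _ _ _ ((t2 x hx).1.mono hS (by omega)) ((t2 x hx).2.1.mono hS (by omega))
      ((t2 x hx).2.2.mono hS (by omega)) (k.trans (t2 y hy).1) (k.trans (t2 y hy).2.1)
      (k.trans (t2 y hy).2.2)
    exact (b2.trans b3).not_gt hG
  have a2 : ∀ x ∈ D, ∀ y ∈ D, Near S w x y → L x = L y := fun x hx y hy k => by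
    by_contra k'
    rcases tree_cmp (h.nest _ (P x hx).l _ (P y hy).l) ((P x hx).xl (t1 x hx).1)
      ((P y hy).xl (t1 x hx).1) (fun c => (t1 x hx).2.1 ((P x hx).hy ((P x hx).lh.1 c)))
      (fun c => (t1 x hx).2.1 ((P y hy).hy ((P y hy).lh.1 c))) with c | c
    · exact a1 x hx y hy k (c.ssubset_of_ne k')
    · exact a1 y hy x hx (k.symm hS) (c.ssubset_of_ne (Ne.symm k'))
  have a3 : ∀ x ∈ D, ∀ y ∈ D, L x = L y → H x ⊆ H y := fun x hx y hy k =>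
    ((P x hx).mid _ (P y hy).h ((P y hy).xl.trans (P y hy).lh.1) (P y hy).hy).resolve_left
      fun c => (P y hy).lh.2 (k ▸ c)
  intro x hx
  have f := pow_finite S (r + 1)
  have a4 : Set.InjOn (fun y => (y⁻¹ * (t y).1, y⁻¹ * (t y).2.1, y⁻¹ * (t y).2.2))
      {y | y ∈ D ∧ L y = L x} := by
    rintro y ⟨hy, ey⟩ z ⟨hz, ez⟩ k
    simp only [Prod.mk.injEq] at k
    have e1 : z * y⁻¹ * (t y).1 = (t z).1 := by rw [mul_assoc, k.1, mul_inv_cancel_left]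
    have e2 : z * y⁻¹ * (t y).2.1 = (t z).2.1 := by rw [mul_assoc, k.2.1, mul_inv_cancel_left]
    have e3 : z * y⁻¹ * (t y).2.2 = (t z).2.2 := by rw [mul_assoc, k.2.2, mul_inv_cancel_left]
    have e4 : L z = L y := ez.trans ey.symm
    have g1 : tr (z * y⁻¹) (L y) = L y := by
      rw [← tree_lo_tr h, e1, e2, e3]
      exact e4
    have g2 : tr (z * y⁻¹) (H y) = H y := by
      refine Eq.trans ?_ ((a3 z hz y hy e4).antisymm (a3 y hy z hz e4.symm))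
      simp only [H]
      rw [← e1, ← e2, ← e3, tree_lo_tr h]
      rfl
    exact (mul_inv_eq_one.1 (tree_fix h hX hY htf hZ h1 h2 h0 (P y hy) g1 g2 (t1 y hy).1
      (e1 ▸ (t1 z hz).1) (t1 y hy).2.1 (e2 ▸ (t1 z hz).2.1))).symm
  have a5 : ∀ y ∈ {y | y ∈ D ∧ L y = L x}, (y⁻¹ * (t y).1, y⁻¹ * (t y).2.1, y⁻¹ * (t y).2.2) ∈
      ((S : Set Γ) ^ (r + 1)) ×ˢ ((S : Set Γ) ^ (r + 1)) ×ˢ ((S : Set Γ) ^ (r + 1)) :=
    fun y hy => t2 y hy.1
  refine ⟨{y | y ∈ D ∧ L y = L x}, Set.Finite.of_injOn a5 a4 (f.prod (f.prod f)), ?_, ⟨hx, rfl⟩,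
    fun y hy z hz k => ⟨hz, (a2 y hy.1 z hz k).symm.trans hy.2⟩⟩
  rw [← Set.ncard_prod, ← Set.ncard_prod]
  exact Set.ncard_le_ncard_of_injOn _ a5 a4 (f.prod (f.prod f))

end

theorem tree_false (hS : Gen S) (hI : Iface S r) (htf : ∀ g : Γ, IsOfFinOrder g → g = 1)
    {N : Set (Set Γ)} {A : ℕ → Set Γ} {Op Om : Set Γ} (h : NFam S N A Op Om) : False := by
  obtain ⟨w, hw⟩ := hI.hc2
  obtain ⟨m, hm⟩ := tree_bound h (w + (r + 1))
  obtain ⟨M, hM⟩ := hw (((S : Set Γ) ^ (r + 1)).ncard * (((S : Set Γ) ^ (r + 1)).ncard *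
    ((S : Set Γ) ^ (r + 1)).ncard))
  obtain ⟨xp, hp⟩ := h.inf_p.nonempty
  obtain ⟨xm, hn⟩ := h.inf_m.nonempty
  obtain ⟨K, hK, far⟩ := h.far (r + M)
  let B : Set Γ := {x | ∀ᶠ i in (Filter.hyperfilter ℕ : Filter ℕ), x ∈ A i}
  have B1 : (cob S B).Infinite := fun k => (hI.hb B k).elim
    (fun k' => h.inf_p (k'.subset fun x hx => Filter.Eventually.of_forall fun i => h.sub_p i hx))
    fun k' => h.inf_m (k'.subset fun x hx k'' => by
      obtain ⟨i, hi⟩ := Filter.Eventually.exists k''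
      exact h.dis_m i x hx hi)
  obtain ⟨E, E1, E2, E3⟩ := B1.exists_subset_ncard_eq (m + 1)
  obtain ⟨R, hR⟩ := hS.finite_sub_ball
    (((E2.image Prod.fst).union hK).insert xp |>.insert xm) 1
  have I1 : ∀ᶠ i in (Filter.hyperfilter ℕ : Filter ℕ), ∀ x ∈ {y | Near S (R + M + r + r + 1) 1 y},
      (x ∈ A i ↔ x ∈ B) := (Filter.eventually_all_finite (ball_finite _ _)).2 fun x _ => by
    by_cases k : x ∈ B
    · exact Filter.Eventually.mono k fun i hi => iff_of_true hi k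
    · exact (Ultrafilter.eventually_not.2 k).mono fun i hi => iff_of_false hi k
  have I2 : {i | ∀ x ∈ {y | Near S (R + M + r + r + 1) 1 y}, (x ∈ A i ↔ x ∈ B)}.Infinite :=
    fun k => k.notMem_hyperfilter I1
  obtain ⟨X, Z, Y, ⟨i, hi, rfl⟩, ⟨j, -, rfl⟩, ⟨l, hl, rfl⟩, h1, h2⟩ : ∃ X Z Y : Set Γ,
      X ∈ A '' {i | ∀ x ∈ {y | Near S (R + M + r + r + 1) 1 y}, (x ∈ A i ↔ x ∈ B)} ∧
      Z ∈ A '' {i | ∀ x ∈ {y | Near S (R + M + r + r + 1) 1 y}, (x ∈ A i ↔ x ∈ B)} ∧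
      Y ∈ A '' {i | ∀ x ∈ {y | Near S (R + M + r + r + 1) 1 y}, (x ∈ A i ↔ x ∈ B)} ∧
      X < Z ∧ Z < Y := by
    have c : ∀ i j, i ≠ j → A i < A j ∨ A j < A i := fun i j k =>
      (tree_cmp (h.nest _ (h.A_mem i) _ (h.A_mem j)) (h.sub_p i hp) (h.sub_p j hp)
        (h.dis_m i _ hn) (h.dis_m j _ hn)).imp (fun k' => k'.ssubset_of_ne (h.A_inj.ne k))
        fun k' => k'.ssubset_of_ne (h.A_inj.ne k.symm)
    obtain ⟨i, hi⟩ := I2.nonempty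
    obtain ⟨j, hj, ij⟩ := I2.exists_gt i
    obtain ⟨l, hl, jl⟩ := I2.exists_gt j
    exact tree_three ⟨i, hi, rfl⟩ ⟨j, hj, rfl⟩ ⟨l, hl, rfl⟩ (c i j ij.ne) (c j l jl.ne)
      (c i l (ij.trans jl).ne)
  have ag : ∀ n x, n ≤ R + M + r + r + 1 → Near S n 1 x → (x ∈ A i ↔ x ∈ A l) :=
    fun n x k k' => (hi x (k'.mono hS k)).trans (hl x (k'.mono hS k)).symm
  have G1 := h.star _ (h.A_mem i) _ (h.A_mem j) _ (h.A_mem l) h1 h2
  have G2 : m < (cob S (A i) ∩ cob S (A l)).ncard := by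
    refine lt_of_lt_of_le (by omega) (E3.ge.trans (Set.ncard_le_ncard (fun e he => ?_) G1))
    have a1 := hR e.1 (Or.inr (Or.inr (Or.inl ⟨e, he, rfl⟩)))
    have a2 := (a1.trans (near_edge e)).mono hS (show R + 1 ≤ R + M + r + r + 1 by omega)
    have a3 := a1.mono hS (show R ≤ R + M + r + r + 1 by omega)
    have a4 := E1 he
    simp only [Set.mem_inter_iff, mem_cob] at a4 ⊢
    rw [hi _ a2, hi _ a3, hl _ a2, hl _ a3]
    exact ⟨a4, a4⟩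
  obtain ⟨β, Y₀, b1, b2, b3⟩ := hM _ (Def.finite hS G1)
    (tree_fib h (h.A_mem i) (h.A_mem l) hS htf (h.A_mem j) h1 h2 hm G2)
  have D1 : ∀ x ∈ Def S r (cob S (A i) ∩ cob S (A l)), ¬ Near S (R + M + r) 1 x := fun x hx k => by
    obtain ⟨t, t1, t2⟩ := tree_event hS (h1.1.trans h2.1) hx
    exact t1.2.2.2 ((ag _ _ (by omega) (k.trans t2.2.2)).2 t1.2.2.1)
  have D2 : ∀ e ∈ β, e.1 ∉ Op ∪ Om := fun e he k => by
    obtain ⟨x, hx, k1⟩ := b2 e he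
    obtain ⟨e', he', k2⟩ := Def.exists_edge hx
    refine far l e' he'.2 (fun k3 => D1 x hx ?_) _ k ((k2.symm hS).trans k1)
    exact ((hR _ (Or.inr (Or.inr (Or.inr k3)))).trans (k2.symm hS)).mono hS (by omega)
  have D3 : ∀ e ∈ β, ¬ Near S R 1 e.1 := fun e he k => by
    obtain ⟨x, hx, k1⟩ := b2 e he
    exact D1 x hx ((k.trans (k1.symm hS)).mono hS (by omega))
  have c1 := h.conn_p Y₀ fun e a1 a2 => by
    have a3 : e ∉ β := fun k => D2 e k (Or.inl a1)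
    have a4 := h.sub_p i a1
    have a5 := h.sub_p i a2
    rw [← b3]
    simp only [Set.mem_symmDiff, Set.mem_inter_iff, mem_cob]
    tauto
  have c2 := h.conn_m Y₀ fun e a1 a2 => by
    have a3 : e ∉ β := fun k => D2 e k (Or.inr a1)
    have a4 := h.dis_m i _ a1
    have a5 := h.dis_m i _ a2
    rw [← b3]
    simp only [Set.mem_symmDiff, Set.mem_inter_iff, mem_cob]
    tauto
  have c3 : xp ∈ Y₀ ↔ xm ∈ Y₀ := by
    rcases hI.hb Y₀ (b3 ▸ G1.symmDiff b1) with k | k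
    · obtain ⟨y, y1, y2⟩ := h.inf_p.exists_notMem_finite k
      obtain ⟨z, z1, z2⟩ := h.inf_m.exists_notMem_finite k
      exact iff_of_false (fun k' => y2 ((c1 _ hp _ y1).1 k')) fun k' => z2 ((c2 _ hn _ z1).1 k')
    · obtain ⟨y, y1, y2⟩ := h.inf_p.exists_notMem_finite k
      obtain ⟨z, z1, z2⟩ := h.inf_m.exists_notMem_finite k
      exact iff_of_true ((c1 _ hp _ y1).2 (not_not.1 y2)) ((c2 _ hn _ z1).2 (not_not.1 z2))
  have c4 : ∀ e : Γ × S, Near S R 1 e.1 → e ∉ cob S (Y₀ ∆ A l) := fun e k => by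
    have a1 : e ∉ β := fun k' => D3 e k' k
    have a2 := ag _ _ (by omega) k
    have a3 := ag _ _ (by omega) (k.trans (near_edge e))
    rw [cob_symmDiff, ← b3]
    simp only [Set.mem_symmDiff, Set.mem_inter_iff, mem_cob]
    tauto
  have c5 := ball_const hS c4 (hR xp (Or.inr (Or.inl rfl)))
  have c6 := ball_const hS c4 (hR xm (Or.inl rfl))
  have c7 := h.sub_p l hp
  have c8 := h.dis_m l _ hn
  have c9 := c5.symm.trans c6
  simp only [Set.mem_symmDiff] at c9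
  tauto

end Vale.Agent.P239
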