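import Vale.Agent.P239.Core

/-! A vote from the spectral gap. -/

namespace Vale.Agent.P239

open scoped Pointwise symmDiff Matrix

variable {Γ : Type*} [Group Γ] {S : Finset Γ} {r : ℕ}

namespace Vote

/-- The averaging operator. -/
noncomputable def P (S : Finset Γ) (f : Γ → ℝ) : Γ → ℝ :=
  fun x => (∑ s ∈ S, f (x * s)) / (S.card : ℝ)

theorem card_pos (hS : Gen S) : (0 : ℝ) < S.card := by
  exact_mod_cast Finset.card_pos.2 ⟨1, hS.one⟩

theorem P_mono {f g : Γ → ℝ} (h : ∀ x, f x ≤ g x) (x : Γ) : P S f x ≤ P S g x :=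
  div_le_div_of_nonneg_right (Finset.sum_le_sum fun _ _ => h _) (Nat.cast_nonneg _)

theorem P_add (f g : Γ → ℝ) : P S (fun x => f x + g x) = fun x => P S f x + P S g x := by
  funext x
  simp only [P, Finset.sum_add_distrib, add_div]

theorem P_const (hS : Gen S) (c : ℝ) : P S (fun _ => c) = fun _ => c := by
  funext x
  have := card_pos hS
  simp only [P, Finset.sum_const, nsmul_eq_mul]
  field_simp

theorem P_tr (f : Γ → ℝ) (g : Γ) : P S (fun x => f (g * x)) = fun x => P S f (g * x) := by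
  funext x
  simp only [P, mul_assoc]

theorem it_mono (k : ℕ) {f g : Γ → ℝ} (h : ∀ x, f x ≤ g x) (x : Γ) :
    (P S)^[k] f x ≤ (P S)^[k] g x := by
  induction k generalizing f g with
  | zero => exact h x
  | succ k ih =>
    rw [Function.iterate_succ_apply, Function.iterate_succ_apply]
    exact ih (P_mono h)

theorem it_add (k : ℕ) (f g : Γ → ℝ) :
    (P S)^[k] (fun x => f x + g x) = fun x => (P S)^[k] f x + (P S)^[k] g x := by
  induction k generalizing f g with
  | zero => rfl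
  | succ k ih =>
    rw [Function.iterate_succ_apply, Function.iterate_succ_apply, Function.iterate_succ_apply,
      P_add, ih]

theorem it_const (hS : Gen S) (k : ℕ) (c : ℝ) : (P S)^[k] (fun _ => c) = fun _ => c := by
  induction k with
  | zero => rfl
  | succ k ih => rw [Function.iterate_succ_apply, P_const hS, ih]

theorem it_tr (k : ℕ) (f : Γ → ℝ) (g : Γ) :
    (P S)^[k] (fun x => f (g * x)) = fun x => (P S)^[k] f (g * x) := by
  induction k generalizing f with
  | zero => rfl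
  | succ k ih => rw [Function.iterate_succ_apply, Function.iterate_succ_apply, P_tr, ih]

theorem P_summable {f : Γ → ℝ} (hf : Summable fun x => f x ^ 2) :
    Summable fun x => P S f x ^ 2 := by
  have h1 : ∀ s ∈ S, Summable fun x => f (x * s) ^ 2 := fun s _ =>
    (Equiv.mulRight s).summable_iff.2 hf
  refine Summable.of_nonneg_of_le (fun x => sq_nonneg _) (fun x => ?_)
    ((summable_sum h1).mul_left ((S.card : ℝ) / (S.card : ℝ) ^ 2))
  simp only [P, div_pow]
  rw [div_mul_eq_mul_div]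
  exact div_le_div_of_nonneg_right sq_sum_le_card_mul_sum_sq (by positivity)

theorem it_summable (k : ℕ) {f : Γ → ℝ} (hf : Summable fun x => f x ^ 2) :
    Summable fun x => (P S)^[k] f x ^ 2 := by
  induction k with
  | zero => exact hf
  | succ k ih => rw [Function.iterate_succ_apply']; exact P_summable ih

theorem it_bound {θ : ℝ} (h0 : 0 ≤ θ)
    (hθ : ∀ f : Γ → ℝ, (Summable fun x => f x ^ 2) →
      ∑' x, ((∑ s ∈ S, f (x * s)) / (S.card : ℝ)) ^ 2 ≤ θ * ∑' x, f x ^ 2)
    (k : ℕ) {f : Γ → ℝ} (hf : Summable fun x => f x ^ 2) :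
    ∑' x, (P S)^[k] f x ^ 2 ≤ θ ^ k * ∑' x, f x ^ 2 := by
  induction k with
  | zero => simp
  | succ k ih =>
    rw [Function.iterate_succ_apply', pow_succ', mul_assoc]
    exact (hθ _ (it_summable k hf)).trans (mul_le_mul_of_nonneg_left ih h0)

theorem it_pt {θ : ℝ} (h0 : 0 ≤ θ)
    (hθ : ∀ f : Γ → ℝ, (Summable fun x => f x ^ 2) →
      ∑' x, ((∑ s ∈ S, f (x * s)) / (S.card : ℝ)) ^ 2 ≤ θ * ∑' x, f x ^ 2)
    (k : ℕ) {f : Γ → ℝ} (hf : Summable fun x => f x ^ 2) (x : Γ) :
    (P S)^[k] f x ^ 2 ≤ θ ^ k * ∑' x, f x ^ 2 :=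
  ((it_summable k hf).le_tsum x fun _ _ => sq_nonneg _).trans (it_bound h0 hθ k hf)

omit [Group Γ] in
theorem ind_summable {D : Set Γ} (hD : D.Finite) :
    Summable fun x => D.indicator (fun _ => (1 : ℝ)) x ^ 2 := by
  refine summable_of_ne_finset_zero (s := hD.toFinset) fun x hx => ?_
  rw [Set.Finite.mem_toFinset] at hx
  simp [Set.indicator_of_notMem hx]

/-- Geometric decay beats any slower geometric rate. -/
theorem decay {q C ε : ℝ} (h0 : 0 ≤ q) (h1 : q < 1) (hε : 0 < ε) :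
    ∃ N : ℕ, ∀ k ≥ N, q ^ k * C < ε := by
  have := (tendsto_pow_atTop_nhds_zero_of_lt_one h0 h1).mul_const C
  rw [zero_mul] at this
  exact Filter.eventually_atTop.1 (this.eventually (gt_mem_nhds hε))

/-- Outside a finite set the whole series of iterates is at most one third. -/
theorem series_small {θ : ℝ} (h0 : 0 ≤ θ) (h1 : θ < 1)
    (hθ : ∀ f : Γ → ℝ, (Summable fun x => f x ^ 2) →
      ∑' x, ((∑ s ∈ S, f (x * s)) / (S.card : ℝ)) ^ 2 ≤ θ * ∑' x, f x ^ 2)
    {ρ : Γ → ℝ} (hρ : Summable fun x => ρ x ^ 2) :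
    ∃ K : Set Γ, K.Finite ∧ ∀ x, x ∉ K → ∀ k, ∑ i ∈ Finset.range k, (P S)^[i] ρ x ≤ 1 / 3 := by
  set t : ℝ := (1 + θ) / 2 with ht
  have ht0 : 0 < t := by linarith
  have ht1 : t < 1 := by linarith
  have htθ : θ < t ^ 2 := by rw [ht]; nlinarith
  have hc : 0 < (1 - t) / 3 := by linarith
  obtain ⟨N, hN⟩ := decay (q := θ / t ^ 2) (C := ∑' x, ρ x ^ 2) (ε := ((1 - t) / 3) ^ 2)
    (by positivity) ((div_lt_one (by positivity)).2 htθ) (by positivity)
  have hfin : ∀ i : ℕ, {x | ¬ (P S)^[i] ρ x ^ 2 < ((1 - t) / 3 * t ^ i) ^ 2}.Finite := fun i =>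
    (it_summable (S := S) i hρ).tendsto_cofinite_zero.eventually (gt_mem_nhds (by positivity))
  refine ⟨⋃ i ∈ Finset.range N, {x | ¬ (P S)^[i] ρ x ^ 2 < ((1 - t) / 3 * t ^ i) ^ 2},
    (Finset.range N).finite_toSet.biUnion fun i _ => hfin i, fun x hx k => ?_⟩
  have hb : ∀ i, (P S)^[i] ρ x ≤ (1 - t) / 3 * t ^ i := by
    intro i
    have h2 : (P S)^[i] ρ x ^ 2 < ((1 - t) / 3 * t ^ i) ^ 2 := by
      by_cases hi : i < N
      · by_contra hc'
        exact hx (Set.mem_biUnion (Finset.mem_range.2 hi) hc')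
      · have h3 := hN i (not_lt.1 hi)
        refine (it_pt h0 hθ i hρ x).trans_lt ?_
        have h4 : (0 : ℝ) < (t ^ 2) ^ i := by positivity
        rw [div_pow, div_mul_eq_mul_div, div_lt_iff₀ h4] at h3
        rw [mul_pow, ← pow_mul, mul_comm i 2, pow_mul]
        exact h3
    exact (abs_le_of_sq_le_sq' h2.le (by positivity)).2
  refine (Finset.sum_le_sum fun i _ => hb i).trans ?_
  rw [← Finset.mul_sum]
  have h5 : (∑ i ∈ Finset.range k, t ^ i) * (1 - t) = 1 - t ^ k := geom_sum_mul_neg t k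
  have h6 : 0 ≤ t ^ k := by positivity
  nlinarith

theorem sub_series {φ ρ : Γ → ℝ} (h : ∀ y, φ y ≤ P S φ y + ρ y) (k : ℕ) (x : Γ) :
    φ x ≤ (P S)^[k] φ x + ∑ i ∈ Finset.range k, (P S)^[i] ρ x := by
  induction k with
  | zero => simp
  | succ k ih =>
    have h1 := it_mono (S := S) k h x
    rw [it_add] at h1
    rw [Finset.sum_range_succ, Function.iterate_succ_apply]
    simp only at h1
    linarith

/-- Clamp function. -/
noncomputable def cl (a lam t : ℝ) : ℝ := min (max (t - a) 0) lam / lam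

theorem cl_nonneg {a lam : ℝ} (hl : 0 < lam) (t : ℝ) : 0 ≤ cl a lam t :=
  div_nonneg (le_min (le_max_right _ _) hl.le) hl.le

theorem cl_le_one {a lam : ℝ} (hl : 0 < lam) (t : ℝ) : cl a lam t ≤ 1 :=
  (div_le_one hl).2 (min_le_right _ _)

theorem cl_eq_one {a lam t : ℝ} (hl : 0 < lam) (h : a + lam ≤ t) : cl a lam t = 1 := by
  unfold cl
  rw [min_eq_right (le_max_of_le_left (by linarith)), div_self hl.ne']

theorem cl_eq_zero {a lam t : ℝ} (hl : 0 < lam) (h : t ≤ a) : cl a lam t = 0 := by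
  unfold cl
  rw [max_eq_right (by linarith), min_eq_left hl.le, zero_div]

theorem cl_lip {a lam s t w : ℝ} (hl : 0 < lam) (h : |s - t| ≤ w) :
    cl a lam t ≤ cl a lam s + w / lam := by
  unfold cl
  rw [← add_div]
  refine div_le_div_of_nonneg_right ?_ hl.le
  have := abs_le.1 h
  simp only [min_def, max_def]
  split_ifs <;> linarith

end Vote

open Vote in
theorem vote_of_gap (hS : Gen S) (hG : GapProp S) : VoteProp S := by
  classical
  obtain ⟨θ, h0, h1, hθ⟩ := hG
  let p : ℕ → Set Γ → ℝ := fun k D => (P S)^[k] (D.indicator fun _ => (1 : ℝ)) 1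
  have hp1 : ∀ k, p k Set.univ = 1 := fun k => by
    simp only [p, Set.indicator_univ]
    rw [it_const hS]
  have hp2 : ∀ k D D', p k D + p k D' ≤ 1 + p k (D ∩ D') := fun k D D' => by
    have h2 := it_mono (S := S) k (f := fun x => D.indicator (fun _ => (1 : ℝ)) x +
      D'.indicator (fun _ => (1 : ℝ)) x) (g := fun x => (fun _ => (1 : ℝ)) x +
      (D ∩ D').indicator (fun _ => (1 : ℝ)) x) (fun x => by
        by_cases hx : x ∈ D <;> by_cases hx' : x ∈ D' <;> simp [Set.indicator, hx, hx']) 1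
    rw [it_add, it_add, it_const hS] at h2
    exact h2
  have hp3 : ∀ D : Set Γ, D.Finite → ∃ k, p k D < 1 / 3 := fun D hD => by
    obtain ⟨N, hN⟩ := decay (C := ∑' x, D.indicator (fun _ => (1 : ℝ)) x ^ 2)
      (ε := (1 / 3) ^ 2) h0 h1 (by positivity)
    exact ⟨N, lt_of_pow_lt_pow_left₀ 2 (by norm_num)
      ((it_pt h0 hθ N (ind_summable hD) 1).trans_lt (hN N le_rfl))⟩
  let L : Set (Set (Set Γ)) := {V | ∀ D ∈ V, ∀ D' ∈ V, (D ∩ D').Infinite}
  have hG : {D | ∀ k, 2 / 3 ≤ p k D} ∈ L := by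
    intro D hD D' hD' hfin
    obtain ⟨k, hk⟩ := hp3 _ hfin
    have := hp2 k D D'
    have := hD k
    have := hD' k
    linarith
  have hch : ∀ c ⊆ L, IsChain (· ⊆ ·) c → c.Nonempty → ∃ ub ∈ L, ∀ s ∈ c, s ⊆ ub := by
    intro c hc hchain _
    refine ⟨⋃₀ c, ?_, fun s hs => Set.subset_sUnion_of_mem hs⟩
    rintro D ⟨W, hW, hD⟩ D' ⟨W', hW', hD'⟩
    rcases hchain.total hW hW' with h | h
    · exact hc hW' D (h hD) D' hD'
    · exact hc hW D hD D' (h hD')
  obtain ⟨V, hGV, hV⟩ := zorn_subset_nonempty L hch _ hG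
  have huniv : Set.univ ∈ V := hGV fun k => by rw [hp1]; norm_num
  have key : ∀ D : Set Γ, (∀ D1 ∈ V, (D ∩ D1).Infinite) → D ∈ V := fun D hD => by
    have h2 : insert D V ∈ L := by
      rintro A (rfl | hA) A' (rfl | hA')
      · simpa using hD _ huniv
      · exact hD _ hA'
      · rw [Set.inter_comm]; exact hD _ hA
      · exact hV.prop A hA A' hA'
    exact hV.le_of_ge h2 (Set.subset_insert _ _) (Set.mem_insert _ _)
  have hmono : ∀ D ∈ V, ∀ D' : Set Γ, (D \ D').Finite → D' ∈ V := fun D hD D' hfin => by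
    refine key D' fun D1 hD1 h => hV.prop D hD D1 hD1 ((h.union hfin).subset ?_)
    rintro x ⟨hx, hx1⟩
    by_cases hx' : x ∈ D'
    · exact Or.inl ⟨hx', hx1⟩
    · exact Or.inr ⟨hx, hx'⟩
  refine ⟨V, hmono, fun D => ⟨fun h hD => ?_, fun h => ?_⟩, fun u hu lam hl B hB => ?_⟩
  · exact hV.prop D hD _ h (by simp)
  · by_contra hc
    refine h (key D fun D1 hD1 hfin => hc (hmono D1 hD1 _ (hfin.subset ?_)))
    rintro x ⟨hx, hx'⟩
    exact ⟨by simpa using hx', hx⟩
  obtain ⟨ω, hω0, hω1, hω2⟩ := oscProp S u hu 1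
  let B' : Set Γ := {y | ∃ x ∈ B, Near S 1 y x}
  have hB' : B'.Finite := nbhd_finite' hS 1 hB
  let ρ : Γ → ℝ := fun y => ω y / lam + B'.indicator (fun _ => (1 : ℝ)) y
  have hρ : Summable fun y => ρ y ^ 2 := by
    refine Summable.of_nonneg_of_le (fun x => sq_nonneg _) (fun x => ?_)
      (((hω1.mul_left (1 / lam ^ 2)).add (ind_summable hB')).mul_left 2)
    have : (ω x / lam) ^ 2 = 1 / lam ^ 2 * ω x ^ 2 := by field_simp
    rw [← this]
    simp only [ρ]
    nlinarith [sq_nonneg (ω x / lam - B'.indicator (fun _ => (1 : ℝ)) x)]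
  obtain ⟨K, hK, hK'⟩ := series_small h0 h1 hθ hρ
  refine ⟨K, hK, fun x hx a Ω hxΩ hxa hΩ => hGV fun k => ?_⟩
  let φ : Γ → ℝ := fun y => if y ∈ Ω then cl a lam (u y) else 0
  have hφ0 : ∀ y, 0 ≤ φ y := fun y => by
    simp only [φ]; split_ifs
    · exact cl_nonneg hl _
    · exact le_rfl
  have hφ1 : ∀ y, φ y ≤ Ω.indicator (fun _ => (1 : ℝ)) y := fun y => by
    simp only [φ, Set.indicator]; split_ifs
    · exact cl_le_one hl _
    · exact le_rfl
  have hP0 : ∀ y, 0 ≤ P S φ y := fun y => by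
    have := P_mono (S := S) hφ0 y
    rwa [P_const hS] at this
  have hsub : ∀ y, φ y ≤ P S φ y + ρ y := fun y => by
    have hw : 0 ≤ ω y / lam := div_nonneg (hω0 y) hl.le
    have hi : 0 ≤ B'.indicator (fun _ => (1 : ℝ)) y :=
      Set.indicator_nonneg (fun _ _ => zero_le_one) y
    have hP := hP0 y
    by_cases hy : y ∈ Ω
    swap
    · simp only [φ, ρ, if_neg hy]
      exact add_nonneg hP (add_nonneg hw hi)
    have hφy : φ y = cl a lam (u y) := if_pos hy
    by_cases hyB : y ∈ B'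
    · have : B'.indicator (fun _ => (1 : ℝ)) y = 1 := Set.indicator_of_mem hyB _
      have := cl_le_one (a := a) hl (u y)
      simp only [ρ]
      linarith
    have h3 : ∀ s ∈ S, cl a lam (u y) - ω y / lam ≤ φ (y * s) := fun s hs => by
      have h4 := cl_lip (a := a) hl (hω2 y (y * s) (near_step y hs))
      have h5 : cl a lam (u (y * s)) ≤ φ (y * s) := by
        by_cases h6 : a < u (y * s)
        · have : y * s ∈ Ω := hΩ y hy s hs (fun h => hyB ⟨_, h, near_step y hs⟩) h6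
          exact le_of_eq (if_pos this).symm
        · rw [cl_eq_zero hl (not_lt.1 h6)]; exact hφ0 _
      linarith
    have h7 : cl a lam (u y) - ω y / lam ≤ P S φ y := by
      unfold P
      rw [le_div_iff₀ (card_pos hS)]
      have := Finset.card_nsmul_le_sum S (fun s => φ (y * s)) _ h3
      rwa [nsmul_eq_mul, mul_comm] at this
    simp only [ρ]
    linarith
  have h8 := sub_series hsub k x
  have h9 := hK' x hx k
  have h10 : φ x = 1 := (if_pos hxΩ).trans (cl_eq_one hl hxa)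
  have h11 := it_mono (S := S) k hφ1 x
  have h12 : p k {y | x * y ∈ Ω} = (P S)^[k] (Ω.indicator fun _ => (1 : ℝ)) x := by
    have h13 : ({y | x * y ∈ Ω} : Set Γ).indicator (fun _ => (1 : ℝ)) =
        fun y => Ω.indicator (fun _ => (1 : ℝ)) (x * y) := by
      funext y; simp [Set.indicator]
    simp only [p]
    rw [h13, it_tr]
    simp
  show 2 / 3 ≤ p k {y | x * y ∈ Ω}
  linarith

end Vale.Agent.P239
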