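import Vale.Agent.P239.WallsA
import Vale.Agent.P239.Vote
import Vale.Agent.P239.Tree

/-! Definitions and interface statements for the general case. -/

namespace Vale.Agent.P239

open scoped Pointwise symmDiff
open Filter Topology

section
variable {Γ : Type*} [Group Γ]

/-- The geometric axioms extracted from Poincare duality. -/
structure Ifc (S : Finset Γ) (r : ℕ) : Prop where
  r_pos : 1 ≤ r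
  ha : ∀ W : Set (Γ × S), Def S r W = ∅ → ∃ A, W = cob S A
  hb : ∀ A : Set Γ, (cob S A).Finite → A.Finite ∨ Aᶜ.Finite
  hc2 : ∃ w : ℕ, ∀ k : ℕ, ∃ M : ℕ, ∀ W : Set (Γ × S), (Def S r W).Finite →
    (∀ x ∈ Def S r W, ∃ T : Set Γ, T.Finite ∧ T.ncard ≤ k ∧ x ∈ T ∧
      ∀ y ∈ T, ∀ z ∈ Def S r W, Near S w y z → z ∈ T) →
    ∃ (β : Set (Γ × S)) (A : Set Γ), β.Finite ∧
      (∀ e ∈ β, ∃ x ∈ Def S r W, Near S M x e.1) ∧ W ∆ β = cob S A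

/-- Endpoints of coboundary edges. -/
def tails (S : Finset Γ) (C : Set Γ) : Set Γ := {x | ∃ s : S, (x, s) ∈ cob S C}

/-- The component of `x` in `U`, empty if `x` is not in `U`. -/
def cmp (S : Finset Γ) (U : Set Γ) (x : Γ) : Set Γ := {y | x ∈ U ∧ y ∈ comp S U x}

/-- Monotone finite energy function with values in the unit interval. -/
structure Mono (S : Finset Γ) (u : Γ → ℝ) : Prop where
  en : FinEn S u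
  bd : ∀ x, 0 ≤ u x ∧ u x ≤ 1
  up : ∀ τ : ℝ, Conn S {x | τ < u x}
  dn : ∀ τ : ℝ, Conn S {x | u x < τ}
  i0 : {x | u x = 0}.Infinite
  i1 : {x | u x = 1}.Infinite

/-- Convergence property in one coordinate. -/
def CV (u : Γ → ℝ) : Prop :=
  ∀ η : ℝ, 0 < η → ∃ K : Set Γ, K.Finite ∧ ∀ c, c ∉ K → ∀ y,
    |u (c * y) - u c| ≤ η ∨ |u y - u c⁻¹| ≤ η

/-- A harmonic finitely additive probability. -/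
structure Mean (S : Finset Γ) (m : Set Γ → ℝ) : Prop where
  nonneg : ∀ C, 0 ≤ m C
  univ : m Set.univ = 1
  add : ∀ C C', Disjoint C C' → m (C ∪ C') = m C + m C'
  harm : ∀ C, m C = (∑ s ∈ S, m {y | s * y ∈ C}) / (S.card : ℝ)
  fin : ∀ C, C.Finite → m C = 0
  mv : ∀ H : Γ → ℝ, (∀ x, H x ≤ Vote.P S H x) → ∀ (C : Set Γ) (a b : ℝ), (∀ y ∈ C, H y ≤ a) →
    (∀ y, y ∉ C → H y ≤ b) → H 1 ≤ a * m C + b * (1 - m C)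
  loc : ∀ ω : Γ → ℝ, (∀ x, 0 ≤ ω x) → (Summable fun x => ω x ^ 2) → ∀ lam δ : ℝ, 0 < lam →
    0 < δ → ∀ B : Set Γ, B.Finite → ∃ K : Set Γ, K.Finite ∧ ∀ φ : Γ → ℝ,
      (∀ y, ∀ s ∈ S, |φ (y * s) - φ y| ≤ ω y) → ∀ x, x ∉ K → ∀ (a : ℝ) (Ω : Set Γ), x ∈ Ω →
      a + lam ≤ φ x → (∀ y ∈ Ω, ∀ s ∈ S, y * s ∉ B → a < φ (y * s) → y * s ∈ Ω) →
      1 - δ ≤ m {y | x * y ∈ Ω}

/-- A self dual vote, monotone modulo null sets, containing the majorities. -/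
structure VM (m : Set Γ → ℝ) (V : Set (Set Γ)) : Prop where
  mono : ∀ C ∈ V, ∀ C' : Set Γ, m (C \ C') = 0 → C' ∈ V
  dual : ∀ C : Set Γ, Cᶜ ∈ V ↔ C ∉ V
  big : ∀ C : Set Γ, 1 / 2 < m C → C ∈ V

/-- An invariant family of sets with an invariant equivalence relation; inequivalent members
are nested with finite common boundary, classes are order convex. -/
structure CFam (S : Finset Γ) (N : Set (Set Γ)) (E : Set Γ → Set Γ → Prop) : Prop where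
  tr_mem : ∀ X ∈ N, ∀ g, tr g X ∈ N
  compl_mem : ∀ X ∈ N, Xᶜ ∈ N
  refl : ∀ X ∈ N, E X X
  symm : ∀ X Y, E X Y → E Y X
  trans : ∀ X, ∀ Y ∈ N, ∀ W, E X Y → E Y W → E X W
  e_tr : ∀ X Y g, E X Y → E (tr g X) (tr g Y)
  e_compl : ∀ X Y, E X Y → E X Yᶜ
  nest : ∀ X ∈ N, ∀ Y ∈ N, ¬ E X Y → Nested X Y
  fin : ∀ X ∈ N, ∀ Y ∈ N, ¬ E X Y → (cob S X ∩ cob S Y).Finite
  ord : ∀ X ∈ N, ∀ Y ∈ N, ∀ W ∈ N, X ⊆ Y → Y ⊆ W → E X W → E X Y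

/-- Seven step chain of inequivalent members. -/
structure Chain7 (N : Set (Set Γ)) (E : Set Γ → Set Γ → Prop) (A : ℕ → Set Γ) : Prop where
  mem : ∀ i ≤ 6, A i ∈ N
  sub : ∀ i j, i ≤ j → j ≤ 6 → A i ⊆ A j
  ne : ∀ i ≤ 6, ∀ j ≤ 6, i ≠ j → ¬ E (A i) (A j)

/-- The label of an event. -/
def Lc (N : Set (Set Γ)) (E : Set Γ → Set Γ → Prop) (p q v : Γ) : Set Γ :=
  ⋃₀ {C | C ∈ N ∧ p ∈ C ∧ q ∉ C ∧ v ∉ C ∧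
    ∃ C' ∈ N, p ∈ C' ∧ q ∉ C' ∧ v ∉ C' ∧ C ⊆ C' ∧ ¬ E C C'}

/-- Two inequivalent members strictly between `X` and `Y` contain `v` and miss `v'`. -/
def Two (N : Set (Set Γ)) (E : Set Γ → Set Γ → Prop) (X Y : Set Γ) (v v' : Γ) : Prop :=
  ∃ C₁ ∈ N, ∃ C₂ ∈ N, ¬ E C₁ C₂ ∧ ∀ C, C = C₁ ∨ C = C₂ →
    X ⊆ C ∧ C ⊆ Y ∧ ¬ E C X ∧ ¬ E C Y ∧ v ∈ C ∧ v' ∉ C

/-- Low events of a chain. -/
def LowEv (A : ℕ → Set Γ) (t : Γ × Γ × Γ) : Prop :=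
  t.1 ∈ A 0 ∧ t.2.1 ∉ A 6 ∧ t.2.2 ∈ A 6 ∧ t.2.2 ∉ A 3

/-- Labels are injective on translates. -/
def E1a (S : Finset Γ) : Prop :=
  ∀ N E, CFam S N E → ∀ A, Chain7 N E A → (cob S (A 0) ∩ cob S (A 6)).Nonempty →
    ∀ g p q v : Γ, LowEv A (p, q, v) → LowEv A (g * p, g * q, g * v) →
      Lc N E (g * p) (g * q) (g * v) = Lc N E p q v → g = 1

/-- At most three labels. -/
def E1b (S : Finset Γ) : Prop :=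
  ∀ N E, CFam S N E → ∀ A, Chain7 N E A → ∀ Ev : Set (Γ × Γ × Γ), (∀ t ∈ Ev, LowEv A t) →
    (∀ t ∈ Ev, ∀ t' ∈ Ev, ¬ Two N E (A 0) (A 6) t.2.2 t'.2.2) →
    ∃ L₁ L₂ L₃ : Set Γ, ∀ t ∈ Ev, Lc N E t.1 t.2.1 t.2.2 = L₁ ∨ Lc N E t.1 t.2.1 t.2.2 = L₂ ∨
      Lc N E t.1 t.2.1 t.2.2 = L₃

/-- Uniform bound for the common boundary. -/
def E1c (S : Finset Γ) : Prop :=
  ∀ N E, CFam S N E → ∀ ρ : ℕ, ∃ f : ℕ, ∀ (x p q v v' : Γ), ∀ X ∈ N, ∀ Y ∈ N,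
    Near S ρ x p → Near S ρ x q → Near S ρ x v → Near S ρ x v' → X ⊆ Y → p ∈ X → q ∉ Y →
    v ∉ X → v' ∈ Y → Two N E X Y v v' → (cob S X ∩ cob S Y).ncard ≤ f

/-- Bounded clusters of defects. -/
def E1 (S : Finset Γ) (r : ℕ) : Prop :=
  ∀ N E, CFam S N E → ∃ k : ℕ, ∀ w : ℕ, ∃ f : ℕ, ∀ A, Chain7 N E A →
    f < (cob S (A 0) ∩ cob S (A 6)).ncard → ∀ x ∈ Def S r (cob S (A 0) ∩ cob S (A 6)),
      ∃ T : Set Γ, T.Finite ∧ T.ncard ≤ k ∧ x ∈ T ∧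
        ∀ y ∈ T, ∀ z ∈ Def S r (cob S (A 0) ∩ cob S (A 6)), Near S w y z → z ∈ T

/-- No localized infinite chain of inequivalent members. -/
def EP (S : Finset Γ) : Prop :=
  ∀ N E, CFam S N E → ∀ A : ℕ → Set Γ, (∀ i, A i ∈ N) → Monotone A →
    (∀ i j, i ≠ j → ¬ E (A i) (A j)) →
    (∀ M : ℕ, ∃ Op Om : Set Γ, Op.Infinite ∧ Om.Infinite ∧ Conn S Op ∧ Conn S Om ∧
      ∀ i, Op ⊆ A i ∧ (∀ x ∈ Om, x ∉ A i) ∧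
        ∀ x ∈ tails S (A i), ∀ y ∈ Op ∪ Om, ¬ Near S M x y) → False

/-- Essential coarse component of a coarsely connected wall. -/
def ESS (S : Finset Γ) (r : ℕ) : Prop :=
  ∀ A Op Om K : Set Γ, CConn S (2 * r) (tails S A) → Op.Infinite → Om.Infinite → Op ⊆ A →
    (∀ x ∈ Om, x ∉ A) → K.Finite →
    (∀ T C : Set Γ, T ⊆ tails S A \ K → CConn S (2 * r) T → (tails S C \ T).Finite →
      ((Op ∩ C).Finite ∨ (Op \ C).Finite) ∧ ((Om ∩ C).Finite ∨ (Om \ C).Finite)) →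
    ∃ T C : Set Γ, T ⊆ tails S A \ K ∧ CConn S (2 * r) T ∧ (tails S C \ T).Finite ∧
      (Op \ C).Finite ∧ (Om ∩ C).Finite

end

/-- The data: generators, radius, mean, vote, map to the compactification. -/
structure Dat (Γ Z : Type*) where
  S : Finset Γ
  r : ℕ
  m : Set Γ → ℝ
  V : Set (Set Γ)
  ι : Γ → Z

section
variable {Γ : Type*} [Group Γ] {Z : Type*} [MetricSpace Z] [MulAction Γ Z]

/-- An equivariant finite energy map to a metric space with the convergence property. -/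
structure Frame (S : Finset Γ) (ι : Γ → Z) : Prop where
  eqv : ∀ g y, ι (g * y) = g • ι y
  en : ∃ ω : Γ → ℝ, (∀ x, 0 ≤ ω x) ∧ (Summable fun x => ω x ^ 2) ∧
    ∀ y, ∀ s ∈ S, dist (ι (y * s)) (ι y) ≤ ω y
  cv : ∀ ε : ℝ, 0 < ε → ∃ K : Set Γ, K.Finite ∧ ∀ c, c ∉ K → ∀ z : Z,
    dist (c • z) (ι c) ≤ ε ∨ dist z (ι c⁻¹) ≤ ε
  con : ∀ ε : ℝ, 0 < ε → ∀ K₀ : Set Γ, K₀.Finite → ∃ K : Set Γ, K.Finite ∧ K₀ ⊆ K ∧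
    ∀ ξ : Z, Conn S ({y | ε < dist (ι y) ξ} ∪ K)
  nt : ∃ ρ : ℝ, 0 < ρ ∧ ∀ K : Set Γ, K.Finite → ∃ x, x ∉ K ∧ ∃ x', x' ∉ K ∧
    ρ ≤ dist (ι x) (ι x')

/-- A monotone coordinate whose translates determine the metric. -/
structure Coord (S : Finset Γ) (ι : Γ → Z) (π : Z → ℝ) : Prop where
  lip : ∀ z z', |π z - π z'| ≤ dist z z'
  bd : ∀ z, 0 ≤ π z ∧ π z ≤ 1
  mono : Mono S fun y => π (ι y)
  sep : ∀ ε : ℝ, 0 < ε → ∃ (F : Finset Γ) (lam : ℝ), 0 < lam ∧ ∀ z z' : Z,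
    (∀ g ∈ F, |π (g • z) - π (g • z')| ≤ lam) → dist z z' ≤ ε

namespace Dat

variable (D : Dat Γ Z)

/-- All standing assumptions. -/
structure OK : Prop where
  gen : Gen D.S
  ifc : Ifc D.S D.r
  tf : ∀ g : Γ, IsOfFinOrder g → g = 1
  mean : Mean D.S D.m
  vm : VM D.m D.V
  fr : Frame D.S D.ι

/-- The Harnack constant. -/
noncomputable def c : ℝ := (D.S.card : ℝ)⁻¹

/-- The measure of `C` seen from `x`. -/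
def h (C : Set Γ) (x : Γ) : ℝ := D.m {y | x * y ∈ C}

/-- Thick wall. -/
def Th (δ : ℝ) (C : Set Γ) : Set Γ := {x | δ ≤ D.h C x ∧ D.h C x ≤ 1 - δ}

/-- Group elements close to a point. -/
def nb (ξ : Z) (ε : ℝ) : Set Γ := {y | dist (D.ι y) ξ ≤ ε}

/-- `φ` is dominated by the metric. -/
def Lip (φ : Γ → ℝ) : Prop := ∀ y y', |φ y - φ y'| ≤ dist (D.ι y) (D.ι y')

/-- `T` converges to `ξ` inside a single system of components. -/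
def Conv (T : Set Γ) (ξ : Z) : Prop :=
  ∀ ε : ℝ, 0 < ε → ∀ K : Set Γ, K.Finite → ∃ x₀, (T \ cmp D.S (D.nb ξ ε \ K) x₀).Finite

/-- A cut at the point `ξ`. -/
def Cut (Q : Set Γ) (ξ : Z) : Prop :=
  vote D.V Q = Q ∧ D.Conv (tails D.S Q) ξ ∧ 0 < D.m Q ∧ D.m Q < 1

/-- The walls converge to the same end. -/
def Same (Q Q' : Set Γ) : Prop := ∃ ξ, D.Conv (tails D.S Q ∪ tails D.S Q') ξ

/-- A cut that is not split by any cut of its class. -/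
def Atom (A : Set Γ) (ξ : Z) : Prop :=
  D.Cut A ξ ∧ ∀ Q, D.Cut Q ξ → D.Same A Q → A ⊆ Q ∨ A ⊆ Qᶜ

/-- Not a conical point. -/
def NC (ξ : Z) : Prop := ∀ ε : ℝ, 0 < ε → {g : Γ | ε < dist (D.ι g) (g • ξ)}.Finite

/-- Uniformly no atoms. -/
def NA : Prop := ∀ η : ℝ, 0 < η → ∃ ε : ℝ, 0 < ε ∧ ∀ ξ, D.m (D.nb ξ ε) ≤ η

/-- Uniform localization of thick walls. -/
def TWU : Prop :=
  ∀ ε δ : ℝ, 0 < ε → 0 < δ → ∀ K₁ K : Set Γ, K₁.Finite → K.Finite → ∃ K' : Set Γ, K'.Finite ∧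
    ∀ (ξ : Z) (C : Set Γ) (x₀ : Γ), tails D.S C ⊆ D.nb ξ (ε / 2) ∪ K₁ →
      (tails D.S C \ cmp D.S (D.nb ξ ε \ K) x₀).Finite →
      D.Th δ C ⊆ K' ∪ cmp D.S (D.nb ξ ε \ K) x₀

/-- Properties of tame sets. -/
def VT : Prop :=
  ∀ (T C : Set Γ) (ξ : Z), D.Conv (T ∪ tails D.S C) ξ →
    D.Conv (T ∪ tails D.S (vote D.V C)) ξ ∧ D.m (C ∆ vote D.V C) = 0 ∧
    (∀ δ : ℝ, 0 < δ → D.Conv (T ∪ tails D.S C ∪ D.Th δ C) ξ) ∧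
    ∀ δ : ℝ, 0 < δ → D.m {x | x ∉ C ∧ δ < D.h C x} = 0

/-- Zoom lemma. -/
def ZL : Prop :=
  ∀ (𝒰 : Ultrafilter ℕ) (C : ℕ → Set Γ) (T : Set Γ) (ξ : Z),
    (∀ ε : ℝ, 0 < ε → ∃ K : Set Γ, K.Finite ∧
      ∀ᶠ n in (𝒰 : Filter ℕ), tails D.S (C n) ⊆ D.nb ξ ε ∪ K) →
    (∀ ε : ℝ, 0 < ε → ∀ K : Set Γ, K.Finite → ∀ᶠ n in (𝒰 : Filter ℕ), ∃ x₀,
      ((T ∪ tails D.S (C n)) \ cmp D.S (D.nb ξ ε \ K) x₀).Finite) →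
    ∃ P, vote D.V P = P ∧ D.Conv (T ∪ tails D.S P) ξ ∧
      ∀ η : ℝ, 0 < η → ∀ᶠ n in (𝒰 : Filter ℕ), D.m (C n ∆ P) ≤ η

/-- The cuts form a family with classes. -/
def CF : Prop := CFam D.S {Q | ∃ ξ, D.Cut Q ξ} D.Same

/-- Large connected regions far from the walls of a decreasing sequence. -/
def OM : Prop :=
  ∀ (B : ℕ → Set Γ) (δ : ℝ), 0 < δ → Antitone B → (∀ i, ∃ ξ, D.Cut (B i) ξ) →
    (∀ i, δ ≤ D.m (B i)) → ∀ M : ℕ, ∃ Ω : Set Γ, Ω.Infinite ∧ Conn D.S Ω ∧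
      ∀ i, ∀ y ∈ Ω, ∀ z, Near D.S M z y → 1 - D.c / 2 < D.h (B i) z

/-- Finitely many heavy classes. -/
def HF : Prop :=
  ∀ δ : ℝ, 0 < δ → ∃ R : Set (Set Γ × Z), R.Finite ∧ (∀ p ∈ R, D.Cut p.1 p.2) ∧
    ∀ Q ξ, D.Cut Q ξ → δ ≤ D.m Q → D.m Q ≤ 1 - δ → ∃ p ∈ R, D.Same Q p.1 ∧ ξ = p.2

/-- Parabolic points are not conical. -/
def T3A : Prop :=
  ∀ (p : Γ) (ξ : Z), p ≠ 1 → p • ξ = ξ → Tendsto (fun k : ℕ => D.ι (p ^ k)) atTop (𝓝 ξ) →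
    Tendsto (fun k : ℕ => D.ι (p⁻¹ ^ k)) atTop (𝓝 ξ) → D.NC ξ

/-- Loxodromic fixed points. -/
def LOX : Prop :=
  ∀ (p : Γ) (ξ : Z), p ≠ 1 → p • ξ = ξ →
    ¬ (Tendsto (fun k : ℕ => D.ι (p ^ k)) atTop (𝓝 ξ) ∧
      Tendsto (fun k : ℕ => D.ι (p⁻¹ ^ k)) atTop (𝓝 ξ)) →
    ∃ g : Γ, g ≠ 1 ∧ Tendsto (fun k : ℕ => D.ι (g ^ k)) atTop (𝓝 ξ) ∧
      ∀ Ξ : Set Z, Ξ.Finite → ∃ ε : ℝ, 0 < ε ∧ ∃ Φ : Set Γ, Φ.Finite ∧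
        ∀ t : Γ, t⁻¹ • ξ ∈ Ξ → dist (D.ι t) ξ ≤ ε → ∃ n : ℕ, ∃ φ ∈ Φ, t = g ^ n * φ

/-- The wall of a cut does not lie along a ray. -/
def LINE : Prop :=
  ∀ (Q : Set Γ) (ξ : Z) (g : Γ) (Φ : Set Γ), D.Cut Q ξ → g ≠ 1 →
    Tendsto (fun k : ℕ => D.ι (g ^ k)) atTop (𝓝 ξ) → Φ.Finite →
    (∀ t ∈ tails D.S Q, ∃ n : ℕ, ∃ φ ∈ Φ, t = g ^ n * φ) → False

/-- Thick walls of cuts are uniformly close to the cut point. -/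
def UH : Prop :=
  ∀ δ ε : ℝ, 0 < δ → 0 < ε → ∃ K : Set Γ, K.Finite ∧ ∀ Q ξ, D.Cut Q ξ →
    D.Th δ Q ⊆ D.nb ξ ε ∪ K

/-- Existence of atoms. -/
def AE : Prop :=
  ∀ (Q₀ : Set Γ) (ξ : Z) (δ : ℝ), D.Cut Q₀ ξ → 0 < δ → δ ≤ 1 / 4 →
    (∀ Q, D.Cut Q ξ → D.Same Q₀ Q → D.m Q < δ ∨ 1 - δ < D.m Q) →
    ∃ A, D.Atom A ξ ∧ D.Same Q₀ A ∧ 1 - δ < D.m A

/-- Finitely many heavy atoms. -/
def AF : Prop :=
  ∀ δ : ℝ, 0 < δ → {A | (∃ ξ, D.Atom A ξ) ∧ δ ≤ D.m A ∧ D.m A ≤ 1 - δ}.Finite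

/-- Thick points of atoms are joined to infinity inside the thick wall. -/
def WG : Prop :=
  ∀ δ : ℝ, 0 < δ → ∃ M : ℕ, ∀ K : Set Γ, K.Finite → ∃ K' : Set Γ, K'.Finite ∧
    ∀ A ξ, D.Atom A ξ → ∀ z ∈ D.Th δ A, z ∉ K' → ∃ T : Set Γ, T.Infinite ∧
      T ⊆ D.Th (D.c / 4) A \ K ∧ CConn D.S M (insert z T)

/-- Multi scale maximal points. -/
def MAXP : Prop :=
  ∃ R : ℕ → ℕ, ∀ (k : ℕ) (η : ℝ), 0 < η → ∀ K' : Set Γ, K'.Finite → ∃ K'' : Set Γ, K''.Finite ∧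
    ∀ I : Set Γ, I.Finite → ∀ x₀ ∈ I, x₀ ∉ K'' → ∃ x ∈ I, x ∉ K' ∧
      dist (D.ι x) (D.ι x₀) ≤ η ∧ ∀ j ≤ k, ∀ y ∈ I, ¬ Near D.S (R j) x y →
        dist (D.ι (x⁻¹ * y)) (D.ι x⁻¹) ≤ 1 / ((j : ℝ) + 1)

/-- Hanging pieces at high points. -/
def Hang (π : Z → ℝ) (a δ : ℝ) : Set (Set Γ) :=
  {B | ∃ ζ, D.Atom Bᶜ ζ ∧ a ≤ π ζ ∧ D.m B < δ}

/-- `C` is substantial at `x` even after removing one hanging piece. -/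
def Ge (H : Set (Set Γ)) (C : Set Γ) (θ : ℝ) (x : Γ) : Prop :=
  θ ≤ D.h C x ∧ ∀ B ∈ H, θ ≤ D.h (C \ B) x

/-- `x` is not deep in a hanging piece. -/
def Tr (H : Set (Set Γ)) (x : Γ) : Prop := ∀ B ∈ H, D.h B x ≤ 1 - D.c / 4

/-- The corrected colouring. -/
def col (H : Set (Set Γ)) (κ : ℝ) (C : Set Γ) : Set Γ :=
  {x | (D.Tr H x ∧ D.Ge H C κ x) ∨ ∃ B ∈ H, 1 - D.c / 4 < D.h B x ∧ (B \ C).Finite}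

/-- The transition set. -/
def Iset (π : Z → ℝ) (H : Set (Set Γ)) (θ a : ℝ) (C : Set Γ) : Set Γ :=
  {x | a ≤ π (D.ι x) ∧ D.Ge H C θ x ∧ D.Ge H Cᶜ θ x}

/-- All but finitely many wall points of `C` have level at most `t`. -/
def Adm (π : Z → ℝ) (t : ℝ) (C : Set Γ) : Prop := (tails D.S C \ {y | π (D.ι y) ≤ t}).Finite

/-- Every member of `H` is monochromatic for `C`, together with its thick walls. -/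
def MonoC (H : Set (Set Γ)) (C : Set Γ) : Prop :=
  ∀ B ∈ H, ((B \ C).Finite ∧ ∀ δ : ℝ, 0 < δ → (D.Th δ B \ C).Finite) ∨
    ((B ∩ C).Finite ∧ ∀ δ : ℝ, 0 < δ → (D.Th δ B ∩ C).Finite)

def X1 (π : Z → ℝ) : Prop :=
  ∀ t l : ℝ, 0 ≤ t → 0 < l → ∃ δ₀ : ℝ, 0 < δ₀ ∧
    (∀ B ζ, D.Atom Bᶜ ζ → D.m B < δ₀ → D.Th (D.c / 4) B ⊆ D.nb ζ (l / 4)) ∧
    ∀ C, D.Adm π t C → D.MonoC (D.Hang π (t + l) δ₀) C

def X2 (π : Z → ℝ) : Prop :=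
  ∃ κ : ℝ, 0 < κ ∧ κ ≤ D.c / 16 ∧ ∀ a δ : ℝ, δ ≤ 1 / 2 → ∀ C x, D.Tr (D.Hang π a δ) x →
    D.Ge (D.Hang π a δ) C κ x ∨ D.Ge (D.Hang π a δ) Cᶜ κ x

def X3 (π : Z → ℝ) : Prop :=
  ∀ (t l κ θ : ℝ) (H : Set (Set Γ)) (C : Set Γ), 0 < l → 0 < κ → κ ≤ D.c / 16 → 0 < θ →
    D.Adm π t C → D.MonoC H C →
    {x | t + l ≤ π (D.ι x) ∧ x ∈ D.col H κ C ∆ C}.Finite ∧ (D.Iset π H θ (t + l) C).Finite

/-- The corrected colouring changes sign only near transition points. -/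
def COL (π : Z → ℝ) : Prop :=
  ∀ t l : ℝ, 0 ≤ t → 0 < l → ∃ δ θ : ℝ, 0 < δ ∧ δ ≤ 1 / 4 ∧ 0 < θ ∧
    ∃ B₁ : Set Γ, B₁.Finite ∧ ∃ R : Set Γ → Set Γ,
    (∀ C, D.Adm π t C → {x | t + 2 * l ≤ π (D.ι x) ∧ x ∈ R C ∆ C}.Finite ∧
      (D.Iset π (D.Hang π (t + l) δ) θ (t + 2 * l) C).Finite) ∧
    ∀ ε : ℝ, 0 < ε → ∀ K : Set Γ, K.Finite → ∃ K' : Set Γ, K'.Finite ∧
      ∀ C, D.Adm π t C → ∀ x, ∀ z ∈ tails D.S (R C), t + 3 * l ≤ π (D.ι z) → z ∉ B₁ →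
        x⁻¹ * z ∉ K' → ∃ y ∈ D.Iset π (D.Hang π (t + l) δ) θ (t + 2 * l) C,
          x⁻¹ * y ∉ K ∧ dist (D.ι (x⁻¹ * y)) (D.ι (x⁻¹ * z)) ≤ ε

/-- A window without sign change localizes the thick wall. -/
def X5 (π : Z → ℝ) : Prop :=
  ∀ ω δ : ℝ, 0 < ω → 0 < δ → ∀ K₀ : Set Γ, K₀.Finite → ∃ B : Set Γ, B.Finite ∧
    ∀ (τ : ℝ) (R C : Set Γ), {x | τ - ω ≤ π (D.ι x) ∧ x ∈ R ∆ C}.Finite →
      D.Adm π (τ - ω) C → (∀ z ∈ tails D.S R, |π (D.ι z) - τ| ≤ ω → z ∈ K₀) →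
      ∀ x ∈ D.Th δ C, τ + ω ≤ π (D.ι x) → x ∈ B

/-- Zooming at maximal transition points gives a cut. -/
def X6a (π : Z → ℝ) : Prop :=
  ∀ (t l θ : ℝ) (B₁ : Set Γ) (R₀ : ℕ → ℕ) (C T R I : ℕ → Set Γ) (x : ℕ → Γ), 0 < l → 0 < θ →
    B₁.Finite →
    (∀ n, CConn D.S (2 * D.r) (T n) ∧ (∀ y ∈ T n, π (D.ι y) ≤ t) ∧
      (tails D.S (C n) \ T n).Finite ∧ {y | t + 2 * l ≤ π (D.ι y) ∧ y ∈ R n ∆ C n}.Finite ∧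
      x n ∈ D.Th θ (C n) ∧ t + 5 * l ≤ π (D.ι (x n)) ∧
      ∀ j ≤ n, ∀ y ∈ I n, ¬ Near D.S (R₀ j) (x n) y →
        dist (D.ι ((x n)⁻¹ * y)) (D.ι (x n)⁻¹) ≤ 1 / ((j : ℝ) + 1)) →
    Tendsto x atTop cofinite →
    (∀ ε : ℝ, 0 < ε → ∀ K : Set Γ, K.Finite → ∃ K' : Set Γ, K'.Finite ∧
      ∀ n, ∀ z ∈ tails D.S (R n), t + 3 * l ≤ π (D.ι z) → z ∉ B₁ → (x n)⁻¹ * z ∉ K' →
        ∃ y ∈ I n, (x n)⁻¹ * y ∉ K ∧ dist (D.ι ((x n)⁻¹ * y)) (D.ι ((x n)⁻¹ * z)) ≤ ε) →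
    ∀ η : ℝ, 0 < η → ∀ K : Set Γ, K.Finite → ∃ n P ζ, x n ∉ K ∧ D.Cut P ζ ∧
      D.h (C n ∆ P) (x n) ≤ η

/-- A transition point is not explained by a single cut. -/
def X6b (π : Z → ℝ) : Prop :=
  ∀ a δ θ ω : ℝ, 0 < δ → δ ≤ 1 / 4 → 0 < θ → 0 < ω → ∃ K : Set Γ, K.Finite ∧
    ∀ (C P : Set Γ) (x : Γ) (ζ : Z), D.Cut P ζ → x ∉ K → D.h (C ∆ P) x ≤ θ / 2 →
      D.Ge (D.Hang π a δ) C θ x → D.Ge (D.Hang π a δ) Cᶜ θ x → a + ω ≤ π (D.ι x) →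
      (∀ Q ξ, D.Cut Q ξ → δ ≤ D.m Q → D.m Q ≤ 1 - δ → ω < |π (D.ι x) - π ξ|) → False

/-- A low wall has no far high transition points. -/
def TDX (π : Z → ℝ) : Prop :=
  ∀ t lam δ : ℝ, 0 ≤ t → 0 < lam → 0 < δ → ∃ B : Set Γ, B.Finite ∧ ∀ C T : Set Γ,
    CConn D.S (2 * D.r) T → (∀ y ∈ T, π (D.ι y) ≤ t) → (tails D.S C \ T).Finite →
    ∀ x ∈ D.Th δ C, t + lam ≤ π (D.ι x) → x ∈ B

/-- Metric form: a small wall has a small thick wall. -/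
def TDM : Prop :=
  ∀ (ξ : Z) (ε δ : ℝ), 0 < ε → 0 < δ → ∃ ε' : ℝ, 0 < ε' ∧ ∃ B : Set Γ, B.Finite ∧
    ∀ C T : Set Γ, CConn D.S (2 * D.r) T → T ⊆ D.nb ξ ε' → (tails D.S C \ T).Finite →
      D.Th δ C ⊆ D.nb ξ ε ∪ B

/-- Small far walls with heavy sides produce a cut. -/
def LIM : Prop :=
  ∀ (𝒰 : Ultrafilter ℕ) (C T : ℕ → Set Γ) (ξ : Z) (δ : ℝ), 0 < δ →
    (∀ n, CConn D.S (2 * D.r) (T n) ∧ (tails D.S (C n) \ T n).Finite ∧ δ ≤ D.m (C n) ∧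
      D.m (C n) ≤ 1 - δ) →
    (∀ ε : ℝ, 0 < ε → ∀ K : Set Γ, K.Finite →
      ∀ᶠ n in (𝒰 : Filter ℕ), T n ⊆ D.nb ξ ε \ K) → ∃ Q, D.Cut Q ξ

end Dat

end

end Vale.Agent.P239
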