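import Vale.Agent.P239.Core2

/-! Alexander-Spanier cochains: definitions and interface statements. -/

namespace Vale.Agent.P239.AS

open scoped Pointwise symmDiff
open Filter Topology

/-- Cochains: functions on finite lists of points; lists of length `n` give degree `n - 1`. -/
abbrev Co (k X : Type*) := List X → k

/-- Euclidean four space. -/
abbrev R4 : Type := EuclideanSpace ℝ (Fin 4)

section
variable {k : Type*} [Field k] {X Y : Type*}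

/-- The alternating sum over deletions of one entry. -/
def dd : Co k X → List X → k
  | _, [] => 0
  | f, x :: l => f l - dd (fun l' => f (x :: l')) l

theorem dd_add (f g : Co k X) (l : List X) : dd (f + g) l = dd f l + dd g l := by
  induction l generalizing f g with
  | nil => simp [dd]
  | cons x l ih =>
    have := ih (fun l' => f (x :: l')) (fun l' => g (x :: l'))
    simp only [dd, Pi.add_apply]
    rw [show (fun l' => f (x :: l') + g (x :: l')) =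
      (fun l' => f (x :: l')) + fun l' => g (x :: l') from rfl, this]
    ring

theorem dd_smul (c : k) (f : Co k X) (l : List X) : dd (c • f) l = c * dd f l := by
  induction l generalizing f with
  | nil => simp [dd]
  | cons x l ih =>
    have := ih (fun l' => f (x :: l'))
    simp only [dd, Pi.smul_apply, smul_eq_mul]
    rw [show (fun l' => c * f (x :: l')) = c • fun l' => f (x :: l') from rfl, this]
    ring

/-- The coboundary. -/
def d : Co k X →ₗ[k] Co k X where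
  toFun := dd
  map_add' f g := funext (dd_add f g)
  map_smul' c f := funext (dd_smul c f)

/-- `f` lives on lists of length `n`. -/
def Deg (n : ℕ) (f : Co k X) : Prop := ∀ l : List X, l.length ≠ n → f l = 0

/-- The part of `f` on lists of length `n`. -/
def proj (n : ℕ) : Co k X →ₗ[k] Co k X where
  toFun f l := if l.length = n then f l else 0
  map_add' f g := by funext l; by_cases h : l.length = n <;> simp [h]
  map_smul' c f := by funext l; by_cases h : l.length = n <;> simp [h]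

open Classical in
/-- Multiplication by the indicator of `O` in the first entry. -/
noncomputable def cut (O : Set X) : Co k X →ₗ[k] Co k X where
  toFun f l := if ∃ x ∈ l.head?, x ∈ O then f l else 0
  map_add' f g := by funext l; by_cases h : ∃ x ∈ l.head?, x ∈ O <;> simp only [h, Pi.add_apply,
    if_true, if_false, add_zero]
  map_smul' c f := by funext l; by_cases h : ∃ x ∈ l.head?, x ∈ O <;> simp only [h, Pi.smul_apply,
    if_true, if_false, smul_zero, RingHom.id_apply]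

/-- Pull back along a map. -/
def pull (φ : X → Y) : Co k Y →ₗ[k] Co k X where
  toFun f l := f (l.map φ)
  map_add' _ _ := rfl
  map_smul' _ _ := rfl

variable [TopologicalSpace X]

/-- `f` vanishes on all lists near `y`. -/
def Van (f : Co k X) (y : X) : Prop := ∃ W ∈ 𝓝 y, ∀ l : List X, (∀ x ∈ l, x ∈ W) → f l = 0

/-- Cochains vanishing near the diagonal of `K`. -/
def Nul (k : Type*) [Field k] (K : Set X) : Submodule k (Co k X) where
  carrier := {f | f [] = 0 ∧ ∀ y ∈ K, Van f y}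
  add_mem' := by
    rintro f g ⟨f0, hf⟩ ⟨g0, hg⟩
    refine ⟨by simp [f0, g0], fun y hy => ?_⟩
    obtain ⟨W, hW, h⟩ := hf y hy
    obtain ⟨W', hW', h'⟩ := hg y hy
    exact ⟨W ∩ W', inter_mem hW hW', fun l hl => by
      simp [h l fun x hx => (hl x hx).1, h' l fun x hx => (hl x hx).2]⟩
  zero_mem' := ⟨rfl, fun _ _ => ⟨Set.univ, univ_mem, fun _ _ => rfl⟩⟩
  smul_mem' := by
    rintro c f ⟨f0, hf⟩
    refine ⟨by simp [f0], fun y hy => ?_⟩
    obtain ⟨W, hW, h⟩ := hf y hy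
    exact ⟨W, hW, fun l hl => by simp [h l hl]⟩

/-- Cochains with compact support in `U`. -/
def Sc (k : Type*) [Field k] (U : Set X) : Submodule k (Co k X) where
  carrier := {f | ∃ K, IsCompact K ∧ K ⊆ U ∧ f ∈ Nul k Kᶜ}
  add_mem' := by
    rintro f g ⟨K, h1, h2, h3⟩ ⟨K', h1', h2', h3'⟩
    exact ⟨K ∪ K', h1.union h1', Set.union_subset h2 h2', (Nul k _).add_mem
      ⟨h3.1, fun y hy => h3.2 y fun h => hy (Or.inl h)⟩
      ⟨h3'.1, fun y hy => h3'.2 y fun h => hy (Or.inr h)⟩⟩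
  zero_mem' := ⟨∅, isCompact_empty, Set.empty_subset _, (Nul k _).zero_mem⟩
  smul_mem' := by
    rintro c f ⟨K, h1, h2, h3⟩
    exact ⟨K, h1, h2, (Nul k _).smul_mem c h3⟩

/-- `f` is a coboundary near `K`. -/
def Ex (K : Set X) (f : Co k X) : Prop := ∃ g, f - d g ∈ Nul k K

/-- The reduced cohomology of `K` vanishes for lists of length `n`. -/
def HK (k : Type*) [Field k] (n : ℕ) (K : Set X) : Prop :=
  ∀ f : Co k X, Deg n f → d f ∈ Nul k K → Ex K f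

/-- `K` is acyclic. -/
def Acyc (k : Type*) [Field k] (K : Set X) : Prop := ∀ f : Co k X, d f ∈ Nul k K → Ex K f

/-- Cocycle with compact support in `U`. -/
def Zc (n : ℕ) (U : Set X) (f : Co k X) : Prop :=
  Deg n f ∧ f ∈ Sc k U ∧ d f ∈ Nul k (Set.univ : Set X)

/-- Coboundary of a cochain with compact support in `U`. -/
def Exc (U : Set X) (f : Co k X) : Prop := ∃ g ∈ Sc k U, f - d g ∈ Nul k (Set.univ : Set X)

/-- Compactly supported cohomology of `U` vanishes for lists of length `n`. -/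
def HC (k : Type*) [Field k] (n : ℕ) (U : Set X) : Prop := ∀ f : Co k X, Zc n U f → Exc U f

/-- Compact sets contract inside larger compact sets, in cohomology. -/
def HT (k : Type*) [Field k] (X : Type*) [TopologicalSpace X] : Prop :=
  ∀ K : Set X, IsCompact K → ∃ L : Set X, IsCompact L ∧ K ⊆ L ∧
    ∀ f : Co k X, d f ∈ Nul k L → Ex K f

/-- Small compact sets have no cohomology in degrees four and higher. -/
def Dim4 (k : Type*) [Field k] (X : Type*) [TopologicalSpace X] : Prop :=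
  ∀ x : X, ∃ O ∈ 𝓝 x, ∀ K ⊆ O, IsCompact K → ∀ n, 5 ≤ n → HK k n K

/-- A family of `n + 1` sets in `𝒦`, any `n` of which meet, with empty intersection. -/
def Pattern (𝒦 : Set (Set X)) {n : ℕ} (K : Fin (n + 1) → Set X) : Prop :=
  (∀ i, K i ∈ 𝒦) ∧ (∀ j, ∃ x, ∀ i, i ≠ j → x ∈ K i) ∧ ∀ x, ∃ i, x ∉ K i

/-- A class of compact sets behaving like convex sets. -/
structure Cvx (𝒦 : Set (Set X)) : Prop where
  cpt : ∀ K ∈ 𝒦, IsCompact K
  inter : ∀ K ∈ 𝒦, ∀ K' ∈ 𝒦, K ∩ K' ∈ 𝒦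
  star : ∀ (n : ℕ) (K : Fin (n + 1) → Set X) (x : X), (∀ i, K i ∈ 𝒦 ∧ x ∈ K i) →
    Acyc (ZMod 2) (⋃ i, K i)

/-- The union of a pattern has the cohomology of a sphere, naturally. -/
def PN (X : Type*) [TopologicalSpace X] : Prop :=
  ∀ 𝒦 : Set (Set X), Cvx 𝒦 → ∀ (n : ℕ) (K : Fin (n + 1) → Set X), Pattern 𝒦 K →
    (∀ m, m ≠ n → HK (ZMod 2) m (⋃ i, K i)) ∧
    ∃ γ : Co (ZMod 2) X, Deg n γ ∧ d γ ∈ Nul (ZMod 2) (⋃ i, K i) ∧
      (∀ F : Fin (n + 1) → Set X, Pattern 𝒦 F → (∀ i, F i ⊆ K i) → ¬ Ex (⋃ i, F i) γ) ∧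
      ∀ f : Co (ZMod 2) X, Deg n f → d f ∈ Nul (ZMod 2) (⋃ i, K i) →
        Ex (⋃ i, K i) f ∨ Ex (⋃ i, K i) (f - γ)

/-- A basis of open sets with the compactly supported cohomology of four space. -/
structure LocS (𝒱 : Set (Set X)) : Prop where
  op : ∀ V ∈ 𝒱, IsOpen V
  basis : ∀ x : X, ∀ W ∈ 𝓝 x, ∃ V ∈ 𝒱, x ∈ V ∧ V ⊆ W
  high : ∀ V ∈ 𝒱, ∀ U ⊆ V, IsOpen U → ∀ n, 6 ≤ n → HC (ZMod 2) n U
  low : ∀ V ∈ 𝒱, ∀ n, n ≤ 4 → HC (ZMod 2) n V
  top : ∀ V ∈ 𝒱, ∃ ω : Co (ZMod 2) X, Zc 5 V ω ∧ ¬ Exc V ω ∧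
    ∀ f : Co (ZMod 2) X, Zc 5 V f → Exc V f ∨ Exc V (f - ω)
  inc : ∀ V ∈ 𝒱, ∀ x ∈ V, ∀ W ∈ 𝓝 x, ∃ V' ∈ 𝒱, x ∈ V' ∧ V' ⊆ W ∧ V' ⊆ V ∧
    ∀ f : Co (ZMod 2) X, Zc 5 V' f → Exc V f → Exc V' f

/-- Exactness in a basic open set does not depend on the basic open set. -/
def WD (𝒱 : Set (Set X)) : Prop :=
  ∀ V ∈ 𝒱, ∀ V' ∈ 𝒱, ∀ f : Co (ZMod 2) X, Zc 5 (V ∩ V') f → Exc V f → Exc V' f

end

section
variable {I : Type*} [Fintype I] [DecidableEq I] {Q : Type*} [AddCommGroup Q]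

/-- Mod two boundary of chains indexed by finite sets. -/
def bd (a : Finset I → Q) : Finset I → Q := fun τ => ∑ i ∈ τᶜ, a (insert i τ)

/-- A row: chains on sets of cardinality `p` with values in the given subsets. -/
def Row (S : Finset I → Set Q) (p : ℕ) (a : Finset I → Q) : Prop :=
  (∀ σ, a σ ∈ S σ) ∧ ∀ σ, σ.card ≠ p → a σ = 0

/-- `φ` raises cardinality by `s` and is carried by `Φ`. -/
def Carr (Φ : Finset I → Finset I) (s : ℕ)
    (φ : (Finset I → ZMod 2) →ₗ[ZMod 2] (Finset I → ZMod 2)) : Prop :=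
  ∀ σ τ, φ (Pi.single σ 1) τ ≠ 0 → τ ⊆ Φ σ ∧ τ.card = σ.card + s

/-- Augmented chain map. -/
def ChMap (φ : (Finset I → ZMod 2) →ₗ[ZMod 2] (Finset I → ZMod 2)) : Prop :=
  (∀ c, bd (φ c) = φ (bd c)) ∧ φ (Pi.single ∅ 1) = Pi.single ∅ 1

/-- Acyclic carrier theorem. -/
def AC (I : Type*) [Fintype I] [DecidableEq I] : Prop :=
  ∀ Φ : Finset I → Finset I, Monotone Φ → (∀ σ, σ ≠ ∅ → Φ σ ≠ ∅) →
    (∃ φ, Carr Φ 0 φ ∧ ChMap φ) ∧ ∀ φ ψ, Carr Φ 0 φ → ChMap φ → Carr Φ 0 ψ → ChMap ψ →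
      ∃ P, Carr Φ 1 P ∧ ∀ c, bd (P c) + P (bd c) = φ c + ψ c

variable [Module (ZMod 2) Q]

/-- Rows are exact, and there is no cohomology in high degrees. -/
structure RowSys (δ : Q →ₗ[ZMod 2] Q) (S : ℕ → Finset I → Submodule (ZMod 2) Q) : Prop where
  dd : ∀ x, δ (δ x) = 0
  d_mem : ∀ n σ, ∀ x ∈ S n σ, δ x ∈ S (n + 1) σ
  anti : ∀ n σ τ, σ ⊆ τ → S n τ ≤ S n σ
  row : ∀ n p a, Row (fun σ => (S n σ : Set Q)) p a → bd a = 0 →
    ∃ b, Row (fun σ => (S n σ : Set Q)) (p + 1) b ∧ bd b = a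
  high : ∀ n, 5 ≤ n → ∀ σ, σ ≠ ∅ → ∀ x ∈ S (n + 1) σ, δ x = 0 → ∃ y ∈ S n σ, δ y = x

/-- The data of the duality zigzag. -/
structure ZZ (δ : Q →ₗ[ZMod 2] Q) (S : ℕ → ℕ → Finset I → Submodule (ZMod 2) Q)
    (t : Q → ZMod 2) (s₀ s₁ : Finset I → Prop) : Prop where
  rs : RowSys δ (S 0)
  d_mem : ∀ j n σ, ∀ x ∈ S j n σ, δ x ∈ S j (n + 1) σ
  anti : ∀ j n σ τ, σ ⊆ τ → S j n τ ≤ S j n σ
  mono : ∀ j j' n σ, j ≤ j' → S j n σ ≤ S j' n σ
  low : ∀ j ≤ 5, ∀ n ≤ 3, ∀ σ, σ ≠ ∅ → ∀ x ∈ S j (n + 1) σ, δ x = 0 →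
    ∃ y ∈ S (j + 1) n σ, δ y = x
  t_add : ∀ σ, σ ≠ ∅ → ∀ x ∈ S 1 5 σ, ∀ y ∈ S 1 5 σ, δ x = 0 → δ y = 0 → t (x + y) = t x + t y
  t_d : ∀ σ, σ ≠ ∅ → ∀ y ∈ S 1 4 σ, t (δ y) = 0
  t_ker : ∀ σ, σ ≠ ∅ → ∀ x ∈ S 1 5 σ, δ x = 0 → t x = 0 → ∃ y ∈ S 2 4 σ, δ y = x
  gen : ∀ σ, σ ≠ ∅ → s₁ σ → ∃ ω ∈ S 1 5 σ, δ ω = 0 ∧ t ω = 1
  supp : ∀ σ, ∀ x ∈ S 0 5 σ, x ≠ 0 → s₀ σ
  fill : ∀ p, 2 ≤ p → ∀ c : Finset I → ZMod 2, (∀ σ, c σ ≠ 0 → σ.card = p ∧ s₀ σ) → bd c = 0 →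
    ∃ c' : Finset I → ZMod 2, (∀ σ, c' σ ≠ 0 → σ.card = p + 1 ∧ s₁ σ) ∧ bd c' = c

end

section
variable (X : Type*) [TopologicalSpace X]

/-- Cochains modulo locally zero ones. -/
abbrev QQ := Co (ZMod 2) X ⧸ Nul (ZMod 2) (Set.univ : Set X)

variable {X}

/-- Classes of degree `n` with compact support in `U`. -/
def SQ (n : ℕ) (U : Set X) : Submodule (ZMod 2) (QQ X) where
  carrier := {x | ∃ f : Co (ZMod 2) X, Deg n f ∧ f ∈ Sc (ZMod 2) U ∧ Submodule.Quotient.mk f = x}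
  add_mem' := by
    rintro _ _ ⟨f, h1, h2, rfl⟩ ⟨g, h1', h2', rfl⟩
    exact ⟨f + g, fun l hl => by simp [h1 l hl, h1' l hl], (Sc _ U).add_mem h2 h2', rfl⟩
  zero_mem' := ⟨0, fun _ _ => rfl, (Sc _ U).zero_mem, rfl⟩
  smul_mem' := by
    rintro c _ ⟨f, h1, h2, rfl⟩
    exact ⟨c • f, fun l hl => by simp [h1 l hl], (Sc _ U).smul_mem c h2, rfl⟩

/-- The open set attached to a finite set of indices. -/
def UU {I : Type*} (U : I → Set X) (σ : Finset I) : Set X := (⋃ i, U i) ∩ ⋂ i ∈ σ, U i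

/-- `δ` is the coboundary on the quotient. -/
def IsD (δ : QQ X →ₗ[ZMod 2] QQ X) : Prop :=
  ∀ f, δ (Submodule.Quotient.mk f) = Submodule.Quotient.mk (d f)

end

/-- Small cycles bound small chains. -/
def NF (E : Type*) [MetricSpace E] : Prop :=
  ∀ L₀ : Set E, IsCompact L₀ → ∃ L₁ : Set E, IsCompact L₁ ∧ L₀ ⊆ L₁ ∧ ∀ ε : ℝ, 0 < ε →
    ∃ η : ℝ, 0 < η ∧ ∀ (N : ℕ) (x : Fin N → E), (∀ y ∈ L₁, ∃ i, dist y (x i) < η) →
      ∀ p, 2 ≤ p → ∀ c : Finset (Fin N) → ZMod 2,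
        (∀ σ, c σ ≠ 0 → σ.card = p ∧ ∀ i ∈ σ, x i ∈ L₀ ∧ ∀ j ∈ σ, dist (x i) (x j) < η) →
        bd c = 0 → ∃ c' : Finset (Fin N) → ZMod 2,
          (∀ σ, c' σ ≠ 0 → σ.card = p + 1 ∧ ∀ i ∈ σ, ∀ j ∈ σ, dist (x i) (x j) < ε) ∧ bd c' = c

/-- Global first cohomology vanishes. -/
def G1 (X : Type*) [TopologicalSpace X] : Prop :=
  ∀ f : Co (ZMod 2) X, Deg 2 f → d f ∈ Nul (ZMod 2) (Set.univ : Set X) →
    ∃ a, Deg 1 a ∧ f - d a ∈ Nul (ZMod 2) (Set.univ : Set X)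

section
variable {Γ : Type*} [Group Γ] {E : Type*} [TopologicalSpace E] [MulAction Γ E]

/-- An equivariant coarse map from the space to the group. -/
structure Net (S : Finset Γ) (π : E → Γ) (x₀ : E) (r₀ : ℕ) (K₀ : Set E) : Prop where
  gen : Gen S
  eqv : ∀ (g : Γ) (x : E), π (g • x) = g * π x
  base : π x₀ = 1
  cpt : IsCompact K₀
  mem : ∀ x, (π x)⁻¹ • x ∈ K₀
  loc : ∀ x : E, ∃ W ∈ 𝓝 x, ∀ y ∈ W, ∀ y' ∈ W, (π y)⁻¹ * π y' ∈ S
  path : ∀ s ∈ S, ∃ P : Set E, IsPreconnected P ∧ x₀ ∈ P ∧ s • x₀ ∈ P ∧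
    ∀ y ∈ P, π y ∈ (S : Set Γ) ^ r₀
  prop : ∀ K : Set E, IsCompact K → (π '' K).Finite

open Classical in
/-- The two point cochain of an edge set. -/
noncomputable def fW (S : Finset Γ) (π : E → Γ) (W : Set (Γ × S)) : Co (ZMod 2) E
  | [y, y'] => if ∃ h : (π y)⁻¹ * π y' ∈ S, (π y, (⟨_, h⟩ : S)) ∈ W then 1 else 0
  | _ => 0

/-- Off the defect the cochain of an edge set is a cocycle, and primitives give cuts. -/
def FW (S : Finset Γ) (π : E → Γ) (x₀ : E) (r₀ : ℕ) : Prop :=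
  ∀ W : Set (Γ × S), Deg 2 (fW S π W) ∧
    (∀ x, π x ∉ Def S (r₀ + 1) W → Van (d (fW S π W)) x) ∧
    ∀ a b : Co (ZMod 2) E, fW S π W - b - d a ∈ Nul (ZMod 2) (Set.univ : Set E) →
      ∀ e : Γ × S, e.1 ∉ Def S (r₀ + 1) W → (∀ y, Near S r₀ e.1 (π y) → Van b y) →
        (e ∈ W ↔ e ∈ cob S {g | a [g • x₀] = 1})

/-- Invariant cohomology vanishes in high degrees. -/
def IV (k : Type*) [Field k] (E : Type*) [TopologicalSpace E] [MulAction Γ E] (g : Γ) : Prop :=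
  ∀ K : Set E, IsCompact K → (∀ x ∈ K, g • x ∈ K) → ∀ n, 5 ≤ n → ∀ f : Co k E, Deg (n + 1) f →
    pull (fun x : E => g • x) f = f → d f ∈ Nul k K →
    ∃ b : Co k E, Deg n b ∧ pull (fun x : E => g • x) b = b ∧ f - d b ∈ Nul k K

end

end Vale.Agent.P239.AS
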