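import Mathlib

namespace Vale.Agent.P239

open scoped Matrix

/-- The group ring of `Γ` over the field with two elements. -/
abbrev GR (Γ : Type) [Group Γ] : Type := MonoidAlgebra (ZMod 2) Γ

/-- The first boundary matrix of a complex with one orbit of vertices: the `i`-th edge goes
from `1` to `gen i`. -/
noncomputable def d₁ {Γ : Type} [Group Γ] {n : ℕ} (gen : Fin n → Γ) :
    Matrix (Fin n) (Fin 1) (GR Γ) :=
  fun i _ => MonoidAlgebra.of (ZMod 2) Γ (gen i) - 1

/-- A mod 2 Poincare duality complex of dimension four for `Γ`: a free resolution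
`0 → R^n₄ → R^n₃ → R^n₂ → R^n₁ → R → F₂` of finite type over `R = F₂[Γ]` (row vectors,
boundary maps given by right multiplication by matrices) starting with a Cayley graph, whose
dual complex `Hom_R(-, R)` (column vectors) has cohomology `0` in degrees `0,1,2,3` and `F₂` in
degree `4`.  The mod 2 cellular chain complex of the universal cover of a closed aspherical
4-manifold (finite 4-dimensional CW model with one vertex) is of this form. -/
structure PD4Complex (Γ : Type) [Group Γ] where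
  n₁ : ℕ
  n₂ : ℕ
  n₃ : ℕ
  n₄ : ℕ
  gen : Fin n₁ → Γ
  d₂ : Matrix (Fin n₂) (Fin n₁) (GR Γ)
  d₃ : Matrix (Fin n₃) (Fin n₂) (GR Γ)
  d₄ : Matrix (Fin n₄) (Fin n₃) (GR Γ)
  gen_top : Subgroup.closure (Set.range gen) = ⊤
  chain₁ : Function.Exact (fun v => v ᵥ* d₂) (fun v => v ᵥ* d₁ gen)
  chain₂ : Function.Exact (fun v => v ᵥ* d₃) (fun v => v ᵥ* d₂)
  chain₃ : Function.Exact (fun v => v ᵥ* d₄) (fun v => v ᵥ* d₃)
  chain₄ : Function.Injective (fun v => v ᵥ* d₄)
  cochain₀ : Function.Injective (fun w => d₁ gen *ᵥ w)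
  cochain₁ : Function.Exact (fun w => d₁ gen *ᵥ w) (fun w => d₂ *ᵥ w)
  cochain₂ : Function.Exact (fun w => d₂ *ᵥ w) (fun w => d₃ *ᵥ w)
  cochain₃ : Function.Exact (fun w => d₃ *ᵥ w) (fun w => d₄ *ᵥ w)
  cochain₄ : ∃ ε : (Fin n₄ → GR Γ) →+ ZMod 2,
    Function.Surjective ε ∧ Function.Exact (fun w => d₄ *ᵥ w) ε

/-- The number of cells of a chain. -/
def mass {Γ : Type} [Group Γ] {n : ℕ} (v : Fin n → GR Γ) : ℕ :=
  ∑ i, (v i).coeff.support.card

/-- Every 2-cycle `z` bounds a 3-chain with at most `C * (mass z) ^ α` cells, `α < 2`. -/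
def SubquadraticFilling {Γ : Type} [Group Γ] (X : PD4Complex Γ) : Prop :=
  ∃ C α : ℝ, α < 2 ∧ ∀ z : Fin X.n₂ → GR Γ, z ᵥ* X.d₂ = 0 →
    ∃ c : Fin X.n₃ → GR Γ, c ᵥ* X.d₃ = z ∧ (mass c : ℝ) ≤ C * (mass z : ℝ) ^ α

/-- The same in the dual complex (dual cell structure). -/
def SubquadraticCofilling {Γ : Type} [Group Γ] (X : PD4Complex Γ) : Prop :=
  ∃ C α : ℝ, α < 2 ∧ ∀ z : Fin X.n₂ → GR Γ, X.d₃ *ᵥ z = 0 →
    ∃ c : Fin X.n₁ → GR Γ, X.d₂ *ᵥ c = z ∧ (mass c : ℝ) ≤ C * (mass z : ℝ) ^ α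

/-- `Γ` has a bounded synchronous combing of linear length: paths `σ g` from `1` to `g` with
steps in a finite set, the paths of `g` and `g * s` stay uniformly close for the generators `s`,
and `σ g` has arrived at `g` after a time linear in the word length of `g`. -/
def IsCombable (Γ : Type) [Group Γ] : Prop :=
  ∃ (S T : Finset Γ) (σ : Γ → ℕ → Γ) (L : ℕ), Subgroup.closure (S : Set Γ) = ⊤ ∧
    (∀ g, σ g 0 = 1) ∧ (∀ g t, (σ g t)⁻¹ * σ g (t + 1) ∈ T) ∧
    (∀ g t, ∀ s ∈ S, (σ g t)⁻¹ * σ (g * s) t ∈ T) ∧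
    ∀ l : List Γ, (∀ s ∈ l, s ∈ S ∨ s⁻¹ ∈ S) → ∀ t, L * (l.length + 1) ≤ t →
      σ l.prod t = l.prod

/-- `c` restricted to `[0,1]` is a constant speed geodesic from `p` to `q`. -/
def IsGeodesic {X : Type} [MetricSpace X] (c : ℝ → X) (p q : X) : Prop :=
  c 0 = p ∧ c 1 = q ∧ ∀ s ∈ Set.Icc (0 : ℝ) 1, ∀ t ∈ Set.Icc (0 : ℝ) 1,
    dist (c s) (c t) = |s - t| * dist p q

/-- Geodesic metric space satisfying the CAT(0) inequality. -/
def IsCAT0 (X : Type) [MetricSpace X] : Prop :=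
  (∀ p q : X, ∃ c, IsGeodesic c p q) ∧
    ∀ (c : ℝ → X) (p q : X), IsGeodesic c p q → ∀ x : X, ∀ t ∈ Set.Icc (0 : ℝ) 1,
      dist x (c t) ^ 2 ≤
        (1 - t) * dist x p ^ 2 + t * dist x q ^ 2 - t * (1 - t) * dist p q ^ 2

/-- Geodesic metric space satisfying the four point condition of Gromov. -/
def IsGromovHyperbolic (X : Type) [MetricSpace X] : Prop :=
  (∀ p q : X, ∃ c, IsGeodesic c p q) ∧
    ∃ δ : ℝ, ∀ w x y z : X,
      dist x y + dist z w ≤ max (dist x z + dist y w) (dist x w + dist y z) + δ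

/-- The action is isometric, metrically proper and cobounded. -/
def IsGeometricAction (Γ X : Type) [Group Γ] [MetricSpace X] [MulAction Γ X] : Prop :=
  (∀ (g : Γ) (x y : X), dist (g • x) (g • y) = dist x y) ∧
    (∀ (x : X) (R : ℝ), {g : Γ | dist x (g • x) ≤ R}.Finite) ∧
    ∃ (x₀ : X) (R : ℝ), ∀ y : X, ∃ g : Γ, dist y (g • x₀) ≤ R

/-- `Γ` acts geometrically on a CAT(0) space. -/
def IsCAT0Group (Γ : Type) [Group Γ] : Prop :=
  ∃ (X : Type) (_ : MetricSpace X) (_ : MulAction Γ X), IsGeometricAction Γ X ∧ IsCAT0 X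

/-- `Γ` acts geometrically on a Gromov hyperbolic geodesic space. -/
def IsHyperbolicGroup (Γ : Type) [Group Γ] : Prop :=
  ∃ (X : Type) (_ : MetricSpace X) (_ : MulAction Γ X),
    IsGeometricAction Γ X ∧ IsGromovHyperbolic X

/-- The Hilbert space of square summable complex functions on `Γ`. -/
abbrev L2 (Γ : Type) : Type := lp (fun _ : Γ => ℂ) 2

/-- The left regular representation. -/
noncomputable def leftReg {Γ : Type} [Group Γ] (g : Γ) (ξ : L2 Γ) : L2 Γ :=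
  ⟨fun x => ξ (g⁻¹ * x), memℓp_gen
    ((Equiv.mulLeft g⁻¹).summable_iff.2 ((lp.memℓp ξ).summable (by norm_num)))⟩

/-- The reduced first cohomology of `Γ` with coefficients in the left regular representation
vanishes: every 1-cocycle is a pointwise limit of 1-coboundaries. -/
def ReducedH1Vanishes (Γ : Type) [Group Γ] : Prop :=
  ∀ b : Γ → L2 Γ, (∀ g h, b (g * h) = b g + leftReg g (b h)) →
    ∀ (F : Finset Γ) (ε : ℝ), 0 < ε →
      ∃ ξ : L2 Γ, ∀ g ∈ F, ‖b g - (leftReg g ξ - ξ)‖ < ε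

end Vale.Agent.P239
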