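import Vale.Agent.P239.LDefs
import Vale.Agent.P239.Defs

/-! Von Neumann dimension of invariant subspaces: definitions. -/

namespace Vale.Agent.P239.VN

/-- The group von Neumann algebra: bounded operators commuting with all left translations. -/
noncomputable def NG (Γ : Type) [Group Γ] : Subring (H2 Γ →L[ℂ] H2 Γ) :=
  Subring.centralizer (Set.range fun g : Γ => shift (Equiv.mulLeft g⁻¹))

/-- The image of `g` in the group von Neumann algebra: right translation `δ_h ↦ δ_(h g⁻¹)`. -/
noncomputable def rho {Γ : Type} [Group Γ] (g : Γ) : NG Γ :=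
  ⟨shift (Equiv.mulRight g), by
    rintro _ ⟨h, rfl⟩
    ext ξ x
    exact congrArg ξ (mul_assoc h⁻¹ x g)⟩

/-- Finite sums of copies of the regular representation. -/
abbrev HI (Γ I : Type) : Type := PiLp 2 fun _ : I => H2 Γ

variable {Γ : Type} [Group Γ] {I J : Type} [Fintype I] [Fintype J]

/-- Left translation. -/
noncomputable def lam (g : Γ) : H2 Γ →L[ℂ] H2 Γ := shift (Equiv.mulLeft g⁻¹)

/-- Left translation in every coordinate. -/
noncomputable def lamI (g : Γ) (ξ : HI Γ I) : HI Γ I := WithLp.toLp 2 fun i => lam g (ξ i)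

/-- Equivariant operators. -/
def Eqv (T : HI Γ I →L[ℂ] HI Γ J) : Prop := ∀ (g : Γ) ξ, T (lamI g ξ) = lamI g (T ξ)

/-- Invariant subspaces. -/
def Inv (W : Submodule ℂ (HI Γ I)) : Prop := ∀ (g : Γ), ∀ ξ ∈ W, lamI g ξ ∈ W

open Classical in
/-- The standard generators. -/
noncomputable def dl (i : I) : HI Γ I := PiLp.single 2 i (lp.single 2 1 1)

/-- Orthogonal projection onto the closure. -/
noncomputable def pr (W : Submodule ℂ (HI Γ I)) : HI Γ I →L[ℂ] HI Γ I :=
  W.topologicalClosure.starProjection

/-- The dimension of the closure of `W`. -/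
noncomputable def dm (W : Submodule ℂ (HI Γ I)) : ℝ := ∑ i, ‖pr W (dl i)‖ ^ 2

/-- Right translation as a homomorphism. -/
noncomputable def rhoHom (Γ : Type) [Group Γ] : Γ →* NG Γ where
  toFun := rho
  map_one' := by
    ext ξ x
    exact congrArg ξ (mul_one x)
  map_mul' g h := by
    ext ξ x
    exact congrArg ξ (mul_assoc x g h).symm

end Vale.Agent.P239.VN
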