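import Vale.Agent.P239.ASB
import Vale.Agent.P239.Defs

namespace Vale.Agent.P239.AS

open scoped Pointwise symmDiff
open Filter Topology

namespace CoverXAux

/-- Transport of square summable functions. -/
noncomputable def trL {α β : Type} (e : α ≃ β) (ξ : L2 β) : L2 α :=
  ⟨fun x => ξ (e x), memℓp_gen (e.summable_iff.2 ((lp.memℓp ξ).summable (by norm_num)))⟩

theorem trL_apply {α β : Type} (e : α ≃ β) (ξ : L2 β) (x : α) : trL e ξ x = ξ (e x) := rfl

theorem left_apply {Γ : Type} [Group Γ] (g : Γ) (ξ : L2 Γ) (x : Γ) :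
    leftReg g ξ x = ξ (g⁻¹ * x) := rfl

theorem trL_norm {α β : Type} (e : α ≃ β) (ξ : L2 β) : ‖trL e ξ‖ = ‖ξ‖ := by
  rw [lp.norm_eq_tsum_rpow (by norm_num), lp.norm_eq_tsum_rpow (by norm_num)]
  congr 1
  exact e.tsum_eq fun y => ‖ξ y‖ ^ (2 : ENNReal).toReal

variable {M E : Type} [TopologicalSpace M] [TopologicalSpace E] {p : E → M}

theorem t2 [T2Space M] (hp : IsCoveringMap p) : T2Space E := by
  refine ⟨fun a b hab => ?_⟩
  by_cases h : p a = p b
  · exact hp.isSeparatedMap a b h hab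
  · exact separated_by_continuous hp.continuous h

theorem charted [ChartedSpace R4 M] (hp : IsCoveringMap p) : Nonempty (ChartedSpace R4 E) := by
  choose φ h1 h2 using hp.isLocalHomeomorph
  refine ⟨⟨Set.range fun a => (φ a).trans (chartAt R4 (p a)),
    fun a => (φ a).trans (chartAt R4 (p a)), fun a => ?_, fun a => ⟨a, rfl⟩⟩⟩
  rw [OpenPartialHomeomorph.trans_source]
  refine ⟨h1 a, ?_⟩
  rw [Set.mem_preimage, ← h2 a]
  exact mem_chart_source _ _

/-- The group of deck transformations. -/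
def deck (p : E → M) : Subgroup (Equiv.Perm E) where
  carrier := {φ | Continuous φ ∧ Continuous φ.symm ∧ ∀ x, p (φ x) = p x}
  mul_mem' := fun {a b} ha hb => ⟨ha.1.comp hb.1, hb.2.1.comp ha.2.1, fun x =>
    (ha.2.2 _).trans (hb.2.2 x)⟩
  one_mem' := ⟨continuous_id, continuous_id, fun _ => rfl⟩
  inv_mem' := fun {a} ha => ⟨ha.2.1, ha.1, fun x => by
    have := ha.2.2 (a.symm x)
    rw [Equiv.apply_symm_apply] at this
    exact this.symm⟩

theorem free [PreconnectedSpace E] (hp : IsCoveringMap p) (g : deck p) (x : E) (h : g • x = x) :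
    g = 1 :=
  Subtype.ext (Equiv.ext (congrFun (hp.eq_of_comp_eq g.2.1 continuous_id (funext g.2.2.2) x h)))

theorem quot [SimplyConnectedSpace E] [LocallyPathConnectedSpace E] (hp : IsCoveringMap p)
    (hs : Function.Surjective p) : IsQuotientCoveringMap p (deck p) := by
  refine (isQuotientCoveringMap_iff_isCoveringMap_and _ _).2 ⟨hp, hs, ⟨fun g => g.2.1⟩,
    isCancelSMul_iff_eq_one_of_smul_eq.2 (free hp), fun {a b} => ⟨fun h => ?_, ?_⟩⟩
  · obtain ⟨F, ⟨f1, f2⟩, -⟩ := hp.existsUnique_continuousMap_lifts ⟨p, hp.continuous⟩ b a h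
    obtain ⟨G, ⟨g1, g2⟩, -⟩ := hp.existsUnique_continuousMap_lifts ⟨p, hp.continuous⟩ a b h.symm
    have f3 : ∀ x, p (F x) = p x := congrFun f2
    have g3 : ∀ x, p (G x) = p x := congrFun g2
    have l : G ∘ F = id := hp.eq_of_comp_eq (G.continuous.comp F.continuous) continuous_id
      (funext fun x => (g3 _).trans (f3 x)) b (by simp [f1, g1])
    have r : F ∘ G = id := hp.eq_of_comp_eq (F.continuous.comp G.continuous) continuous_id
      (funext fun x => (f3 _).trans (g3 x)) a (by simp [f1, g1])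
    exact ⟨⟨⟨F, G, congrFun l, congrFun r⟩, F.continuous, G.continuous, f3⟩, f1⟩
  · rintro ⟨g, rfl⟩
    exact g.2.2.2 b

variable {Γ : Type} [Group Γ] [MulAction Γ E]

theorem loc [T2Space M] (hq : IsQuotientCoveringMap p Γ) (z : E × E) :
    ∃ t ∈ 𝓝 z, {g : Γ | ∃ w ∈ t, g • w.1 = w.2}.Finite := by
  have := hq.toContinuousConstSMul
  obtain ⟨a, b⟩ := z
  by_cases h : p b = p a
  · obtain ⟨g0, rfl⟩ := hq.apply_eq_iff_mem_orbit.1 h
    obtain ⟨U, hU, hd⟩ := hq.disjoint a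
    have h2 : (fun y => g0⁻¹ • y) ⁻¹' U ∈ 𝓝 (g0 • a) :=
      (continuous_const_smul g0⁻¹).continuousAt.preimage_mem_nhds (by rwa [inv_smul_smul])
    refine ⟨_, prod_mem_nhds hU h2, (Set.finite_singleton g0).subset ?_⟩
    rintro g ⟨w, ⟨w1, w2⟩, hw⟩
    have h3 := hd (g0⁻¹ * g) ⟨g0⁻¹ • w.2, ⟨w.1, w1, by simp only [mul_smul, hw]⟩, w2⟩
    exact (inv_mul_eq_one.1 h3).symm
  · obtain ⟨U, V, hU, hV, hb, ha, hd⟩ := t2_separation h
    refine ⟨_, prod_mem_nhds ((hV.preimage hq.continuous).mem_nhds ha)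
      ((hU.preimage hq.continuous).mem_nhds hb), Set.finite_empty.subset ?_⟩
    rintro g ⟨w, ⟨w1, w2⟩, hw⟩
    rw [Set.mem_preimage, ← hw, hq.map_smul] at w2
    exact Set.disjoint_left.1 hd w2 w1

theorem prop [T2Space M] (hq : IsQuotientCoveringMap p Γ) : ProperlyDiscontinuousSMul Γ E := by
  refine ⟨fun {K L} hK hL => ?_⟩
  have h : {g : Γ | ∃ w ∈ K ×ˢ L, g • w.1 = w.2}.Finite := by
    refine (hK.prod hL).induction_on (p := fun t => {g : Γ | ∃ w ∈ t, g • w.1 = w.2}.Finite)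
      (by simp) (fun s t hst ht => ht.subset fun g ⟨w, h1, h2⟩ => ⟨w, hst h1, h2⟩)
      (fun s t hs ht => (hs.union ht).subset ?_) fun z _ => ?_
    · rintro g ⟨w, h1 | h1, h2⟩
      · exact Or.inl ⟨w, h1, h2⟩
      · exact Or.inr ⟨w, h1, h2⟩
    · obtain ⟨t, h1, h2⟩ := loc hq z
      exact ⟨t, mem_nhdsWithin_of_mem_nhds h1, h2⟩
  refine h.subset ?_
  rintro g ⟨_, ⟨a, ha, rfl⟩, hb⟩
  exact ⟨(a, g • a), ⟨ha, hb⟩, rfl⟩

theorem cocpt [CompactSpace M] [LocallyCompactSpace E] (hq : IsQuotientCoveringMap p Γ) :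
    ∃ K : Set E, IsCompact K ∧ ∀ x : E, ∃ g : Γ, g • x ∈ K := by
  choose s hs using hq.surjective
  choose K h1 h2 using fun m => exists_compact_mem_nhds (s m)
  obtain ⟨t, -, ht⟩ := isCompact_univ.elim_nhds_subcover (fun m => p '' K m) fun m _ => by
    have := hq.isCoveringMap.isOpenMap.image_mem_nhds (h2 m)
    rwa [hs] at this
  refine ⟨⋃ m ∈ t, K m, t.isCompact_biUnion fun m _ => h1 m, fun x => ?_⟩
  obtain ⟨m, hm, y, hy, e⟩ := Set.mem_iUnion₂.1 (ht (Set.mem_univ (p x)))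
  obtain ⟨g, rfl⟩ := hq.apply_eq_iff_mem_orbit.1 e
  exact ⟨g, Set.mem_iUnion₂.2 ⟨m, hm, hy⟩⟩

end CoverXAux

open CoverXAux

theorem red_congr {Γ Γ' : Type} [Group Γ] [Group Γ'] (e : Γ ≃* Γ') (h : ReducedH1Vanishes Γ) :
    ReducedH1Vanishes Γ' := by
  intro b hb F ε hε
  obtain ⟨ξ, hξ⟩ := h (fun g => trL e.toEquiv (b (e g))) (fun g g' => by
    ext x
    simp [hb, trL_apply, left_apply]) (F.map e.symm.toEquiv.toEmbedding) ε hε
  refine ⟨trL e.symm.toEquiv ξ, fun g hg => ?_⟩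
  refine lt_of_eq_of_lt ?_ (hξ (e.symm g) (Finset.mem_map_of_mem _ hg))
  rw [← trL_norm e.toEquiv]
  congr 1
  ext x
  simp [trL_apply, left_apply]

theorem cover {M E : Type} [TopologicalSpace M] [T2Space M] [CompactSpace M] [ChartedSpace R4 M]
    [TopologicalSpace E] [ContractibleSpace E] {p : E → M} (hp : IsCoveringMap p)
    (hs : Function.Surjective p) (x : M) :
    T2Space E ∧ Nonempty (ChartedSpace R4 E) ∧ ∃ (Γ : Type) (_ : Group Γ) (_ : MulAction Γ E)
      (_ : ContinuousConstSMul Γ E) (_ : ProperlyDiscontinuousSMul Γ E),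
      (∀ (g : Γ) (x : E), g • x = x → g = 1) ∧
      (∃ K : Set E, IsCompact K ∧ ∀ x : E, ∃ g : Γ, g • x ∈ K) ∧
      Nonempty (Γ ≃* FundamentalGroup M x) := by
  obtain ⟨c⟩ := charted hp
  have := ChartedSpace.locallyPathConnectedSpace R4 E
  have := ChartedSpace.locallyCompactSpace R4 E
  have hq := quot hp hs
  obtain ⟨e, he⟩ := hs x
  exact ⟨t2 hp, ⟨c⟩, deck p, inferInstance, inferInstance, hq.toContinuousConstSMul, prop hq,
    free hp, cocpt hq, ⟨(MulEquiv.inv' _).trans (hq.fundamentalGroupEquiv ⟨e, he⟩).symm⟩⟩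

end Vale.Agent.P239.AS
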