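import Vale.Agent.P239.BasY

/-! Bounded clusters of defects of a seven step chain. -/

namespace Vale.Agent.P239

open scoped Pointwise symmDiff
open Filter Topology

variable {Γ : Type*} [Group Γ] {S : Finset Γ} {r : ℕ}

namespace E1XAux

theorem rev {N : Set (Set Γ)} {E : Set Γ → Set Γ → Prop} (h : CFam S N E) {A : ℕ → Set Γ}
    (hA : Chain7 N E A) : Chain7 N E fun i => (A (6 - i))ᶜ := by
  refine ⟨fun i _ => h.compl_mem _ (hA.mem _ (by omega)), fun i j h1 _ =>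
    Set.compl_subset_compl.2 (hA.sub _ _ (by omega) (by omega)), fun i hi j hj hij k => ?_⟩
  refine hA.ne (6 - j) (by omega) (6 - i) (by omega) (by omega) ?_
  have a1 := h.e_compl _ _ k
  rw [compl_compl] at a1
  have a2 := h.e_compl _ _ (h.symm _ _ a1)
  rwa [compl_compl] at a2

theorem count (ha : E1a S) (hb : E1b S) {N : Set (Set Γ)}
    {E : Set Γ → Set Γ → Prop} (h : CFam S N E) {R f : ℕ}
    (hf : ∀ (x p q v v' : Γ), ∀ X ∈ N, ∀ Y ∈ N, Near S (R + (r + 1)) x p →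
      Near S (R + (r + 1)) x q → Near S (R + (r + 1)) x v → Near S (R + (r + 1)) x v' → X ⊆ Y →
      p ∈ X → q ∉ Y → v ∉ X → v' ∈ Y → Two N E X Y v v' → (cob S X ∩ cob S Y).ncard ≤ f)
    {A : ℕ → Set Γ} (hA : Chain7 N E A) (hG : f < (cob S (A 0) ∩ cob S (A 6)).ncard) (x : Γ) :
    {y | Near S R x y ∧ ∃ t : Γ × Γ × Γ, LowEv A t ∧ Near S (r + 1) y t.1 ∧
      Near S (r + 1) y t.2.1 ∧ Near S (r + 1) y t.2.2}.ncard ≤
      3 * (((S : Set Γ) ^ (r + 1)) ×ˢ ((S : Set Γ) ^ (r + 1)) ×ˢ ((S : Set Γ) ^ (r + 1))).ncard := by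
  have h0 : (cob S (A 0) ∩ cob S (A 6)).Nonempty := Set.nonempty_of_ncard_ne_zero (by omega)
  generalize hY : {y | Near S R x y ∧ ∃ t : Γ × Γ × Γ, LowEv A t ∧ Near S (r + 1) y t.1 ∧
      Near S (r + 1) y t.2.1 ∧ Near S (r + 1) y t.2.2} = Y
  have hY' : ∀ y ∈ Y, Near S R x y ∧ ∃ t : Γ × Γ × Γ, LowEv A t ∧ Near S (r + 1) y t.1 ∧
      Near S (r + 1) y t.2.1 ∧ Near S (r + 1) y t.2.2 := fun y hy => by
    rw [← hY] at hy
    exact hy
  choose! t t1 t2 using fun y (hy : y ∈ Y) => (hY' y hy).2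
  obtain ⟨L₁, L₂, L₃, hL⟩ := hb N E h A hA (t '' Y) (by
    rintro _ ⟨y, hy, rfl⟩
    exact t1 y hy) (by
    rintro _ ⟨y, hy, rfl⟩ _ ⟨z, hz, rfl⟩ k
    refine (hf x _ _ _ _ _ (hA.mem 0 (by omega)) _ (hA.mem 6 le_rfl)
      ((hY' y hy).1.trans (t2 y hy).1) ((hY' y hy).1.trans (t2 y hy).2.1)
      ((hY' y hy).1.trans (t2 y hy).2.2) ((hY' z hz).1.trans (t2 z hz).2.2)
      (hA.sub 0 6 (by omega) le_rfl) (t1 y hy).1 (t1 y hy).2.1
      (fun c => (t1 y hy).2.2.2 (hA.sub 0 3 (by omega) (by omega) c)) (t1 z hz).2.2.1 k).not_gt hG)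
  have fp := pow_finite S (r + 1)
  have fib : ∀ L : Set Γ, {y | y ∈ Y ∧ Lc N E (t y).1 (t y).2.1 (t y).2.2 = L}.ncard ≤
      (((S : Set Γ) ^ (r + 1)) ×ˢ ((S : Set Γ) ^ (r + 1)) ×ˢ ((S : Set Γ) ^ (r + 1))).ncard := by
    intro L
    refine Set.ncard_le_ncard_of_injOn
      (fun y => (y⁻¹ * (t y).1, y⁻¹ * (t y).2.1, y⁻¹ * (t y).2.2)) (fun y hy => t2 y hy.1) ?_
      (fp.prod (fp.prod fp))
    rintro y ⟨hy, ey⟩ z ⟨hz, ez⟩ k
    simp only [Prod.mk.injEq] at k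
    have e1 : z * y⁻¹ * (t y).1 = (t z).1 := by rw [mul_assoc, k.1, mul_inv_cancel_left]
    have e2 : z * y⁻¹ * (t y).2.1 = (t z).2.1 := by rw [mul_assoc, k.2.1, mul_inv_cancel_left]
    have e3 : z * y⁻¹ * (t y).2.2 = (t z).2.2 := by rw [mul_assoc, k.2.2, mul_inv_cancel_left]
    refine (mul_inv_eq_one.1 (ha N E h A hA h0 (z * y⁻¹) (t y).1 (t y).2.1 (t y).2.2 (t1 y hy)
      ?_ ?_)).symm
    · rw [e1, e2, e3]
      exact t1 z hz
    · rw [e1, e2, e3, ey, ez]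
  have hsub : Y = {y | y ∈ Y ∧ Lc N E (t y).1 (t y).2.1 (t y).2.2 = L₁} ∪
      ({y | y ∈ Y ∧ Lc N E (t y).1 (t y).2.1 (t y).2.2 = L₂} ∪
        {y | y ∈ Y ∧ Lc N E (t y).1 (t y).2.1 (t y).2.2 = L₃}) := by
    ext y
    constructor
    · intro hy
      rcases hL _ ⟨y, hy, rfl⟩ with c | c | c
      · exact Or.inl ⟨hy, c⟩
      · exact Or.inr (Or.inl ⟨hy, c⟩)
      · exact Or.inr (Or.inr ⟨hy, c⟩)
    · rintro (c | c | c) <;> exact c.1
  have b1 := (Set.ncard_union_le _ _).trans (add_le_add (fib L₁)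
    ((Set.ncard_union_le _ _).trans (add_le_add (fib L₂) (fib L₃))))
  rw [← hsub] at b1
  omega

end E1XAux

theorem e1 (hS : Gen S) (ha : E1a S) (hb : E1b S) (hc : E1c S) : E1 S r := by
  intro N E h
  set k0 := (((S : Set Γ) ^ (r + 1)) ×ˢ ((S : Set Γ) ^ (r + 1)) ×ˢ
    ((S : Set Γ) ^ (r + 1))).ncard with hk0
  refine ⟨6 * k0, fun w => ?_⟩
  obtain ⟨f, hf⟩ := hc N E h ((6 * k0 + 1) * w + (r + 1))
  refine ⟨f, fun A hA hG x hx => ?_⟩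
  have c1 := E1XAux.count ha hb h hf hA hG x
  have c2 := E1XAux.count ha hb h hf (E1XAux.rev h hA)
    (by
      show f < (cob S (A 6)ᶜ ∩ cob S (A 0)ᶜ).ncard
      rwa [cob_compl, cob_compl, Set.inter_comm]) x
  generalize hD : Def S r (cob S (A 0) ∩ cob S (A 6)) = D at hx ⊢
  have fT : {y | y ∈ D ∧ Near S ((6 * k0 + 1) * w) x y}.Finite :=
    (ball_finite _ x).subset fun y hy => hy.2
  have cT : {y | y ∈ D ∧ Near S ((6 * k0 + 1) * w) x y}.ncard ≤ 6 * k0 := by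
    refine le_trans (Set.ncard_le_ncard ?_ (((ball_finite _ x).subset fun y hy => hy.1).union
      ((ball_finite _ x).subset fun y hy => hy.1))) ((Set.ncard_union_le _ _).trans
        ((add_le_add c1 c2).trans (by omega)))
    rintro y ⟨hy, hn⟩
    obtain ⟨t, ⟨a1, a2, a3, a4⟩, b1, b2, b3⟩ :=
      tree_event hS (hA.sub 0 6 (by omega) le_rfl) (hD ▸ hy)
    by_cases h3 : t.2.2 ∈ A 3
    · exact Or.inr ⟨hn, (t.2.1, t.1, t.2.2), ⟨a2, not_not.2 a1, a4, not_not.2 h3⟩, b2, b1, b3⟩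
    · exact Or.inl ⟨hn, t, ⟨a1, a2, a3, h3⟩, b1, b2, b3⟩
  obtain ⟨i, hi, hgap⟩ := gap_lemma hS fT cT w x
  have hsub : {y | y ∈ D ∧ Near S (i * w) x y} ⊆ {y | y ∈ D ∧ Near S ((6 * k0 + 1) * w) x y} :=
    fun y hy => ⟨hy.1, hy.2.mono hS (Nat.mul_le_mul_right _ (by omega))⟩
  refine ⟨{y | y ∈ D ∧ Near S (i * w) x y}, fT.subset hsub,
    (Set.ncard_le_ncard hsub fT).trans cT, ⟨hx, Near.refl hS _ _⟩, fun y hy z hz k => ⟨hz, ?_⟩⟩
  have a1 : Near S ((i + 1) * w) x z := by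
    rw [add_mul, one_mul]
    exact hy.2.trans k
  exact hgap z ⟨hz, a1.mono hS (Nat.mul_le_mul_right _ (by omega))⟩ a1

end Vale.Agent.P239
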