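import Vale.Agent.P239.BasY

/-! Labels are injective on translates. -/

namespace Vale.Agent.P239

open scoped Pointwise symmDiff
open Filter Topology

variable {Γ : Type*} [Group Γ] {S : Finset Γ} {r : ℕ}

namespace E1aXAux

variable {N : Set (Set Γ)} {E : Set Γ → Set Γ → Prop}

theorem tr_mono (g : Γ) {X Y : Set Γ} (h : X ⊆ Y) : tr g X ⊆ tr g Y := fun _ hx => h hx

theorem tr_inv (g : Γ) (X : Set Γ) : tr g (tr g⁻¹ X) = X := by
  ext x
  simp

theorem inv_tr (g : Γ) (X : Set Γ) : tr g⁻¹ (tr g X) = X := by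
  ext x
  simp

theorem lc_sub (h : CFam S N E) (g p q v : Γ) :
    tr g (Lc N E p q v) ⊆ Lc N E (g * p) (g * q) (g * v) := by
  rintro x ⟨C, ⟨c1, c2, c3, c4, C', d1, d2, d3, d4, d5, d6⟩, hx⟩
  refine ⟨tr g C, ⟨h.tr_mem _ c1 g, by simpa using c2, by simpa using c3, by simpa using c4,
    tr g C', h.tr_mem _ d1 g, by simpa using d2, by simpa using d3, by simpa using d4,
    tr_mono g d5, fun k => d6 ?_⟩, hx⟩
  have k1 := h.e_tr _ _ g⁻¹ k
  rwa [inv_tr, inv_tr] at k1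

theorem lc_tr (h : CFam S N E) (g p q v : Γ) :
    Lc N E (g * p) (g * q) (g * v) = tr g (Lc N E p q v) := by
  refine Set.Subset.antisymm ?_ (lc_sub h g p q v)
  have h1 := tr_mono g (lc_sub h g⁻¹ (g * p) (g * q) (g * v))
  rwa [tr_inv, inv_mul_cancel_left, inv_mul_cancel_left, inv_mul_cancel_left] at h1

/-- The common boundary of the members above `X` and below `L`. -/
def GG (S : Finset Γ) (N : Set (Set Γ)) (E : Set Γ → Set Γ → Prop) (L X : Set Γ) : Set (Γ × S) :=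
  {e | e ∈ cob S L ∧ ∀ C ∈ N, X ⊆ C → C ⊆ L → ¬ E X C → e ∈ cob S C}

theorem gg_tr (h : CFam S N E) {g : Γ} {L : Set Γ} (hL : tr g L = L) (X : Set Γ) :
    trE g (GG S N E L X) = GG S N E L (tr g X) := by
  have hL' : tr g⁻¹ L = L := by
    have h1 := inv_tr g L
    rwa [hL] at h1
  ext e
  constructor
  · rintro ⟨h1, h2⟩
    refine ⟨?_, fun C c1 c2 c3 c4 => ?_⟩
    · rw [← hL, cob_tr]
      exact h1
    · rw [← tr_inv g C, cob_tr]
      refine h2 _ (h.tr_mem _ c1 _) ?_ ?_ fun k => c4 ?_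
      · have h3 := tr_mono g⁻¹ c2
        rwa [inv_tr] at h3
      · have h3 := tr_mono g⁻¹ c3
        rwa [hL'] at h3
      · have h3 := h.e_tr _ _ g k
        rwa [tr_inv] at h3
  · rintro ⟨h1, h2⟩
    refine ⟨?_, fun C c1 c2 c3 c4 => ?_⟩
    · rw [← hL, cob_tr] at h1
      exact h1
    · have h3 := h2 (tr g C) (h.tr_mem _ c1 g) (tr_mono g c2) (hL ▸ tr_mono g c3) fun k => c4 (by
        have h4 := h.e_tr _ _ g⁻¹ k
        rwa [inv_tr, inv_tr] at h4)
      rw [cob_tr] at h3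
      exact h3

theorem gg_mono (h : CFam S N E) (L : Set Γ) {X X' : Set Γ} (hX : X ∈ N) (hX' : X' ∈ N)
    (h1 : X ⊆ X') (h2 : ¬ E X X') : GG S N E L X ⊆ GG S N E L X' :=
  fun _ he => ⟨he.1, fun C c1 c2 c3 _ =>
    he.2 C c1 (h1.trans c2) c3 fun k => h2 (h.ord X hX X' hX' C c1 h1 c2 k)⟩

theorem gg_equiv (h : CFam S N E) {L X X' : Set Γ} {q : Γ} (hX : X ∈ N) (hX' : X' ∈ N)
    (h1 : X' ⊆ L) (hq : q ∉ L) (h2 : E X X') : GG S N E L X' ⊆ GG S N E L X := by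
  refine fun _ he => ⟨he.1, fun C c1 c2 c3 c4 => ?_⟩
  have h3 : ¬ E X' C := fun k => c4 (h.trans X X' hX' C h2 k)
  refine he.2 C c1 ?_ c3 h3
  rcases h.nest X' hX' C c1 h3 with k | k | k | k
  · exact (c4 (h.ord X hX C c1 X'ᶜ (h.compl_mem _ hX') c2
      (fun x hx hx' => Set.eq_empty_iff_forall_notMem.1 k x ⟨hx', hx⟩) (h.e_compl _ _ h2))).elim
  · exact fun x hx => not_not.1 fun hx' => Set.eq_empty_iff_forall_notMem.1 k x ⟨hx, hx'⟩
  · exact (c4 (h.ord X hX C c1 X' hX' c2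
      (fun x hx => not_not.1 fun hx' => Set.eq_empty_iff_forall_notMem.1 k x ⟨hx', hx⟩) h2)).elim
  · exact (Set.eq_empty_iff_forall_notMem.1 k q ⟨fun hx => hq (h1 hx), fun hx => hq (c3 hx)⟩).elim

end E1aXAux

open E1aXAux in
theorem e1a (htf : ∀ g : Γ, IsOfFinOrder g → g = 1) : E1a S := by
  rintro N E h A hA h0 g p q v ⟨p0, q6, v6, v3⟩ ⟨gp0, -, -, -⟩ hL
  rw [lc_tr h] at hL
  set L := Lc N E p q v with hLdef
  have m0 := hA.mem 0 (by norm_num)
  have m6 := hA.mem 6 le_rfl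
  have s02 := hA.sub 0 2 (by norm_num) (by norm_num)
  have s23 := hA.sub 2 3 (by norm_num) (by norm_num)
  have s36 := hA.sub 3 6 (by norm_num) le_rfl
  have h2 : A 2 ⊆ L := Set.subset_sUnion_of_mem ⟨hA.mem 2 (by norm_num), s02 p0,
    fun k => q6 (s36 (s23 k)), fun k => v3 (s23 k), A 3, hA.mem 3 (by norm_num), s23 (s02 p0),
    fun k => q6 (s36 k), v3, s23, hA.ne 2 (by norm_num) 3 (by norm_num) (by norm_num)⟩
  have h6 : L ⊆ A 6 := by
    have key : ∀ C ∈ N, p ∈ C → q ∉ C → v ∉ C → ¬ E C (A 6) → C ⊆ A 6 := fun C c1 c2 c3 c4 c5 =>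
      (tree_cmp (h.nest C c1 _ m6 c5) c2 (s36 (s23 (s02 p0))) c3 q6).elim id
        fun k => (c4 (k v6)).elim
    refine Set.sUnion_subset ?_
    rintro C ⟨c1, c2, c3, c4, C', d1, d2, d3, d4, d5, d6⟩
    by_cases k : E C (A 6)
    · exact d5.trans (key C' d1 d2 d3 d4 fun k' => d6 (h.trans C _ m6 C' k (h.symm _ _ k')))
    · exact key C c1 c2 c3 c4 k
  have h0L : A 0 ⊆ L := s02.trans h2
  have hq : q ∉ L := fun k => q6 (h6 k)
  have hfin : (GG S N E L (A 0)).Finite := by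
    refine (h.fin _ (hA.mem 1 (by norm_num)) _ (hA.mem 2 (by norm_num))
      (hA.ne 1 (by norm_num) 2 (by norm_num) (by norm_num))).subset fun e he => ⟨?_, ?_⟩
    · exact he.2 _ (hA.mem 1 (by norm_num)) (hA.sub 0 1 (by norm_num) (by norm_num))
        ((hA.sub 1 2 (by norm_num) (by norm_num)).trans h2)
        (hA.ne 0 (by norm_num) 1 (by norm_num) (by norm_num))
    · exact he.2 _ (hA.mem 2 (by norm_num)) s02 h2
        (hA.ne 0 (by norm_num) 2 (by norm_num) (by norm_num))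
  have hne : (GG S N E L (A 0)).Nonempty := h0.mono fun e he =>
    ⟨(tree_mono h0L subset_rfl h6 he).1, fun C _ c2 c3 _ =>
      (tree_mono c2 subset_rfl (c3.trans h6) he).1⟩
  refine tree_T htf hfin hne ?_
  rw [gg_tr h hL]
  have m1 := h.tr_mem _ m0 g
  have s1 : tr g (A 0) ⊆ L := hL ▸ tr_mono g h0L
  by_cases k : E (A 0) (tr g (A 0))
  · exact Or.inl (gg_equiv h m0 m1 s1 hq k)
  · rcases tree_cmp (h.nest _ m0 _ m1 k) gp0 (by simpa using p0) (fun k' => hq (h0L k'))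
      (fun k' => hq (s1 k')) with k1 | k1
    · exact Or.inr (gg_mono h L m0 m1 k1 k)
    · exact Or.inl (gg_mono h L m1 m0 k1 fun k' => k (h.symm _ _ k'))

end Vale.Agent.P239
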