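import Vale.Agent.P239.BasY

/-! At most three labels of low events. -/

namespace Vale.Agent.P239

open scoped Pointwise symmDiff
open Filter Topology

variable {Γ : Type*} [Group Γ] {S : Finset Γ} {r : ℕ}

namespace E1bXAux

/-- Middle members. -/
def MM (N : Set (Set Γ)) (E : Set Γ → Set Γ → Prop) (A : ℕ → Set Γ) : Set (Set Γ) :=
  {C | C ∈ N ∧ A 1 ⊆ C ∧ C ⊆ A 6 ∧ ¬ E C (A 6)}

/-- Middle members strictly below a middle member missing `v`. -/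
def JJ (N : Set (Set Γ)) (E : Set Γ → Set Γ → Prop) (A : ℕ → Set Γ) (v : Γ) : Set (Set Γ) :=
  {C | C ∈ MM N E A ∧ ∃ C' ∈ MM N E A, v ∉ C' ∧ C ⊆ C' ∧ ¬ E C C'}

variable {N : Set (Set Γ)} {E : Set Γ → Set Γ → Prop} {A : ℕ → Set Γ} (h : CFam S N E)
  (hA : Chain7 N E A)
include h hA

theorem label {p q v : Γ} (ht : LowEv A (p, q, v)) :
    Lc N E p q v = ⋃₀ MM N E A ∨ Lc N E p q v = ⋃₀ JJ N E A v := by
  obtain ⟨hp, hq, hv, hv'⟩ : p ∈ A 0 ∧ q ∉ A 6 ∧ v ∈ A 6 ∧ v ∉ A 3 := ht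
  have m := hA.mem
  have pA : ∀ i ≤ 6, p ∈ A i := fun i hi => hA.sub 0 i (Nat.zero_le _) hi hp
  have qA : ∀ i ≤ 6, q ∉ A i := fun i hi k => hq (hA.sub i 6 hi le_rfl k)
  have below : ∀ C ∈ N, p ∈ C → q ∉ C → v ∉ C → ¬ E C (A 6) → C ⊆ A 6 := fun C c1 c2 c3 c4 c5 =>
    (tree_cmp (h.nest _ c1 _ (m 6 le_rfl) c5) c2 (pA 6 le_rfl) c3 hq).resolve_right
      fun k => c4 (k hv)
  have M2 : A 2 ∈ MM N E A := ⟨m 2 (by omega), hA.sub 1 2 (by omega) (by omega),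
    hA.sub 2 6 (by omega) le_rfl, hA.ne 2 (by omega) 6 le_rfl (by omega)⟩
  have J2 : A 2 ∈ JJ N E A v := ⟨M2, A 3, ⟨m 3 (by omega), hA.sub 1 3 (by omega) (by omega),
    hA.sub 3 6 (by omega) le_rfl, hA.ne 3 (by omega) 6 le_rfl (by omega)⟩, hv',
    hA.sub 2 3 (by omega) (by omega), hA.ne 2 (by omega) 3 (by omega) (by omega)⟩
  have key : ∀ C ∈ N, ∀ C' ∈ N, p ∈ C → q ∉ C → v ∉ C → p ∈ C' → q ∉ C' → v ∉ C' → C ⊆ C' →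
      ¬ E C C' → C ⊆ A 2 ∨ C ∈ MM N E A := fun C c1 C' d1 c2 c3 c4 d2 d3 d4 e1 e2 => by
    have a1 : ¬ E C (A 6) := fun k =>
      e2 (h.ord _ c1 _ d1 _ (m 6 le_rfl) e1 (below C' d1 d2 d3 d4 fun k' =>
        e2 (h.trans _ _ (m 6 le_rfl) _ k (h.symm _ _ k'))) k)
    refine Or.imp_right (fun k => ⟨c1, k, below C c1 c2 c3 c4 a1, a1⟩) ?_
    by_cases k : E C (A 1)
    · refine (tree_cmp (h.nest _ c1 _ (m 2 (by omega)) fun k' => ?_) c2 (pA 2 (by omega)) c3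
        (qA 2 (by omega))).imp_right fun k' => M2.2.1.trans k'
      exact hA.ne 1 (by omega) 2 (by omega) (by omega) (h.trans _ _ c1 _ (h.symm _ _ k) k')
    · exact (tree_cmp (h.nest _ c1 _ (m 1 (by omega)) k) c2 (pA 1 (by omega)) c3
        (qA 1 (by omega))).imp_left fun k' => k'.trans M2.2.1
  by_cases hc : ∃ C' ∈ N, E C' (A 6) ∧ p ∈ C' ∧ q ∉ C' ∧ v ∉ C'
  · obtain ⟨D, d1, d0, d2, d3, d4⟩ := hc
    refine Or.inl (Set.Subset.antisymm ?_ ?_)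
    · rintro x ⟨C, ⟨c1, c2, c3, c4, C', e1, e2, e3, e4, e5, e6⟩, hx⟩
      rcases key C c1 C' e1 c2 c3 c4 e2 e3 e4 e5 e6 with k | k
      exacts [⟨_, M2, k hx⟩, ⟨_, k, hx⟩]
    · rintro x ⟨C, ⟨c1, c2, c3, c4⟩, hx⟩
      have a1 : ¬ E C D := fun k => c4 (h.trans _ _ d1 _ k d0)
      have a2 := c2 (pA 1 (by omega))
      have a3 : q ∉ C := fun k => hq (c3 k)
      have a4 : C ⊆ D := (tree_cmp (h.nest _ c1 _ d1 a1) a2 d2 a3 d3).resolve_right fun k =>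
        a1 (h.symm _ _ (h.ord _ d1 _ c1 _ (m 6 le_rfl) k c3 d0))
      exact ⟨C, ⟨c1, a2, a3, fun k => d4 (a4 k), D, d1, d2, d3, d4, a4, a1⟩, hx⟩
  · refine Or.inr (Set.Subset.antisymm ?_ ?_)
    · rintro x ⟨C, ⟨c1, c2, c3, c4, C', e1, e2, e3, e4, e5, e6⟩, hx⟩
      rcases key C c1 C' e1 c2 c3 c4 e2 e3 e4 e5 e6 with k | k
      · exact ⟨_, J2, k hx⟩
      · have a1 : ¬ E C' (A 6) := fun k' => hc ⟨C', e1, k', e2, e3, e4⟩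
        exact ⟨C, ⟨k, C', ⟨e1, k.2.1.trans e5, below C' e1 e2 e3 e4 a1, a1⟩, e4, e5, e6⟩, hx⟩
    · rintro x ⟨C, ⟨⟨c1, c2, c3, -⟩, C', ⟨d1, d2, d3, -⟩, e1, e2, e3⟩, hx⟩
      exact ⟨C, ⟨c1, c2 (pA 1 (by omega)), fun k => hq (c3 k), fun k => e1 (e2 k), C', d1,
        d2 (pA 1 (by omega)), fun k => hq (d3 k), e1, e2, e3⟩, hx⟩

variable {p q : Γ} (hp : p ∈ A 0) (hq : q ∉ A 6)
include hp hq

theorem cmpM {C D : Set Γ} (hC : C ∈ MM N E A) (hD : D ∈ MM N E A) (k : ¬ E C D) :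
    C ⊆ D ∨ D ⊆ C :=
  have a := hA.sub 0 1 (by omega) (by omega) hp
  tree_cmp (h.nest _ hC.1 _ hD.1 k) (hC.2.1 a) (hD.2.1 a) (fun k => hq (hC.2.2.1 k))
    fun k => hq (hD.2.2.1 k)

theorem closed {v : Γ} {C D : Set Γ} (hC : C ∈ JJ N E A v) (hD : D ∈ MM N E A) (k : E C D) :
    D ∈ JJ N E A v := by
  obtain ⟨c, C', d, e1, e2, e3⟩ := hC
  have a1 : ¬ E D C' := fun k' => e3 (h.trans _ _ hD.1 _ k k')
  exact ⟨hD, C', d, e1, (cmpM h hA hp hq hD d a1).resolve_right fun k' =>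
    e3 (h.ord _ c.1 _ d.1 _ hD.1 e2 k' k), a1⟩

theorem down {v : Γ} {C D : Set Γ} (hC : C ∈ MM N E A) (hD : D ∈ JJ N E A v) (k : C ⊆ D) :
    C ∈ JJ N E A v := by
  by_cases k' : E C D
  · exact closed h hA hp hq hD hC (h.symm _ _ k')
  · obtain ⟨d, D', c, e1, e2, -⟩ := hD
    exact ⟨hC, D', c, e1, k.trans e2, fun k'' => k' (h.ord _ hC.1 _ d.1 _ c.1 k e2 k'')⟩

theorem cmpJ (v v' : Γ) : JJ N E A v ⊆ JJ N E A v' ∨ JJ N E A v' ⊆ JJ N E A v := by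
  by_contra hc
  rw [not_or, Set.not_subset, Set.not_subset] at hc
  obtain ⟨⟨C, c1, c2⟩, D, d1, d2⟩ := hc
  rcases cmpM h hA hp hq c1.1 d1.1 (fun k => d2 (closed h hA hp hq c1 d1.1 k)) with k | k
  exacts [c2 (down h hA hp hq c1.1 d1 k), d2 (down h hA hp hq d1.1 c1 k)]

theorem two {v₁ v₂ v₃ : Γ} (h1 : JJ N E A v₁ < JJ N E A v₂) (h2 : JJ N E A v₂ < JJ N E A v₃) :
    Two N E (A 0) (A 6) v₁ v₃ := by
  obtain ⟨Ca, ⟨a1, Ca', a2, a3, a4, a5⟩, a6⟩ := Set.exists_of_ssubset h1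
  obtain ⟨Cb, ⟨b1, Cb', b2, b3, b4, b5⟩, b6⟩ := Set.exists_of_ssubset h2
  have a7 : v₁ ∈ Ca' := not_not.1 fun k => a6 ⟨a1, Ca', a2, k, a4, a5⟩
  have b7 : v₂ ∈ Cb' := not_not.1 fun k => b6 ⟨b1, Cb', b2, k, b4, b5⟩
  have c1 : ¬ E Ca' Cb' := fun k => by
    have c2 : ¬ E Cb Ca' := fun k' => b5 (h.trans _ _ a2.1 _ k' k)
    rcases cmpM h hA hp hq b1 a2 c2 with k' | k'
    · exact b6 ⟨b1, Ca', a2, a3, k', c2⟩
    · exact c2 (h.symm _ _ (h.ord _ a2.1 _ b1.1 _ b2.1 k' b4 k))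
  have c2 : Ca' ⊆ Cb' := (cmpM h hA hp hq a2 b2 c1).resolve_right fun k => a3 (k b7)
  have s01 := hA.sub 0 1 (by omega) (by omega)
  have c3 : ∀ C ∈ MM N E A, ¬ E C (A 0) := fun C hC k =>
    hA.ne 0 (by omega) 1 (by omega) (by omega) (h.ord _ (hA.mem 0 (by omega)) _
      (hA.mem 1 (by omega)) _ hC.1 s01 hC.2.1 (h.symm _ _ k))
  refine ⟨Ca', a2.1, Cb', b2.1, c1, ?_⟩
  rintro C (rfl | rfl)
  · exact ⟨s01.trans a2.2.1, a2.2.2.1, c3 _ a2, a2.2.2.2, a7, fun k => b3 (c2 k)⟩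
  · exact ⟨s01.trans b2.2.1, b2.2.2.1, c3 _ b2, b2.2.2.2, c2 a7, b3⟩

end E1bXAux

open E1bXAux in
theorem e1b : E1b S := by
  intro N E h A hA Ev h1 h2
  obtain ⟨a, b, hab⟩ : ∃ a b, ∀ t ∈ Ev, JJ N E A t.2.2 = a ∨ JJ N E A t.2.2 = b := by
    by_contra hc
    push Not at hc
    obtain ⟨t1, e1, -⟩ := hc ∅ ∅
    obtain ⟨t2, e2, n1, -⟩ := hc (JJ N E A t1.2.2) ∅
    obtain ⟨t3, e3, n2, n3⟩ := hc (JJ N E A t1.2.2) (JJ N E A t2.2.2)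
    have c : ∀ v v' : Γ, JJ N E A v ≠ JJ N E A v' →
        JJ N E A v < JJ N E A v' ∨ JJ N E A v' < JJ N E A v := fun v v' k =>
      (cmpJ h hA (h1 t1 e1).1 (h1 t1 e1).2.1 v v').imp (fun k' => k'.ssubset_of_ne k)
        fun k' => k'.ssubset_of_ne k.symm
    obtain ⟨x, z, y, ⟨s1, f1, rfl⟩, ⟨s2, -, rfl⟩, ⟨s3, f3, rfl⟩, k1, k2⟩ :=
      tree_three (P := fun X => ∃ t ∈ Ev, JJ N E A t.2.2 = X) ⟨t1, e1, rfl⟩ ⟨t2, e2, rfl⟩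
        ⟨t3, e3, rfl⟩ (c _ _ n1.symm) (c _ _ n3.symm) (c _ _ n2.symm)
    exact h2 s1 f1 s3 f3 (two h hA (h1 t1 e1).1 (h1 t1 e1).2.1 k1 k2)
  refine ⟨⋃₀ MM N E A, ⋃₀ a, ⋃₀ b, fun t ht => (label h hA (h1 t ht)).imp_right fun k => ?_⟩
  rw [k]
  exact (hab t ht).imp (congrArg _) (congrArg _)

end Vale.Agent.P239
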