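import Vale.Agent.P239.BasY

/-! Uniform bound for the common boundary. -/

namespace Vale.Agent.P239

open scoped Pointwise symmDiff
open Filter Topology

variable {Γ : Type*} [Group Γ] {S : Finset Γ} {r : ℕ}

namespace E1cXAux

/-- members with the given pattern -/
def FF (N : Set (Set Γ)) (p q v v' : Γ) : Set (Set Γ) :=
  {C | C ∈ N ∧ p ∈ C ∧ q ∉ C ∧ v ∈ C ∧ v' ∉ C}

/-- the common boundary determined by a pattern -/
def Phi (S : Finset Γ) (N : Set (Set Γ)) (E : Set Γ → Set Γ → Prop) (p q v v' : Γ) (a b : Prop) :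
    Set (Γ × S) :=
  {e | ∀ C ∈ FF N p q v v', (a → ∃ C' ∈ FF N p q v v', C' ⊆ C ∧ ¬ E C' C) →
    (b → ∃ C' ∈ FF N p q v v', C ⊆ C' ∧ ¬ E C C') → e ∈ cob S C}

variable {N : Set (Set Γ)} {E : Set Γ → Set Γ → Prop} (h : CFam S N E)
include h

theorem base {p q v v' : Γ} {X Y : Set Γ} (hX : X ∈ N) (hY : Y ∈ N) (hXY : X ⊆ Y) (hp : p ∈ X)
    (hq : q ∉ Y) (hv : v ∉ X) (hv' : v' ∈ Y) (h2 : Two N E X Y v v') :
    ∃ a b : Prop, (cob S X ∩ cob S Y).ncard ≤ (Phi S N E p q v v' a b).ncard := by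
  have lo : ∀ C ∈ FF N p q v v', ¬ E C X → X ⊆ C := fun C hC k =>
    (tree_cmp (h.nest C hC.1 X hX k) hC.2.1 hp hC.2.2.1 fun k' => hq (hXY k')).resolve_left
      fun k' => hv (k' hC.2.2.2.1)
  have hi : ∀ C ∈ FF N p q v v', ¬ E C Y → C ⊆ Y := fun C hC k =>
    (tree_cmp (h.nest C hC.1 Y hY k) hC.2.1 (hXY hp) hC.2.2.1 hq).resolve_right
      fun k' => hC.2.2.2.2 (k' hv')
  have cm : ∀ C ∈ FF N p q v v', ∀ C' ∈ FF N p q v v', ¬ E C C' → C ⊆ C' ∨ C' ⊆ C :=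
    fun C hC C' hC' k => tree_cmp (h.nest C hC.1 C' hC'.1 k) hC.2.1 hC'.2.1 hC.2.2.1 hC'.2.2.1
  obtain ⟨C₁, m₁, C₂, m₂, hne, hC⟩ := h2
  have key : ∀ C ∈ N, C = C₁ ∨ C = C₂ → Phi S N E p q v v' (∃ C0 ∈ FF N p q v v', E C0 X)
      (∃ C0 ∈ FF N p q v v', E C0 Y) ⊆ cob S C := fun C m k e he => by
    obtain ⟨a1, a2, a3, a4, a5, a6⟩ := hC C k
    have hF : C ∈ FF N p q v v' := ⟨m, a1 hp, fun k' => hq (a2 k'), a5, a6⟩
    refine he C hF ?_ ?_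
    · rintro ⟨C0, b1, b2⟩
      have b3 : ¬ E C0 C := fun k' => a3 (h.trans _ _ b1.1 _ (h.symm _ _ k') b2)
      exact ⟨C0, b1, (cm C0 b1 C hF b3).resolve_right fun k' =>
        a3 (h.symm _ _ (h.ord X hX C m C0 b1.1 a1 k' (h.symm _ _ b2))), b3⟩
    · rintro ⟨C0, b1, b2⟩
      have b3 : ¬ E C C0 := fun k' => a4 (h.trans _ _ b1.1 _ k' b2)
      exact ⟨C0, b1, (cm C hF C0 b1 b3).resolve_right fun k' =>
        b3 (h.symm _ _ (h.ord C0 b1.1 C m Y hY k' a2 b2)), b3⟩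
  refine ⟨_, _, Set.ncard_le_ncard (fun e he C hF ha hb => ?_) ((h.fin C₁ m₁ C₂ m₂ hne).subset
    (Set.subset_inter (key C₁ m₁ (Or.inl rfl)) (key C₂ m₂ (Or.inr rfl))))⟩
  have a1 : ¬ E C X := fun k => by
    obtain ⟨C', b1, b2, b3⟩ := ha ⟨C, hF, k⟩
    have b4 : ¬ E C' X := fun k' => b3 (h.trans _ _ hX _ k' (h.symm _ _ k))
    exact b4 (h.symm _ _ (h.ord X hX C' b1.1 C hF.1 (lo C' b1 b4) b2 (h.symm _ _ k)))
  have a2 : ¬ E C Y := fun k => by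
    obtain ⟨C', b1, b2, b3⟩ := hb ⟨C, hF, k⟩
    have b4 : ¬ E C' Y := fun k' => b3 (h.trans _ _ hY _ k (h.symm _ _ k'))
    exact b3 (h.ord C hF.1 C' b1.1 Y hY b2 (hi C' b1 b4) k)
  exact (tree_mono (lo C hF a1) subset_rfl (hi C hF a2) he).1

theorem e_back {X Y : Set Γ} {g : Γ} (k : E (tr g X) (tr g Y)) : E X Y := by
  have := h.e_tr _ _ g⁻¹ k
  rwa [tr_tr, tr_tr, inv_mul_cancel, tr_one, tr_one] at this

theorem two_tr {X Y : Set Γ} {v v' : Γ} (g : Γ) (h2 : Two N E X Y v v') :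
    Two N E (tr g X) (tr g Y) (g * v) (g * v') := by
  obtain ⟨C₁, m₁, C₂, m₂, hne, hC⟩ := h2
  have key : ∀ C, C = C₁ ∨ C = C₂ → tr g X ⊆ tr g C ∧ tr g C ⊆ tr g Y ∧ ¬ E (tr g C) (tr g X) ∧
      ¬ E (tr g C) (tr g Y) ∧ g * v ∈ tr g C ∧ g * v' ∉ tr g C := fun C k => by
    obtain ⟨a1, a2, a3, a4, a5, a6⟩ := hC C k
    exact ⟨fun x hx => a1 hx, fun x hx => a2 hx, fun k' => a3 (e_back h k'),
      fun k' => a4 (e_back h k'), by simpa using a5, by simpa using a6⟩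
  refine ⟨_, h.tr_mem _ m₁ g, _, h.tr_mem _ m₂ g, fun k => hne (e_back h k), ?_⟩
  rintro C (rfl | rfl)
  exacts [key C₁ (Or.inl rfl), key C₂ (Or.inr rfl)]

end E1cXAux

open E1cXAux in
theorem e1c : E1c S := by
  intro N E h ρ
  have f := pow_finite S ρ
  obtain ⟨m, hm⟩ := ((((f.prod f).prod (f.prod f)).prod
    (Set.finite_univ (α := Prop × Prop))).image fun t : ((Γ × Γ) × Γ × Γ) × Prop × Prop =>
      (Phi S N E t.1.1.1 t.1.1.2 t.1.2.1 t.1.2.2 t.2.1 t.2.2).ncard).bddAbove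
  refine ⟨m, fun x p q v v' X hX Y hY a1 a2 a3 a4 hXY hp hq hv hv' h2 => ?_⟩
  obtain ⟨a, b, k⟩ := base h (p := x⁻¹ * p) (q := x⁻¹ * q) (h.tr_mem X hX x⁻¹) (h.tr_mem Y hY x⁻¹)
    (fun y hy => hXY hy) (by simpa using hp) (by simpa using hq) (by simpa using hv)
    (by simpa using hv') (two_tr h x⁻¹ h2)
  refine le_trans (le_of_eq_of_le ?_ k) (hm ⟨(((x⁻¹ * p, x⁻¹ * q), x⁻¹ * v, x⁻¹ * v'), a, b),
    ⟨⟨⟨a1, a2⟩, a3, a4⟩, trivial⟩, rfl⟩)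
  rw [cob_tr, cob_tr]
  exact (trE_ncard x⁻¹ (cob S X ∩ cob S Y)).symm

end Vale.Agent.P239
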