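import Vale.Agent.P239.Core2

/-! No localized infinite chain of inequivalent members. -/

namespace Vale.Agent.P239

open scoped Pointwise symmDiff
open Filter Topology

variable {Γ : Type*} [Group Γ] {S : Finset Γ} {r : ℕ}

namespace EPXAux

theorem fin (hS : Gen S) (hb : ∀ A : Set Γ, (cob S A).Finite → A.Finite ∨ Aᶜ.Finite)
    {X Y Y₀ Op Om : Set Γ} {β : Set (Γ × S)} {xp xm : Γ} {R : ℕ} (inf_p : Op.Infinite)
    (inf_m : Om.Infinite) (conn_p : Conn S Op) (conn_m : Conn S Om) (pX : Op ⊆ X)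
    (mX : ∀ x ∈ Om, x ∉ X) (pY : Op ⊆ Y) (mY : ∀ x ∈ Om, x ∉ Y) (hp : xp ∈ Op) (hn : xm ∈ Om)
    (Rp : Near S R 1 xp) (Rm : Near S R 1 xm) (b1 : (cob S Y₀).Finite)
    (b3 : (cob S X ∩ cob S Y) ∆ β = cob S Y₀) (D2 : ∀ e ∈ β, e.1 ∉ Op ∪ Om)
    (D3 : ∀ e ∈ β, ¬ Near S R 1 e.1) (ag : ∀ x, Near S (R + 1) 1 x → (x ∈ X ↔ x ∈ Y)) :
    False := by
  have c1 := conn_p Y₀ fun e a1 a2 => by
    have a3 : e ∉ β := fun k => D2 e k (Or.inl a1)
    have a4 : e ∉ cob S X := fun k => k (iff_of_true (pX a1) (pX a2))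
    rw [← b3]
    rintro (k | k)
    · exact a4 k.1.1
    · exact a3 k.1
  have c2 := conn_m Y₀ fun e a1 a2 => by
    have a3 : e ∉ β := fun k => D2 e k (Or.inr a1)
    have a4 : e ∉ cob S X := fun k => k (iff_of_false (mX _ a1) (mX _ a2))
    rw [← b3]
    rintro (k | k)
    · exact a4 k.1.1
    · exact a3 k.1
  have c3 : xp ∈ Y₀ ↔ xm ∈ Y₀ := by
    rcases hb Y₀ b1 with k | k
    · obtain ⟨y, y1, y2⟩ := inf_p.exists_notMem_finite k
      obtain ⟨z, z1, z2⟩ := inf_m.exists_notMem_finite k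
      exact iff_of_false (fun k' => y2 ((c1 _ hp _ y1).1 k')) fun k' => z2 ((c2 _ hn _ z1).1 k')
    · obtain ⟨y, y1, y2⟩ := inf_p.exists_notMem_finite k
      obtain ⟨z, z1, z2⟩ := inf_m.exists_notMem_finite k
      exact iff_of_true ((c1 _ hp _ y1).2 (not_not.1 y2)) ((c2 _ hn _ z1).2 (not_not.1 z2))
  have c4 : ∀ e : Γ × S, Near S R 1 e.1 → e ∉ cob S (Y₀ ∆ Y) := fun e k => by
    have a1 : e ∉ β := fun k' => D3 e k' k
    have a2 := ag _ (k.mono hS (Nat.le_succ R))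
    have a3 := ag _ (k.trans (near_edge e))
    have a4 : e ∈ cob S X ↔ e ∈ cob S Y := by rw [mem_cob, mem_cob, a2, a3]
    rw [cob_symmDiff, ← b3]
    simp only [Set.mem_symmDiff, Set.mem_inter_iff, a4]
    tauto
  have c5 := ball_const hS c4 Rp
  have c6 := ball_const hS c4 Rm
  have c7 := pY hp
  have c8 := mY _ hn
  have c9 := c5.symm.trans c6
  simp only [Set.mem_symmDiff] at c9
  tauto

end EPXAux

theorem ep (hS : Gen S) (hI : Ifc S r) (h1 : E1 S r) : EP S := by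
  intro N E hN A hA hmono hne hO
  obtain ⟨w, hw⟩ := hI.hc2
  obtain ⟨k, hk⟩ := h1 N E hN
  obtain ⟨m, hm⟩ := hk w
  obtain ⟨M, hM⟩ := hw k
  obtain ⟨Op, Om, inf_p, inf_m, conn_p, conn_m, hO⟩ := hO (r + M)
  have sub_p : ∀ i, Op ⊆ A i := fun i => (hO i).1
  have dis_m : ∀ i, ∀ x ∈ Om, x ∉ A i := fun i => (hO i).2.1
  obtain ⟨xp, hp⟩ := inf_p.nonempty
  obtain ⟨xm, hn⟩ := inf_m.nonempty
  let B : Set Γ := {x | ∀ᶠ i in (Filter.hyperfilter ℕ : Filter ℕ), x ∈ A i}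
  have B1 : (cob S B).Infinite := fun k => (hI.hb B k).elim
    (fun k' => inf_p (k'.subset fun x hx => Filter.Eventually.of_forall fun i => sub_p i hx))
    fun k' => inf_m (k'.subset fun x hx k'' => by
      obtain ⟨i, hi⟩ := Filter.Eventually.exists k''
      exact dis_m i x hx hi)
  obtain ⟨F, E1, E2, E3⟩ := B1.exists_subset_ncard_eq (m + 1)
  obtain ⟨R, hR⟩ := hS.finite_sub_ball (((E2.image Prod.fst).insert xp).insert xm) 1
  have I1 : ∀ᶠ i in (Filter.hyperfilter ℕ : Filter ℕ), ∀ x ∈ {y | Near S (R + M + r + r + 1) 1 y},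
      (x ∈ A i ↔ x ∈ B) := (Filter.eventually_all_finite (ball_finite _ _)).2 fun x _ => by
    by_cases k : x ∈ B
    · exact Filter.Eventually.mono k fun i hi => iff_of_true hi k
    · exact (Ultrafilter.eventually_not.2 k).mono fun i hi => iff_of_false hi k
  have I2 : {i | ∀ x ∈ {y | Near S (R + M + r + r + 1) 1 y}, (x ∈ A i ↔ x ∈ B)}.Infinite :=
    fun k => k.notMem_hyperfilter I1
  obtain ⟨φ, φ1, φ2⟩ : ∃ φ : ℕ → ℕ, StrictMono φ ∧
      ∀ n, ∀ x ∈ {y | Near S (R + M + r + r + 1) 1 y}, (x ∈ A (φ n) ↔ x ∈ B) :=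
    ⟨Nat.nth _, Nat.nth_strictMono I2, Nat.nth_mem_of_infinite I2⟩
  have hC : Chain7 N E fun n => A (φ n) :=
    ⟨fun i _ => hA _, fun i j hij _ => hmono (φ1.monotone hij),
      fun i _ j _ hij => hne _ _ (φ1.injective.ne hij)⟩
  have hm' := hm _ hC
  have hi := φ2 0
  have hl := φ2 6
  have hsub := hC.sub 0 6 (by omega) le_rfl
  have G1 := hN.fin _ (hA _) _ (hA _) (hC.ne 0 (by omega) 6 le_rfl (by omega))
  clear hC φ1 φ2
  generalize φ 0 = i at *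
  generalize φ 6 = l at *
  have ag : ∀ n x, n ≤ R + M + r + r + 1 → Near S n 1 x → (x ∈ A i ↔ x ∈ A l) :=
    fun n x k k' => (hi x (k'.mono hS k)).trans (hl x (k'.mono hS k)).symm
  have G2 : m < (cob S (A i) ∩ cob S (A l)).ncard := by
    refine lt_of_lt_of_le (by omega) (E3.ge.trans (Set.ncard_le_ncard (fun e he => ?_) G1))
    have a1 := hR e.1 (Or.inr (Or.inr ⟨e, he, rfl⟩))
    have a2 := (a1.trans (near_edge e)).mono hS (show R + 1 ≤ R + M + r + r + 1 by omega)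
    have a3 := a1.mono hS (show R ≤ R + M + r + r + 1 by omega)
    have a4 := E1 he
    simp only [Set.mem_inter_iff, mem_cob] at a4 ⊢
    rw [hi _ a2, hi _ a3, hl _ a2, hl _ a3]
    exact ⟨a4, a4⟩
  obtain ⟨β, Y₀, b1, b2, b3⟩ := hM _ (Def.finite hS G1) (hm' G2)
  have D1 : ∀ x ∈ Def S r (cob S (A i) ∩ cob S (A l)), ¬ Near S (R + M + r) 1 x := fun x hx k => by
    obtain ⟨t, t1, t2⟩ := tree_event hS hsub hx
    exact t1.2.2.2 ((ag _ _ (by omega) (k.trans t2.2.2)).2 t1.2.2.1)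
  have D2 : ∀ e ∈ β, e.1 ∉ Op ∪ Om := fun e he k => by
    obtain ⟨x, hx, k1⟩ := b2 e he
    obtain ⟨e', he', k2⟩ := Def.exists_edge hx
    exact (hO l).2.2 e'.1 ⟨e'.2, he'.2⟩ _ k ((k2.symm hS).trans k1)
  have D3 : ∀ e ∈ β, ¬ Near S R 1 e.1 := fun e he k => by
    obtain ⟨x, hx, k1⟩ := b2 e he
    exact D1 x hx ((k.trans (k1.symm hS)).mono hS (by omega))
  exact EPXAux.fin hS hI.hb inf_p inf_m conn_p conn_m (sub_p i) (dis_m i) (sub_p l) (dis_m l) hp hn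
    (hR xp (Or.inr (Or.inl rfl))) (hR xm (Or.inl rfl)) (b3 ▸ G1.symmDiff b1) b3 D2 D3
    fun x k => ag (R + 1) x (by omega) k

end Vale.Agent.P239
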