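import Vale.Agent.P239.Core

namespace Vale.Agent.P239

open scoped Pointwise symmDiff Matrix

variable {Γ : Type*} [Group Γ] {S : Finset Γ} {r : ℕ}

namespace Ess

/-- tails of the wall outside `K` -/
def T0 (S : Finset Γ) (A K : Set Γ) : Set Γ := {x | x ∉ K ∧ ∃ s : S, (x, s) ∈ cob S A}

/-- the part of the wall with tails in `U` -/
def WU (S : Finset Γ) (A U : Set Γ) : Set (Γ × S) := {e | e ∈ cob S A ∧ e.1 ∈ U}

/-- unions of coarse components of `T` -/
def Sat (S : Finset Γ) (w : ℕ) (T U : Set Γ) : Prop :=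
  U ⊆ T ∧ ∀ a ∈ U, ∀ b ∈ T, Near S w a b → b ∈ U

def cls (S : Finset Γ) (w : ℕ) (T : Set Γ) (x : Γ) : Set Γ :=
  {y | Relation.ReflTransGen (fun a b => b ∈ T ∧ Near S w a b) x y}

/-- walls that do not separate -/
def NSep (S : Finset Γ) (O : Set Γ) (W : Set (Γ × S)) : Prop :=
  ∃ (β : Set (Γ × S)) (C : Set Γ), β.Finite ∧ W ∆ β = cob S C ∧ (O ∩ C).Finite

variable {w : ℕ} {T U A K O : Set Γ} {x : Γ}

theorem cls_sub (hx : x ∈ T) : cls S w T x ⊆ T := by
  intro y hy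
  induction hy with
  | refl => exact hx
  | tail _ h _ => exact h.1

theorem cls_sat (hx : x ∈ T) : Sat S w T (cls S w T x) :=
  ⟨cls_sub hx, fun _ ha _ hb h => Relation.ReflTransGen.tail ha ⟨hb, h⟩⟩

theorem cls_conn (x : Γ) : CConn S w (cls S w T x) := by
  intro A hA
  have : ∀ y ∈ cls S w T x, (x ∈ A ↔ y ∈ A) := by
    intro y hy
    induction hy with
    | refl => rfl
    | tail hb h ih => exact ih.trans (hA _ hb _ (Relation.ReflTransGen.tail hb h) h.2)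
  intro y hy z hz
  exact (this y hy).symm.trans (this z hz)

theorem cls_disj (hS : Gen S) (hU : Sat S w T U) (hx : x ∈ T) (hxU : x ∉ U) :
    ∀ y ∈ cls S w T x, y ∉ U := by
  intro y hy
  induction hy with
  | refl => exact hxU
  | tail hb h ih => exact fun hc => ih (hU.2 _ hc _ (cls_sub hx hb) (h.2.symm hS))

theorem def_sub (hS : Gen S) (hU : Sat S (2 * r) (T0 S A K) U) (hx : x ∈ Def S r (WU S A U)) :
    (∃ k ∈ K, Near S r x k) ∧ ∃ u ∈ U, Near S r x u := by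
  obtain ⟨e, he, hn⟩ := Def.exists_edge hx
  refine ⟨?_, e.1, he.2, hn⟩
  by_contra hc
  refine hx ⟨A, fun e' he' => ⟨fun h => h.1, fun h => ⟨h, ?_⟩⟩⟩
  refine hU.2 _ he.2 _ ⟨fun hk => hc ⟨_, hk, he'⟩, e'.2, h⟩ ?_
  rw [two_mul]
  exact (hn.symm hS).trans he'

theorem NSep.add {W W' : Set (Γ × S)} (h : NSep S O W) (h' : NSep S O W') :
    NSep S O (W ∆ W') := by
  obtain ⟨β, C, h1, h2, h3⟩ := h
  obtain ⟨β', C', h1', h2', h3'⟩ := h'
  refine ⟨β ∆ β', C ∆ C', h1.symmDiff h1', ?_, (h3.union h3').subset ?_⟩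
  · rw [cob_symmDiff, ← h2, ← h2', symmDiff_symmDiff_symmDiff_comm]
  · rintro y ⟨hy, h | h⟩
    · exact Or.inl ⟨hy, h.1⟩
    · exact Or.inr ⟨hy, h.1⟩

theorem NSep.of_finite {W : Set (Γ × S)} (h : W.Finite) : NSep S O W :=
  ⟨W, ∅, h, by simp, by simp⟩

theorem not_nsep (hI : Iface S r) {Op Om : Set Γ} (hp : Op.Infinite) (hm : Om.Infinite)
    (h1 : Op ⊆ A) (h2 : ∀ x ∈ Om, x ∉ A) : ¬ NSep S (Op ∪ Om) (cob S A) := by
  rintro ⟨β, C, hβ, e, hf⟩
  have e' : cob S (A ∆ C) = β := by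
    rw [cob_symmDiff, ← e, symmDiff_symmDiff_cancel_left]
  rcases hI.hb (A ∆ C) (e' ▸ hβ) with h | h
  · refine hp ((h.union hf).subset fun y hy => ?_)
    by_cases hc : y ∈ C
    · exact Or.inr ⟨Or.inl hy, hc⟩
    · exact Or.inl (Or.inl ⟨h1 hy, hc⟩)
  · refine hm ((h.union hf).subset fun y hy => ?_)
    by_cases hc : y ∈ C
    · exact Or.inr ⟨Or.inr hy, hc⟩
    · refine Or.inl ?_
      rintro (h | h)
      · exact h2 y hy h.1
      · exact hc h.1

theorem exists_sat (hS : Gen S) (h : ∀ x ∈ T, NSep S O (WU S A (cls S w T x))) {Z : Set Γ}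
    (hZ : Z.Finite) : ∃ U, Sat S w T U ∧ NSep S O (WU S A U) ∧ ∀ z ∈ Z, z ∈ T → z ∈ U := by
  induction Z, hZ using Set.Finite.induction_on with
  | empty =>
    refine ⟨∅, ⟨Set.empty_subset _, fun a ha => absurd ha (Set.notMem_empty a)⟩,
      NSep.of_finite (Set.finite_empty.subset fun e he => he.2), by simp⟩
  | @insert a Z _ _ ih =>
    obtain ⟨U, h1, h2, h3⟩ := ih
    by_cases ha : a ∈ T → a ∈ U
    · refine ⟨U, h1, h2, ?_⟩
      rintro z (rfl | hz)
      · exact ha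
      · exact h3 z hz
    · rw [Classical.not_imp] at ha
      have h4 := cls_sat (S := S) (w := w) ha.1
      refine ⟨U ∪ cls S w T a, ⟨Set.union_subset h1.1 h4.1, ?_⟩, ?_, ?_⟩
      · rintro y (hy | hy) b hb hn
        · exact Or.inl (h1.2 y hy b hb hn)
        · exact Or.inr (h4.2 y hy b hb hn)
      · convert h2.add (h a ha.1) using 1
        ext e
        have := cls_disj hS h1 ha.1 ha.2 e.1
        simp only [WU, Set.mem_symmDiff, Set.mem_ofPred_eq, Set.mem_union]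
        tauto
      · rintro z (rfl | hz) hT
        · exact Or.inr Relation.ReflTransGen.refl
        · exact Or.inl (h3 z hz hT)

end Ess

open Ess in
theorem essProp (hS : Gen S) (hI : Iface S r) : EssProp S r := by
  intro A Op Om K hp hm cp cm h1 h2 hK hyp
  by_contra hne
  have hcls : ∀ x ∈ T0 S A K, NSep S (Op ∪ Om) (WU S A (cls S (2 * r) (T0 S A K) x)) := by
    intro x hx
    have hs := cls_sat (S := S) (w := 2 * r) hx
    have hf : (Def S r (WU S A (cls S (2 * r) (T0 S A K) x))).Finite :=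
      (nbhd_finite' hS r hK).subset fun y hy => (def_sub hS hs hy).1
    obtain ⟨C0, q, -, -, -, hc⟩ := hI.hc1
    obtain ⟨β, C, hβ, -, e⟩ := hc _ _ hf Nat.lt_two_pow_self.le
    have e' : WU S A (cls S (2 * r) (T0 S A K) x) ∆ β = cob S Cᶜ := by rw [cob_compl, e]
    obtain ⟨a | a, b | b⟩ := hyp _ β C (fun e he => ⟨he.1, (hs.1 he.2).1⟩) hβ e
    · exact ⟨β, C, hβ, e, by rw [Set.union_inter_distrib_right]; exact a.union b⟩
    · exact absurd ⟨_, Cᶜ, β, hs.1, cls_conn x, hβ, e', by rwa [Set.sdiff_compl], b⟩ hne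
    · exact absurd ⟨_, C, β, hs.1, cls_conn x, hβ, e, a, b⟩ hne
    · exact ⟨β, Cᶜ, hβ, e', by rw [Set.union_inter_distrib_right]; exact a.union b⟩
  obtain ⟨p, hpp⟩ := hp.nonempty
  obtain ⟨m, hmm⟩ := hm.nonempty
  obtain ⟨n, hn⟩ := hS.exists_near p m
  obtain ⟨U, hU, hN, hZ⟩ := exists_sat hS hcls
    ((nbhd_finite (S := S) (2 * r) hK).union (ball_finite (S := S) n p))
  have hR : Sat S (2 * r) (T0 S A K) (T0 S A K \ U) :=
    ⟨Set.sdiff_subset, fun a ha b hb h => ⟨hb, fun hc => ha.2 (hU.2 b hc a ha.1 (h.symm hS))⟩⟩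
  obtain ⟨C, hC⟩ := hI.ha (WU S A (T0 S A K \ U)) (by
    refine Set.eq_empty_of_forall_notMem fun x hx => ?_
    obtain ⟨⟨k, hk, hk'⟩, u, hu, hu'⟩ := def_sub hS hR hx
    refine hu.2 (hZ u (Or.inl ⟨k, hk, ?_⟩) hu.1)
    rw [two_mul]
    exact (hk'.symm hS).trans hu')
  have hsub : ∀ e, e ∈ cob S C → e ∈ cob S A ∧ e.1 ∈ T0 S A K \ U := fun e he => by
    rw [← hC] at he
    exact he
  have c1 := cp C fun e a b he => (hsub e he).1 ⟨fun _ => h1 b, fun _ => h1 a⟩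
  have c2 := cm C fun e a b he =>
    (hsub e he).1 ⟨fun h => absurd h (h2 _ a), fun h => absurd h (h2 _ b)⟩
  have c3 : p ∈ C ↔ m ∈ C := ball_const hS
    (fun e he hc => (hsub e hc).2.2 (hZ _ (Or.inr he) (hsub e hc).2.1)) hn
  have c4 : ∀ y ∈ Op ∪ Om, (p ∈ C ↔ y ∈ C) := by
    rintro y (hy | hy)
    · exact c1 p hpp y hy
    · exact c3.trans (c2 m hmm y hy)
  have hN' : NSep S (Op ∪ Om) (WU S A (T0 S A K \ U)) := by
    by_cases hc : p ∈ C
    · exact ⟨∅, Cᶜ, Set.finite_empty, by simp [hC],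
        Set.finite_empty.subset fun y hy => hy.2 ((c4 y hy.1).1 hc)⟩
    · exact ⟨∅, C, Set.finite_empty, by simp [hC],
        Set.finite_empty.subset fun y hy => hc ((c4 y hy.1).2 hy.2)⟩
  have hN'' : NSep S (Op ∪ Om) (WU S A K) :=
    NSep.of_finite ((edges_finite hK).subset fun e he => he.2)
  refine not_nsep hI hp hm h1 h2 ?_
  convert hN''.add (hN.add hN') using 1
  ext e
  have a1 : e.1 ∈ U → e.1 ∈ T0 S A K := fun h => hU.1 h
  have a2 : e.1 ∈ T0 S A K → e.1 ∉ K := fun h => h.1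
  have a3 : e ∈ cob S A → e.1 ∉ K → e.1 ∈ T0 S A K := fun h h' => ⟨h', e.2, h⟩
  simp only [WU, Set.mem_symmDiff, Set.mem_ofPred_eq, Set.mem_sdiff]
  revert a1 a2 a3
  generalize (e ∈ cob S A) = P
  generalize (e.1 ∈ K) = Q
  generalize (e.1 ∈ U) = R
  generalize (e.1 ∈ T0 S A K) = T
  clear * -
  by_cases P <;> by_cases Q <;> by_cases R <;> by_cases T <;> simp [*]

end Vale.Agent.P239
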