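import Vale.Agent.P239.BasY

/-! Existence of an essential coarse component of a coarsely connected wall. -/

namespace Vale.Agent.P239

open scoped Pointwise symmDiff
open Filter Topology

variable {Γ : Type*} [Group Γ] {S : Finset Γ} {r : ℕ}

namespace EssXAux

/-- the part of the wall with tails in `U` -/
def WU (S : Finset Γ) (A U : Set Γ) : Set (Γ × S) := {e | e ∈ cob S A ∧ e.1 ∈ U}

/-- unions of coarse components of `T` -/
def Sat (S : Finset Γ) (w : ℕ) (T U : Set Γ) : Prop :=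
  U ⊆ T ∧ ∀ a ∈ U, ∀ b ∈ T, Near S w a b → b ∈ U

/-- walls that do not separate -/
def NSep (S : Finset Γ) (O : Set Γ) (W : Set (Γ × S)) : Prop :=
  ∃ C : Set Γ, (W ∆ cob S C).Finite ∧ (O ∩ C).Finite

variable {w : ℕ} {T U A K O : Set Γ} {x : Γ}

theorem cls_sat (hx : x ∈ T) : Sat S w T (ccomp S w T x) :=
  ⟨ccomp_subset hx, fun _ ha _ hb h => ccomp_step ha hb h⟩

theorem cls_disj (hS : Gen S) (hU : Sat S w T U) (hx : x ∈ T) (hxU : x ∉ U) :
    ∀ y ∈ ccomp S w T x, y ∉ U := by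
  intro y hy
  have hy' : Relation.ReflTransGen (fun a b => b ∈ T ∧ Near S w a b) x y := hy
  clear hy
  induction hy' with
  | refl => exact hxU
  | tail hb h ih => exact fun hc => ih (hU.2 _ hc _ (ccomp_subset hx hb) (h.2.symm hS))

theorem def_sub (hS : Gen S) (hU : Sat S (2 * r) (tails S A \ K) U)
    (hx : x ∈ Def S r (WU S A U)) : ∃ k ∈ K, Near S r x k := by
  obtain ⟨⟨y, -, hyU, hy⟩, z, hz, hzU, hz'⟩ := def_split (C := A) (Y := U) hx
  by_contra hc
  refine hzU (hU.2 y hyU z ⟨hz, fun hk => hc ⟨z, hk, hz'⟩⟩ ?_)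
  rw [two_mul]
  exact (hy.symm hS).trans hz'

theorem NSep.add {W W' : Set (Γ × S)} (h : NSep S O W) (h' : NSep S O W') :
    NSep S O (W ∆ W') := by
  obtain ⟨C, h1, h3⟩ := h
  obtain ⟨C', h1', h3'⟩ := h'
  refine ⟨C ∆ C', ?_, (h3.union h3').subset ?_⟩
  · rw [cob_symmDiff, symmDiff_symmDiff_symmDiff_comm]
    exact h1.symmDiff h1'
  · rintro y ⟨hy, h | h⟩
    · exact Or.inl ⟨hy, h.1⟩
    · exact Or.inr ⟨hy, h.1⟩

theorem NSep.of_finite {W : Set (Γ × S)} (h : W.Finite) : NSep S O W :=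
  ⟨∅, by rw [cob_empty]; exact h.symmDiff Set.finite_empty, by simp⟩

theorem not_nsep (hI : Ifc S r) {Op Om : Set Γ} (hp : Op.Infinite) (hm : Om.Infinite)
    (h1 : Op ⊆ A) (h2 : ∀ x ∈ Om, x ∉ A) : ¬ NSep S (Op ∪ Om) (cob S A) := by
  rintro ⟨C, e, hf⟩
  rw [← cob_symmDiff] at e
  rcases hI.hb (A ∆ C) e with h | h
  · refine hp ((h.union hf).subset fun y hy => ?_)
    by_cases hc : y ∈ C
    · exact Or.inr ⟨Or.inl hy, hc⟩
    · exact Or.inl (Or.inl ⟨h1 hy, hc⟩)
  · refine hm ((h.union hf).subset fun y hy => ?_)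
    by_cases hc : y ∈ C
    · exact Or.inr ⟨Or.inr hy, hc⟩
    · refine Or.inl ?_
      rintro (h | h)
      · exact h2 y hy h.1
      · exact hc h.1

theorem WU_union (h : ∀ y ∈ T, y ∉ U) : WU S A (U ∪ T) = WU S A U ∆ WU S A T := by
  ext e
  have := h e.1
  simp only [WU, Set.mem_symmDiff, Set.mem_ofPred_eq, Set.mem_union]
  tauto

theorem exists_sat (hS : Gen S) (h : ∀ x ∈ T, NSep S O (WU S A (ccomp S w T x))) {Z : Set Γ}
    (hZ : Z.Finite) : ∃ U, Sat S w T U ∧ NSep S O (WU S A U) ∧ ∀ z ∈ Z, z ∈ T → z ∈ U := by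
  induction Z, hZ using Set.Finite.induction_on with
  | empty =>
    refine ⟨∅, ⟨Set.empty_subset _, fun a ha => absurd ha (Set.notMem_empty a)⟩,
      NSep.of_finite (Set.finite_empty.subset fun e he => he.2), by simp⟩
  | @insert a Z _ _ ih =>
    obtain ⟨U, h1, h2, h3⟩ := ih
    by_cases ha : a ∈ T → a ∈ U
    · refine ⟨U, h1, h2, ?_⟩
      rintro z (rfl | hz)
      · exact ha
      · exact h3 z hz
    · rw [Classical.not_imp] at ha
      have h4 := cls_sat (S := S) (w := w) ha.1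
      refine ⟨U ∪ ccomp S w T a, ⟨Set.union_subset h1.1 h4.1, ?_⟩, ?_, ?_⟩
      · rintro y (hy | hy) b hb hn
        · exact Or.inl (h1.2 y hy b hb hn)
        · exact Or.inr (h4.2 y hy b hb hn)
      · rw [WU_union (cls_disj hS h1 ha.1 ha.2)]
        exact h2.add (h a ha.1)
      · rintro z (rfl | hz) hT
        · exact Or.inr (mem_ccomp_self _ _ _)
        · exact Or.inl (h3 z hz hT)

theorem tails_diff_finite {C : Set Γ} (h : (WU S A U ∆ cob S C).Finite) :
    (tails S C \ U).Finite := by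
  refine (tails_finite h).subset ?_
  rintro y ⟨⟨s, hs⟩, hy⟩
  exact ⟨s, Or.inr ⟨hs, fun hw => hy hw.2⟩⟩

end EssXAux

open EssXAux in
theorem ess (hS : Gen S) (hI : Ifc S r) : ESS S r := by
  intro A Op Om K hA hp hm h1 h2 hK hyp
  by_contra hne
  have hcls : ∀ x ∈ tails S A \ K,
      NSep S (Op ∪ Om) (WU S A (ccomp S (2 * r) (tails S A \ K) x)) := by
    intro x hx
    have hs := cls_sat (S := S) (w := 2 * r) hx
    have hf : (Def S r (WU S A (ccomp S (2 * r) (tails S A \ K) x))).Finite :=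
      (nbhd_finite' hS r hK).subset fun y hy => def_sub hS hs hy
    obtain ⟨C, e⟩ := Ifc.part hS hI (A := A) (Y := ccomp S (2 * r) (tails S A \ K) x) hf
    have e0 : (WU S A (ccomp S (2 * r) (tails S A \ K) x) ∆ cob S C).Finite := e
    have e' : (WU S A (ccomp S (2 * r) (tails S A \ K) x) ∆ cob S Cᶜ).Finite := by
      rw [cob_compl]; exact e0
    obtain ⟨a | a, b | b⟩ := hyp _ C hs.1 (ccomp_cconn _ _ x) (tails_diff_finite e0)
    · exact ⟨C, e0, by rw [Set.union_inter_distrib_right]; exact a.union b⟩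
    · exact absurd ⟨_, Cᶜ, hs.1, ccomp_cconn _ _ x, tails_diff_finite e',
        by rwa [Set.sdiff_compl], b⟩ hne
    · exact absurd ⟨_, C, hs.1, ccomp_cconn _ _ x, tails_diff_finite e0, a, b⟩ hne
    · exact ⟨Cᶜ, e', by rw [Set.union_inter_distrib_right]; exact a.union b⟩
  obtain ⟨p, hpp⟩ : ∃ p : Γ, ∀ x ∈ tails S A \ K, p ∈ tails S A \ K := by
    by_cases h : (tails S A \ K).Nonempty
    · exact ⟨h.some, fun _ _ => h.some_mem⟩
    · exact ⟨1, fun x hx => absurd ⟨x, hx⟩ h⟩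
  obtain ⟨U, hU, hN, hZ⟩ := exists_sat hS hcls
    ((nbhd_finite (S := S) (2 * r) hK).union (Set.finite_singleton p))
  have step : ∀ x ∈ tails S A, ∀ y ∈ tails S A, Near S (2 * r) x y → x ∈ U ∪ K → y ∈ U ∪ K := by
    intro x _ y hy hn hx
    by_cases hk : y ∈ K
    · exact Or.inr hk
    · rcases hx with hx | hx
      · exact Or.inl (hU.2 x hx y ⟨hy, hk⟩ hn)
      · exact Or.inl (hZ y (Or.inl ⟨x, hx, hn⟩) ⟨hy, hk⟩)
  have hall : ∀ x ∈ tails S A, x ∈ U ∪ K := by
    intro x hx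
    by_cases hk : x ∈ K
    · exact Or.inr hk
    · have hp' := hpp x ⟨hx, hk⟩
      exact (hA (U ∪ K) (fun a ha b hb hn => ⟨step a ha b hb hn, step b hb a ha (hn.symm hS)⟩)
        p hp'.1 x hx).1 (Or.inl (hZ p (Or.inr rfl) hp'))
  have hN'' : NSep S (Op ∪ Om) (WU S A K) :=
    NSep.of_finite ((edges_finite hK).subset fun e he => he.2)
  have hE : cob S A = WU S A (U ∪ K) :=
    Set.Subset.antisymm (fun e he => ⟨he, hall _ ⟨e.2, he⟩⟩) fun e he => he.1
  refine not_nsep hI hp hm h1 h2 ?_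
  rw [hE, WU_union fun y hy hu => (hU.1 hu).2 hy]
  exact hN.add hN''

end Vale.Agent.P239
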