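import Vale.Agent.P239.ASB
import Vale.Agent.P239.BasY

namespace Vale.Agent.P239.AS

open scoped Pointwise symmDiff
open Filter Topology

variable {Γ : Type*} [Group Γ] {E : Type*} [TopologicalSpace E] [T2Space E] [MulAction Γ E]
  [ContinuousConstSMul Γ E] {S : Finset Γ} {π : E → Γ} {x₀ : E} {r₀ : ℕ} {K₀ : Set E}

namespace FWXAux

open Classical in
/-- The one point cochain of a vertex set. -/
noncomputable def ch {Γ E : Type*} (π : E → Γ) (A : Set Γ) : Co (ZMod 2) E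
  | [y] => if π y ∈ A then 1 else 0
  | _ => 0

theorem deg_ch {Γ E : Type*} (π : E → Γ) (A : Set Γ) : Deg 1 (ch π A)
  | [], _ => rfl
  | [_], h => absurd rfl h
  | _ :: _ :: _, _ => rfl

theorem ch_empty {Γ E : Type*} (π : E → Γ) : ch π ∅ = 0 := by
  funext l
  match l with
  | [] => rfl
  | [_] => simp [ch]
  | _ :: _ :: _ => rfl

omit [T2Space E] [ContinuousConstSMul Γ E] [TopologicalSpace E] [MulAction Γ E] in
theorem deg_fW (W : Set (Γ × S)) : Deg 2 (fW S π W)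
  | [], _ => rfl
  | [_], _ => rfl
  | [_, _], h => absurd rfl h
  | _ :: _ :: _ :: _, _ => rfl

omit [T2Space E] [ContinuousConstSMul Γ E] in
theorem loc_van (h : Net S π x₀ r₀ K₀) {W : Set (Γ × S)} {A : Set Γ} {x : E}
    (hW : ∀ e : Γ × S, Near S 1 (π x) e.1 → (e ∈ W ↔ e ∈ cob S A)) :
    Van (fW S π W - d (ch π A)) x := by
  obtain ⟨U, hU, hl⟩ := h.loc x
  refine ⟨U, hU, fun l hlU => ?_⟩
  by_cases h2 : l.length = 2
  · obtain ⟨y, y', rfl⟩ := List.length_eq_two.1 h2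
    have hy := hlU y (by simp)
    have h3 := hl y hy y' (hlU y' (by simp))
    have h4 := hW (π y, ⟨_, h3⟩) (by simpa [Near] using hl x (mem_of_mem_nhds hU) y hy)
    simp only [mem_cob, mul_inv_cancel_left] at h4
    have h5 : (∃ h : (π y)⁻¹ * π y' ∈ S, (π y, (⟨_, h⟩ : S)) ∈ W) ↔ ¬ (π y ∈ A ↔ π y' ∈ A) :=
      ⟨fun ⟨_, q⟩ => h4.1 q, fun q => ⟨h3, h4.2 q⟩⟩
    rw [Pi.sub_apply, d_pair]
    simp only [fW, ch]
    by_cases p : π y ∈ A <;> by_cases q : π y' ∈ A
    · rw [if_neg (h5.not.2 (by tauto)), if_pos p, if_pos q]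
      rfl
    · rw [if_pos (h5.2 (by tauto)), if_pos p, if_neg q]
      rfl
    · rw [if_pos (h5.2 (by tauto)), if_neg p, if_pos q]
      rfl
    · rw [if_neg (h5.not.2 (by tauto)), if_neg p, if_neg q]
      rfl
  · exact ((deg_fW W).sub (deg_ch π A).d) l h2

omit [T2Space E] [ContinuousConstSMul Γ E] in
theorem base (h : Net S π x₀ r₀ K₀) (g : Γ) : π (g • x₀) = g := by
  rw [h.eqv, h.base, mul_one]

theorem two (p q : Prop) [Decidable p] [Decidable q] (a b : ZMod 2)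
    (h : (if p then 1 else 0) - a = (if q then 1 else 0) - b) : (p ↔ q) ↔ (a = 1 ↔ b = 1) := by
  revert a b
  by_cases hp : p <;> by_cases hq : q <;> simp only [hp, hq] <;> decide

end FWXAux

open FWXAux

omit [T2Space E] in
theorem fw (h : Net S π x₀ r₀ K₀) : FW S π x₀ r₀ := by
  classical
  refine fun W => ⟨deg_fW W, fun x hx => ?_, fun a b hab e he hb => ?_⟩
  · obtain ⟨A, hA⟩ := not_not.1 hx
    have := (loc_van h fun e he => hA e (he.mono h.gen (by omega))).d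
    rwa [map_sub, d_d, sub_zero] at this
  · obtain ⟨A, hA⟩ := not_not.1 he
    obtain ⟨P, hP, p1, p2, p3⟩ := h.path e.2 e.2.2
    have key := const_of_preconnected (a := ch π A - a)
      (hP.image (fun y => e.1 • y) (continuous_const_smul _).continuousOn) (by
        rintro _ ⟨y, hy, rfl⟩
        have hn : Near S r₀ e.1 (π (e.1 • y)) := by simpa [Near, h.eqv] using p3 y hy
        have := ((hab.2 _ (Set.mem_univ _)).sub
          (loc_van h fun e' he' => hA e' (hn.trans he'))).add (hb _ hn)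
        convert this using 1
        rw [map_sub]
        abel) ⟨_, p1, rfl⟩ ⟨_, p2, rfl⟩
    rw [hA e (Near.refl h.gen _ _), mem_cob, mem_cob]
    simp only [Pi.sub_apply, ch, smul_smul, base h] at key
    exact not_congr (two _ _ _ _ key)

omit [T2Space E] [ContinuousConstSMul Γ E] in
theorem ifc_ha (h : Net S π x₀ r₀ K₀) (h1 : FW S π x₀ r₀) (h2 : G1 E) (W : Set (Γ × S))
    (hW : Def S (r₀ + 1) W = ∅) : ∃ A, W = cob S A := by
  have _ := h
  obtain ⟨f1, f2, f3⟩ := h1 W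
  obtain ⟨a, -, ha⟩ := h2 _ f1 ⟨rfl, fun x _ => f2 x (by simp [hW])⟩
  exact ⟨_, Set.ext fun e => f3 a 0 (by rwa [sub_zero]) e (by simp [hW]) fun y _ => Van.zero y⟩

omit [T2Space E] in
theorem ifc_hb (h : Net S π x₀ r₀ K₀) (h1 : FW S π x₀ r₀)
    (h2 : HC (ZMod 2) 2 (Set.univ : Set E)) (A : Set Γ) (hA : (cob S A).Finite) :
    A.Finite ∨ Aᶜ.Finite := by
  obtain ⟨f1, f2, f3⟩ := h1 (cob S A)
  have hD : ∀ g, g ∉ Def S (r₀ + 1) (cob S A) := fun g hg => hg ⟨A, fun _ _ => Iff.rfl⟩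
  have hF := nbhd_finite' h.gen 1 (tails_finite hA)
  have hS : fW S π (cob S A) ∈ Sc (ZMod 2) (Set.univ : Set E) := by
    refine ⟨_, hF.isCompact_biUnion fun g _ => h.cpt.image (continuous_const_smul g),
      Set.subset_univ _, rfl, fun x hx => ?_⟩
    have := loc_van h (W := cob S A) (A := ∅) (x := x) fun e he => by
      rw [cob_empty]
      exact iff_of_false (fun h' => hx (Set.mem_biUnion (x := π x) ⟨e.1, ⟨e.2, h'⟩, he⟩
        ⟨_, h.mem x, smul_inv_smul _ _⟩)) (Set.notMem_empty _)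
    rwa [ch_empty, map_zero, sub_zero] at this
  obtain ⟨g, ⟨K, k1, -, k2⟩, hg⟩ := h2 _ ⟨f1, hS, rfl, fun x _ => f2 x (hD _)⟩
  have e1 : cob S A = cob S {γ : Γ | g [γ • x₀] = 1} :=
    Set.ext fun e => f3 g 0 (by rwa [sub_zero]) e (hD _) fun y _ => Van.zero y
  have hfin : {γ : Γ | g [γ • x₀] = 1}.Finite := by
    refine (h.prop K k1).subset fun γ hγ => ⟨γ • x₀, ?_, base h γ⟩
    by_contra hn
    obtain ⟨U, hU, hz⟩ := k2.2 _ hn
    have := hz [γ • x₀] (by simpa using mem_of_mem_nhds hU)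
    exact zero_ne_one (this.symm.trans hγ)
  have e2 := conn_univ h.gen (A ∆ {γ : Γ | g [γ • x₀] = 1}) fun e _ _ => by
    rw [cob_symmDiff, e1, symmDiff_self]
    exact Set.notMem_empty _
  by_cases p : (1 : Γ) ∈ A ∆ {γ : Γ | g [γ • x₀] = 1}
  · refine Or.inr (hfin.subset fun x hx => ?_)
    rcases (e2 1 trivial x trivial).1 p with q | q
    · exact absurd q.1 hx
    · exact q.1
  · refine Or.inl (hfin.subset fun x hx => ?_)
    by_contra q
    exact p ((e2 1 trivial x trivial).2 (Or.inl ⟨hx, q⟩))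

end Vale.Agent.P239.AS
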