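import Vale.Agent.P239.Core

/-! The closed nested family generated by a system of cuts. -/

namespace Vale.Agent.P239

open scoped Pointwise symmDiff Matrix

variable {Γ : Type*} [Group Γ] {S : Finset Γ} {r : ℕ}

namespace Fam

/-- Translates of the cuts and their complements. -/
def basic (B : ℕ × ℕ → Set Γ) (g : Γ) (σ : Prop) (n : ℕ × ℕ) : Set Γ :=
  {x | g⁻¹ * x ∈ B n ↔ σ}

/-- Sets that agree on each finite set with two basic sets of different index. -/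
def fam (B : ℕ × ℕ → Set Γ) : Set (Set Γ) :=
  {X | ∀ K : Finset Γ, ∃ g σ n m, n ≠ m ∧
    ∀ x ∈ K, (x ∈ X ↔ x ∈ basic B g σ n) ∧ (x ∈ X ↔ x ∈ basic B g σ m)}

omit [Group Γ] in
theorem not_nested {X Y : Set Γ} : ¬ Nested X Y ↔ ∃ a b c d, (a ∈ X ∧ a ∈ Y) ∧
    (b ∈ X ∧ b ∉ Y) ∧ (c ∉ X ∧ c ∈ Y) ∧ (d ∉ X ∧ d ∉ Y) := by
  simp only [Nested, not_or, ← ne_eq, ← Set.nonempty_iff_ne_empty]
  constructor
  · rintro ⟨⟨a, ha⟩, ⟨b, hb⟩, ⟨c, hc⟩, ⟨d, hd⟩⟩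
    exact ⟨a, b, c, d, ha, hb, hc, hd⟩
  · rintro ⟨a, b, c, d, ha, hb, hc, hd⟩
    exact ⟨⟨a, ha⟩, ⟨b, hb⟩, ⟨c, hc⟩, ⟨d, hd⟩⟩

variable {B : ℕ × ℕ → Set Γ} {Op Om : Set Γ}

theorem basic_nest (h : CutSys S B Op Om) {n m : ℕ × ℕ} (hnm : n ≠ m) (g g' : Γ) (σ σ' : Prop) :
    Nested (basic B g σ n) (basic B g' σ' m) := by
  by_contra hc
  obtain ⟨a, b, c, d, ha, hb, hc, hd⟩ := not_nested.1 hc
  refine not_nested.2 ?_ (h.nest n m hnm (g'⁻¹ * g))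
  have key : ∀ x, g'⁻¹ * x ∈ tr (g'⁻¹ * g) (B n) ↔ g⁻¹ * x ∈ B n := fun x => by
    simp [mul_assoc]
  simp only [basic, Set.mem_ofPred_eq] at ha hb hc hd
  by_cases h1 : σ <;> by_cases h2 : σ' <;>
    simp only [h1, h2, iff_true, iff_false, not_not] at ha hb hc hd
  · refine ⟨g'⁻¹ * a, g'⁻¹ * b, g'⁻¹ * c, g'⁻¹ * d, ?_⟩
    simp only [key]
    exact ⟨ha, hb, hc, hd⟩
  · refine ⟨g'⁻¹ * b, g'⁻¹ * a, g'⁻¹ * d, g'⁻¹ * c, ?_⟩
    simp only [key]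
    exact ⟨hb, ha, hd, hc⟩
  · refine ⟨g'⁻¹ * c, g'⁻¹ * d, g'⁻¹ * a, g'⁻¹ * b, ?_⟩
    simp only [key]
    exact ⟨hc, hd, ha, hb⟩
  · refine ⟨g'⁻¹ * d, g'⁻¹ * c, g'⁻¹ * b, g'⁻¹ * a, ?_⟩
    simp only [key]
    exact ⟨hd, hc, hb, ha⟩

theorem fam_basic (h : CutSys S B Op Om) {X : Set Γ} (hX : X ∈ fam B) (g : Γ) (σ : Prop)
    (n : ℕ × ℕ) : Nested X (basic B g σ n) := by
  classical
  by_contra hc
  obtain ⟨a, b, c, d, ha, hb, hc, hd⟩ := not_nested.1 hc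
  obtain ⟨g', σ', k, k', hk, hK⟩ := hX {a, b, c, d}
  have h1 := hK a (by simp)
  have h2 := hK b (by simp)
  have h3 := hK c (by simp)
  have h4 := hK d (by simp)
  by_cases hkn : k = n
  · refine not_nested.2 ⟨a, b, c, d, ?_⟩ (basic_nest h (hkn ▸ hk.symm : k' ≠ n) g' g σ' σ)
    exact ⟨⟨h1.2.1 ha.1, ha.2⟩, ⟨h2.2.1 hb.1, hb.2⟩, ⟨fun e => hc.1 (h3.2.2 e), hc.2⟩,
      fun e => hd.1 (h4.2.2 e), hd.2⟩
  · refine not_nested.2 ⟨a, b, c, d, ?_⟩ (basic_nest h hkn g' g σ' σ)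
    exact ⟨⟨h1.1.1 ha.1, ha.2⟩, ⟨h2.1.1 hb.1, hb.2⟩, ⟨fun e => hc.1 (h3.1.2 e), hc.2⟩,
      fun e => hd.1 (h4.1.2 e), hd.2⟩

theorem fam_nest (h : CutSys S B Op Om) {X Y : Set Γ} (hX : X ∈ fam B) (hY : Y ∈ fam B) :
    Nested X Y := by
  classical
  by_contra hc
  obtain ⟨a, b, c, d, ha, hb, hc, hd⟩ := not_nested.1 hc
  obtain ⟨g, σ, k, k', -, hK⟩ := hY {a, b, c, d}
  have h1 := (hK a (by simp)).1
  have h2 := (hK b (by simp)).1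
  have h3 := (hK c (by simp)).1
  have h4 := (hK d (by simp)).1
  refine not_nested.2 ⟨a, b, c, d, ?_⟩ (fam_basic h hX g σ k)
  exact ⟨⟨ha.1, h1.1 ha.2⟩, ⟨hb.1, fun e => hb.2 (h2.2 e)⟩, ⟨hc.1, h3.1 hc.2⟩,
    hd.1, fun e => hd.2 (h4.2 e)⟩

theorem squeeze {X Z C : Set Γ} (hX : Nested X C) (hZ : Nested Z C) (hXZ : X ⊆ Z) {p q u v : Γ}
    (hp : p ∈ X) (hq : q ∉ Z) (hu : u ∉ X) (hv : v ∈ Z) (h1 : p ∈ C) (h2 : q ∉ C) (h3 : u ∈ C)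
    (h4 : v ∉ C) : cob S X ∩ cob S Z ⊆ cob S C := by
  have e1 : ∀ x ∈ X, x ∈ C := fun x hx => by
    by_contra hc
    exact not_nested.2 ⟨p, x, u, q, ⟨hp, h1⟩, ⟨hx, hc⟩, ⟨hu, h3⟩, fun e => hq (hXZ e), h2⟩ hX
  have e2 : ∀ x ∈ C, x ∈ Z := fun x hx => by
    by_contra hc
    exact not_nested.2 ⟨p, v, x, q, ⟨hXZ hp, h1⟩, ⟨hv, h4⟩, ⟨hc, hx⟩, hq, h2⟩ hZ
  rintro e ⟨he1, he2⟩
  simp only [mem_cob] at he1 he2 ⊢
  have a1 := e1 e.1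
  have a2 := e1 (e.1 * e.2)
  have a3 := e2 e.1
  have a4 := e2 (e.1 * e.2)
  tauto

theorem cob_basic (g : Γ) (σ : Prop) (n : ℕ × ℕ) :
    cob S (basic B g σ n) = trE g (cob S (B n)) := by
  ext e
  simp only [mem_cob, basic, Set.mem_ofPred_eq, mem_trE, mul_assoc]
  tauto

theorem fam_star (h : CutSys S B Op Om) {X Y Z : Set Γ} (hX : X ∈ fam B) (hY : Y ∈ fam B)
    (hZ : Z ∈ fam B) (h1 : X ⊂ Y) (h2 : Y ⊂ Z) : (cob S X ∩ cob S Z).Finite := by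
  classical
  rcases (cob S X ∩ cob S Z).eq_empty_or_nonempty with h0 | ⟨e, he1, he2⟩
  · rw [h0]; exact Set.finite_empty
  simp only [mem_cob] at he1 he2
  obtain ⟨p, hp⟩ : ∃ p, p ∈ X := by
    by_cases h3 : e.1 ∈ X
    · exact ⟨_, h3⟩
    · exact ⟨e.1 * e.2, by tauto⟩
  obtain ⟨q, hq⟩ : ∃ q, q ∉ Z := by
    by_cases h3 : e.1 ∈ Z
    · exact ⟨e.1 * e.2, by tauto⟩
    · exact ⟨_, h3⟩
  obtain ⟨u, huY, huX⟩ := Set.exists_of_ssubset h1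
  obtain ⟨v, hvZ, hvY⟩ := Set.exists_of_ssubset h2
  obtain ⟨g, σ, n, m, hnm, hK⟩ := hY {p, q, u, v}
  have k1 := hK p (by simp)
  have k2 := hK q (by simp)
  have k3 := hK u (by simp)
  have k4 := hK v (by simp)
  have hXZ : X ⊆ Z := h1.subset.trans h2.subset
  have hqY : q ∉ Y := fun e => hq (h2.subset e)
  have s1 := squeeze (S := S) (fam_basic h hX g σ n) (fam_basic h hZ g σ n) hXZ hp hq huX hvZ
    (k1.1.1 (h1.subset hp)) (fun e => hqY (k2.1.2 e)) (k3.1.1 huY) (fun e => hvY (k4.1.2 e))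
  have s2 := squeeze (S := S) (fam_basic h hX g σ m) (fam_basic h hZ g σ m) hXZ hp hq huX hvZ
    (k1.2.1 (h1.subset hp)) (fun e => hqY (k2.2.2 e)) (k3.2.1 huY) (fun e => hvY (k4.2.2 e))
  rw [cob_basic] at s1 s2
  exact (trE_finite g (h.fin n m hnm)).subset fun e he => ⟨s1 he, s2 he⟩

/-- The ultralimit of the cuts in a row. -/
def lim (B : ℕ × ℕ → Set Γ) (i : ℕ) : Set Γ :=
  {x | ∀ᶠ l in (Filter.hyperfilter ℕ : Filter ℕ), x ∈ B (i, l)}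

omit [Group Γ] in
theorem lim_ev (i : ℕ) (x : Γ) :
    ∀ᶠ l in (Filter.hyperfilter ℕ : Filter ℕ), (x ∈ lim B i ↔ x ∈ B (i, l)) := by
  by_cases hx : x ∈ lim B i
  · exact Filter.Eventually.mono hx fun l hl => ⟨fun _ => hl, fun _ => hx⟩
  · exact (Ultrafilter.eventually_not.2 hx).mono fun l hl => ⟨fun e => (hx e).elim,
      fun e => (hl e).elim⟩

theorem lim_mem (i : ℕ) : lim B i ∈ fam B := by
  intro K
  have h1 : ∀ᶠ l in (Filter.hyperfilter ℕ : Filter ℕ), ∀ x ∈ K, (x ∈ lim B i ↔ x ∈ B (i, l)) :=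
    (Filter.eventually_all_finset K).2 fun x _ => lim_ev i x
  obtain ⟨l, hl⟩ := h1.exists
  have h2 : ∀ᶠ l' in (Filter.hyperfilter ℕ : Filter ℕ), l' ≠ l :=
    Filter.hyperfilter_le_cofinite (Filter.eventually_cofinite_ne l)
  obtain ⟨l', hl', hne⟩ := (h1.and h2).exists
  refine ⟨1, True, (i, l), (i, l'), fun e => hne (Prod.ext_iff.1 e).2.symm, fun x hx => ?_⟩
  simp only [basic, inv_one, one_mul, iff_true, Set.mem_ofPred_eq]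
  exact ⟨hl x hx, hl' x hx⟩

theorem lim_cob {i : ℕ} {e : Γ × S} (he : e ∈ cob S (lim B i)) : ∃ l, e ∈ cob S (B (i, l)) := by
  obtain ⟨l, h1, h2⟩ := ((lim_ev (B := B) i e.1).and (lim_ev (B := B) i (e.1 * e.2))).exists
  refine ⟨l, ?_⟩
  rw [mem_cob] at he ⊢
  rwa [← h1, ← h2]

end Fam

open Fam in
theorem nfam (hS : Gen S) (hI : Iface S r) {B : ℕ × ℕ → Set Γ} {Op Om : Set Γ}
    (h : CutSys S B Op Om) : ∃ N A, NFam S N A Op Om := by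
  classical
  have hp : ∀ i, Op ⊆ lim B i := fun i x hx =>
    Filter.Eventually.of_forall fun l => h.sub_p (i, l) hx
  have hm : ∀ i, ∀ x ∈ Om, x ∉ lim B i := fun i x hx hc => by
    obtain ⟨l, hl⟩ := Filter.Eventually.exists hc
    exact h.dis_m _ x hx hl
  refine ⟨fam B, lim B, ?_, ?_, fun X hX Y hY => fam_nest h hX hY, ?_,
    fun X hX Y hY Z hZ => fam_star h hX hY hZ, lim_mem, ?_, h.inf_p, h.inf_m, h.conn_p,
    h.conn_m, hp, hm, fun M => ?_⟩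
  · intro X hX g K
    obtain ⟨g', σ, n, m, hnm, hK⟩ := hX (K.image fun x => g⁻¹ * x)
    refine ⟨g * g', σ, n, m, hnm, fun x hx => ?_⟩
    have := hK _ (Finset.mem_image_of_mem _ hx)
    simpa only [basic, Set.mem_ofPred_eq, mem_tr, mul_inv_rev, mul_assoc] using this
  · intro X hX K
    obtain ⟨g, σ, n, m, hnm, hK⟩ := hX K
    refine ⟨g, ¬ σ, n, m, hnm, fun x hx => ?_⟩
    have := hK x hx
    simp only [basic, Set.mem_ofPred_eq, Set.mem_compl_iff] at this ⊢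
    tauto
  · intro X hX K
    obtain ⟨Y, hY, hXY⟩ := hX K
    obtain ⟨g, σ, n, m, hnm, hK⟩ := hY K
    exact ⟨g, σ, n, m, hnm, fun x hx =>
      ⟨(hXY x hx).trans (hK x hx).1, (hXY x hx).trans (hK x hx).2⟩⟩
  · intro i i' hii
    by_contra hne
    obtain ⟨K, hK, hsub⟩ := h.fin2 i i' hne
    have hf : (cob S (lim B i)).Finite := hK.subset fun e he => by
      obtain ⟨l, hl⟩ := lim_cob he
      obtain ⟨l', hl'⟩ := lim_cob (hii ▸ he : e ∈ cob S (lim B i'))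
      exact hsub l l' ⟨hl, hl'⟩
    rcases hI.hb _ hf with h1 | h1
    · exact h.inf_p (h1.subset (hp i))
    · exact h.inf_m (h1.subset (hm i))
  · obtain ⟨K, hK, hfar⟩ := h.far M
    refine ⟨K, hK, fun i e he => ?_⟩
    obtain ⟨l, hl⟩ := lim_cob he
    exact hfar _ e hl

end Vale.Agent.P239
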