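import Vale.Agent.P239.BasY

/-! Existence of a frame: the closure of the orbit of a monotone function. -/

namespace Vale.Agent.P239

open scoped Pointwise symmDiff
open Filter Topology

variable {Γ : Type} [Group Γ] {S : Finset Γ}

namespace FrameXAux

/-- Summable weights. -/
structure Wt (w : Γ → ℝ) : Prop where
  pos : ∀ g, 0 < w g
  le1 : ∀ g, w g ≤ 1
  one : w 1 = 1
  summ : Summable w

theorem exists_wt (hS : Gen S) : ∃ w : Γ → ℝ, Wt w := by
  classical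
  have := hS.countable
  obtain ⟨f, hf⟩ := exists_injective_nat Γ
  refine ⟨Function.update (fun g => ((1 : ℝ) / 2) ^ f g) 1 1, fun g => ?_, fun g => ?_,
    Function.update_self _ _ _, (summable_geometric_two.comp_injective hf).update _ _⟩
  · by_cases h : g = 1
    · rw [h, Function.update_self]
      exact one_pos
    · rw [Function.update_of_ne h]
      positivity
  · by_cases h : g = 1
    · rw [h, Function.update_self]
    · rw [Function.update_of_ne h]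
      exact pow_le_one₀ (by norm_num) (by norm_num)

variable {w : Γ → ℝ}

theorem Wt.fin (hw : Wt w) {ε : ℝ} (hε : 0 < ε) : {g | ε < w g}.Finite :=
  (hw.summ.tendsto_cofinite_zero.eventually (gt_mem_nhds hε)).subset
    fun g (h : ε < w g) (h' : w g < ε) => lt_asymm h h'

/-- Values in the unit interval. -/
def Un (ξ : Γ → ℝ) : Prop := ∀ g, 0 ≤ ξ g ∧ ξ g ≤ 1

/-- The weighted distance. -/
noncomputable def dd (w ξ ζ : Γ → ℝ) : ℝ := ⨆ g, w g * |ξ g - ζ g|

variable {ξ ζ χ : Γ → ℝ}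

omit [Group Γ] in
theorem Un.abs (h : Un ξ) (h' : Un ζ) (g : Γ) : |ξ g - ζ g| ≤ 1 := by
  rw [abs_le]
  constructor <;> linarith [(h g).1, (h g).2, (h' g).1, (h' g).2]

theorem le_dd (hw : Wt w) (h : Un ξ) (h' : Un ζ) (g : Γ) : w g * |ξ g - ζ g| ≤ dd w ξ ζ := by
  refine le_ciSup (f := fun g => w g * |ξ g - ζ g|) ⟨1, ?_⟩ g
  rintro _ ⟨g, rfl⟩
  exact mul_le_one₀ (hw.le1 g) (abs_nonneg _) (h.abs h' g)

theorem dd_le {c : ℝ} (h : ∀ g, w g * |ξ g - ζ g| ≤ c) : dd w ξ ζ ≤ c := ciSup_le h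

theorem dd_le' (hw : Wt w) (h : Un ξ) (h' : Un ζ) {ε : ℝ}
    (h1 : ∀ g, ε < w g → |ξ g - ζ g| ≤ ε) : dd w ξ ζ ≤ ε := by
  refine dd_le fun g => ?_
  rcases lt_or_ge ε (w g) with h2 | h2
  · exact (mul_le_of_le_one_left (abs_nonneg _) (hw.le1 g)).trans (h1 g h2)
  · exact (mul_le_of_le_one_right (hw.pos g).le (h.abs h' g)).trans h2

theorem dd_self (ξ : Γ → ℝ) : dd w ξ ξ = 0 := by simp [dd]

omit [Group Γ] in
theorem dd_comm (ξ ζ : Γ → ℝ) : dd w ξ ζ = dd w ζ ξ := by simp only [dd, abs_sub_comm]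

theorem dd_tri (hw : Wt w) (h : Un ξ) (h' : Un ζ) (h'' : Un χ) :
    dd w ξ χ ≤ dd w ξ ζ + dd w ζ χ := by
  refine dd_le fun g => le_trans ?_ (add_le_add (le_dd hw h h' g) (le_dd hw h' h'' g))
  rw [← mul_add]
  exact mul_le_mul_of_nonneg_left (abs_sub_le _ _ _) (hw.pos g).le

theorem dd_eq (hw : Wt w) (h : Un ξ) (h' : Un ζ) (h0 : dd w ξ ζ = 0) : ξ = ζ := by
  funext g
  have h1 := le_dd hw h h' g
  rw [h0] at h1
  have h2 := nonpos_of_mul_nonpos_right h1 (hw.pos g)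
  exact sub_eq_zero.1 (abs_nonpos_iff.1 h2)

theorem dd_open (hw : Wt w) {A : Set (Γ → ℝ)} (hA : ∀ ξ ∈ A, Un ξ) (s : Set A) :
    IsOpen s ↔ ∀ x ∈ s, ∃ ε > 0, ∀ y : A, dd w x.1 y.1 < ε → y ∈ s := by
  rw [isOpen_iff_mem_nhds]
  refine forall₂_congr fun x _ => ⟨fun h => ?_, fun ⟨ε, hε, h⟩ => ?_⟩
  · have h1 : Tendsto id (⨅ ε > (0 : ℝ), 𝓟 {y : A | dd w x.1 y.1 < ε}) (𝓝 x) := by
      refine tendsto_subtype_rng.2 (tendsto_pi_nhds.2 fun g => Metric.tendsto_nhds.2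
        fun ε hε => ?_)
      refine mem_iInf_of_mem (w g * ε) (mem_iInf_of_mem (mul_pos (hw.pos g) hε)
        (mem_principal.2 fun y hy => ?_))
      have h2 := (le_dd hw (hA _ x.2) (hA _ y.2) g).trans_lt hy
      rw [abs_sub_comm] at h2
      exact lt_of_mul_lt_mul_left h2 (hw.pos g).le
    have h2 := hasBasis_biInf_principal (S := Set.Ioi (0 : ℝ))
      (s := fun ε => {y : A | dd w x.1 y.1 < ε})
      (fun a ha b hb => ⟨min a b, Set.mem_Ioi.2 (lt_min (Set.mem_Ioi.1 ha) (Set.mem_Ioi.1 hb)),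
        fun y (hy : _ < min a b) => (lt_min_iff.1 hy).1,
        fun y (hy : _ < min a b) => (lt_min_iff.1 hy).2⟩) ⟨1, Set.mem_Ioi.2 one_pos⟩
    exact h2.mem_iff.1 (h1 h)
  · have h1 : ∀ᶠ y : A in 𝓝 x, ∀ g ∈ {g | ε / 2 < w g}, |x.1 g - y.1 g| ≤ ε / 2 := by
      refine (eventually_all_finite (hw.fin (half_pos hε))).2 fun g _ => ?_
      have h2 : Continuous fun y : A => |x.1 g - y.1 g| :=
        (continuous_const.sub ((continuous_apply g).comp continuous_subtype_val)).abs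
      refine ((h2.tendsto x).eventually (gt_mem_nhds ?_)).mono fun y hy => le_of_lt hy
      simpa using hε
    exact h1.mono fun y hy =>
      h y ((dd_le' hw (hA _ x.2) (hA _ y.2) hy).trans_lt (half_lt_self hε))

/-- The orbit map. -/
def io (u : Γ → ℝ) (y : Γ) : Γ → ℝ := fun g => u (g * y)

variable {u : Γ → ℝ}

theorem energy (hw : Wt w) (hu : FinEn S u) : ∃ ω : Γ → ℝ, (∀ x, 0 ≤ ω x) ∧
    (Summable fun x => ω x ^ 2) ∧ ∀ y, ∀ s ∈ S, dd w (io u (y * s)) (io u y) ≤ ω y := by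
  obtain ⟨ω, h0, h1, h2⟩ := oscProp S u hu 1
  have h3 : Summable fun g => w g ^ 2 := Summable.of_nonneg_of_le (fun _ => sq_nonneg _)
    (fun g => by nlinarith [hw.pos g, hw.le1 g]) hw.summ
  have h4 := (Equiv.prodShear (Equiv.refl Γ) fun g => Equiv.mulLeft g).summable_iff.2
    (h3.mul_of_nonneg h1 (fun _ => sq_nonneg _) fun _ => sq_nonneg _)
  have h5 : Summable fun p : Γ × Γ => w p.2 ^ 2 * ω (p.2 * p.1) ^ 2 := h4.prod_symm
  refine ⟨fun y => √(∑' g, w g ^ 2 * ω (g * y) ^ 2), fun _ => Real.sqrt_nonneg _,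
    h5.prod.congr fun y => (Real.sq_sqrt (tsum_nonneg fun g => by positivity)).symm,
    fun y s hs => dd_le fun g => ?_⟩
  refine le_trans (mul_le_mul_of_nonneg_left (h2 (g * y) (g * (y * s)) ?_) (hw.pos g).le) ?_
  · rw [near_mul_left]
    exact near_step y hs
  · refine Real.le_sqrt_of_sq_le ?_
    rw [mul_pow]
    exact (h5.prod_factor y).le_tsum g fun _ _ => by positivity

theorem slow (hS : Gen S) (hu : FinEn S u) (a : Γ) {η : ℝ} (hη : 0 < η) :
    ∀ᶠ x in cofinite, |u (x * a) - u x| ≤ η := by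
  obtain ⟨n, hn⟩ := hS.exists_near 1 a
  obtain ⟨K, hK, h⟩ := hu.slow n hη
  refine hK.eventually_cofinite_notMem.mono fun x hx => h x hx _ ?_
  rw [← near_mul_left x, mul_one] at hn
  exact hn

theorem cv2 (hS : Gen S) (hu : FinEn S u) (hcv : CV u) (a b : Γ) {ε : ℝ} (hε : 0 < ε) :
    ∀ᶠ c in cofinite, ∀ y, |u (a * (c * y)) - u (a * c)| ≤ ε ∨
      |u (b * y) - u (b * c⁻¹)| ≤ ε := by
  obtain ⟨K, hK, h⟩ := hcv _ (half_pos hε)
  have i1 : Function.Injective fun c : Γ => a * c * b⁻¹ :=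
    (mul_left_injective _).comp (mul_right_injective a)
  have i2 : Function.Injective fun c : Γ => b * c⁻¹ := (mul_right_injective b).comp inv_injective
  filter_upwards [i1.tendsto_cofinite.eventually hK.eventually_cofinite_notMem,
    (mul_right_injective a).tendsto_cofinite.eventually (slow hS hu b⁻¹ (half_pos hε)),
    i2.tendsto_cofinite.eventually (slow hS hu a⁻¹ (half_pos hε))] with c h1 h2 h3 y
  have e1 : a * c * b⁻¹ * (b * y) = a * (c * y) := by group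
  have e2 : (a * c * b⁻¹)⁻¹ = b * c⁻¹ * a⁻¹ := by group
  have h4 := h _ h1 (b * y)
  rw [e1, e2] at h4
  refine h4.imp (fun h5 => ?_) fun h5 => ?_
  · linarith [abs_sub_le (u (a * (c * y))) (u (a * c * b⁻¹)) (u (a * c))]
  · linarith [abs_sub_le (u (b * y)) (u (b * c⁻¹ * a⁻¹)) (u (b * c⁻¹))]

theorem cv3 (hw : Wt w) (hS : Gen S) (hu : Mono S u) (hcv : CV u) {ε : ℝ} (hε : 0 < ε) :
    ∀ᶠ c in cofinite, ∀ y, dd w (io u (c * y)) (io u c) ≤ ε ∨ dd w (io u y) (io u c⁻¹) ≤ ε := by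
  have h1 := (eventually_all_finite (hw.fin hε)).2 fun a _ =>
    (eventually_all_finite (hw.fin hε)).2 fun b _ => cv2 hS hu.en hcv a b hε
  have hU : ∀ y, Un (io u y) := fun y g => hu.bd _
  refine h1.mono fun c hc y => ?_
  by_cases h : ∀ a, ε < w a → |u (a * (c * y)) - u (a * c)| ≤ ε
  · exact Or.inl (dd_le' hw (hU _) (hU _) h)
  · obtain ⟨a, ha⟩ := not_forall.1 h
    obtain ⟨h2, h3⟩ := Classical.not_imp.1 ha
    exact Or.inr (dd_le' hw (hU _) (hU _) fun b hb => (hc a h2 b hb y).resolve_left h3)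

theorem con (hw : Wt w) (hS : Gen S) (hu : Mono S u) {ε : ℝ} (hε : 0 < ε) {K₀ : Set Γ}
    (hK : K₀.Finite) : ∃ K : Set Γ, K.Finite ∧ K₀ ⊆ K ∧
      ∀ ξ, Un ξ → Conn S ({y | ε < dd w (io u y) ξ} ∪ K) := by
  obtain ⟨p, hp⟩ := hu.i1.nonempty
  obtain ⟨q, hq⟩ := hu.i0.nonempty
  have hp' : u p = 1 := hp
  have hq' : u q = 0 := hq
  obtain ⟨n, hn⟩ := hS.finite_sub_ball (hK.union (((hw.fin hε).image fun g => g⁻¹ * p).union
    ((hw.fin hε).image fun g => g⁻¹ * q))) 1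
  have hU : ∀ y, Un (io u y) := fun y g => hu.bd _
  refine ⟨{y | Near S n 1 y}, ball_finite n 1, fun y hy => hn y (Or.inl hy), fun ξ hξ => ?_⟩
  have hb := conn_ball hS n 1
  have h1 : (1 : Γ) ∈ {y | Near S n 1 y} := Near.refl hS n 1
  have e : {y | ε < dd w (io u y) ξ} ∪ {y | Near S n 1 y} = ⋃₀ {X | (Conn S X ∧ (1 : Γ) ∈ X) ∧
      X ⊆ {y | ε < dd w (io u y) ξ} ∪ {y | Near S n 1 y}} := by
    refine Set.Subset.antisymm ?_ (Set.sUnion_subset fun X hX => hX.2)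
    rintro y (hy | hy)
    swap
    · exact ⟨_, ⟨⟨hb, h1⟩, Set.subset_union_right⟩, hy⟩
    obtain ⟨g, hg⟩ := not_forall.1 fun h => absurd hy (not_lt.2 (dd_le h))
    have h2 : ε < w g * |u (g * y) - ξ g| := not_le.1 hg
    have h3 : ε < w g := h2.trans_le (mul_le_of_le_one_right (hw.pos g).le ((hU y).abs hξ g))
    have h4 : ∀ y', ε / w g < |u (g * y') - ξ g| → ε < dd w (io u y') ξ := fun y' h =>
      lt_of_lt_of_le ((div_lt_iff₀' (hw.pos g)).1 h) (le_dd hw (hU y') hξ g)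
    have h5 := hu.bd (g * y)
    rcases lt_abs.1 ((div_lt_iff₀' (hw.pos g)).2 h2) with h6 | h6
    · refine ⟨tr g⁻¹ {x | ξ g + ε / w g < u x} ∪ {y | Near S n 1 y},
        ⟨⟨((hu.up _).tr g⁻¹).union hb ⟨g⁻¹ * p, ?_, hn _ (Or.inr (Or.inl ⟨g, h3, rfl⟩))⟩,
        Or.inr h1⟩, Set.union_subset_union_left _ fun y' hy' => h4 y' (lt_abs.2 (Or.inl ?_))⟩,
        Or.inl ?_⟩
      · rw [mem_tr, inv_inv, mul_inv_cancel_left, Set.mem_ofPred_eq]
        linarith [h5.2]
      · rw [mem_tr, inv_inv, Set.mem_ofPred_eq] at hy'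
        linarith
      · rw [mem_tr, inv_inv, Set.mem_ofPred_eq]
        linarith
    · refine ⟨tr g⁻¹ {x | u x < ξ g - ε / w g} ∪ {y | Near S n 1 y},
        ⟨⟨((hu.dn _).tr g⁻¹).union hb ⟨g⁻¹ * q, ?_, hn _ (Or.inr (Or.inr ⟨g, h3, rfl⟩))⟩,
        Or.inr h1⟩, Set.union_subset_union_left _ fun y' hy' => h4 y' (lt_abs.2 (Or.inr ?_))⟩,
        Or.inl ?_⟩
      · rw [mem_tr, inv_inv, mul_inv_cancel_left, Set.mem_ofPred_eq]
        linarith [h5.1]
      · rw [mem_tr, inv_inv, Set.mem_ofPred_eq] at hy'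
        linarith
      · rw [mem_tr, inv_inv, Set.mem_ofPred_eq]
        linarith
  rw [e]
  exact conn_sUnion fun X hX => hX.1

theorem frame {Z : Type} [MetricSpace Z] [MulAction Γ Z] [ContinuousConstSMul Γ Z] (hw : Wt w)
    (hS : Gen S) (hu : Mono S u) (hcv : CV u) (ev : Z → Γ → ℝ) (ι : Γ → Z)
    (hd : ∀ z z', dist z z' = dd w (ev z) (ev z')) (hU : ∀ z, Un (ev z))
    (hs : ∀ (x : Γ) z g, ev (x • z) g = ev z (g * x)) (hι : ∀ y, ev (ι y) = io u y)
    (he : ∀ g y, ι (g * y) = g • ι y) (hr : DenseRange ι) :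
    Frame S ι ∧ Coord S ι fun z => ev z 1 := by
  have h1 : ∀ z z', |ev z 1 - ev z' 1| ≤ dist z z' := fun z z' => by
    have h := le_dd hw (hU z) (hU z') 1
    rwa [hw.one, one_mul, ← hd] at h
  refine ⟨⟨he, ?_, fun ε hε => ?_, fun ε hε K₀ hK => ?_, 1, one_pos, fun K hK => ?_⟩,
    h1, fun z => hU z 1, ?_, fun ε hε => ⟨(hw.fin hε).toFinset, ε, hε, fun z z' h => ?_⟩⟩
  · simp only [hd, hι]
    exact energy hw hu.en
  · refine ⟨_, cv3 hw hS hu hcv hε, fun c hc z => ?_⟩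
    have h := not_not.1 hc
    refine hr.induction_on z ?_ fun y => ?_
    · exact (isClosed_le ((continuous_const_smul c).dist continuous_const)
        continuous_const).union (isClosed_le (continuous_id.dist continuous_const)
        continuous_const)
    · rw [← he, hd, hd, hι, hι, hι, hι]
      exact h y
  · obtain ⟨K, k1, k2, k3⟩ := con hw hS hu hε hK
    refine ⟨K, k1, k2, fun ξ => ?_⟩
    simp only [hd, hι]
    exact k3 _ (hU ξ)
  · obtain ⟨x, x1, x2⟩ := (hu.i1.sdiff hK).nonempty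
    obtain ⟨y, y1, y2⟩ := (hu.i0.sdiff hK).nonempty
    refine ⟨x, x2, y, y2, le_trans (le_of_eq ?_) (h1 _ _)⟩
    rw [hι, hι, io, io, one_mul, one_mul, show u x = 1 from x1, show u y = 0 from y1, sub_zero,
      abs_one]
  · simp only [hι, io, one_mul]
    exact hu
  · rw [hd]
    refine dd_le' hw (hU z) (hU z') fun g hg => ?_
    have h2 := h g ((hw.fin hε).mem_toFinset.2 hg)
    rwa [hs, hs, one_mul] at h2

theorem un_closure (hu : Mono S u) : ∀ ξ ∈ closure (Set.range (io u)), Un ξ := by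
  intro ξ hξ g
  have h : IsClosed {ξ : Γ → ℝ | ξ g ∈ Set.Icc (0 : ℝ) 1} :=
    isClosed_Icc.preimage (continuous_apply g)
  refine closure_minimal ?_ h hξ
  rintro _ ⟨y, rfl⟩
  exact hu.bd _

theorem cont_act (x : Γ) : Continuous fun (ξ : Γ → ℝ) (g : Γ) => ξ (g * x) :=
  continuous_pi fun _ => continuous_apply _

theorem act_mem (u : Γ → ℝ) (x : Γ) {ξ : Γ → ℝ} (h : ξ ∈ closure (Set.range (io u))) :
    (fun g => ξ (g * x)) ∈ closure (Set.range (io u)) := by
  refine map_mem_closure (cont_act x) h ?_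
  rintro _ ⟨y, rfl⟩
  exact ⟨x * y, funext fun g => congrArg u (mul_assoc g x y).symm⟩

/-- The action on the orbit closure. -/
@[reducible] def act (u : Γ → ℝ) : MulAction Γ (closure (Set.range (io u))) where
  smul x ξ := ⟨fun g => ξ.1 (g * x), act_mem u x ξ.2⟩
  one_smul ξ := Subtype.ext (funext fun g => congrArg ξ.1 (mul_one g))
  mul_smul x y ξ := Subtype.ext (funext fun g => congrArg ξ.1 (mul_assoc g x y).symm)

end FrameXAux

open FrameXAux in
theorem exists_frame (hS : Gen S) {u : Γ → ℝ} (hu : Mono S u) (hcv : CV u) :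
    ∃ (Z : Type) (_ : MetricSpace Z) (_ : CompactSpace Z) (_ : MulAction Γ Z)
      (_ : ContinuousConstSMul Γ Z) (ι : Γ → Z) (π : Z → ℝ), Frame S ι ∧ Coord S ι π := by
  obtain ⟨w, hw⟩ := exists_wt hS
  have hU := un_closure hu
  have hc : CompactSpace (closure (Set.range (io u))) :=
    isCompact_iff_compactSpace.1 ((isCompact_univ_pi fun _ : Γ =>
      isCompact_Icc (a := (0 : ℝ)) (b := 1)).of_isClosed_subset isClosed_closure
      fun ξ hξ g _ => hU ξ hξ g)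
  let _ := act u
  have ha : ContinuousConstSMul Γ (closure (Set.range (io u))) :=
    ⟨fun x => ((cont_act x).comp continuous_subtype_val).subtype_mk _⟩
  have hr : DenseRange fun y => (⟨io u y, subset_closure ⟨y, rfl⟩⟩ :
      closure (Set.range (io u))) := by
    refine Subtype.dense_iff.2 ?_
    rw [← Set.range_comp]
    exact le_rfl
  let _ : MetricSpace (closure (Set.range (io u))) :=
    MetricSpace.ofDistTopology (fun ξ ζ => dd w ξ.1 ζ.1) (fun ξ => dd_self _)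
      (fun ξ ζ => dd_comm _ _) (fun ξ ζ χ => dd_tri hw (hU _ ξ.2) (hU _ ζ.2) (hU _ χ.2))
      (dd_open hw hU) fun ξ ζ h => Subtype.ext (dd_eq hw (hU _ ξ.2) (hU _ ζ.2) h)
  exact ⟨closure (Set.range (io u)), inferInstance, hc, inferInstance, ha, _, _,
    frame hw hS hu hcv Subtype.val _ (fun _ _ => rfl) (fun z => hU _ z.2) (fun _ _ _ => rfl)
      (fun _ => rfl)
      (fun g y => Subtype.ext (funext fun x => congrArg u (mul_assoc x g y).symm)) hr⟩

end Vale.Agent.P239
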