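import Vale.Agent.P239.ASB

/-! The first cohomology of the whole space vanishes. -/

namespace Vale.Agent.P239.AS

open scoped Pointwise symmDiff
open Filter Topology

variable {k : Type*} [Field k] {X Y : Type*} [TopologicalSpace X] [TopologicalSpace Y]

namespace G1XAux

/-- Two primitives have the same increments on a connected set. -/
theorem incr {f a a' : Co k X} {P : Set X} (hP : IsPreconnected P)
    (h : ∀ y ∈ P, Van (f - d a) y) (h' : ∀ y ∈ P, Van (f - d a') y) {y y' : X} (hy : y ∈ P)
    (hy' : y' ∈ P) : a [y'] - a [y] = a' [y'] - a' [y] := by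
  have e : d (a - a') = (f - d a') - (f - d a) := by
    rw [map_sub]
    abel
  have h1 := const_of_preconnected (a := a - a') hP
    (fun z hz => by rw [e]; exact (h' z hz).sub (h z hz)) hy hy'
  simp only [Pi.sub_apply] at h1
  linear_combination -h1

/-- A function of one point as a cochain. -/
def one (v : X → k) : Co k X
  | [y] => v y
  | _ => 0

omit [TopologicalSpace X] in
theorem deg_one (v : X → k) : Deg 1 (one v) := fun l hl => by
  match l, hl with
  | [], _ => rfl
  | [_], hl => exact absurd rfl hl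
  | _ :: _ :: _, _ => rfl

end G1XAux

open G1XAux in
theorem g1 [PathConnectedSpace X] [LocallyPathConnectedSpace X] (h : HT (ZMod 2) X) :
    G1 X := by
  intro f hf hd
  obtain ⟨x0⟩ : Nonempty X := PathConnectedSpace.nonempty
  have hA : ∀ L : Set X, IsCompact L → ∃ a, f - d a ∈ Nul (ZMod 2) L := fun L hL => by
    obtain ⟨L', -, -, h'⟩ := h L hL
    exact h' f (Nul.mono (Set.subset_univ _) hd)
  choose! A hA using hA
  have hγ : ∀ y, ∃ P : Set X, IsCompact P ∧ IsPreconnected P ∧ x0 ∈ P ∧ y ∈ P := fun y =>
    let γ := PathConnectedSpace.somePath x0 y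
    ⟨Set.range γ, isCompact_range γ.continuous, isPreconnected_range γ.continuous,
      γ.source_mem_range, γ.target_mem_range⟩
  choose L hc hp h0 h1 using hγ
  refine ⟨one fun y => A (L y) [y] - A (L y) [x0], deg_one _, ?_, fun x _ => ?_⟩
  · rw [Pi.sub_apply, hf.nil, d_nil, sub_zero]
  · obtain ⟨g, W, hW, hg⟩ := (hd.2 x (Set.mem_univ x)).cone
    obtain ⟨W', ⟨ho, hx, hpc⟩, hs⟩ := (isOpen_isPathConnected_basis x).mem_iff.1 hW
    refine ⟨W', ho.mem_nhds hx, fun l hl => ?_⟩
    by_cases h2 : l.length = 2
    · obtain ⟨y, y', rfl⟩ := List.length_eq_two.1 h2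
      obtain ⟨p, hpW⟩ := hpc.joinedIn y (hl y (by simp)) y' (hl y' (by simp))
      have hM : IsCompact (L y ∪ L y' ∪ Set.range p) :=
        ((hc y).union (hc y')).union (isCompact_range p.continuous)
      have hB := (hA _ hM).2
      have e1 := incr (hp y) (hA _ (hc y)).2 (fun z hz => hB z (Or.inl (Or.inl hz))) (h0 y) (h1 y)
      have e2 := incr (hp y') (hA _ (hc y')).2 (fun z hz => hB z (Or.inl (Or.inr hz))) (h0 y') (h1 y')
      have e3 := incr (a' := g) (isPreconnected_range p.continuous) (fun z hz => hB z (Or.inr hz))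
        (by
          rintro _ ⟨t, rfl⟩
          exact ⟨W', ho.mem_nhds (hpW t), fun l hl => hg l fun z hz => hs (hl z hz)⟩)
        p.source_mem_range p.target_mem_range
      have e4 := hg [y, y'] fun z hz => hs (hl z hz)
      rw [Pi.sub_apply, d_pair] at e4 ⊢
      show f [y, y'] - ((A (L y') [y'] - A (L y') [x0]) - (A (L y) [y] - A (L y) [x0])) = 0
      rw [e1, e2]
      linear_combination e4 - e3
    · rw [Pi.sub_apply, hf l h2, (deg_one _).d l h2, sub_zero]

end Vale.Agent.P239.AS
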