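import Vale.Agent.P239.AlgB

namespace Vale.Agent.P239

open scoped Pointwise

variable {Γ : Type*} [Group Γ] {S : Finset Γ} {r : ℕ}

theorem gw_step1 {ι₀ ι₁ ι₂ : Type*} [Fintype ι₁] {f₁ : Ch Γ ι₁ →ₗ[ZMod 2] Ch Γ ι₀}
    {f₂ : Ch Γ ι₂ →ₗ[ZMod 2] Ch Γ ι₁} (hS : Gen S) (e₁ : Eqv f₁) (x₁ : Function.Exact f₂ f₁)
    (h2 : Cone S f₂) : ∃ K : ℕ, 1 ≤ K ∧ ∀ (m : ℕ) (y : Ch Γ ι₁), (∃ c, f₂ c = y) →
      y.support.card ≤ m → ∃ c, f₂ c = y ∧ c.support.card ≤ K * (m + 1) * y.support.card ∧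
        ∀ p ∈ c.support, ∃ p' ∈ y.support, Near S (K * (m + 1)) p'.1 p.1 := by
  classical
  obtain ⟨b, hb⟩ := e₁.prop hS
  obtain ⟨K, hK⟩ := h2
  refine ⟨K * (b + b + 1) + 1, by omega, fun m y => ?_⟩
  have hA : K * (m * (b + b) + 1) ≤ (K * (b + b + 1) + 1) * (m + 1) := by nlinarith
  induction' hn : y.support.card using Nat.strong_induction_on with n ih generalizing y
  intro hy hm
  by_cases h0 : y = 0
  · exact ⟨0, by simp [h0], by simp, by simp⟩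
  obtain ⟨p₀, hp₀⟩ := Finsupp.support_nonempty_iff.2 h0
  obtain ⟨y₁, y₂, h1, h2, h3, h4, h5, h6⟩ := piece hS y (T := Prod.fst '' (y.support : Set _))
    (y.support.finite_toSet.image _) (k := m) (w := b + b)
    ((Set.ncard_image_le y.support.finite_toSet).trans (by rw [Set.ncard_coe_finset]; omega))
    (fun _ _ p hp _ => ⟨p, hp, rfl⟩) hp₀ ⟨p₀, hp₀, rfl⟩
  have hy0 : f₁ (y₁ + y₂) = 0 := by rw [← h1]; exact (x₁ y).2 hy
  obtain ⟨a1, a2⟩ := split_zero hS hb hy0 h6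
  have hpos : 0 < y₁.support.card := Finset.card_pos.2 ⟨_, h5⟩
  obtain ⟨c₁, b1, b2, b3⟩ := hK p₀.1 _ y₁ ((x₁ _).1 a1) h2
  obtain ⟨c₂, d1, d2, d3⟩ := ih y₂.support.card (by omega) y₂ rfl ((x₁ _).1 a2) (by omega)
  refine ⟨c₁ + c₂, by rw [map_add, b1, d1, h1], (card_add_le _ _).trans ?_, fun p hp => ?_⟩
  · rw [← hn, ← h4, mul_add]
    exact add_le_add (b2.trans (Nat.mul_le_mul_right _ hA)) d2
  · rcases mem_support_add hp with h | h
    · exact ⟨p₀, hp₀, (b3 p h).mono hS hA⟩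
    · obtain ⟨p', hp', h'⟩ := d3 p h
      exact ⟨p', h3 hp', h'⟩

theorem growth {V : ℕ → ℕ} {c n : ℕ} (hV : ∀ i, V i ≤ n ^ 2)
    (h : ∀ i ≤ (9 * c + 3) * n, ∃ d, 1 ≤ d ∧ V i + d ≤ V (i + 1) ∧ V i ≤ c * d ^ 2) : False := by
  have key : ∀ i ≤ (9 * c + 3) * n + 1, i ^ 2 ≤ (9 * c + 3) * V i := by
    intro i
    induction i with
    | zero => intro _; simp
    | succ i ih =>
      intro hi
      obtain ⟨d, h1, h2, h3⟩ := h i (by omega)
      have h4 := ih (by omega)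
      have h5 : (3 * i) ^ 2 ≤ ((9 * c + 3) * d) ^ 2 := by
        calc (3 * i) ^ 2 = 9 * i ^ 2 := by ring
          _ ≤ 9 * ((9 * c + 3) * (c * d ^ 2)) := by
            gcongr; exact h4.trans (Nat.mul_le_mul_left _ h3)
          _ = (9 * c + 3) * (9 * c) * d ^ 2 := by ring
          _ ≤ (9 * c + 3) * (9 * c + 3) * d ^ 2 := by gcongr; omega
          _ = ((9 * c + 3) * d) ^ 2 := by ring
      have h6 : 3 * i ≤ (9 * c + 3) * d := by
        exact (Nat.pow_le_pow_iff_left (by norm_num)).1 h5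
      have h7 : 3 ≤ (9 * c + 3) * d := by nlinarith
      have h8 : (9 * c + 3) * (V i + d) ≤ (9 * c + 3) * V (i + 1) := Nat.mul_le_mul_left _ h2
      have h9 : 2 * i + 1 ≤ (9 * c + 3) * d := by omega
      nlinarith
  have h1 := key _ le_rfl
  have h2 := Nat.mul_le_mul_left (9 * c + 3) (hV ((9 * c + 3) * n + 1))
  have h3 : (9 * c + 3) * n ^ 2 ≤ ((9 * c + 3) * n) ^ 2 := by
    rw [mul_pow]; gcongr; nlinarith
  have h4 := Nat.pow_lt_pow_left (Nat.lt_succ_self ((9 * c + 3) * n)) (n := 2) (by norm_num)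
  exact absurd (h1.trans (h2.trans h3)) (not_le.2 h4)

theorem gw_step2 {ι₀ ι₁ ι₂ ι₃ : Type*} [Fintype ι₀] [Fintype ι₁] [Fintype ι₂] [Fintype ι₃]
    {ε : Ch Γ ι₀ →ₗ[ZMod 2] ZMod 2} {f₁ : Ch Γ ι₁ →ₗ[ZMod 2] Ch Γ ι₀}
    {f₂ : Ch Γ ι₂ →ₗ[ZMod 2] Ch Γ ι₁} {f₃ : Ch Γ ι₃ →ₗ[ZMod 2] Ch Γ ι₂}
    (hS : Gen S) (h : Res3 ε f₁ f₂ f₃) (h2 : Cone S f₂) (h3 : Cone S f₃) :
    ∃ K₂ : ℕ, ∀ (n : ℕ) (z : Ch Γ ι₂), f₂ z = 0 → z.support.card ≤ n ^ 2 →
      ∃ c, f₃ c = z ∧ c.support.card ≤ K₂ * (n + 1) * z.support.card := by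
  classical
  obtain ⟨K, hK1, hK⟩ := gw_step1 hS h.e₁ h.x₁ h2
  obtain ⟨K₃, hK₃⟩ := h3
  obtain ⟨b, hb⟩ := h.e₂.prop hS
  obtain ⟨N, hN⟩ := h.e₂.mass
  obtain ⟨a, ha⟩ : ∃ a, a = 9 * (4 * K * N ^ 2) + 3 := ⟨_, rfl⟩
  obtain ⟨c₁, hc₁⟩ : ∃ c₁, c₁ = a * (b + b) + b + K + 1 := ⟨_, rfl⟩
  refine ⟨4 * K₃ * c₁, fun n z => ?_⟩
  induction' hn : z.support.card using Nat.strong_induction_on with m ih generalizing z
  intro hz hm
  by_cases h0 : z = 0
  · exact ⟨0, by simp [h0], by simp⟩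
  obtain ⟨p₀, hp₀⟩ := Finsupp.support_nonempty_iff.2 h0
  choose Z T hZT hZ hT hcard using
    fun i : ℕ => filter_split z fun p => Near S (i * (b + b)) p₀.1 p.1
  have hZT' : ∀ i, f₂ (Z i) = f₂ (T i) := fun i =>
    ch_eq_of_add_eq_zero (by rw [← map_add, ← hZT i, hz])
  have hpos : ∀ i, 1 ≤ (Z i).support.card := fun i =>
    Finset.card_pos.2 ⟨p₀, (hZ i _).2 ⟨hp₀, Near.refl hS _ _⟩⟩
  have hyw : ∀ i, Within S (i * (b + b) + b) p₀.1 (f₂ (Z i)) := fun i q hq => by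
    obtain ⟨p, hp, h'⟩ := hb _ q hq
    exact ((hZ i p).1 hp).2.trans h'
  have hshell : ∀ i, ∃ d, (Z i).support.card + d ≤ (Z (i + 1)).support.card ∧
      (f₂ (Z i)).support.card ≤ N * d := by
    intro i
    obtain ⟨s, t, e1, e2, e3, -⟩ := filter_split (T i)
      fun p => Near S ((i + 1) * (b + b)) p₀.1 p.1
    refine ⟨s.support.card, ?_, le_trans (Finset.card_le_card fun q hq => ?_) (hN s)⟩
    · rw [← Finset.card_union_of_disjoint]
      · refine Finset.card_le_card fun p hp => (hZ _ p).2 ?_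
        rcases Finset.mem_union.1 hp with h' | h'
        · exact ⟨((hZ i p).1 h').1, ((hZ i p).1 h').2.mono hS (by nlinarith)⟩
        · exact ⟨((hT i p).1 ((e2 p).1 h').1).1, ((e2 p).1 h').2⟩
      · rw [Finset.disjoint_left]
        exact fun p h1 h2 => ((hT i p).1 ((e2 p).1 h2).1).2 ((hZ i p).1 h1).2
    · have a1 := hyw i q hq
      rw [hZT', e1, map_add] at hq
      rcases mem_support_add hq with h' | h'
      · exact h'
      · obtain ⟨p, hp, a2⟩ := hb _ q h'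
        refine absurd ((a1.trans (a2.symm hS)).mono hS (le_of_eq (by ring))) ((e3 p).1 hp).2
  have hex : ∃ i ≤ a * n, 2 * (K * ((f₂ (Z i)).support.card + 1) * (f₂ (Z i)).support.card) ≤
      (Z i).support.card := by
    by_contra hc
    push Not at hc
    refine growth (V := fun i => (Z i).support.card) (c := 4 * K * N ^ 2) (n := n)
      (fun i => by have := hcard i; omega) fun i hi => ?_
    obtain ⟨d, d1, d2⟩ := hshell i
    have d3 := hc i (ha ▸ hi)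
    have d4 := hpos i
    generalize (f₂ (Z i)).support.card = y at *
    have d5 : 1 ≤ y := by
      rcases Nat.eq_zero_or_pos y with h | h
      · subst h; omega
      · exact h
    have d6 : 1 ≤ d := by
      rcases Nat.eq_zero_or_pos d with h | h
      · subst h; omega
      · exact h
    refine ⟨d, d6, d1, d3.le.trans ?_⟩
    calc 2 * (K * (y + 1) * y) ≤ 2 * (K * (y + y) * y) := by gcongr
      _ = 4 * K * y ^ 2 := by ring
      _ ≤ 4 * K * (N * d) ^ 2 := by gcongr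
      _ = 4 * K * N ^ 2 * d ^ 2 := by ring
  obtain ⟨i, hi, hy⟩ := hex
  obtain ⟨c, e1, e2, e3⟩ := hK _ (f₂ (Z i)) ⟨_, rfl⟩ le_rfl
  have hV := hcard i
  have hV1 := hpos i
  have hyn : (f₂ (Z i)).support.card ≤ n := by
    generalize (f₂ (Z i)).support.card = y at *
    have : y ^ 2 ≤ n ^ 2 := by nlinarith
    exact (Nat.pow_le_pow_iff_left (by norm_num)).1 this
  have hw : Within S (c₁ * (n + 1) - 1) p₀.1 (Z i + c) := by
    have r1 : i * (b + b) ≤ a * n * (b + b) := Nat.mul_le_mul_right _ hi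
    have r2 : K * ((f₂ (Z i)).support.card + 1) ≤ K * (n + 1) := by gcongr
    have r3 : a * n * (b + b) + b + K * (n + 1) + 1 ≤ c₁ * (n + 1) := by rw [hc₁]; nlinarith
    refine Within.add (fun p hp => ((hZ i p).1 hp).2.mono hS (by omega)) fun p hp => ?_
    obtain ⟨p', hp', h'⟩ := e3 p hp
    exact ((hyw i p' hp').trans h').mono hS (by omega)
  obtain ⟨c', f1, f2, -⟩ := hK₃ p₀.1 _ (Z i + c)
    ((h.x₂ _).1 (by rw [map_add, e1, ch_add_self])) hw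
  have g1 := card_add_le (Z i) c
  have g2 := card_add_le (T i) c
  obtain ⟨c'', k1, k2⟩ := ih (T i + c).support.card (by omega) (T i + c) rfl
    (by rw [map_add, e1, hZT', ch_add_self]) (by omega)
  refine ⟨c' + c'', ?_, (card_add_le _ _).trans ?_⟩
  · rw [map_add, f1, k1, hZT i, add_add_add_comm, ch_add_self, add_zero]
  · have r4 : c₁ * (n + 1) - 1 + 1 = c₁ * (n + 1) := by
      have : 1 ≤ c₁ * (n + 1) := by rw [hc₁]; nlinarith
      omega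
    rw [r4] at f2
    have r5 : (Z i + c).support.card + 4 * (T i + c).support.card ≤ 4 * m := by omega
    calc c'.support.card + c''.support.card
        ≤ K₃ * (c₁ * (n + 1)) * (Z i + c).support.card +
          4 * K₃ * c₁ * (n + 1) * (T i + c).support.card := add_le_add f2 k2
      _ = K₃ * c₁ * (n + 1) * ((Z i + c).support.card + 4 * (T i + c).support.card) := by ring
      _ ≤ K₃ * c₁ * (n + 1) * (4 * m) := by gcongr
      _ = 4 * K₃ * c₁ * (n + 1) * m := by ring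

theorem two_pow_bound (j : ℕ) : 2 ^ ((j + 1) / 2) * 2 ^ j ≤ 2 * 3 ^ j := by
  induction j using Nat.twoStepInduction with
  | zero => norm_num
  | one => norm_num
  | more j ih _ =>
    have : (j + 2 + 1) / 2 = (j + 1) / 2 + 1 := by omega
    rw [this, pow_succ, pow_add, pow_add 3]
    nlinarith [Nat.zero_le (3 ^ j)]

theorem gw {ι₀ ι₁ ι₂ ι₃ : Type*} [Fintype ι₀] [Fintype ι₁] [Fintype ι₂] [Fintype ι₃]
    {ε : Ch Γ ι₀ →ₗ[ZMod 2] ZMod 2} {f₁ : Ch Γ ι₁ →ₗ[ZMod 2] Ch Γ ι₀}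
    {f₂ : Ch Γ ι₂ →ₗ[ZMod 2] Ch Γ ι₁} {f₃ : Ch Γ ι₃ →ₗ[ZMod 2] Ch Γ ι₂}
    (hS : Gen S) (h : Res3 ε f₁ f₂ f₃) (h2 : Cone S f₂) (h3 : Cone S f₃) : SubQ f₃ := by
  obtain ⟨K, hK⟩ := gw_step2 hS h h2 h3
  refine ⟨4 * K + 1, 3, by positivity, by norm_num, by norm_num, fun j z hz hj => ?_⟩
  obtain ⟨c, h1, h4⟩ := hK (2 ^ ((j + 1) / 2)) z ((h.x₂ z).2 hz) (hj.trans (by
    rw [← pow_mul]; exact Nat.pow_le_pow_right (by norm_num) (by omega)))
  refine ⟨c, h1, ?_⟩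
  have h5 := two_pow_bound j
  have h6 : 1 ≤ 2 ^ ((j + 1) / 2) := Nat.one_le_two_pow
  have h7 : c.support.card ≤ (4 * K + 1) * 3 ^ j :=
    calc c.support.card ≤ K * (2 ^ ((j + 1) / 2) + 1) * z.support.card := h4
      _ ≤ K * (2 ^ ((j + 1) / 2) + 2 ^ ((j + 1) / 2)) * 2 ^ j := by gcongr
      _ = 2 * K * (2 ^ ((j + 1) / 2) * 2 ^ j) := by ring
      _ ≤ 2 * K * (2 * 3 ^ j) := by gcongr
      _ ≤ (4 * K + 1) * 3 ^ j := by nlinarith [Nat.zero_le (3 ^ j)]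
  exact_mod_cast h7

end Vale.Agent.P239
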