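import Vale.Agent.P239.Core

/-! Spectral gap of the averaging operator on a group without Folner sets. -/

namespace Vale.Agent.P239

open scoped Pointwise symmDiff Matrix

variable {Γ : Type*} [Group Γ] {S : Finset Γ} {r : ℕ}

namespace Gap

/-- Coarea inequality for finitely supported functions. -/
theorem coarea {ε : ℝ} (h : ∀ F : Finset Γ, F.Nonempty →
      ε * F.card ≤ (({x | x ∈ F ∧ ∃ s ∈ S, x * s ∉ F} : Set Γ).ncard : ℝ)) (T : Finset Γ) :
    ∀ (n : ℕ) (F : Finset Γ) (g : Γ → ℝ), F.card = n → F ⊆ T → (∀ x, 0 ≤ g x) →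
      (∀ x, x ∉ F → g x = 0) → ε * ∑ x ∈ T, g x ≤ ∑ x ∈ T, ∑ s ∈ S, max (g x - g (x * s)) 0 := by
  classical
  intro n
  induction n with
  | zero =>
    intro F g hF _ _ h0
    have : ∀ x, g x = 0 := fun x => h0 x (by simp [Finset.card_eq_zero.1 hF])
    simp [this]
  | succ n ih =>
    intro F g hF hT hg h0
    have hne : F.Nonempty := Finset.card_pos.1 (by omega)
    obtain ⟨x₀, hx₀, hm⟩ := F.exists_min_image g hne
    set m := g x₀
    have hm0 : 0 ≤ m := hg x₀
    let c : Γ → ℝ := fun x => if x ∈ F then 1 else 0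
    have h1 := ih (F.erase x₀) (fun x => g x - m * c x)
      (by rw [Finset.card_erase_of_mem hx₀]; omega) ((F.erase_subset _).trans hT)
      (fun x => by
        by_cases hx : x ∈ F
        · simpa [c, hx] using hm x hx
        · simpa [c, hx] using hg x)
      (fun x hx => by
        by_cases hx' : x ∈ F
        · have : x = x₀ := by simpa [hx'] using hx
          simp [c, hx₀, this, m]
        · simp [c, hx', h0 x hx'])
    have h2 : ε * ∑ x ∈ T, c x ≤ ∑ x ∈ T, ∑ s ∈ S, max (c x - c (x * s)) 0 := by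
      have e1 : ∑ x ∈ T, c x = F.card := by
        simp [c, Finset.inter_eq_right.2 hT]
      have e2 : ({x | x ∈ F ∧ ∃ s ∈ S, x * s ∉ F} : Set Γ) =
          (T.filter fun x => x ∈ F ∧ ∃ s ∈ S, x * s ∉ F : Finset Γ) := by
        ext x
        simp only [Set.mem_ofPred_eq, Finset.coe_filter]
        exact ⟨fun hx => ⟨hT hx.1, hx⟩, fun hx => hx.2⟩
      rw [e1]
      refine (h F hne).trans ?_
      rw [e2, Set.ncard_coe_finset, Finset.card_filter]
      push_cast
      refine Finset.sum_le_sum fun x _ => ?_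
      split_ifs with hx
      · obtain ⟨hx, s, hs, hxs⟩ := hx
        refine le_trans ?_ (Finset.single_le_sum (f := fun s => max (c x - c (x * s)) 0)
          (fun _ _ => le_max_right _ _) hs)
        simp [c, hx, hxs]
      · exact Finset.sum_nonneg fun _ _ => le_max_right _ _
    have h3 : ∀ x y, max (g x - m * c x - (g y - m * c y)) 0 + m * max (c x - c y) 0 ≤
        max (g x - g y) 0 := by
      intro x y
      by_cases hx : x ∈ F <;> by_cases hy : y ∈ F
      · simp [c, hx, hy]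
      · have := hm x hx
        simp only [c, hx, hy, h0 y hy, if_true, if_false]
        rw [max_eq_left (by linarith), max_eq_left (by linarith), max_eq_left (by linarith)]
        linarith
      · have := hm y hy
        simp only [c, hx, hy, h0 x hx, if_true, if_false]
        rw [max_eq_right (by linarith), max_eq_right (by linarith), max_eq_right (by linarith)]
        linarith
      · simp [c, hx, hy]
    have h4 : (∑ x ∈ T, ∑ s ∈ S, max (g x - m * c x - (g (x * s) - m * c (x * s))) 0) +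
        m * ∑ x ∈ T, ∑ s ∈ S, max (c x - c (x * s)) 0 ≤
        ∑ x ∈ T, ∑ s ∈ S, max (g x - g (x * s)) 0 := by
      simp only [Finset.mul_sum, ← Finset.sum_add_distrib]
      exact Finset.sum_le_sum fun x _ => Finset.sum_le_sum fun s _ => h3 x _
    rw [Finset.sum_sub_distrib, ← Finset.mul_sum] at h1
    have := mul_le_mul_of_nonneg_left h2 hm0
    linarith

/-- Coarea inequality for summable functions. -/
theorem coarea' {ε : ℝ} (hε : 0 < ε) (h : ∀ F : Finset Γ, F.Nonempty →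
      ε * F.card ≤ (({x | x ∈ F ∧ ∃ s ∈ S, x * s ∉ F} : Set Γ).ncard : ℝ)) {g G : Γ → ℝ}
    (hg : Summable g) (hG : Summable G) (hle : ∀ x, ∑ s ∈ S, max (g x - g (x * s)) 0 ≤ G x) :
    ε * ∑' x, g x ≤ ∑' x, G x := by
  classical
  have hG0 : ∀ x, 0 ≤ G x := fun x =>
    (Finset.sum_nonneg fun _ _ => le_max_right _ _).trans (hle x)
  rw [← hg.tsum_mul_left]
  refine (hg.mul_left ε).tsum_le_of_sum_le fun T => ?_
  rw [← Finset.mul_sum]
  refine le_of_forall_pos_le_add fun η hη => ?_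
  set δ := η / (ε * (T.card + 1)) with hδ
  have hδ0 : 0 < δ := by positivity
  have hfin : {x | ¬ g x < δ}.Finite :=
    Filter.eventually_cofinite.1 (hg.tendsto_cofinite_zero.eventually (gt_mem_nhds hδ0))
  have h1 := coarea h (T ∪ hfin.toFinset) _ hfin.toFinset (fun x => max (g x - δ) 0) rfl
    Finset.subset_union_right (fun _ => le_max_right _ _) fun x hx => by
      have : g x < δ := by simpa using hx
      exact max_eq_right (by linarith)
  have h2 : ∑ x ∈ T ∪ hfin.toFinset, ∑ s ∈ S, max (max (g x - δ) 0 - max (g (x * s) - δ) 0) 0 ≤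
      ∑' x, G x := by
    refine le_trans (Finset.sum_le_sum fun x _ => le_trans (Finset.sum_le_sum fun s _ => ?_)
      (hle x)) (hG.sum_le_tsum _ fun x _ => hG0 x)
    refine max_le ?_ (le_max_right _ _)
    have a1 := le_max_left (g (x * s) - δ) 0
    have a2 := le_max_right (g (x * s) - δ) 0
    have a3 := le_max_left (g x - g (x * s)) 0
    have a4 := le_max_right (g x - g (x * s)) 0
    have : max (g x - δ) 0 ≤ max (g x - g (x * s)) 0 + max (g (x * s) - δ) 0 :=
      max_le (by linarith) (by linarith)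
    linarith
  have h3 : ∑ x ∈ T, (g x - δ) ≤ ∑ x ∈ T ∪ hfin.toFinset, max (g x - δ) 0 :=
    (Finset.sum_le_sum fun x _ => le_max_left _ _).trans
      (Finset.sum_le_sum_of_subset_of_nonneg Finset.subset_union_left
        fun _ _ _ => le_max_right _ _)
  rw [Finset.sum_sub_distrib, Finset.sum_const, nsmul_eq_mul] at h3
  have h4 : ε * (T.card * δ) ≤ η := by
    have : ε * ((T.card + 1) * δ) = η := by rw [hδ]; field_simp
    nlinarith [mul_pos hε hδ0]
  have := mul_le_mul_of_nonneg_left h3 hε.le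
  linarith

omit [Group Γ] in
theorem var_le {o : Γ} (ho : o ∈ S) (a : Γ → ℝ) :
    2 * (∑ s ∈ S, a s) ^ 2 + ∑ s ∈ S, (a s - a o) ^ 2 ≤ 2 * S.card * ∑ s ∈ S, a s ^ 2 := by
  have h1 : ∑ s ∈ S, (a s - a o) ^ 2 ≤ ∑ t ∈ S, ∑ s ∈ S, (a s - a t) ^ 2 :=
    Finset.single_le_sum (f := fun t => ∑ s ∈ S, (a s - a t) ^ 2)
      (fun _ _ => Finset.sum_nonneg fun _ _ => sq_nonneg _) ho
  have h2 : ∑ t ∈ S, ∑ s ∈ S, (a s - a t) ^ 2 =
      2 * S.card * ∑ s ∈ S, a s ^ 2 - 2 * (∑ s ∈ S, a s) ^ 2 := by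
    simp only [sub_sq, Finset.sum_add_distrib, Finset.sum_sub_distrib, Finset.sum_const,
      nsmul_eq_mul, ← Finset.mul_sum, ← Finset.sum_mul]
    ring
  linarith

omit [Group Γ] in
theorem pt1 {η : ℝ} (hη : 0 < η) (a b : ℝ) :
    max (a ^ 2 - b ^ 2) 0 ≤ (2 * η)⁻¹ * (b - a) ^ 2 + η * (b ^ 2 + a ^ 2) := by
  refine max_le ?_ (by positivity)
  have a1 : 0 ≤ (2 * η)⁻¹ * (η * (a + b) - (a - b)) ^ 2 := by positivity
  have a2 : (2 * η)⁻¹ * (η * (a + b) - (a - b)) ^ 2 =
      (2 * η)⁻¹ * (b - a) ^ 2 + η / 2 * (a + b) ^ 2 - (a ^ 2 - b ^ 2) := by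
    field_simp; ring
  nlinarith [mul_nonneg hη.le (sq_nonneg (a - b))]

theorem poinc {ε N E : ℝ} (hε : 0 < ε) (hc : (0 : ℝ) < S.card) (h : ∀ F : Finset Γ, F.Nonempty →
      ε * F.card ≤ (({x | x ∈ F ∧ ∃ s ∈ S, x * s ∉ F} : Set Γ).ncard : ℝ)) {f : Γ → ℝ}
    (hf : HasSum (fun x => f x ^ 2) N)
    (hA : HasSum (fun x => ∑ s ∈ S, f (x * s) ^ 2) (S.card * N))
    (hE : HasSum (fun x => ∑ s ∈ S, (f (x * s) - f x) ^ 2) E) :
    ε * (ε / (4 * S.card)) * N ≤ E := by
  obtain ⟨η, hη⟩ : ∃ η : ℝ, η = ε / (4 * S.card) := ⟨_, rfl⟩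
  have hη0 : 0 < η := by rw [hη]; positivity
  have hG := (hE.mul_left (2 * η)⁻¹).add ((hA.add (hf.mul_left (S.card : ℝ))).mul_left η)
  have h1 := coarea' hε h hf.summable hG.summable fun x => by
    rw [← nsmul_eq_mul, ← Finset.sum_const, ← Finset.sum_add_distrib, Finset.mul_sum,
      Finset.mul_sum, ← Finset.sum_add_distrib]
    exact Finset.sum_le_sum fun s _ => pt1 hη0 _ _
  rw [hG.tsum_eq, hf.tsum_eq] at h1
  have a1 : η * (S.card * N + S.card * N) = ε / 2 * N := by rw [hη]; field_simp; ring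
  have a2 : ε / 2 * N ≤ (2 * η)⁻¹ * E := by linarith
  have a3 := mul_le_mul_of_nonneg_left a2 (show 0 ≤ 2 * η by positivity)
  rw [mul_inv_cancel_left₀ (by positivity)] at a3
  rw [← hη]
  linarith

theorem avg_le (hS : Gen S) (hc : (0 : ℝ) < S.card) (f : Γ → ℝ) (x : Γ) :
    ((∑ s ∈ S, f (x * s)) / (S.card : ℝ)) ^ 2 ≤ (S.card : ℝ)⁻¹ * ∑ s ∈ S, f (x * s) ^ 2 -
      (2 * (S.card : ℝ) ^ 2)⁻¹ * ∑ s ∈ S, (f (x * s) - f x) ^ 2 := by
  have := var_le hS.one fun s => f (x * s)
  simp only [mul_one] at this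
  rw [div_pow, div_le_iff₀ (by positivity)]
  field_simp
  linarith

end Gap

open Gap in
theorem gap_of_not_folner (hS : Gen S) (hF : ¬ Folner S) : GapProp S := by
  unfold Folner at hF
  push Not at hF
  obtain ⟨ε, hε, h⟩ := hF
  have hc : (0 : ℝ) < S.card := by exact_mod_cast Finset.card_pos.2 ⟨1, hS.one⟩
  refine ⟨max 0 (1 - ε ^ 2 / (8 * S.card ^ 3)), le_max_left _ _,
    max_lt one_pos (sub_lt_self _ (by positivity)), fun f hf => ?_⟩
  have hN0 : 0 ≤ ∑' x, f x ^ 2 := tsum_nonneg fun _ => sq_nonneg _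
  obtain ⟨N, hN⟩ := hf
  rw [hN.tsum_eq] at hN0 ⊢
  have hs : ∀ s : Γ, HasSum (fun x => f (x * s) ^ 2) N := fun s =>
    (Equiv.mulRight s).hasSum_iff.2 hN
  have hA : HasSum (fun x => ∑ s ∈ S, f (x * s) ^ 2) (S.card * N) := by
    simpa using hasSum_sum (s := S) fun s _ => hs s
  obtain ⟨E, hE⟩ : Summable fun x => ∑ s ∈ S, (f (x * s) - f x) ^ 2 :=
    summable_sum fun s _ => Summable.of_nonneg_of_le (fun _ => sq_nonneg _)
      (fun x => by nlinarith [sq_nonneg (f (x * s) + f x)])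
      (((hs s).summable.add hN.summable).mul_left 2)
  have h2 := poinc hε hc (fun F hF => (h F hF).le) hN hA hE
  have hB := (hA.mul_left (S.card : ℝ)⁻¹).sub (hE.mul_left (2 * (S.card : ℝ) ^ 2)⁻¹)
  have h3 := avg_le hS hc f
  refine ((Summable.of_nonneg_of_le (fun _ => sq_nonneg _) h3 hB.summable).tsum_le_tsum h3
    hB.summable).trans ?_
  rw [hB.tsum_eq, inv_mul_cancel_left₀ hc.ne']
  refine le_trans ?_ (mul_le_mul_of_nonneg_right (le_max_right _ _) hN0)
  have a1 : ε ^ 2 / (8 * S.card ^ 3) * N =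
      (2 * (S.card : ℝ) ^ 2)⁻¹ * (ε * (ε / (4 * S.card)) * N) := by
    field_simp; ring
  have := mul_le_mul_of_nonneg_left h2 (show 0 ≤ (2 * (S.card : ℝ) ^ 2)⁻¹ by positivity)
  linarith

end Vale.Agent.P239
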