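import Vale.Agent.P239.Defs
import Vale.Agent.P239.Core

/-! Combings of combable, CAT(0) and hyperbolic groups. -/

namespace Vale.Agent.P239

open scoped Pointwise symmDiff Matrix

variable {Γ : Type} [Group Γ] {S : Finset Γ}

theorem comb_of_combable (hS : Gen S) (h : IsCombable Γ) : Comb S := by
  obtain ⟨S', T, σ, L, h1, h2, h3, h4, h5⟩ := h
  obtain ⟨D, hD⟩ := hS.finite_sub_ball T.finite_toSet 1
  have hT : ∀ {x y : Γ}, x⁻¹ * y ∈ T → Near S D x y := fun h => near_one_iff.1 (hD _ h)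
  have hl : ∀ g : Γ, ∃ l : List Γ, (∀ x ∈ l, x ∈ S' ∨ x⁻¹ ∈ S') ∧ l.prod = g := fun g => by
    have : g ∈ (Subgroup.closure (S' : Set Γ)).toSubmonoid := h1 ▸ Subgroup.mem_top g
    rw [Subgroup.closure_toSubmonoid] at this
    simpa using Submonoid.exists_list_of_mem_closure this
  choose w hw hw' using hl
  obtain ⟨m, hm⟩ : ∃ m, ∀ s ∈ S, (w s).length ≤ m :=
    ⟨S.sup fun s => (w s).length, fun s hs => Finset.le_sup (f := fun s => (w s).length) hs⟩
  have ft : ∀ l : List Γ, (∀ x ∈ l, x ∈ S' ∨ x⁻¹ ∈ S') → ∀ g t,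
      Near S (l.length * D) (σ g t) (σ (g * l.prod) t) := by
    intro l
    induction l with
    | nil => intro _ g t; simpa using Near.refl hS 0 _
    | cons x l ih =>
      intro hl g t
      have e : Near S D (σ g t) (σ (g * x) t) := by
        rcases hl x List.mem_cons_self with h | h
        · exact hT (h4 g t x h)
        · simpa using (hT (h4 (g * x) t _ h)).symm hS
      have := e.trans (ih (fun y hy => hl y (List.mem_cons_of_mem _ hy)) (g * x) t)
      rw [List.prod_cons, ← mul_assoc]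
      exact this.mono hS (by rw [List.length_cons]; nlinarith)
  refine ⟨σ, (m + 1) * D, L * (m + 1), h2, fun g t => (hT (h3 g t)).mono hS (by nlinarith),
    fun g t s hs => ?_, fun n g hg t ht => ?_⟩
  · have := ft _ (hw s) g t
    rw [hw'] at this
    exact this.mono hS (Nat.mul_le_mul_right _ ((hm s hs).trans (Nat.le_succ m)))
  · have : ∀ n : ℕ, ∀ g ∈ (S : Set Γ) ^ n, ∃ l : List Γ, (∀ x ∈ l, x ∈ S' ∨ x⁻¹ ∈ S') ∧
        l.prod = g ∧ l.length ≤ m * n := by
      intro n
      induction n with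
      | zero => intro g hg; exact ⟨[], by simp, by simpa using hg.symm, by simp⟩
      | succ n ih =>
        intro g hg
        rw [pow_succ] at hg
        obtain ⟨a, ha, s, hs, rfl⟩ := hg
        obtain ⟨l, h1, h2, h3⟩ := ih a ha
        refine ⟨l ++ w s, fun x hx => (List.mem_append.1 hx).elim (h1 x) (hw s x),
          by rw [List.prod_append, h2, hw'], ?_⟩
        have := hm s hs
        rw [List.length_append, Nat.mul_succ]
        omega
    obtain ⟨l, h1, rfl, h3⟩ := this n g hg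
    refine h5 l h1 t (le_trans ?_ ht)
    rw [mul_assoc]
    exact Nat.mul_le_mul_left _ (by nlinarith)

section geo
variable {X : Type} [MetricSpace X]

/-- Geodesics from a common point with close endpoints are close. -/
def Fellow (X : Type) [MetricSpace X] : Prop :=
  ∀ D : ℝ, ∃ E : ℝ, ∀ (o y y' : X) (c c' : ℝ → X), IsGeodesic c o y → IsGeodesic c' o y' →
    dist y y' ≤ D → ∀ a ∈ Set.Icc (0 : ℝ) 1, ∀ a' ∈ Set.Icc (0 : ℝ) 1,
    |a * dist o y - a' * dist o y'| ≤ D → dist (c a) (c' a') ≤ E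

theorem IsGeodesic.left {c : ℝ → X} {p q : X} (h : IsGeodesic c p q) {a : ℝ}
    (ha : a ∈ Set.Icc (0 : ℝ) 1) : dist (c a) p = a * dist p q := by
  have := h.2.2 a ha 0 ⟨le_rfl, zero_le_one⟩
  rwa [h.1, sub_zero, abs_of_nonneg ha.1] at this

theorem IsGeodesic.right {c : ℝ → X} {p q : X} (h : IsGeodesic c p q) {a : ℝ}
    (ha : a ∈ Set.Icc (0 : ℝ) 1) : dist (c a) q = (1 - a) * dist p q := by
  have := h.2.2 a ha 1 ⟨zero_le_one, le_rfl⟩
  rwa [h.2.1, abs_of_nonpos (sub_nonpos.2 ha.2), neg_sub] at this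

theorem IsCAT0.fellow (h : IsCAT0 X) : Fellow X := fun D => ⟨3 * D, by
  intro o y y' c c' hc hc' hD a ha a' ha' haa
  have e1 := h.2 c o y hc (c' a) a ha
  have e2 := mul_le_mul_of_nonneg_left (h.2 c' o y' hc' y a ha) ha.1
  rw [hc'.left ha, dist_comm (c' a) y] at e1
  rw [dist_comm y o] at e2
  have e3 : dist (c' a) (c a) ≤ a * dist y y' :=
    (abs_le_of_sq_le_sq' (by linarith) (mul_nonneg ha.1 dist_nonneg)).2
  have e4 := hc'.2.2 a ha a' ha'
  rw [← abs_of_nonneg (dist_nonneg (x := o) (y := y')), ← abs_mul] at e4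
  have e5 := abs_le.1 (abs_dist_sub_le y y' o)
  rw [dist_comm y o, dist_comm y' o] at e5
  have e6 := mul_le_mul_of_nonneg_right ha.2 (dist_nonneg (x := y) (y := y'))
  have e7 : dist (c' a) (c' a') ≤ 2 * D := by
    rw [e4, abs_le]
    rw [abs_le] at haa
    constructor <;> linarith [mul_le_mul_of_nonneg_left e5.1 ha.1,
      mul_le_mul_of_nonneg_left e5.2 ha.1, haa.1, haa.2]
  linarith [dist_triangle_left (c a) (c' a') (c' a)]⟩

theorem IsGromovHyperbolic.fellow (h : IsGromovHyperbolic X) : Fellow X := fun D => by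
  obtain ⟨δ, hδ⟩ := h.2
  refine ⟨3 * D + δ, fun o y y' c c' hc hc' hD a ha a' ha' haa => ?_⟩
  have e1 := hδ y (c a) (c' a') o
  have e2 := dist_triangle_right (c' a') y y'
  have e3 := dist_triangle_right o y' y
  rw [hc.left ha, hc.right ha, hc'.left ha'] at e1
  rw [hc'.right ha'] at e2
  rw [dist_comm y' y] at e3
  have e4 := dist_triangle o y y'
  have e5 := dist_nonneg (x := y) (y := y')
  rw [abs_le] at haa
  rcases le_max_iff.1 (sub_le_iff_le_add.2 e1) with e | e <;> linarith [haa.1, haa.2]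

theorem comb_of_fellow [MulAction Γ X] (hS : Gen S) (hA : IsGeometricAction Γ X)
    (hg : ∀ p q : X, ∃ c, IsGeodesic c p q) (hF : Fellow X) : Comb S := by
  classical
  obtain ⟨hi, hp, o, R, hR⟩ := hA
  choose h hh using hR
  choose c hc using hg
  obtain ⟨D, hD1, hD⟩ : ∃ D : ℕ, 1 ≤ D ∧ ∀ s ∈ S, dist o (s • o) ≤ D :=
    ⟨S.sup (fun s => ⌈dist o (s • o)⌉₊) + 1, by omega, fun s hs => (Nat.le_ceil _).trans (by
      exact_mod_cast (Finset.le_sup (f := fun s => ⌈dist o (s • o)⌉₊) hs).trans (Nat.le_succ _))⟩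
  obtain ⟨E, hE⟩ := hF D
  obtain ⟨M, hM⟩ := hS.finite_sub_ball (hp o (2 * R + E)) 1
  let a : Γ → ℕ → ℝ := fun g t => if dist o (g • o) ≤ t then 1 else t / dist o (g • o)
  have ha : ∀ g t, a g t ∈ Set.Icc (0 : ℝ) 1 ∧
      a g t * dist o (g • o) = min (t : ℝ) (dist o (g • o)) := fun g t => by
    by_cases e : dist o (g • o) ≤ t
    · simp [a, e]
    · have e' := not_le.1 e
      have e0 := (Nat.cast_nonneg t).trans_lt e'
      simp only [a, if_neg e]
      exact ⟨⟨by positivity, (div_le_one e0).2 e'.le⟩, by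
        rw [div_mul_cancel₀ _ e0.ne', min_eq_left e'.le]⟩
  let σ : Γ → ℕ → Γ := fun g t =>
    if t = 0 then 1 else if dist o (g • o) ≤ t then g else h (c o (g • o) (a g t))
  have hR0 : 0 ≤ R := dist_nonneg.trans (hh o)
  have hσ : ∀ g t, dist (c o (g • o) (a g t)) (σ g t • o) ≤ R := fun g t => by
    simp only [σ]
    split_ifs with e e'
    · rw [one_smul, (hc _ _).left (ha g t).1, (ha g t).2, e]
      simpa using hR0
    · simpa [a, e', (hc _ _).2.1] using hR0
    · exact hh _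
  have key : ∀ (g g' : Γ) (t t' : ℕ), dist (g • o) (g' • o) ≤ D → |(t : ℝ) - t'| ≤ D →
      Near S M (σ g t) (σ g' t') := fun g g' t t' h1 h2 => by
    have e1 := hE _ _ _ _ _ (hc o (g • o)) (hc o (g' • o)) h1 _ (ha g t).1 _ (ha g' t').1 (by
      rw [(ha g t).2, (ha g' t').2]
      refine (abs_min_sub_min_le_max _ _ _ _).trans (max_le h2 (le_trans ?_ h1))
      rw [dist_comm o, dist_comm o]
      exact abs_dist_sub_le _ _ _)
    refine near_one_iff.1 (hM _ ?_)
    show dist o (((σ g t)⁻¹ * σ g' t') • o) ≤ _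
    rw [← hi (σ g t), mul_smul, smul_inv_smul]
    linarith [hσ g t, hσ g' t', dist_triangle4 (σ g t • o) (c o (g • o) (a g t))
      (c o (g' • o) (a g' t')) (σ g' t' • o), dist_comm (σ g t • o) (c o (g • o) (a g t))]
  refine ⟨σ, M, D, fun g => if_pos rfl, fun g t => key _ _ _ _ (by simp) (by simpa using hD1),
    fun g t s hs => key _ _ _ _ (by rw [mul_smul, hi]; exact hD s hs) (by simp),
    fun n g hg t ht => ?_⟩
  have : ∀ n : ℕ, ∀ g ∈ (S : Set Γ) ^ n, dist o (g • o) ≤ D * n := by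
    intro n
    induction n with
    | zero => intro g hg; rw [Set.mem_one.1 hg]; simp
    | succ n ih =>
      intro g hg
      rw [pow_succ] at hg
      obtain ⟨b, hb, s, hs, rfl⟩ := hg
      have e := hD s hs
      rw [← hi b, ← mul_smul] at e
      push_cast
      linarith [ih b hb, dist_triangle o (b • o) ((b * s) • o)]
  have e : dist o (g • o) ≤ t := (this n g hg).trans (by
    exact_mod_cast (Nat.mul_le_mul_left D (Nat.le_succ n)).trans ht)
  have e0 : t ≠ 0 := by
    rintro rfl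
    nlinarith
  simp only [σ, if_neg e0, if_pos e]

end geo

theorem comb_of_geom (hS : Gen S) (h : IsCAT0Group Γ ∨ IsHyperbolicGroup Γ) : Comb S := by
  rcases h with ⟨X, _, _, h1, h2⟩ | ⟨X, _, _, h1, h2⟩
  · exact comb_of_fellow hS h1 h2.1 h2.fellow
  · exact comb_of_fellow hS h1 h2.1 h2.fellow

end Vale.Agent.P239
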