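import Vale.Agent.P239.Core

/-! Existence of good levels. -/

namespace Vale.Agent.P239

open scoped Pointwise symmDiff Matrix
open MeasureTheory

variable {Γ : Type*} [Group Γ] {S : Finset Γ} {r : ℕ}

omit [Group Γ] in
theorem good_ae [Countable Γ] (u ω₀ ω : Γ → ℝ) (h1 : ∀ x, 0 ≤ ω x)
    (s0 : Summable fun x => ω₀ x ^ 2) (s1 : Summable fun x => ω x ^ 2) :
    ∀ᵐ t : ℝ, ∑' x, (Set.Icc (u x - ω₀ x) (u x + ω₀ x)).indicator
      (fun _ => ENNReal.ofReal (2 * ω x)) t < ⊤ := by
  have hm : ∀ x, Measurable ((Set.Icc (u x - ω₀ x) (u x + ω₀ x)).indicator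
      (fun _ : ℝ => ENNReal.ofReal (2 * ω x))) :=
    fun x => measurable_const.indicator measurableSet_Icc
  refine ae_lt_top (Measurable.tsum hm) ?_
  rw [lintegral_tsum fun x => (hm x).aemeasurable]
  refine ne_top_of_le_ne_top ((s0.add s1).mul_left 2).tsum_ofReal_ne_top
    (ENNReal.tsum_le_tsum fun x => ?_)
  rw [lintegral_indicator_const measurableSet_Icc, Real.volume_Icc,
    ← ENNReal.ofReal_mul (by linarith [h1 x])]
  exact ENNReal.ofReal_le_ofReal (by nlinarith [sq_nonneg (ω₀ x - ω x)])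

theorem good_chain (hS : Gen S) {w : ℕ} {T : Set Γ} (hT : CConn S w T) (f ω : Γ → ℝ)
    (h : ∀ x y, Near S w x y → |f y - f x| ≤ ω x) {x y : Γ} (hx : x ∈ T) (hy : y ∈ T) :
    ENNReal.ofReal (f y - f x) ≤ ∑' z : T, ENNReal.ofReal (2 * ω z) := by
  haveI := hS.countable
  have h1 : Set.Ioc (f x) (f y) ⊆ ⋃ z : T, Set.Icc (f z - ω z) (f z + ω z) := by
    intro α hα
    by_contra hc
    simp only [Set.mem_iUnion, not_exists] at hc
    have := hT {z | f z < α} (fun a ha b _ hab => ?_) x hx y hy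
    · exact absurd (this.1 hα.1) (not_lt.2 hα.2)
    · have h2 := hc ⟨a, ha⟩
      have h3 := abs_le.1 (h a b hab)
      have h4 := (abs_nonneg _).trans (h a b hab)
      simp only [Set.mem_Icc, not_and_or, not_le] at h2
      simp only [Set.mem_ofPred_eq]
      constructor <;> intro h5 <;> rcases h2 with h2 | h2 <;> linarith [h3.1, h3.2]
  rw [← Real.volume_Ioc]
  refine (measure_mono h1).trans ((measure_iUnion_le _).trans (le_of_eq ?_))
  refine tsum_congr fun z => ?_
  rw [Real.volume_Icc]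
  congr 1
  ring

theorem goodProp (hS : Gen S) : GoodProp S := by
  intro w u hu E hE a b hab
  haveI := hS.countable
  obtain ⟨ω₀, -, s0, b0⟩ := oscProp S u hu 1
  choose ω h1 s1 b1 using fun g => oscProp S _ (hu.translate g) w
  have k1 := ae_all_iff.2 fun g => good_ae u ω₀ (ω g) (h1 g) s0 (s1 g)
  have k2 : ∀ᵐ t : ℝ, t ∉ E := hE.ae_notMem _
  have k3 : volume (Set.Ioo a b) ≠ 0 := by simpa using hab
  obtain ⟨t, ht, h2, h3⟩ := Measure.exists_mem_of_measure_ne_zero_of_ae k3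
    (ae_restrict_of_ae (k2.and k1))
  refine ⟨t, ht, h2, fun g η hη => ?_⟩
  obtain ⟨K, hK⟩ := ((ENNReal.tendsto_tsum_compl_atTop_zero (h3 g).ne).eventually
    (gt_mem_nhds (ENNReal.ofReal_pos.2 hη))).exists
  refine ⟨K, K.finite_toSet, fun T hT hc => ?_⟩
  have k4 : ∑' z : T, ENNReal.ofReal (2 * ω g z) ≤ ENNReal.ofReal η := by
    refine le_trans (le_of_eq (tsum_congr fun z => ?_)) ((ENNReal.tsum_mono_subtype
      (fun x => (Set.Icc (u x - ω₀ x) (u x + ω₀ x)).indicator
        (fun _ => ENNReal.ofReal (2 * ω g x)) t)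
      (s := T) (t := {x | x ∉ K}) fun x hx => (hT x hx).1).trans hK.le)
    obtain ⟨s, hs⟩ := (hT z z.2).2
    have h4 := abs_le.1 (b0 z (z * s) (near_step _ s.2))
    have h5 := (abs_nonneg _).trans (b0 z (z * s) (near_step _ s.2))
    rw [Set.indicator_of_mem]
    simp only [mem_cob, Set.mem_ofPred_eq] at hs
    by_cases h6 : t < u z
    · have h7 : ¬ t < u (z * s) := fun h => hs ⟨fun _ => h, fun _ => h6⟩
      constructor <;> linarith [h4.1, h4.2, not_lt.1 h7]
    · have h7 : t < u (z * s) := by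
        by_contra h
        exact hs ⟨fun h' => absurd h' h6, fun h' => absurd h' h⟩
      constructor <;> linarith [h4.1, h4.2, not_lt.1 h6]
  have k5 : ∀ x ∈ T, ∀ y ∈ T, u (g * y) - u (g * x) ≤ η := fun x hx y hy =>
    (ENNReal.ofReal_le_ofReal_iff hη.le).1
      ((good_chain hS hc (fun x => u (g * x)) (ω g) (b1 g) hx hy).trans k4)
  intro x hx y hy
  exact abs_le.2 ⟨by linarith [k5 x hx y hy], k5 y hy x hx⟩

end Vale.Agent.P239
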