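import Vale.Agent.P239.BasY

/-! Finitely many heavy classes. -/

namespace Vale.Agent.P239

open scoped Pointwise symmDiff
open Filter Topology

variable {Γ : Type*} [Group Γ] {Z : Type*} [MetricSpace Z] [CompactSpace Z] [MulAction Γ Z]
  [ContinuousConstSMul Γ Z] {D : Dat Γ Z} {π : Z → ℝ}

namespace HFXAux

omit [CompactSpace Z] [ContinuousConstSMul Γ Z] in
theorem chain (H : D.OK) (h1 : D.CF) (h2 : EP D.S) (h3 : D.OM) {δ : ℝ} (hδ : 0 < δ)
    (A : ℕ → Set Γ) (hc : ∀ i, ∃ ξ, D.Cut (A i) ξ) (hm : Monotone A)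
    (hl : ∀ i, δ ≤ D.m (A i)) (hu : ∀ i, D.m (A i) ≤ 1 - δ)
    (hn : ∀ i j, i ≠ j → ¬ D.Same (A i) (A j)) : False := by
  refine h2 _ _ h1 A hc hm hn fun M => ?_
  obtain ⟨Op, p1, p2, p3⟩ := h3 (fun _ => A 0) δ hδ (fun _ _ _ => le_rfl) (fun _ => hc 0)
    (fun _ => hl 0) M
  obtain ⟨Om, m1, m2, m3⟩ := h3 (fun i => (A i)ᶜ) δ hδ
    (fun _ _ h => Set.compl_subset_compl.2 (hm h))
    (fun i => (hc i).imp fun _ h => H.cut_compl h)
    (fun i => by rw [H.m_compl]; linarith [hu i]) M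
  have hc1 := H.c_le_one
  have a1 : ∀ i, ∀ y ∈ Op, ∀ z, Near D.S M z y → 1 - D.c / 2 < D.h (A i) z := fun i y hy z hz =>
    (p3 0 y hy z hz).trans_le (H.h_mono (hm (Nat.zero_le i)) z)
  have a2 : ∀ i, ∀ y ∈ Om, ∀ z, Near D.S M z y → D.h (A i) z < D.c / 2 := fun i y hy z hz => by
    have := m3 i y hy z hz
    rw [H.h_compl] at this
    linarith
  refine ⟨Op, Om, p1, m1, p2, m2, fun i => ?_⟩
  obtain ⟨ξ, hξ⟩ := hc i
  refine ⟨fun y hy => ?_, fun y hy => ?_, fun x hx y hy hxy => ?_⟩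
  · rw [← hξ.1]
    exact H.mem_vote (by linarith [a1 i y hy y (Near.refl H.gen _ _)])
  · rw [← hξ.1]
    exact H.not_mem_vote (by linarith [a2 i y hy y (Near.refl H.gen _ _)])
  · obtain ⟨t1, t2⟩ := H.cut_tails_Th hξ hx
    rcases hy with hy | hy
    · linarith [a1 i y hy x hxy]
    · linarith [a2 i y hy x hxy]

omit [CompactSpace Z] [ContinuousConstSMul Γ Z] in
theorem disj_fin (H : D.OK) {δ : ℝ} (hδ : 0 < δ) (A : ℕ → Set Γ) (hinj : Function.Injective A)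
    (hl : ∀ i, δ ≤ D.m (A i)) : {a | ∀ b, b ≠ a → A a ∩ A b = ∅}.Finite := by
  refine Set.Finite.of_finite_image (f := A) ?_ hinj.injOn
  refine H.finite_of_disjoint hδ ?_ ?_
  · rintro _ ⟨a, -, rfl⟩
    exact hl a
  · rintro _ ⟨a, ha, rfl⟩ _ ⟨b, -, rfl⟩ hne
    exact Set.disjoint_iff_inter_eq_empty.2 (ha b fun h => hne (h ▸ rfl))

omit [CompactSpace Z] [ContinuousConstSMul Γ Z] in
theorem anti (H : D.OK) {δ : ℝ} (hδ : 0 < δ) (A : ℕ → Set Γ)
    (hl : ∀ i, δ ≤ D.m (A i)) (hu : ∀ i, D.m (A i) ≤ 1 - δ)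
    (hn : ∀ i j, i ≠ j → Nested (A i) (A j)) (hs : ∀ i j, i ≠ j → ¬ A i ⊆ A j) : False := by
  have hinj : Function.Injective A := fun i j h => by
    by_contra hne
    exact hs i j hne h.subset
  have key : ∀ i j, i ≠ j → A i ∩ A j = ∅ ∨ (A i)ᶜ ∩ (A j)ᶜ = ∅ := by
    intro i j hne
    rcases hn i j hne with h | h | h | h
    · exact Or.inl h
    · refine absurd (fun x hx => ?_) (hs i j hne)
      by_contra hx'
      exact (Set.eq_empty_iff_forall_notMem.1 h) x ⟨hx, hx'⟩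
    · refine absurd (fun x hx => ?_) (hs j i hne.symm)
      by_contra hx'
      exact (Set.eq_empty_iff_forall_notMem.1 h) x ⟨hx', hx⟩
    · exact Or.inr h
  have f1 := disj_fin H hδ A hinj hl
  have f2 := disj_fin H hδ (fun i => (A i)ᶜ) (fun i j h => hinj (compl_injective h))
    (fun i => by rw [H.m_compl]; linarith [hu i])
  refine Set.infinite_univ ((f1.union f2).subset fun a _ => ?_)
  by_contra hc
  simp only [Set.mem_union, Set.mem_ofPred_eq, not_or, not_forall] at hc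
  obtain ⟨⟨c, hca, hc⟩, b, hba, hb⟩ := hc
  have e1 := (key a c (Ne.symm hca)).resolve_left hc
  have e2 := (key a b (Ne.symm hba)).resolve_right hb
  refine hs b c (fun h => hc (h ▸ e2)) fun x hx => ?_
  by_contra hx'
  by_cases ha : x ∈ A a
  · exact (Set.eq_empty_iff_forall_notMem.1 e2) x ⟨ha, hx⟩
  · exact (Set.eq_empty_iff_forall_notMem.1 e1) x ⟨ha, hx'⟩

end HFXAux

theorem hf (H : D.OK) (h1 : D.CF) (h2 : EP D.S) (h3 : D.OM) : D.HF := by
  intro δ hδ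
  by_contra hcon
  classical
  obtain ⟨f, hf, hR⟩ := exists_seq_dep (α := Set Γ × Z)
    (fun _ p => D.Cut p.1 p.2 ∧ δ ≤ D.m p.1 ∧ D.m p.1 ≤ 1 - δ)
    (fun p q => D.Cut p.1 p.2 → ¬ D.Same q.1 p.1) (by
      intro _ s
      by_contra hc
      refine hcon ⟨{p | p ∈ s ∧ D.Cut p.1 p.2}, s.finite_toSet.subset fun p hp => hp.1,
        fun p hp => hp.2, fun Q ξ hQ a b => ?_⟩
      by_contra hc'
      refine hc ⟨(Q, ξ), ⟨hQ, a, b⟩, fun p hp hpc hs => hc' ⟨p, ⟨hp, hpc⟩, hs, ?_⟩⟩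
      exact H.same_point hQ hpc hs)
  set Q : ℕ → Set Γ := fun i => (f i).1 with hQ
  have hc : ∀ i, ∃ ξ, D.Cut (Q i) ξ := fun i => ⟨_, (hf i).1⟩
  have hl : ∀ i, δ ≤ D.m (Q i) := fun i => (hf i).2.1
  have hu : ∀ i, D.m (Q i) ≤ 1 - δ := fun i => (hf i).2.2
  have hn : ∀ i j, i ≠ j → ¬ D.Same (Q i) (Q j) := by
    intro i j hne hs
    rcases lt_or_gt_of_ne hne with h | h
    · exact hR i j h (hf i).1 hs.symm
    · exact hR j i h (hf j).1 hs
  obtain ⟨g, hg | hg⟩ := exists_increasing_or_nonincreasing_subseq' (· ⊆ ·) Q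
  · exact HFXAux.chain H h1 h2 h3 hδ (fun i => Q (g i)) (fun _ => hc _)
      (monotone_nat_of_le_succ hg) (fun _ => hl _) (fun _ => hu _)
      fun i j hne => hn _ _ (g.injective.ne hne)
  obtain ⟨g', hg' | hg'⟩ := exists_increasing_or_nonincreasing_subseq' (· ⊇ ·) fun i => Q (g i)
  · refine HFXAux.chain H h1 h2 h3 hδ (fun i => (Q (g (g' i)))ᶜ)
      (fun i => (hc _).imp fun _ h => H.cut_compl h)
      (monotone_nat_of_le_succ fun n => Set.compl_subset_compl.2 (hg' n))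
      (fun i => by rw [H.m_compl]; linarith [hu (g (g' i))])
      (fun i => by rw [H.m_compl]; linarith [hl (g (g' i))]) fun i j hne hs => ?_
    have := hs.compl.symm.compl.symm
    rw [compl_compl, compl_compl] at this
    exact hn _ _ (g.injective.ne (g'.injective.ne hne)) this
  refine HFXAux.anti H hδ (fun i => Q (g (g' i))) (fun _ => hl _) (fun _ => hu _)
    (fun i j hne => CFam.nest h1 _ (hc _) _ (hc _) (hn _ _ (g.injective.ne (g'.injective.ne hne))))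
    fun i j hne => ?_
  rcases lt_or_gt_of_ne hne with h | h
  · exact hg _ _ (g'.strictMono h)
  · exact hg' _ _ h

end Vale.Agent.P239
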