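import Vale.Agent.P239.ASB

/-! Homotopy invariance of the cohomology of cochains on lists. -/

namespace Vale.Agent.P239.AS

open scoped Pointwise symmDiff
open Filter Topology

variable {k : Type*} [Field k] {X Y : Type*}

namespace HomotXAux

/-- The prism operator of two maps. -/
def pr (a b : X → Y) : Co k Y → List X → k
  | _, [] => 0
  | f, x :: l => f (a x :: b x :: l.map b) - pr a b (fun l' => f (a x :: l')) l

theorem pr_sub (a b : X → Y) (f g : Co k Y) (l : List X) :
    pr a b (f - g) l = pr a b f l - pr a b g l := by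
  induction l generalizing f g with
  | nil => simp [pr]
  | cons x l ih =>
    have := ih (fun l' => f (a x :: l')) (fun l' => g (a x :: l'))
    simp only [pr, Pi.sub_apply]
    rw [show (fun l' => f (a x :: l') - g (a x :: l')) =
      (fun l' => f (a x :: l')) - fun l' => g (a x :: l') from rfl, this]
    ring

theorem pr_d (a b : X → Y) (f : Co k Y) (l : List X) :
    d (pr a b f : Co k X) l + pr a b (d f) l = f (l.map b) - f (l.map a) := by
  induction l generalizing f with
  | nil => simp [pr]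
  | cons x l ih =>
    have h1 := ih (fun l' => f (a x :: l'))
    have h2 : (fun l' => pr a b f (x :: l') : Co k X) =
        pull b (fun l' => f (a x :: b x :: l')) - (pr a b (fun l' => f (a x :: l')) : Co k X) := rfl
    have h3 : (fun l' => d f (a x :: l') : Co k Y) = f - d (fun l' => f (a x :: l') : Co k Y) :=
      funext fun l' => d_cons f _ l'
    have h4 : pull b (d (fun l' => f (a x :: b x :: l') : Co k Y)) l =
        d (fun l' => f (a x :: b x :: l') : Co k Y) (l.map b) := rfl
    rw [d_cons, h2, map_sub, d_pull, Pi.sub_apply, h4, pr, h3, pr_sub, d_cons, d_cons]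
    simp only [List.map_cons]
    linear_combination h1

theorem pr_zero (a b : X → Y) {W : Set Y} {f : Co k Y} (hf : ∀ l, (∀ y ∈ l, y ∈ W) → f l = 0)
    {l : List X} (hl : ∀ x ∈ l, a x ∈ W ∧ b x ∈ W) : pr a b f l = 0 := by
  induction l generalizing f with
  | nil => rfl
  | cons x l ih =>
    have hx := hl x List.mem_cons_self
    have hl' : ∀ y ∈ l, a y ∈ W ∧ b y ∈ W := fun y hy => hl y (List.mem_cons_of_mem _ hy)
    rw [pr, ih (fun l' h' => hf _ (List.forall_mem_cons.2 ⟨hx.1, h'⟩)) hl', sub_zero]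
    refine hf _ (List.forall_mem_cons.2 ⟨hx.1, List.forall_mem_cons.2 ⟨hx.2, fun y hy => ?_⟩⟩)
    obtain ⟨z, hz, rfl⟩ := List.mem_map.1 hy
    exact (hl' z hz).2

variable [TopologicalSpace X] [TopologicalSpace Y]

/-- Close maps induce the same map in cohomology. -/
theorem ex_close {K : Set X} {a b : X → Y} (ha : Continuous a) (hb : Continuous b) {f : Co k Y}
    (h : ∀ y ∈ K, ∃ W : Set Y, (∀ l, (∀ z ∈ l, z ∈ W) → d f l = 0) ∧ W ∈ 𝓝 (a y) ∧ W ∈ 𝓝 (b y)) :
    Ex K (pull b f - pull a f) := by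
  refine ⟨pr a b f, ?_⟩
  have e : pull b f - pull a f - d (pr a b f : Co k X) = (pr a b (d f) : Co k X) := by
    funext l
    have := pr_d a b f l
    change f (l.map b) - f (l.map a) - d (pr a b f : Co k X) l = _
    linear_combination -this
  rw [e]
  refine ⟨rfl, fun y hy => ?_⟩
  obtain ⟨W, h1, h2, h3⟩ := h y hy
  exact ⟨a ⁻¹' W ∩ b ⁻¹' W, inter_mem (ha.continuousAt h2) (hb.continuousAt h3),
    fun l hl => pr_zero a b h1 hl⟩

theorem ex_const (K : Set X) {f : Co k Y} {y : Y} (h : Van (d f) y) :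
    Ex K (pull (fun _ : X => y) f) := by
  obtain ⟨g, hg⟩ := h.cone
  refine ⟨pull (fun _ : X => y) g, ?_⟩
  rw [d_pull, ← map_sub]
  exact pull_mem_Nul (L := {y}) (fun _ _ => continuousAt_const) (fun _ _ => rfl)
    ⟨hg.nil, fun z hz => hz ▸ hg⟩

theorem steps {K : Set X} {L : Set Y} (hK : IsCompact K) (H : X × ℝ → Y) (hH : Continuous H)
    (hL : ∀ x ∈ K, ∀ t, H (x, t) ∈ L) {f : Co k Y} (hf : d f ∈ Nul k L) :
    Ex K (pull (fun x => H (x, 1)) f - pull (fun x => H (x, 0)) f) := by
  have key : ∀ᶠ r in 𝓝 (0 : ℝ), ∀ p ∈ K ×ˢ Set.Icc (0 : ℝ) 1, ∃ W : Set Y,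
      (∀ l, (∀ z ∈ l, z ∈ W) → d f l = 0) ∧ W ∈ 𝓝 (H p) ∧ W ∈ 𝓝 (H (p.1, p.2 + r)) := by
    refine (hK.prod isCompact_Icc).eventually_forall_of_forall_eventually fun p hp => ?_
    obtain ⟨W, hW, h⟩ := hf.2 _ (hL p.1 hp.1 p.2)
    have c1 : Continuous fun z : ℝ × X × ℝ => H z.2 := hH.comp continuous_snd
    have c2 : Continuous fun z : ℝ × X × ℝ => H (z.2.1, z.2.2 + z.1) := hH.comp (by fun_prop)
    have hW' := eventually_mem_nhds_iff.2 hW
    filter_upwards [(c1.tendsto (0, p)).eventually hW', (c2.tendsto (0, p)).eventually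
      (by simpa only [add_zero] using hW')] with z h1 h2
    exact ⟨W, h, h1, h2⟩
  obtain ⟨N, hN⟩ := (tendsto_one_div_add_atTop_nhds_zero_nat.eventually key).exists
  have hN0 : (0 : ℝ) < N + 1 := by positivity
  have ind : ∀ j : ℕ, j ≤ N + 1 →
      Ex K (pull (fun x => H (x, j / (N + 1))) f - pull (fun x => H (x, 0)) f) := by
    intro j
    induction j with
    | zero =>
      intro _
      rw [Nat.cast_zero, zero_div, sub_self]
      exact Ex.of_nul (Nul k K).zero_mem
    | succ j ih =>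
      intro hj
      have hj' : (j : ℝ) ≤ N + 1 := by exact_mod_cast (by omega : j ≤ N + 1)
      have h1 := ex_close (K := K) (a := fun x => H (x, j / (N + 1)))
        (b := fun x => H (x, j / (N + 1) + 1 / (N + 1))) (hH.comp (by fun_prop))
        (hH.comp (by fun_prop)) (f := f) fun y hy =>
          hN (y, j / (N + 1)) ⟨hy, by positivity, (div_le_one hN0).2 hj'⟩
      have h2 := h1.add (ih (by omega))
      rw [sub_add_sub_cancel, ← add_div] at h2
      push_cast
      exact h2
  have := ind (N + 1) le_rfl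
  push_cast at this
  rwa [div_self hN0.ne'] at this

end HomotXAux

variable [TopologicalSpace X] [TopologicalSpace Y]

theorem homot {K L : Set X} (hK : IsCompact K) (H : X × unitInterval → X) (hH : Continuous H) (x₀ : X)
    (h0 : ∀ x, H (x, 0) = x) (h1 : ∀ x, H (x, 1) = x₀) (hx : x₀ ∈ L)
    (hL : ∀ x ∈ K, ∀ t, H (x, t) ∈ L) {f : Co k X} (hf : d f ∈ Nul k L) : Ex K f := by
  have h := HomotXAux.steps hK (fun p : X × ℝ => H (p.1, Set.projIcc 0 1 zero_le_one p.2))
    (hH.comp (continuous_fst.prodMk (continuous_projIcc.comp continuous_snd)))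
    (fun x hx t => hL x hx _) hf
  have e0 : Set.projIcc (0 : ℝ) 1 zero_le_one 0 = (0 : unitInterval) := Set.projIcc_left _
  have e1 : Set.projIcc (0 : ℝ) 1 zero_le_one 1 = (1 : unitInterval) := Set.projIcc_right _
  simp only [e0, e1, h0, h1, pull_id] at h
  have := (HomotXAux.ex_const K (hf.2 x₀ hx)).sub h
  rwa [sub_sub_cancel] at this

theorem ht_of_contractible [ContractibleSpace X] : HT k X := by
  obtain ⟨x₀, ⟨F⟩⟩ := id_nullhomotopic X
  intro K hK
  have hH : Continuous fun p : X × unitInterval => F (p.2, p.1) :=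
    F.continuous.comp continuous_swap
  refine ⟨insert x₀ ((fun p : X × unitInterval => F (p.2, p.1)) '' (K ×ˢ Set.univ)),
    ((hK.prod isCompact_univ).image hH).insert _, fun x hx => Or.inr ⟨(x, 0), ⟨hx, trivial⟩, ?_⟩,
    fun f hf => homot hK _ hH x₀ (fun x => ?_) (fun x => ?_) (Or.inl rfl)
      (fun x hx t => Or.inr ⟨(x, t), ⟨hx, trivial⟩, rfl⟩) hf⟩
  · exact F.apply_zero x
  · exact F.apply_zero x
  · exact F.apply_one x

theorem star_acyc {C : Set R4} (hC : IsCompact C) {x : R4} (hx : x ∈ C)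
    (h : StarConvex ℝ x C) : Acyc k C := by
  intro f hf
  refine homot hC (fun p : R4 × unitInterval => (p.2 : ℝ) • x + (1 - (p.2 : ℝ)) • p.1)
    (by fun_prop) x (fun y => by simp) (fun y => by simp) hx (fun y hy t => ?_) hf
  exact h hy t.2.1 (sub_nonneg.2 t.2.2) (by ring)

end Vale.Agent.P239.AS
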