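import Vale.Agent.P239.ASB
import Vale.Agent.P239.BasY

/-! Local fillings of edge sets with bounded defect clusters. -/

namespace Vale.Agent.P239.AS

open scoped Pointwise symmDiff
open Filter Topology

variable {Γ : Type*} [Group Γ] {E : Type*} [TopologicalSpace E] [T2Space E] [MulAction Γ E]
  [ContinuousConstSMul Γ E] {S : Finset Γ} {π : E → Γ} {x₀ : E} {r₀ : ℕ} {K₀ : Set E}

namespace IfcXAux

/-- The part of the coboundary near `T`. -/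
noncomputable def zz (S : Finset Γ) (π : E → Γ) (W : Set (Γ × S)) (T : Set Γ) : Co (ZMod 2) E :=
  cut (π ⁻¹' {g | ∃ t ∈ T, Near S 1 t g}) (d (fW S π W))

/-- A union of clusters of `D`. -/
def Cl (S : Finset Γ) (D T : Set Γ) : Prop :=
  T ⊆ D ∧ ∀ y ∈ T, ∀ z ∈ D, Near S 2 y z → z ∈ T

/-- `ζ` has a primitive supported near `T`. -/
def Loc (S : Finset Γ) (π : E → Γ) (ρ : ℕ) (T : Set Γ) (ζ : Co (ZMod 2) E) : Prop :=
  ∃ b, ζ - d b ∈ Nul (ZMod 2) (Set.univ : Set E) ∧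
    ∀ y, (∀ t ∈ T, ¬ Near S ρ t (π y)) → Van b y

omit [T2Space E] [ContinuousConstSMul Γ E] in
theorem near_loc (h : Net S π x₀ r₀ K₀) (x : E) :
    ∃ U ∈ 𝓝 x, ∀ y ∈ U, ∀ y' ∈ U, Near S 1 (π y) (π y') := by
  obtain ⟨U, hU, h1⟩ := h.loc x
  exact ⟨U, hU, fun y hy y' hy' => by simpa [Near] using h1 y hy y' hy'⟩

omit [T2Space E] [ContinuousConstSMul Γ E] in
theorem van_in (h : Net S π x₀ r₀ K₀) (W : Set (Γ × S)) {T : Set Γ} {x : E} (hx : π x ∈ T) :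
    Van (d (fW S π W) - zz S π W T) x := by
  obtain ⟨U, hU, h1⟩ := near_loc h x
  refine van_sub_cut (mem_of_superset hU fun y hy => ?_) rfl
  exact ⟨π x, hx, h1 x (mem_of_mem_nhds hU) y hy⟩

omit [T2Space E] [ContinuousConstSMul Γ E] in
theorem van_out (h : Net S π x₀ r₀ K₀) (h1 : FW S π x₀ r₀) {W : Set (Γ × S)} {T : Set Γ}
    (hT : Cl S (Def S (r₀ + 1) W) T) {x : E} (hx : π x ∉ T) : Van (zz S π W T) x := by
  by_cases hD : π x ∈ Def S (r₀ + 1) W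
  · obtain ⟨U, hU, h2⟩ := near_loc h x
    refine van_cut_of_compl (mem_of_superset hU fun y hy => ?_) _
    rintro ⟨t, ht, h3⟩
    exact hx (hT.2 t ht _ hD (h3.trans (h2 y hy x (mem_of_mem_nhds hU))))
  · exact ((h1 W).2.1 x hD).cut _

omit [T2Space E] in
theorem zc (h : Net S π x₀ r₀ K₀) (h1 : FW S π x₀ r₀) {W : Set (Γ × S)} {T : Set Γ}
    (hT : Cl S (Def S (r₀ + 1) W) T) (hf : T.Finite) : Zc 3 Set.univ (zz S π W T) := by
  refine ⟨(h1 W).1.d.cut _, ⟨⋃ t ∈ T, (fun y => t • y) '' K₀,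
    hf.isCompact_biUnion fun t _ => h.cpt.image (continuous_const_smul t), Set.subset_univ _,
    cut_nil _ _, fun x hx => van_out h h1 hT fun hx' => hx ?_⟩, rfl, fun x _ => ?_⟩
  · exact Set.mem_biUnion hx' ⟨_, h.mem x, smul_inv_smul _ _⟩
  · by_cases hx : π x ∈ T
    · have := (van_in h W hx).d.neg
      rwa [map_sub, d_d, zero_sub, neg_neg] at this
    · exact (van_out h h1 hT hx).d

omit [T2Space E] [MulAction Γ E] [ContinuousConstSMul Γ E] in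
theorem Loc.congr {ρ : ℕ} {T : Set Γ} {ζ ζ' : Co (ZMod 2) E} (h : Loc S π ρ T ζ)
    (h' : ζ' - ζ ∈ Nul (ZMod 2) (Set.univ : Set E)) : Loc S π ρ T ζ' := by
  obtain ⟨b, h1, h2⟩ := h
  refine ⟨b, ?_, h2⟩
  have := (Nul (ZMod 2) _).add_mem h' h1
  rwa [sub_add_sub_cancel] at this

omit [T2Space E] [MulAction Γ E] [ContinuousConstSMul Γ E] in
theorem Loc.mono (hS : Gen S) {ρ ρ' : ℕ} {T T' : Set Γ} {ζ : Co (ZMod 2) E} (h : Loc S π ρ T ζ)
    (hρ : ρ ≤ ρ') (hT : T ⊆ T') : Loc S π ρ' T' ζ := by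
  obtain ⟨b, h1, h2⟩ := h
  exact ⟨b, h1, fun y hy => h2 y fun t ht hn => hy t (hT ht) (hn.mono hS hρ)⟩

omit [T2Space E] [MulAction Γ E] [ContinuousConstSMul Γ E] in
theorem Loc.add {ρ : ℕ} {T : Set Γ} {ζ ζ' : Co (ZMod 2) E} (h : Loc S π ρ T ζ)
    (h' : Loc S π ρ T ζ') : Loc S π ρ T (ζ + ζ') := by
  obtain ⟨b, h1, h2⟩ := h
  obtain ⟨b', h1', h2'⟩ := h'
  refine ⟨b + b', ?_, fun y hy => (h2 y hy).add (h2' y hy)⟩
  have := (Nul (ZMod 2) _).add_mem h1 h1'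
  rwa [sub_add_sub_comm, ← map_add] at this

omit [T2Space E] in
theorem Loc.pull (h : Net S π x₀ r₀ K₀) {ρ : ℕ} {t : Γ} {ζ : Co (ZMod 2) E}
    (hl : Loc S π ρ {t} ζ) (g : Γ) :
    Loc S π ρ {g * t} (pull (fun y : E => g⁻¹ • y) ζ) := by
  obtain ⟨b, h1, h2⟩ := hl
  have hc : Continuous fun y : E => g⁻¹ • y := continuous_const_smul _
  refine ⟨AS.pull (fun y : E => g⁻¹ • y) b, ?_, fun y hy => Van.pull hc.continuousAt (h2 _ ?_)⟩
  · rw [d_pull, ← map_sub]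
    exact pull_mem_Nul (fun _ _ => hc.continuousAt) (fun _ _ => Set.mem_univ _) h1
  · rintro _ rfl hn
    refine hy _ rfl ?_
    rw [h.eqv, ← near_mul_left g, mul_inv_cancel_left] at hn
    exact hn

omit [T2Space E] [ContinuousConstSMul Γ E] in
theorem loc_of_exc (h : Net S π x₀ r₀ K₀) {ζ : Co (ZMod 2) E} (he : Exc Set.univ ζ) (t : Γ) :
    ∃ ρ, Loc S π ρ {t} ζ := by
  obtain ⟨b, ⟨K, hK, -, hb⟩, h1⟩ := he
  obtain ⟨ρ, hρ⟩ := h.gen.finite_sub_ball (h.prop K hK) t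
  exact ⟨ρ, b, h1, fun y hy => hb.2 y fun hyK => hy t rfl (hρ _ ⟨y, hyK, rfl⟩)⟩

omit [T2Space E] [ContinuousConstSMul Γ E] in
theorem fW_tr (h : Net S π x₀ r₀ K₀) (g : Γ) (W : Set (Γ × S)) :
    fW S π (trE g W) = pull (fun y : E => g⁻¹ • y) (fW S π W) := by
  funext l
  match l with
  | [] => rfl
  | [_] => rfl
  | [y, y'] =>
    show fW S π (trE g W) [y, y'] = fW S π W [g⁻¹ • y, g⁻¹ • y']
    have e : (π (g⁻¹ • y))⁻¹ * π (g⁻¹ • y') = (π y)⁻¹ * π y' := by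
      rw [h.eqv, h.eqv]
      group
    classical
    unfold fW
    refine if_congr ⟨fun ⟨a, b⟩ => ⟨e ▸ a, ?_⟩, fun ⟨a, b⟩ => ⟨e ▸ a, ?_⟩⟩ rfl rfl
    · have b' : (g⁻¹ * π y, (⟨_, a⟩ : S)) ∈ W := b
      convert b' using 3
      exact h.eqv _ _
    · show (g⁻¹ * π y, _) ∈ W
      convert b using 3
      · exact (h.eqv _ _).symm
      · exact e.symm
  | _ :: _ :: _ :: _ => rfl

omit [T2Space E] [ContinuousConstSMul Γ E] in
theorem zz_tr (h : Net S π x₀ r₀ K₀) (g : Γ) (W : Set (Γ × S)) (T : Set Γ) :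
    zz S π (trE g W) (tr g T) = pull (fun y : E => g⁻¹ • y) (zz S π W T) := by
  unfold zz
  rw [pull_cut, ← d_pull, ← fW_tr h]
  congr 2
  ext y
  simp only [Set.mem_preimage, Set.mem_ofPred_eq, h.eqv, mem_tr]
  constructor
  · rintro ⟨t, ht, hn⟩
    exact ⟨_, ht, (near_mul_left g⁻¹ _ _).2 hn⟩
  · rintro ⟨t, ht, hn⟩
    refine ⟨g * t, by simpa using ht, ?_⟩
    rwa [← near_mul_left g, mul_inv_cancel_left] at hn

omit [TopologicalSpace E] [T2Space E] [MulAction Γ E] [ContinuousConstSMul Γ E] in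
theorem fW_congr {W W' : Set (Γ × S)} (a b : E) (h : ∀ s : S, (π a, s) ∈ W ↔ (π a, s) ∈ W') :
    fW S π W [a, b] = fW S π W' [a, b] := by
  classical
  unfold fW
  exact if_congr ⟨fun ⟨a, b⟩ => ⟨a, (h _).1 b⟩, fun ⟨a, b⟩ => ⟨a, (h _).2 b⟩⟩ rfl rfl

omit [T2Space E] [ContinuousConstSMul Γ E] in
theorem zz_local (h : Net S π x₀ r₀ K₀) {R : ℕ} (W : Set (Γ × S)) {T : Set Γ}
    (hT : ∀ t ∈ T, Near S R 1 t) :
    zz S π W T - zz S π (W ∩ {e | Near S (R + 1 + 1) 1 e.1}) T ∈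
      Nul (ZMod 2) (Set.univ : Set E) := by
  refine ⟨by simp [zz], fun x _ => ?_⟩
  obtain ⟨U, hU, h1⟩ := near_loc h x
  refine ⟨U, hU, fun l hl => ?_⟩
  rw [Pi.sub_apply, sub_eq_zero]
  cases l with
  | nil => simp [zz]
  | cons y l =>
    unfold zz
    by_cases hy : y ∈ π ⁻¹' {g | ∃ t ∈ T, Near S 1 t g}
    · rw [cut_cons_of_mem _ hy, cut_cons_of_mem _ hy]
      refine d_congr fun l' h2 _ => ?_
      obtain ⟨t, ht, h3⟩ := hy
      match l', h2 with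
      | [], _ => rfl
      | [_], _ => rfl
      | [a, b], h2 =>
        have h4 : Near S (R + 1 + 1) 1 (π a) := ((hT t ht).trans h3).trans
          (h1 y (hl y List.mem_cons_self) a (hl a (h2.subset List.mem_cons_self)))
        exact fW_congr a b fun _ => ⟨fun b => ⟨b, h4⟩, fun b => b.1⟩
      | _ :: _ :: _ :: _, _ => rfl
    · rw [cut_cons_of_notMem _ hy, cut_cons_of_notMem _ hy]

omit [T2Space E] [ContinuousConstSMul Γ E] in
theorem unif1 (h : Net S π x₀ r₀ K₀) (R : ℕ) : ∃ ρ : ℕ, ∀ (W : Set (Γ × S)) (T : Set Γ),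
    (∀ t ∈ T, Near S R 1 t) → (∃ ρ', Loc S π ρ' {1} (zz S π W T)) →
    Loc S π ρ {1} (zz S π W T) := by
  have hfin : {p : Set (Γ × S) × Set Γ | p.1 ⊆ {e | Near S (R + 1 + 1) 1 e.1} ∧
      p.2 ⊆ {t | Near S R 1 t}}.Finite :=
    (edges_finite (ball_finite (R + 1 + 1) 1)).finite_subsets.prod (ball_finite R 1).finite_subsets
  have hev : ∀ᶠ ρ : ℕ in atTop, ∀ p ∈ {p : Set (Γ × S) × Set Γ |
      p.1 ⊆ {e | Near S (R + 1 + 1) 1 e.1} ∧ p.2 ⊆ {t | Near S R 1 t}},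
      (∃ ρ', Loc S π ρ' {1} (zz S π p.1 p.2)) → Loc S π ρ {1} (zz S π p.1 p.2) := by
    refine (eventually_all_finite hfin).2 fun p _ => ?_
    by_cases hp : ∃ ρ', Loc S π ρ' {1} (zz S π p.1 p.2)
    · obtain ⟨ρ', hρ⟩ := hp
      filter_upwards [eventually_ge_atTop ρ'] with ρ h1 _ using hρ.mono h.gen h1 le_rfl
    · exact Eventually.of_forall fun _ h1 => absurd h1 hp
  obtain ⟨ρ, hρ⟩ := hev.exists
  refine ⟨ρ, fun W T hT ⟨ρ', h1⟩ => ?_⟩
  have h2 := zz_local h W hT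
  refine (hρ (W ∩ {e | Near S (R + 1 + 1) 1 e.1}, T) ⟨Set.inter_subset_right, hT⟩
    ⟨ρ', h1.congr ?_⟩).congr h2
  have := (Nul (ZMod 2) _).neg_mem h2
  rwa [neg_sub] at this

omit [T2Space E] in
theorem unif (h : Net S π x₀ r₀ K₀) (R : ℕ) : ∃ ρ : ℕ, ∀ (W : Set (Γ × S)) (T : Set Γ) (x : Γ),
    (∀ t ∈ T, Near S R x t) → Exc Set.univ (zz S π W T) → Loc S π ρ {x} (zz S π W T) := by
  obtain ⟨ρ, hρ⟩ := unif1 h R
  refine ⟨ρ, fun W T x hT he => ?_⟩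
  obtain ⟨ρ', h1⟩ := loc_of_exc h he x
  have h2 := h1.pull h x⁻¹
  rw [inv_mul_cancel, ← zz_tr h] at h2
  have h3 := (hρ _ _ (fun t ht => ?_) ⟨ρ', h2⟩).pull h x
  · rw [mul_one, zz_tr h, pull_pull] at h3
    simpa using h3
  · have := hT _ (mem_tr.1 ht)
    rwa [← near_mul_left x⁻¹, inv_mul_cancel, inv_inv, inv_mul_cancel_left] at this

omit [T2Space E] [ContinuousConstSMul Γ E] in
theorem zz_split (h : Net S π x₀ r₀ K₀) (h1 : FW S π x₀ r₀) {W : Set (Γ × S)} {T C : Set Γ}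
    (hT : Cl S (Def S (r₀ + 1) W) T) (hC : Cl S (Def S (r₀ + 1) W) C)
    (hC' : Cl S (Def S (r₀ + 1) W) (T \ C)) (hCT : C ⊆ T) :
    zz S π W T - (zz S π W C + zz S π W (T \ C)) ∈ Nul (ZMod 2) (Set.univ : Set E) := by
  refine ⟨by simp [zz], fun x _ => ?_⟩
  by_cases hx : π x ∈ T
  · by_cases hc : π x ∈ C
    · have := ((van_in h W hc).sub (van_in h W hx)).sub (van_out h h1 hC' fun h' => h'.2 hc)
      convert this using 1
      abel
    · have := ((van_in h W (T := T \ C) ⟨hx, hc⟩).sub (van_in h W hx)).sub (van_out h h1 hC hc)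
      convert this using 1
      abel
  · exact (van_out h h1 hT hx).sub ((van_out h h1 hC fun h' => hx (hCT h')).add
      (van_out h h1 hC' fun h' => hx h'.1))

end IfcXAux

open IfcXAux

omit [T2Space E] in
theorem ifc_hc (h : Net S π x₀ r₀ K₀) (h1 : FW S π x₀ r₀) (h2 : G1 E)
    (h3 : HC (ZMod 2) 3 (Set.univ : Set E)) :
    ∃ w : ℕ, ∀ k : ℕ, ∃ M : ℕ, ∀ W : Set (Γ × S), (Def S (r₀ + 1) W).Finite →
      (∀ x ∈ Def S (r₀ + 1) W, ∃ T : Set Γ, T.Finite ∧ T.ncard ≤ k ∧ x ∈ T ∧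
        ∀ y ∈ T, ∀ z ∈ Def S (r₀ + 1) W, Near S w y z → z ∈ T) →
      ∃ (β : Set (Γ × S)) (A : Set Γ), β.Finite ∧
        (∀ e ∈ β, ∃ x ∈ Def S (r₀ + 1) W, Near S M x e.1) ∧ W ∆ β = cob S A := by
  have hS := h.gen
  refine ⟨2, fun k => ?_⟩
  obtain ⟨ρ, hρ⟩ := unif h (k * 2)
  refine ⟨ρ + r₀, fun W hD hcl => ?_⟩
  have key : ∀ (n : ℕ) (T : Set Γ), T.ncard = n → Cl S (Def S (r₀ + 1) W) T →
      Loc S π ρ T (zz S π W T) := by
    intro n
    induction n using Nat.strong_induction_on with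
    | _ n ih =>
      intro T hn hT
      rcases T.eq_empty_or_nonempty with rfl | ⟨x, hx⟩
      · refine ⟨0, ⟨by simp [zz], fun y _ => ?_⟩, fun y _ => Van.zero y⟩
        rw [map_zero, sub_zero]
        exact van_out h h1 hT fun h' => h'
      · obtain ⟨T', f1, f2, f3, f4⟩ := hcl x (hT.1 hx)
        obtain ⟨i, hi, hg⟩ := gap_lemma hS f1 f2 2 x
        have hTf : T.Finite := hD.subset hT.1
        set C : Set Γ := {y | y ∈ T ∧ y ∈ T' ∧ Near S (i * 2) x y} with hCd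
        have hCT : C ⊆ T := fun y hy => hy.1
        have hC : Cl S (Def S (r₀ + 1) W) C := by
          refine ⟨hCT.trans hT.1, fun y hy z hz hn => ?_⟩
          have h4 := f4 y hy.2.1 z hz hn
          refine ⟨hT.2 y hy.1 z hz hn, h4, hg z h4 ?_⟩
          rw [add_mul, one_mul]
          exact hy.2.2.trans hn
        have hC' : Cl S (Def S (r₀ + 1) W) (T \ C) :=
          ⟨fun y hy => hT.1 hy.1, fun y hy z hz hn => ⟨hT.2 y hy.1 z hz hn, fun h' =>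
            hy.2 (hC.2 z h' y (hT.1 hy.1) (hn.symm hS))⟩⟩
        have hlt : (T \ C).ncard < n := by
          rw [← hn]
          exact Set.ncard_lt_ncard ⟨Set.sdiff_subset, fun h' =>
            (h' hx).2 ⟨hx, f3, Near.refl hS _ _⟩⟩ hTf
        have a1 := (hρ W C x (fun t ht => ht.2.2.mono hS (by omega))
          (h3 _ (zc h h1 hC (hTf.subset hCT)))).mono hS le_rfl (Set.singleton_subset_iff.2 hx)
        have a2 := (ih _ hlt _ rfl hC').mono hS le_rfl (Set.sdiff_subset (s := T) (t := C))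
        exact (a1.add a2).congr (zz_split h h1 hT hC hC' hCT)
  have hDD : Cl S (Def S (r₀ + 1) W) (Def S (r₀ + 1) W) := ⟨le_rfl, fun _ _ _ hz _ => hz⟩
  have hφ : d (fW S π W) - zz S π W (Def S (r₀ + 1) W) ∈ Nul (ZMod 2) (Set.univ : Set E) := by
    refine ⟨by simp [zz], fun x _ => ?_⟩
    by_cases hx : π x ∈ Def S (r₀ + 1) W
    · exact van_in h W hx
    · exact ((h1 W).2.1 x hx).sub (van_out h h1 hDD hx)
  obtain ⟨b, hb1, hb2⟩ := (key _ _ rfl hDD).congr hφ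
  obtain ⟨a, -, ha⟩ := h2 (fW S π W - proj 2 b) ((h1 W).1.sub (deg_proj 2 b)) (by
    have := proj_mem_Nul 3 hb1
    rwa [map_sub, (h1 W).1.d.proj_eq, ← d_proj, ← map_sub] at this)
  have hβ : ∀ e ∈ W ∆ cob S {g | a [g • x₀] = 1}, ∃ x ∈ Def S (r₀ + 1) W,
      Near S (ρ + r₀) x e.1 := by
    intro e he
    by_contra hc
    have h4 := (h1 W).2.2 a (proj 2 b) ha e (fun h' => hc ⟨e.1, h', Near.refl hS _ _⟩)
      fun y hy => (hb2 y fun t ht hn => hc ⟨t, ht, hn.trans (hy.symm hS)⟩).proj 2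
    rcases he with he | he
    · exact he.2 (h4.1 he.1)
    · exact he.2 (h4.2 he.1)
  exact ⟨W ∆ cob S {g | a [g • x₀] = 1}, {g | a [g • x₀] = 1},
    (edges_finite (nbhd_finite (ρ + r₀) hD)).subset hβ, hβ, symmDiff_symmDiff_cancel_left _ _⟩

end Vale.Agent.P239.AS
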