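import Vale.Agent.P239.VNB

/-! The key lemma on annihilators. -/

namespace Vale.Agent.P239.VN

open scoped InnerProductSpace

namespace KeyXAux

variable {Γ : Type} [Group Γ] {I J : Type} [Fintype I] [Fintype J]

/-- The operator of a matrix. -/
noncomputable def mat (M : J → I → NG Γ) : HI Γ I →L[ℂ] HI Γ J :=
  (PiLp.continuousLinearEquiv 2 ℂ fun _ : J => H2 Γ).symm.toContinuousLinearMap ∘L
    ContinuousLinearMap.pi fun j => ∑ i, (M j i).1 ∘L PiLp.proj 2 (fun _ : I => H2 Γ) i

omit [Fintype J] in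
theorem mat_apply (M : J → I → NG Γ) (c : HI Γ I) (j : J) :
    mat M c j = ∑ i, (M j i).1 (c i) := by
  simp [mat]

omit [Fintype J] in
theorem mat_eqv (M : J → I → NG Γ) : Eqv (mat M) := fun g ξ => by
  ext1 j
  simp only [mat_apply, lamI_apply, map_sum, mem_NG.1 (M j _).2]

/-- Forgetting the first coordinate. -/
noncomputable def tl (Γ J : Type) : HI Γ (Option J) →L[ℂ] HI Γ J :=
  (PiLp.continuousLinearEquiv 2 ℂ fun _ : J => H2 Γ).symm.toContinuousLinearMap ∘L
    ContinuousLinearMap.pi fun j => PiLp.proj 2 (fun _ : Option J => H2 Γ) (some j)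

/-- An entry of an equivariant operator. -/
noncomputable def ent [DecidableEq I] {P : HI Γ I →L[ℂ] HI Γ J} (h : Eqv P) (j : J) (i : I) :
    NG Γ :=
  ⟨PiLp.proj 2 (fun _ : J => H2 Γ) j ∘L P ∘L
    (PiLp.continuousLinearEquiv 2 ℂ fun _ : I => H2 Γ).symm.toContinuousLinearMap ∘L
      ContinuousLinearMap.single ℂ (fun _ : I => H2 Γ) i, mem_NG.2 fun g ξ => by
    have e : (PiLp.single 2 i (lam g ξ) : HI Γ I) = lamI g (PiLp.single 2 i ξ) := by
      ext1 k
      rw [lamI_apply]
      by_cases hk : k = i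
      · subst hk
        simp
      · simp [hk]
    change P (PiLp.single 2 i (lam g ξ)) j = lam g (P (PiLp.single 2 i ξ) j)
    rw [e, h, lamI_apply]⟩

omit [Fintype J] in
theorem ent_sum [DecidableEq I] {P : HI Γ I →L[ℂ] HI Γ J} (h : Eqv P) (j : J) (ξ : HI Γ I) :
    P ξ j = ∑ i, (ent h j i).1 (ξ i) := by
  have e : ξ = ∑ i, PiLp.single 2 i (ξ i) := by
    ext1 k
    simp [Pi.single_apply]
  conv_lhs => rw [e, map_sum]
  rw [WithLp.ofLp_sum, Finset.sum_apply]
  rfl

omit [Group Γ] in
theorem le_cl {K W : Submodule ℂ (HI Γ I)} (h : Kᗮ ≤ W) : Wᗮ ≤ K.topologicalClosure := by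
  rw [← Submodule.orthogonal_orthogonal_eq_closure]
  exact Submodule.orthogonal_le h

theorem dm_map_le {T : HI Γ I →L[ℂ] HI Γ J} (h : Eqv T) {U : Submodule ℂ (HI Γ I)} (hU : Inv U)
    {W : Submodule ℂ (HI Γ J)} (hW : ∀ w ∈ W, ∃ u ∈ U, T u = w) : dm W ≤ dm U := by
  refine (dm_mono (V := (T ∘L pr U).range) fun w hw => ?_).trans ?_
  · obtain ⟨u, hu, rfl⟩ := hW w hw
    refine Submodule.le_topologicalClosure _ ⟨u, ?_⟩
    change T (pr U u) = T u
    rw [pr, Submodule.starProjection_eq_self_iff.2 (U.le_topologicalClosure hu)]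
  · rw [dm_range (h.comp hU.pr)]
    refine dm_mono (le_cl fun ξ hξ => ?_)
    change T (pr U ξ) = 0
    rw [pr, (Submodule.starProjection_apply_eq_zero_iff _).2 (by
      rwa [Submodule.orthogonal_closure]), map_zero]

omit [Fintype J] in
theorem mem_ker_mat (M : J → I → NG Γ) (c : HI Γ I) :
    c ∈ (mat M).ker ↔ ∀ j, ∑ i, (M j i).1 (c i) = 0 := by
  simp only [LinearMap.mem_ker, ContinuousLinearMap.coe_coe, PiLp.ext_iff, mat_apply,
    PiLp.zero_apply]

theorem ker_oo (M : J → I → NG Γ) : (mat M).kerᗮᗮ = (mat M).ker := by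
  rw [Submodule.orthogonal_orthogonal_eq_closure,
    (ContinuousLinearMap.isClosed_ker _).submodule_topologicalClosure_eq]

omit [Group Γ] in
theorem pr_zero (V : Submodule ℂ (HI Γ I)) (ξ : HI Γ I) :
    pr Vᗮ ξ = 0 ↔ ξ ∈ V.topologicalClosure := by
  rw [pr, Submodule.starProjection_apply_eq_zero_iff, Submodule.orthogonal_closure,
    Submodule.orthogonal_orthogonal_eq_closure]

theorem step1 (z : I → NG Γ) (r : J → I → NG Γ) (a : NG Γ)
    (h2 : ∀ (b : NG Γ) (w : J → NG Γ), b • z + ∑ j, w j • r j = 0 → b * a = 0) :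
    (mat fun (o : Option J) (_ : Unit) => o.elim a fun _ => 0).range ≤
      (mat fun o : Option J => o.elim z r).range.topologicalClosure := by
  classical
  have hP := (mat_eqv fun o : Option J => o.elim z r).inv_range.orth.pr
  have ba : ent hP none none * a = 0 := by
    refine h2 _ (fun j => ent hP none (some j)) (funext fun i => Subtype.ext ?_)
    ext1 ξ
    have := ent_sum hP none (mat (fun o : Option J => o.elim z r) (PiLp.single 2 i ξ))
    have z1 := (pr_zero _ (mat (fun o : Option J => o.elim z r) (PiLp.single 2 i ξ))).2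
      (Submodule.le_topologicalClosure (mat fun o : Option J => o.elim z r).range ⟨_, rfl⟩)
    rw [z1, Fintype.sum_option] at this
    have e : ∀ o : Option J, mat (fun o : Option J => o.elim z r) (PiLp.single 2 i ξ) o =
        (o.elim z r i).1 ξ := fun o => by
      rw [mat_apply, Finset.sum_eq_single i (fun k _ hk => by simp [hk]) (by simp)]
      simp
    simp only [e] at this
    simpa [ContinuousLinearMap.sum_apply] using this.symm
  rintro _ ⟨ξ, rfl⟩
  have e := ent_sum hP none (mat (fun (o : Option J) (_ : Unit) => o.elim a fun _ => 0) ξ)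
  have e2 : (ent hP none none).1 (a.1 (ξ ())) = 0 :=
    DFunLike.congr_fun (congrArg Subtype.val ba) (ξ ())
  have e3 : mat (fun (o : Option J) (_ : Unit) => o.elim a fun _ => 0) ξ none = a.1 (ξ ()) := by
    simp [mat_apply]
  have e4 : ∀ j, mat (fun (o : Option J) (_ : Unit) => o.elim a fun _ => 0) ξ (some j) = 0 :=
    fun j => by simp [mat_apply]
  simp only [Fintype.sum_option, e3, e4, e2, map_zero, Finset.sum_const_zero, add_zero] at e
  rw [pr] at e
  rw [← pr_zero, ← inner_self_eq_zero (𝕜 := ℂ), pr, Submodule.inner_starProjection_left_eq_right,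
    Submodule.starProjection_eq_self_iff.2 (Submodule.starProjection_apply_mem _ _),
    PiLp.inner_apply, Fintype.sum_option]
  simp only [ContinuousLinearMap.coe_coe, e, e4, inner_zero_left, inner_zero_right,
    Finset.sum_const_zero, add_zero]

omit [Group Γ] [Fintype J] in
theorem tl_apply (ξ : HI Γ (Option J)) (j : J) : tl Γ J ξ j = ξ (some j) := rfl

theorem step (z : I → NG Γ) (r : J → I → NG Γ) (a : NG Γ)
    (h2 : ∀ (b : NG Γ) (w : J → NG Γ), b • z + ∑ j, w j • r j = 0 → b * a = 0) :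
    dm (mat fun _ _ : Unit => a).kerᗮ + dm (mat r).range ≤
      dm (mat fun o : Option J => o.elim z r).range := by
  have NV := step1 z r a h2
  have iV := (mat_eqv fun o : Option J => o.elim z r).inv_range
  have iN := (mat_eqv fun (o : Option J) (_ : Unit) => o.elim a fun _ => 0).inv_range
  have d0 : (mat fun (o : Option J) (_ : Unit) => o.elim a fun _ => 0).ker =
      (mat fun _ _ : Unit => a).ker := Submodule.ext fun ξ => by
    rw [mem_ker_mat, mem_ker_mat, Option.forall]
    simp
  have d1 := dm_range (mat_eqv fun (o : Option J) (_ : Unit) => o.elim a fun _ => 0)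
  have k : (mat fun (o : Option J) (_ : Unit) => o.elim a fun _ => 0).range ≤ (tl Γ J).ker := by
    rintro _ ⟨ξ, rfl⟩
    rw [LinearMap.mem_ker]
    ext1 j
    simp [tl_apply, mat_apply]
  rw [dm_add NV, d1, d0]
  generalize (mat fun (o : Option J) (_ : Unit) => o.elim a fun _ => 0).range = N at NV iN k
  refine add_le_add_right (dm_map_le (T := tl Γ J) (fun _ _ => rfl) (iN.orth.inf iV.closure) ?_) _
  rintro _ ⟨c, rfl⟩
  have m1 : pr N (mat (fun o : Option J => o.elim z r) c) ∈ N.topologicalClosure :=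
    Submodule.starProjection_apply_mem _ _
  refine ⟨mat (fun o : Option J => o.elim z r) c - pr N (mat (fun o : Option J => o.elim z r) c),
    ⟨Submodule.orthogonal_le N.le_topologicalClosure
      (Submodule.sub_starProjection_mem_orthogonal _),
      sub_mem (Submodule.le_topologicalClosure _ ⟨_, rfl⟩)
      (N.topologicalClosure_minimal NV (Submodule.isClosed_topologicalClosure _) m1)⟩, ?_⟩
  have k2 : tl Γ J _ = 0 := N.topologicalClosure_minimal k (tl Γ J).isClosed_ker m1
  rw [map_sub, k2, sub_zero]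
  ext1 j
  simp [tl_apply, mat_apply]

end KeyXAux

open KeyXAux

theorem key {Γ : Type} [Group Γ] {I : Type} [Fintype I] (B : Submodule (NG Γ) (I → NG Γ))
    (z : I → NG Γ)
    (h1 : ∀ c : I → H2 Γ, (∀ r ∈ B, ∑ i, (r i).1 (c i) = 0) → ∑ i, (z i).1 (c i) = 0)
    (a : NG Γ) (h2 : ∀ b : NG Γ, b • z ∈ B → b * a = 0) : a = 0 := by
  have h0 : dm (mat fun _ _ : Unit => a).kerᗮ = 0 := by
    refine le_antisymm (le_of_forall_pos_le_add fun ε hε => ?_) (dm_nonneg _)
    obtain ⟨R, hR⟩ := dm_approx (fun r : B => (mat fun _ : Unit => r.1).kerᗮ) hε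
    have s := step z (fun j : R => j.1.1) a fun b w h => h2 b (by
      rw [eq_neg_of_add_eq_zero_left h]
      exact neg_mem (B.sum_mem fun j _ => B.smul_mem _ j.1.2))
    have a1 : dm (mat fun o : Option R => o.elim z fun j : R => j.1.1).range ≤
        dm (⨆ r : B, (mat fun _ : Unit => r.1).kerᗮ) := by
      rw [dm_range (mat_eqv _)]
      refine dm_mono (le_cl fun c hc => ?_)
      have k : ∀ r ∈ B, ∑ i, (r i).1 (c i) = 0 := fun r hr => by
        have h5 : (mat fun _ : Unit => r).kerᗮ ≤ ⨆ r : B, (mat fun _ : Unit => r.1).kerᗮ :=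
          le_iSup (fun r : B => (mat fun _ : Unit => r.1).kerᗮ) ⟨r, hr⟩
        have h6 : c ∈ (mat fun _ : Unit => r).kerᗮᗮ := Submodule.orthogonal_le h5 hc
        rw [ker_oo, mem_ker_mat] at h6
        exact h6 ()
      rw [mem_ker_mat, Option.forall]
      exact ⟨h1 _ k, fun j => k _ j.1.2⟩
    have a2 : dm (⨆ r ∈ R, (mat fun _ : Unit => r.1).kerᗮ) ≤
        dm (mat fun j : R => j.1.1).range := by
      rw [dm_range (mat_eqv _)]
      refine dm_mono (le_trans (iSup₂_le fun r hr => Submodule.orthogonal_le fun c hc => ?_)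
        (Submodule.le_topologicalClosure _))
      rw [mem_ker_mat] at hc ⊢
      exact fun _ => hc ⟨r, hr⟩
    linarith
  have h3 := dm_eq_zero (mat_eqv _).inv_ker.orth h0
  refine Subtype.ext (ContinuousLinearMap.ext fun ξ => ?_)
  have h4 : (WithLp.toLp 2 fun _ => ξ : HI Γ Unit) ∈ (mat fun _ _ : Unit => a).kerᗮᗮ := by
    rw [h3, Submodule.bot_orthogonal_eq_top]
    trivial
  rw [ker_oo, mem_ker_mat] at h4
  simpa using h4 ()

theorem key' {Γ : Type} [Group Γ] {A : Type} (F : Finset A) (B : Submodule (NG Γ) (A →₀ NG Γ))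
    (z : A →₀ NG Γ) (hz : z.support ⊆ F)
    (h1 : ∀ c : A → H2 Γ, (∀ r ∈ B, r.support ⊆ F → (r.sum fun a x => x • c a) = 0) →
      (z.sum fun a x => x • c a) = 0)
    (a : NG Γ) (h2 : ∀ b : NG Γ, b • z ∈ B → b * a = 0) : a = 0 := by
  classical
  let e : (F → NG Γ) →ₗ[NG Γ] (A →₀ NG Γ) :=
    ∑ i : F, (Finsupp.lsingle (i : A)).comp (LinearMap.proj i)
  have he : ∀ r : A →₀ NG Γ, r.support ⊆ F → e (fun i => r i) = r := fun r hr => by
    simp only [e, LinearMap.sum_apply, LinearMap.comp_apply, LinearMap.proj_apply,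
      Finsupp.lsingle_apply]
    rw [Finset.sum_coe_sort F fun i => Finsupp.single i (r i),
      ← Finsupp.sum_of_support_subset r hr Finsupp.single (by simp), Finsupp.sum_single]
  refine key (B.comap e) (fun i => z i) (fun c hc => ?_) a fun b hb => h2 b ?_
  · have k : ∀ r : A →₀ NG Γ, r.support ⊆ F →
        (r.sum fun a x => x • if h : a ∈ F then c ⟨a, h⟩ else 0) = ∑ i : F, (r i).1 (c i) :=
      fun r hr => by
        rw [Finsupp.sum_of_support_subset r hr _ (by simp), ← Finset.sum_coe_sort]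
        exact Finset.sum_congr rfl fun i _ => by rw [dif_pos i.2]; rfl
    rw [← k z hz]
    refine h1 _ fun r hr hF => ?_
    rw [k r hF]
    exact hc _ (by rwa [Submodule.mem_comap, he r hF])
  · rwa [Submodule.mem_comap, map_smul, he z hz] at hb

end Vale.Agent.P239.VN
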