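import Mathlib

/-! The first L2-Betti number in the sense of Lueck, for a space with a group action. -/

namespace Vale.Agent.P239.VN

open scoped ENNReal

/-- The Hilbert space of square summable complex functions on `Γ`. -/
abbrev H2 (Γ : Type) : Type := lp (fun _ : Γ => ℂ) 2

/-- The vector `ξ ∘ e` for a permutation `e` of `Γ`. -/
noncomputable def perm {Γ : Type} (e : Γ ≃ Γ) (ξ : H2 Γ) : H2 Γ :=
  ⟨fun x => ξ (e x), memℓp_gen (e.summable_iff.2 ((lp.memℓp ξ).summable (by norm_num)))⟩

theorem norm_perm {Γ : Type} (e : Γ ≃ Γ) (ξ : H2 Γ) : ‖perm e ξ‖ ≤ 1 * ‖ξ‖ := by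
  rw [one_mul, lp.norm_eq_tsum_rpow (by norm_num), lp.norm_eq_tsum_rpow (by norm_num)]
  exact (congrArg (· ^ _) (e.tsum_eq fun x => ‖ξ x‖ ^ (2 : ℝ≥0∞).toReal)).le

/-- The bounded operator `ξ ↦ ξ ∘ e`. -/
noncomputable def shift {Γ : Type} (e : Γ ≃ Γ) : H2 Γ →L[ℂ] H2 Γ :=
  LinearMap.mkContinuous ⟨⟨perm e, fun _ _ => rfl⟩, fun _ _ => rfl⟩ 1 (norm_perm e)

section
variable {H : Type} [NormedAddCommGroup H] [NormedSpace ℂ H]

/-- The commutant of a set of bounded operators. -/
def Commutant (S : Set (H →L[ℂ] H)) : Type := Subring.centralizer S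

/-- The commutant is a subring of the ring of bounded operators. -/
noncomputable instance (S : Set (H →L[ℂ] H)) : Ring (Commutant S) :=
  (Subring.centralizer S).toRing

/-- `T` commutes with all members of `S`. -/
def Commutes (S : Set (H →L[ℂ] H)) (T : H →L[ℂ] H) : Prop := ∀ s ∈ S, s * T = T * s

/-- An operator commuting with `S` as an element of the commutant. -/
def Commutant.mk {S : Set (H →L[ℂ] H)} (T : H →L[ℂ] H) (h : Commutes S T) : Commutant S := ⟨T, h⟩

/-- An element of the commutant applied to a vector. -/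
def Commutant.app {S : Set (H →L[ℂ] H)} (a : Commutant S) (ξ : H) : H := a.1 ξ

end

/-- The left translations `δ_h ↦ δ_(g h)`. -/
noncomputable def leftTr (Γ : Type) [Group Γ] : Set (H2 Γ →L[ℂ] H2 Γ) :=
  Set.range fun g : Γ => shift (Equiv.mulLeft g⁻¹)

/-- The group von Neumann algebra: bounded operators commuting with all left translations. -/
abbrev NA (Γ : Type) [Group Γ] : Type := Commutant (leftTr Γ)

theorem commutes_right {Γ : Type} [Group Γ] (g : Γ) :
    Commutes (leftTr Γ) (shift (Equiv.mulRight g)) := by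
  rintro _ ⟨h, rfl⟩
  ext ξ x
  exact congrArg ξ (mul_assoc h⁻¹ x g)

/-- The image of `g` in the group von Neumann algebra: right translation `δ_h ↦ δ_(h g⁻¹)`. -/
noncomputable def rightTr {Γ : Type} [Group Γ] (g : Γ) : NA Γ :=
  Commutant.mk (shift (Equiv.mulRight g)) (commutes_right g)

/-- The unit vector at the identity. -/
noncomputable def delta (Γ : Type) [Group Γ] : H2 Γ := open Classical in lp.single 2 1 1

/-- The von Neumann trace `⟨a δ₁, δ₁⟩` (real part). -/
noncomputable def trace {Γ : Type} [Group Γ] (a : NA Γ) : ℝ := (a.app (delta Γ) 1).re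

/-- The row module `Rⁿ A` of a square matrix. -/
def rowMod {R : Type} [Ring R] {n : ℕ} (A : Matrix (Fin n) (Fin n) R) : Submodule R (Fin n → R) :=
  LinearMap.range A.vecMulLinear

/-- `P` is isomorphic to a submodule of `H`. -/
def Embeds (R : Type) [Ring R] (P H : Type) [AddCommGroup P] [Module R P] [AddCommGroup H]
    [Module R H] : Prop := ∃ f : P →ₗ[R] H, Function.Injective f

/-- The extended dimension of a module over a ring `R` with trace `τ`: the supremum of the
dimensions of the finitely generated projective submodules, that is, of the traces of the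
idempotent matrices whose row module embeds. -/
noncomputable def extDim {R : Type} [Ring R] (τ : R → ℝ) (H : Type) [AddCommGroup H]
    [Module R H] : ℝ≥0∞ :=
  ⨆ (n : ℕ) (A : Matrix (Fin n) (Fin n) R) (_ : A * A = A) (_ : Embeds R (rowMod A) H),
    ENNReal.ofReal (∑ i, τ (A i i))

/-- The extended dimension of the homology `ker g / im f`. -/
noncomputable def homDim {R : Type} [Ring R] (τ : R → ℝ) {A B C : Type} [AddCommGroup A]
    [Module R A] [AddCommGroup B] [Module R B] [AddCommGroup C] [Module R C]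
    (f : A →ₗ[R] B) (g : B →ₗ[R] C) : ℝ≥0∞ :=
  extDim τ (LinearMap.ker g ⧸ (LinearMap.range f).submoduleOf (LinearMap.ker g))

/-- Singular simplices. -/
abbrev Sx (n : ℕ) (E : Type) [TopologicalSpace E] : Type := C(stdSimplex ℝ (Fin (n + 1)), E)

/-- The `i`-th face inclusion of standard simplices. -/
noncomputable def face {n : ℕ} (i : Fin (n + 2)) :
    C(stdSimplex ℝ (Fin (n + 1)), stdSimplex ℝ (Fin (n + 2))) :=
  ⟨stdSimplex.map i.succAbove, stdSimplex.continuous_map _⟩

/-- The boundary of singular chains with coefficients in `R`. -/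
noncomputable def bdry (R : Type) [Ring R] (E : Type) [TopologicalSpace E] (n : ℕ) :
    (Sx (n + 1) E →₀ R) →ₗ[R] (Sx n E →₀ R) :=
  ∑ i : Fin (n + 2), (-1 : ℤ) ^ (i : ℕ) • Finsupp.lmapDomain R R fun σ => σ.comp (face i)

section
variable {Γ : Type} [Group Γ] {R : Type} [Ring R] (ρ : Γ → R) (E : Type) [TopologicalSpace E]
  [MulAction Γ E] [ContinuousConstSMul Γ E]

/-- The balancing relations `a ⊗ g σ = a g ⊗ σ`, where `g` acts on `R` through `ρ g`. -/
noncomputable def Rel (n : ℕ) : Submodule R (Sx n E →₀ R) :=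
  Submodule.span R {x | ∃ (g : Γ) (σ : Sx n E) (a : R),
    x = Finsupp.single (g • σ) a - Finsupp.single σ (a * ρ g)}

/-- The module `R ⊗_(ℤΓ) C_n(E)`. -/
abbrev TC (n : ℕ) : Type := (Sx n E →₀ R) ⧸ Rel ρ E n

theorem rel_le (n : ℕ) : Rel ρ E (n + 1) ≤ (Rel ρ E n).comap (bdry R E n) := by
  refine Submodule.span_le.2 ?_
  rintro _ ⟨g, σ, a, rfl⟩
  simp only [SetLike.mem_coe, Submodule.mem_comap, bdry, LinearMap.sum_apply,
    LinearMap.smul_apply, Finsupp.lmapDomain_apply, map_sub, Finsupp.mapDomain_single]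
  rw [← Finset.sum_sub_distrib]
  refine Submodule.sum_mem _ fun i _ => ?_
  rw [← smul_sub]
  exact zsmul_mem (Submodule.subset_span (by exact ⟨g, σ.comp (face i), a, rfl⟩)) _

/-- The boundary of the complex `R ⊗_(ℤΓ) C_*(E)`. -/
noncomputable def tbd (n : ℕ) : TC ρ E (n + 1) →ₗ[R] TC ρ E n :=
  Submodule.mapQ _ _ (bdry R E n) (rel_le ρ E n)

/-- The dimension of the first homology of `R ⊗_(ℤΓ) C_*(E)`. -/
noncomputable def dimH1 (τ : R → ℝ) : ℝ≥0∞ := homDim τ (tbd ρ E 1) (tbd ρ E 0)

end

/-- The first L2-Betti number of the `Γ`-space `E`. -/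
noncomputable def betti1 (Γ : Type) [Group Γ] (E : Type) [TopologicalSpace E] [MulAction Γ E]
    [ContinuousConstSMul Γ E] : ℝ≥0∞ :=
  dimH1 (rightTr : Γ → NA Γ) E trace

end Vale.Agent.P239.VN
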