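import Vale.Agent.P239.BasY

/-! The wall of a cut does not lie along a ray. -/

namespace Vale.Agent.P239

open scoped Pointwise symmDiff
open Filter Topology

variable {Γ : Type*} [Group Γ] {Z : Type*} [MetricSpace Z] [CompactSpace Z] [MulAction Γ Z]
  [ContinuousConstSMul Γ Z] {D : Dat Γ Z} {π : Z → ℝ}

namespace LineXAux

/-- Initial part of a thick ray. -/
def ini (g : Γ) (Φ : Set Γ) (k : ℕ) : Set Γ := {t | ∃ n < k, ∃ φ ∈ Φ, t = g ^ n * φ}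

theorem ini_finite (g : Γ) {Φ : Set Γ} (hΦ : Φ.Finite) (k : ℕ) : (ini g Φ k).Finite := by
  refine (((Set.finite_Iio k).prod hΦ).image fun p : ℕ × Γ => g ^ p.1 * p.2).subset ?_
  rintro t ⟨n, hn, φ, hφ, rfl⟩
  exact ⟨(n, φ), ⟨hn, hφ⟩, rfl⟩

theorem leave (htf : ∀ g : Γ, IsOfFinOrder g → g = 1) {g : Γ} (hg : g ≠ 1) {A : Set Γ}
    (hA : A.Finite) : ∀ᶠ n : ℕ in atTop, g ^ n ∉ A :=
  (pow_tendsto htf hg).eventually hA.compl_mem_cofinite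

theorem defect {S : Finset Γ} {r : ℕ} (hS : Gen S) (htf : ∀ g : Γ, IsOfFinOrder g → g = 1)
    {g : Γ} (hg : g ≠ 1) {Φ Q : Set Γ} (hΦ : Φ.Finite)
    (hQ : ∀ t ∈ tails S Q, ∃ n : ℕ, ∃ φ ∈ Φ, t = g ^ n * φ) :
    ∃ K : Set Γ, K.Finite ∧ ∀ k : ℕ,
      Def S r {e | e ∈ cob S Q ∧ e.1 ∈ ini g Φ k} ⊆ tr (g ^ k) K := by
  have hA : (Φ * (S : Set Γ) ^ (r + r) * Φ⁻¹).Finite := (hΦ.mul (pow_finite S _)).mul hΦ.inv
  obtain ⟨L, hL⟩ := eventually_atTop.1 (leave htf hg hA)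
  refine ⟨_, nbhd_finite' hS r (ini_finite g hΦ L), fun k x hx => ?_⟩
  obtain ⟨⟨y, _, ⟨a, ha, φ, hφ, rfl⟩, h1⟩, y', hy', hn, h2⟩ := def_split hx
  obtain ⟨b, φ', hφ', rfl⟩ := hQ y' hy'
  have hb : k ≤ b := by
    by_contra hc
    exact hn ⟨b, not_le.1 hc, φ', hφ', rfl⟩
  have h3 : Near S (r + r) (g ^ a * φ) (g ^ b * φ') := (h1.symm hS).trans h2
  have h4 : g ^ (b - a) ∈ Φ * (S : Set Γ) ^ (r + r) * Φ⁻¹ := by
    refine ⟨_, ⟨φ, hφ, _, h3, rfl⟩, φ'⁻¹, by simpa using hφ', ?_⟩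
    have : g ^ b = g ^ a * g ^ (b - a) := by
      rw [← pow_add]
      congr 1
      omega
    rw [this]
    simp [mul_assoc]
  have h5 : b - a < L := by
    by_contra hc
    exact hL _ (not_lt.1 hc) h4
  refine ⟨g ^ (b - k) * φ', ⟨b - k, by omega, φ', hφ', rfl⟩, ?_⟩
  rw [← near_mul_left (g ^ k), mul_inv_cancel_left, ← mul_assoc, ← pow_add,
    Nat.add_sub_cancel' hb]
  exact h2

end LineXAux

open LineXAux

theorem line (H : D.OK) (h1 : D.NA) : D.LINE := by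
  intro Q ξ g Φ hQ hg hT hΦ ht
  obtain ⟨K2, hK2, hd⟩ := defect (r := D.r) H.gen H.tf hg hΦ ht
  obtain ⟨K3, hK3, hf⟩ := H.ifc.fill_fin H.gen hK2
  have hm0 := hQ.2.2.1
  have hm1 := hQ.2.2.2
  obtain ⟨ε, hε, hna⟩ := h1 (min (D.m Q) (1 - D.m Q) / 2)
    (half_pos (lt_min hm0 (by linarith)))
  obtain ⟨K, hK, hsm⟩ := H.sm hε
  have hΨ : (Φ ∪ K3).Finite := hΦ.union hK3
  obtain ⟨K4, hK4, hs⟩ := H.fr.slow_mul H.gen hΨ (half_pos hε)
  have e1 : ∀ᶠ n : ℕ in atTop, dist (D.ι (g ^ n)) ξ < ε / 2 :=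
    Metric.tendsto_nhds.1 hT _ (half_pos hε)
  have e2 := leave H.tf hg hK4
  have e3 := leave H.tf hg (hK.mul hΨ.inv)
  obtain ⟨k, hk⟩ := eventually_atTop.1 (e1.and (e2.and e3))
  have hgood : ∀ n, k ≤ n → ∀ ψ ∈ Φ ∪ K3, g ^ n * ψ ∈ D.nb ξ ε \ K := fun n hn ψ hψ => by
    obtain ⟨p1, p2, p3⟩ := hk n hn
    refine ⟨?_, fun hc => p3 ⟨_, hc, ψ⁻¹, by simpa using hψ, by simp⟩⟩
    have p4 := hs _ p2 ψ hψ
    have p5 := dist_triangle (D.ι (g ^ n * ψ)) (D.ι (g ^ n)) ξ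
    change dist (D.ι (g ^ n * ψ)) ξ ≤ ε
    linarith
  obtain ⟨F, hF, hW⟩ := hf (g ^ k) _
    ((edges_finite (ini_finite g hΦ k)).subset fun e he => he.2) (hd k)
  have htl : tails D.S (Q ∆ F) ⊆ D.nb ξ ε \ K := by
    rintro t ⟨s, hs⟩
    by_cases h3 : t ∈ tr (g ^ k) K3
    · have := hgood k le_rfl _ (Or.inr h3)
      rwa [mul_inv_cancel_left] at this
    · have h4 := hW (t, s) h3
      rw [cob_symmDiff, Set.mem_symmDiff] at hs
      rcases hs with ⟨p1, p2⟩ | ⟨p1, p2⟩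
      · obtain ⟨n, φ, hφ, rfl⟩ := ht t ⟨s, p1⟩
        refine hgood n ?_ φ (Or.inl hφ)
        by_contra hc
        exact p2 (h4.1 ⟨p1, n, not_le.1 hc, φ, hφ, rfl⟩)
      · exact absurd (h4.2 p1).1 p2
  have q1 := min_le_left (D.m Q) (1 - D.m Q)
  have q2 := min_le_right (D.m Q) (1 - D.m Q)
  have q3 := hna ξ
  rcases hsm ξ _ htl with h | h
  · have : D.m Q ≤ D.m (D.nb ξ ε) := by
      refine H.m_mono_fin ((hF.union hK).subset fun x hx => ?_)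
      by_cases hx' : x ∈ F
      · exact Or.inl hx'
      · exact Or.inr ((h (Set.mem_symmDiff.2 (Or.inl ⟨hx.1, hx'⟩))).resolve_left hx.2)
    linarith
  · have : D.m Qᶜ ≤ D.m (D.nb ξ ε) := by
      refine H.m_mono_fin ((hF.union hK).subset fun x hx => ?_)
      by_cases hx' : x ∈ F
      · exact Or.inl hx'
      · refine Or.inr ((h fun hc => ?_).resolve_left hx.2)
        rcases Set.mem_symmDiff.1 hc with p | p
        · exact hx.1 p.1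
        · exact hx' p.1
    rw [H.m_compl] at this
    linarith

end Vale.Agent.P239
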