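import Vale.Agent.P239.ASB

/-! A basis of open sets with the compactly supported cohomology of four space. -/

namespace Vale.Agent.P239.AS

open scoped Pointwise symmDiff
open Filter Topology

variable {k : Type*} [Field k] {X Y : Type*} [TopologicalSpace X] [TopologicalSpace Y]

namespace LocXAux

/-- Barycentric linear forms. -/
noncomputable def el : Fin 5 → R4 →L[ℝ] ℝ :=
  Fin.lastCases (-∑ j : Fin 4, EuclideanSpace.proj j) fun j : Fin 4 => EuclideanSpace.proj j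

theorem el_cast (j : Fin 4) (x : R4) : el j.castSucc x = x j := by
  simp only [el, Fin.lastCases_castSucc]
  rfl

theorem el_last (x : R4) : el (Fin.last 4) x = -∑ j, x j := by
  simp only [el, Fin.lastCases_last]
  simp

theorem el_sum (x : R4) : ∑ i, el i x = 0 := by
  rw [Fin.sum_univ_castSucc, el_last]
  simp only [el_cast, add_neg_cancel]

theorem el_surj (c : Fin 5 → ℝ) (h : ∑ i, c i = 0) : ∃ x : R4, ∀ i, el i x = c i := by
  refine ⟨WithLp.toLp 2 fun j => c j.castSucc, fun i => ?_⟩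
  refine Fin.lastCases ?_ (fun j => ?_) i
  · rw [Fin.sum_univ_castSucc] at h
    rw [el_last]
    simp only
    linarith
  · rw [el_cast]

/-- The closed simplex. -/
def Vc (a : Fin 5 → ℝ) : Set R4 := {x | ∀ i, a i ≤ el i x}

/-- The open simplex. -/
def Vo (a : Fin 5 → ℝ) : Set R4 := {x | ∀ i, a i < el i x}

/-- The pieces of a shell. -/
def Pc (a b : Fin 5 → ℝ) (i : Fin 5) : Set R4 := Vc a ∩ {x | el i x ≤ b i}

theorem vo_sub {a b : Fin 5 → ℝ} (h : ∀ i, a i ≤ b i) : Vo b ⊆ Vc a :=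
  fun _ hx i => (h i).trans (hx i).le

theorem el_le {a : Fin 5 → ℝ} {x : R4} (hx : x ∈ Vc a) (i : Fin 5) :
    el i x ≤ a i - ∑ j, a j := by
  have h1 : el i x - a i ≤ ∑ j, (el j x - a j) :=
    Finset.single_le_sum (f := fun j => el j x - a j) (fun j _ => sub_nonneg.2 (hx j))
      (Finset.mem_univ i)
  rw [Finset.sum_sub_distrib, el_sum] at h1
  linarith

theorem vc_dist {a : Fin 5 → ℝ} {x y : R4} (hx : x ∈ Vc a) (hy : y ∈ Vc a) :
    dist x y ≤ 2 * -∑ j, a j := by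
  have h0 : 0 ≤ -∑ j, a j := by
    have := el_le hx 0
    have := hx 0
    linarith
  rw [EuclideanSpace.dist_eq, Real.sqrt_le_left (by positivity)]
  have h1 : ∀ j : Fin 4, dist (x j) (y j) ^ 2 ≤ (-∑ j, a j) ^ 2 := fun j => by
    refine pow_le_pow_left₀ dist_nonneg ?_ 2
    have a1 := el_le hx j.castSucc
    have a2 := el_le hy j.castSucc
    have a3 := hx j.castSucc
    have a4 := hy j.castSucc
    rw [el_cast] at a1 a2 a3 a4
    rw [Real.dist_eq, abs_le]
    constructor <;> linarith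
  refine (Finset.sum_le_sum fun j _ => h1 j).trans (le_of_eq ?_)
  simp only [Finset.sum_const, Finset.card_univ, Fintype.card_fin, nsmul_eq_mul]
  ring

theorem vc_closed (a : Fin 5 → ℝ) : IsClosed (Vc a) := by
  have : Vc a = ⋂ i, {x | a i ≤ el i x} := by ext x; simp [Vc]
  rw [this]
  exact isClosed_iInter fun i => isClosed_le continuous_const (el i).continuous

theorem vc_compact (a : Fin 5 → ℝ) : IsCompact (Vc a) :=
  Metric.isCompact_of_isClosed_isBounded (vc_closed a)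
    (Metric.isBounded_iff.2 ⟨_, fun _ hx _ hy => vc_dist hx hy⟩)

theorem vc_convex (a : Fin 5 → ℝ) : Convex ℝ (Vc a) := by
  have : Vc a = ⋂ i, {x | a i ≤ el i x} := by ext x; simp [Vc]
  rw [this]
  exact convex_iInter fun i => convex_halfSpace_ge (el i).isLinear _

theorem vo_open (a : Fin 5 → ℝ) : IsOpen (Vo a) := by
  have : Vo a = ⋂ i, {x | a i < el i x} := by ext x; simp [Vo]
  rw [this]
  exact isOpen_iInter_of_finite fun i => isOpen_lt continuous_const (el i).continuous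

theorem pc_compact (a b : Fin 5 → ℝ) (i : Fin 5) : IsCompact (Pc a b i) :=
  (vc_compact a).inter_right (isClosed_le (el i).continuous continuous_const)

theorem pc_convex (a b : Fin 5 → ℝ) (i : Fin 5) : Convex ℝ (Pc a b i) :=
  (vc_convex a).inter (convex_halfSpace_le (el i).isLinear _)

theorem pc_union (a b : Fin 5 → ℝ) : ⋃ i, Pc a b i = Vc a \ Vo b := by
  ext x
  simp only [Set.mem_iUnion, Pc, Vo, Set.mem_inter_iff, Set.mem_ofPred_eq, Set.mem_sdiff,
    not_forall, not_lt]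
  exact ⟨fun ⟨i, h1, h2⟩ => ⟨h1, i, h2⟩, fun ⟨h1, i, h2⟩ => ⟨i, h1, h2⟩⟩

theorem vertex {a : Fin 5 → ℝ} (ha : ∑ i, a i < 0) (j : Fin 5) :
    ∃ x ∈ Vc a, ∀ i, i ≠ j → el i x = a i := by
  obtain ⟨x, hx⟩ := el_surj (fun i => a i + if i = j then -∑ i, a i else 0)
    (by rw [Finset.sum_add_distrib, Finset.sum_ite_eq']; simp)
  refine ⟨x, fun i => ?_, fun i hi => by rw [hx, if_neg hi, add_zero]⟩
  rw [hx]
  split_ifs <;> linarith

/-- Convex compact sets in a chart. -/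
def KK (φ : OpenPartialHomeomorph X R4) : Set (Set X) :=
  {K | ∃ C, C ⊆ φ.target ∧ IsCompact C ∧ Convex ℝ C ∧ K = φ.symm '' C}

theorem inj (φ : OpenPartialHomeomorph X R4) : Set.InjOn φ.symm φ.target := φ.symm.injOn

theorem cpt_im (φ : OpenPartialHomeomorph X R4) {C : Set R4} (h : C ⊆ φ.target)
    (hC : IsCompact C) : IsCompact (φ.symm '' C) :=
  hC.image_of_continuousOn (φ.continuousOn_symm.mono h)

theorem cvx
    (h2 : ∀ (φ : OpenPartialHomeomorph X R4) (C : Set R4) (x : R4), C ⊆ φ.target → IsCompact C →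
      x ∈ C → StarConvex ℝ x C → Acyc (ZMod 2) (φ.symm '' C))
    (φ : OpenPartialHomeomorph X R4) : Cvx (KK φ) where
  cpt := by
    rintro _ ⟨C, h1, h2, -, rfl⟩
    exact cpt_im φ h1 h2
  inter := by
    rintro _ ⟨C, h1, h2, h3, rfl⟩ _ ⟨C', h1', h2', h3', rfl⟩
    exact ⟨C ∩ C', Set.inter_subset_left.trans h1, h2.inter h2', h3.inter h3',
      ((inj φ).image_inter h1 h1').symm⟩
  star := by
    intro n K x h
    choose C c1 c2 c3 c4 using fun i => (h i).1
    have hx : ∀ i, φ x ∈ C i := fun i => by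
      have := (h i).2
      rw [c4 i] at this
      obtain ⟨y, hy, rfl⟩ := this
      rwa [φ.right_inv (c1 i hy)]
    have e : ⋃ i, K i = φ.symm '' ⋃ i, C i := by
      rw [Set.image_iUnion]
      exact Set.iUnion_congr c4
    rw [e]
    exact h2 φ _ (φ x) (Set.iUnion_subset c1) (isCompact_iUnion c2) (Set.mem_iUnion.2 ⟨0, hx 0⟩)
      (starConvex_iUnion fun i => (c3 i).starConvex (hx i))

theorem pattern (φ : OpenPartialHomeomorph X R4) {a b : Fin 5 → ℝ} (ht : Vc a ⊆ φ.target)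
    (hab : ∀ i, a i ≤ b i) (hb : ∑ i, b i < 0) :
    Pattern (KK φ) (n := 4) fun i => φ.symm '' Pc a b i := by
  have ha : ∑ i, a i < 0 := (Finset.sum_le_sum fun i _ => hab i).trans_lt hb
  refine ⟨fun i => ⟨_, Set.inter_subset_left.trans ht, pc_compact a b i, pc_convex a b i, rfl⟩,
    fun j => ?_, fun x => ?_⟩
  · obtain ⟨x, hx, h⟩ := vertex ha j
    exact ⟨φ.symm x, fun i hi => ⟨x, ⟨hx, (h i hi).trans_le (hab i)⟩, rfl⟩⟩
  · by_contra hn
    have h1 : ∀ i, el i (φ x) ≤ b i := fun i => by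
      have : x ∈ φ.symm '' Pc a b i := by
        by_contra h
        exact hn ⟨i, h⟩
      obtain ⟨y, hy, rfl⟩ := this
      rw [φ.right_inv (ht hy.1)]
      exact hy.2
    have h2 := Finset.sum_le_sum fun i (_ : i ∈ Finset.univ) => h1 i
    rw [el_sum] at h2
    linarith

theorem shell (φ : OpenPartialHomeomorph X R4) {a b : Fin 5 → ℝ} (ht : Vc a ⊆ φ.target)
    (hab : ∀ i, a i ≤ b i) :
    ⋃ i, φ.symm '' Pc a b i = φ.symm '' Vc a \ φ.symm '' Vo b := by
  rw [← Set.image_iUnion, pc_union, ((inj φ).mono ht).image_sdiff_subset (vo_sub hab)]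

theorem small (φ : OpenPartialHomeomorph X R4) {x : X} (hx : x ∈ φ.source) {W : Set X}
    (hW : W ∈ 𝓝 x) : ∀ᶠ ε in 𝓝[>] (0 : ℝ), 0 < ε ∧ Vc (fun i => el i (φ x) - ε) ⊆ φ.target ∧
      φ.symm '' Vc (fun i => el i (φ x) - ε) ⊆ W := by
  have h1 : φ.target ∩ φ.symm ⁻¹' W ∈ 𝓝 (φ x) := by
    refine inter_mem (φ.open_target.mem_nhds (φ.map_source hx)) ?_
    refine φ.continuousAt_symm (φ.map_source hx) ?_
    rwa [φ.left_inv hx]
  obtain ⟨r, hr, hb⟩ := Metric.mem_nhds_iff.1 h1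
  filter_upwards [Ioo_mem_nhdsGT (show (0 : ℝ) < r / 10 by positivity)] with ε hε
  have h2 : Vc (fun i => el i (φ x) - ε) ⊆ φ.target ∩ φ.symm ⁻¹' W := by
    refine Set.Subset.trans (fun y hy => ?_) hb
    have h3 := vc_dist hy (show φ x ∈ Vc (fun i => el i (φ x) - ε) from fun i => by
      have := hε.1
      simp only
      linarith)
    rw [Finset.sum_sub_distrib, el_sum] at h3
    simp only [Finset.sum_const, Finset.card_univ, Fintype.card_fin, nsmul_eq_mul] at h3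
    have := hε.2
    rw [Metric.mem_ball]
    push_cast at h3
    linarith
  exact ⟨hε.1, h2.trans Set.inter_subset_left,
    Set.image_subset_iff.2 (h2.trans Set.inter_subset_right)⟩

theorem small_sum (y : R4) {ε : ℝ} (hε : 0 < ε) : ∑ i, (el i y - ε) < 0 := by
  rw [Finset.sum_sub_distrib, el_sum]
  simp only [Finset.sum_const, Finset.card_univ, Fintype.card_fin, nsmul_eq_mul]
  push_cast
  linarith

theorem prim {V L : Set X} {m : ℕ} {f : Co k X} (hf : Zc (m + 1) V f) (hL : HK k (m + 1) L) :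
    ∃ g : Co k X, Deg m g ∧ f - d g ∈ Nul k L ∧ d g ∈ Nul k (L \ V) := by
  obtain ⟨g, g1, g2⟩ := (hL f hf.1 (Nul.mono (Set.subset_univ _) hf.2.2)).graded hf.1
  obtain ⟨K, -, hK, h⟩ := hf.2.1
  refine ⟨g, g1, g2, ?_⟩
  have := (Nul k (L \ V)).sub_mem (Nul.mono (fun y hy hy' => hy.2 (hK hy')) h)
    (Nul.mono Set.sdiff_subset g2)
  rwa [sub_sub_cancel] at this

/-- The basic open sets. -/
def VV (X : Type*) [TopologicalSpace X] : Set (Set X) :=
  {V | ∃ (φ : OpenPartialHomeomorph X R4) (a : Fin 5 → ℝ), ∑ i, a i < 0 ∧ Vc a ⊆ φ.target ∧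
    V = φ.symm '' Vo a}

theorem open_im (φ : OpenPartialHomeomorph X R4) {a b : Fin 5 → ℝ} (ht : Vc a ⊆ φ.target)
    (hab : ∀ i, a i ≤ b i) : IsOpen (φ.symm '' Vo b) :=
  φ.isOpen_image_symm_of_subset_target (vo_open b) ((vo_sub hab).trans ht)

theorem acyc_im
    (h2 : ∀ (φ : OpenPartialHomeomorph X R4) (C : Set R4) (x : R4), C ⊆ φ.target → IsCompact C →
      x ∈ C → StarConvex ℝ x C → Acyc (ZMod 2) (φ.symm '' C))
    (φ : OpenPartialHomeomorph X R4) {a : Fin 5 → ℝ} (ha : ∑ i, a i < 0) (ht : Vc a ⊆ φ.target) :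
    Acyc (ZMod 2) (φ.symm '' Vc a) := by
  obtain ⟨x, hx, -⟩ := vertex ha 0
  exact h2 φ _ x ht (vc_compact a) hx ((vc_convex a).starConvex hx)

end LocXAux

open LocXAux in
theorem locS [T2Space X] [ChartedSpace R4 X] (h1 : PN X)
    (h2 : ∀ (φ : OpenPartialHomeomorph X R4) (C : Set R4) (x : R4), C ⊆ φ.target → IsCompact C →
      x ∈ C → StarConvex ℝ x C → Acyc (ZMod 2) (φ.symm '' C))
    (h3 : ∀ (φ : OpenPartialHomeomorph X R4) (K : Set X), IsCompact K → K ⊆ φ.source →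
      ∀ n, 5 ≤ n → HK (ZMod 2) n K) : ∃ 𝒱 : Set (Set X), LocS 𝒱 := by
  refine ⟨LocXAux.VV X, ?_, ?_, ?_, ?_, ?_, ?_⟩
  · rintro _ ⟨φ, a, -, ht, rfl⟩
    exact open_im φ ht fun _ => le_rfl
  · intro x W hW
    have hx := mem_chart_source R4 x
    obtain ⟨ε, e1, e2, e3⟩ := (small (chartAt R4 x) hx hW).exists
    refine ⟨_, ⟨_, _, small_sum _ e1, e2, rfl⟩, ⟨chartAt R4 x x, fun i => ?_,
      (chartAt R4 x).left_inv hx⟩, (Set.image_mono (vo_sub fun _ => le_rfl)).trans e3⟩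
    simp only
    linarith
  · rintro _ ⟨φ, a, -, ht, rfl⟩ U hU hUo n hn f hf
    have := ChartedSpace.locallyCompactSpace R4 X
    obtain ⟨m, rfl⟩ : ∃ m, n = m + 1 := ⟨n - 1, by omega⟩
    obtain ⟨K, hK, hKU, hfK⟩ := hf.2.1
    obtain ⟨L, hL, hKL, hLU⟩ := exists_compact_between hK hUo hKU
    have hLs : L ⊆ φ.source := by
      refine hLU.trans (hU.trans ?_)
      rintro _ ⟨y, hy, rfl⟩
      exact φ.map_target (ht (vo_sub (fun _ => le_rfl) hy))
    have hf' : Zc (m + 1) (interior L) f := ⟨hf.1, ⟨K, hK, hKL, hfK⟩, hf.2.2⟩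
    obtain ⟨g, g1, g2, g3⟩ := prim hf' (h3 φ L hL hLs _ (by omega))
    exact (exc_of_ex isOpen_interior hL interior_subset hf'.2.1 g2
      (h3 φ _ (hL.diff isOpen_interior) (Set.sdiff_subset.trans hLs) m (by omega) g g1 g3)).mono
      (interior_subset.trans hLU)
  · rintro _ ⟨φ, a, ha, ht, rfl⟩ n hn f hf
    rcases n with _ | m
    · obtain ⟨K, -, -, hfK⟩ := hf.2.1
      have : f = 0 := by
        funext l
        rcases l with _ | ⟨x, l⟩
        · exact hfK.1
        · exact hf.1 _ (by simp)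
      rw [this]
      exact Exc.of_nul (Submodule.zero_mem _)
    · obtain ⟨g, g1, g2, g3⟩ := prim hf ((acyc_im h2 φ ha ht).hk _)
      have hp := (h1 _ (cvx h2 φ) 4 _ (pattern φ ht (fun _ => le_rfl) ha)).1 m (by omega)
      rw [shell φ ht fun _ => le_rfl] at hp
      exact exc_of_ex (open_im φ ht fun _ => le_rfl) (cpt_im φ ht (vc_compact a))
        (Set.image_mono (vo_sub fun _ => le_rfl)) hf.2.1 g2 (hp g g1 g3)
  · rintro _ ⟨φ, a, ha, ht, rfl⟩
    have hpat := pattern φ ht (fun _ => le_rfl) ha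
    obtain ⟨γ, c1, c2, c3, c4⟩ := (h1 _ (cvx h2 φ) 4 _ hpat).2
    have c5 := c3 _ hpat fun _ => le_rfl
    rw [shell φ ht fun _ => le_rfl] at c2 c4 c5
    have hV := open_im φ ht fun _ => le_rfl
    have hL := cpt_im φ ht (vc_compact a)
    have hVL : φ.symm '' Vo a ⊆ φ.symm '' Vc a := Set.image_mono (vo_sub fun _ => le_rfl)
    have hA := acyc_im h2 φ ha ht
    obtain ⟨r1, r2, r3⟩ := cut_rim hV hL hVL c2
    have hz : Zc 5 (φ.symm '' Vo a) (cut (φ.symm '' Vc a) (d γ)) :=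
      ⟨c1.d.cut _, r1, r3 (by rw [d_d]; exact Submodule.zero_mem _)⟩
    refine ⟨_, hz, fun h => c5 (ex_of_exc hA h ?_), fun f hf => ?_⟩
    · have := Submodule.neg_mem _ r2
      rwa [neg_sub] at this
    · obtain ⟨g, g1, g2, g3⟩ := prim hf (hA.hk _)
      refine (c4 g g1 g3).imp (exc_of_ex hV hL hVL hf.2.1 g2)
        (exc_of_ex hV hL hVL (hf.sub hz).2.1 ?_)
      have := Submodule.add_mem _ g2 r2
      rw [map_sub]
      convert this using 1
      abel
  · rintro _ ⟨φ, a, ha, ht, rfl⟩ _ ⟨y, hy, rfl⟩ W hW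
    have hyt : y ∈ φ.target := ht (vo_sub (fun _ => le_rfl) hy)
    have hx := φ.map_target hyt
    have hev : ∀ᶠ ε in 𝓝[>] (0 : ℝ), ∀ i, a i ≤ el i y - ε := by
      refine eventually_all.2 fun i => ?_
      filter_upwards [Ioo_mem_nhdsGT (sub_pos.2 (hy i))] with ε hε
      linarith [hε.2]
    obtain ⟨ε, ⟨e1, e2, e3⟩, e4⟩ := ((small φ hx hW).and hev).exists
    rw [φ.right_inv hyt] at e2 e3
    refine ⟨_, ⟨φ, _, small_sum y e1, e2, rfl⟩, ⟨y, fun i => ?_, rfl⟩,
      (Set.image_mono (vo_sub fun _ => le_rfl)).trans e3,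
      Set.image_mono fun z hz i => (e4 i).trans_lt (hz i), fun f hf hV => ?_⟩
    · simp only
      linarith
    have hA := acyc_im h2 φ ha ht
    obtain ⟨g, g1, g2, g3⟩ := prim hf (hA.hk _)
    obtain ⟨γ, -, -, c3, c4⟩ := (h1 _ (cvx h2 φ) 4 _ (pattern φ ht e4 (small_sum y e1))).2
    have hsub : ∀ i, φ.symm '' Pc a a i ⊆ φ.symm '' Pc a (fun i => el i y - ε) i := fun i =>
      Set.image_mono fun z hz => ⟨hz.1, le_trans hz.2 (e4 i)⟩
    have c5 := c3 _ (pattern φ ht (fun _ => le_rfl) ha) hsub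
    have c6 := ex_of_exc hA hV g2
    rw [← shell φ ht fun _ => le_rfl] at c6
    rw [← shell φ ht e4] at g3
    refine exc_of_ex (open_im φ ht e4) (cpt_im φ ht (vc_compact a))
      (Set.image_mono (vo_sub e4)) hf.2.1 g2 ?_
    rw [← shell φ ht e4]
    refine (c4 g g1 g3).resolve_right fun h => c5 ?_
    have := c6.sub (h.mono (Set.iUnion_mono hsub))
    rwa [sub_sub_cancel] at this

end Vale.Agent.P239.AS
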