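import Vale.Agent.P239.BasY

/-! Loxodromic fixed points. -/

namespace Vale.Agent.P239

open scoped Pointwise symmDiff
open Filter Topology

variable {Γ : Type*} [Group Γ] {Z : Type*} [MetricSpace Z] [CompactSpace Z] [MulAction Γ Z]
  [ContinuousConstSMul Γ Z] {D : Dat Γ Z} {π : Z → ℝ}

namespace LoxXAux

variable {S : Finset Γ} {ι : Γ → Z}

omit [CompactSpace Z] [ContinuousConstSMul Γ Z] in
theorem slowT (hS : Gen S) (hF : Frame S ι) {c : ℕ → Γ} (hc : Tendsto c atTop cofinite) {b : Z}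
    (hb : Tendsto (fun k => ι (c k)) atTop (𝓝 b)) (f : Γ) :
    Tendsto (fun k => ι (c k * f)) atTop (𝓝 b) := by
  refine hb.congr_dist (Metric.tendsto_nhds.2 fun ε hε => ?_)
  obtain ⟨K, hK, h⟩ := hF.slow_mul hS (Set.finite_singleton f) (half_pos hε)
  filter_upwards [hc hK.compl_mem_cofinite] with k hk
  rw [Real.dist_0_eq_abs, abs_of_nonneg dist_nonneg, dist_comm]
  exact (h _ hk f rfl).trans_lt (half_lt_self hε)

omit [CompactSpace Z] [ContinuousConstSMul Γ Z] in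
theorem fix2 {ε : ℝ} {ξ b : Z} (hd : 2 * ε < dist ξ b) {c : Γ}
    (h : ∀ z : Z, dist (c • z) (ι c) ≤ ε ∨ dist z (ι c⁻¹) ≤ ε) (h1 : c • ξ = ξ)
    (h2 : c • b = b) : (dist b (ι c) ≤ ε ∧ dist ξ (ι c⁻¹) ≤ ε) ∨ dist ξ (ι c) ≤ ε := by
  have a1 := h ξ
  have a2 := h b
  rw [h1] at a1
  rw [h2] at a2
  have a3 := dist_triangle_right ξ b (ι c⁻¹)
  rcases a1 with a1 | a1
  · exact Or.inr a1
  · rcases a2 with a2 | a2
    · exact Or.inl ⟨a2, a1⟩
    · linarith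

omit [MetricSpace Z] [CompactSpace Z] [ContinuousConstSMul Γ Z] in
theorem pow_fix {h : Γ} {z : Z} (hz : h • z = z) (k : ℕ) : h ^ k • z = z :=
  (MulAction.stabilizer Γ z).pow_mem hz k

omit [MetricSpace Z] [CompactSpace Z] [ContinuousConstSMul Γ Z] in
theorem inv_fix {h : Γ} {z : Z} (hz : h • z = z) : h⁻¹ • z = z := inv_smul_eq_iff.2 hz.symm

theorem other (hS : Gen S) (hF : Frame S ι) {h : Γ}
    (hp : Tendsto (fun k : ℕ => h ^ k) atTop cofinite) {ξ : Z} (hξ : h • ξ = ξ)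
    (hn : ¬ Tendsto (fun k : ℕ => ι (h ^ k)) atTop (𝓝 ξ)) :
    ∃ b, ξ ≠ b ∧ h • b = b ∧ Tendsto (fun k : ℕ => ι (h ^ k)) atTop (𝓝 b) ∧
      Tendsto (fun k : ℕ => ι (h⁻¹ ^ k)) atTop (𝓝 ξ) := by
  rw [Metric.tendsto_nhds] at hn
  simp only [not_forall, not_eventually, not_lt] at hn
  obtain ⟨ε₁, hε₁, hfr⟩ := hn
  have hC : IsCompact {z : Z | ε₁ ≤ dist z ξ} :=
    (isClosed_le continuous_const (continuous_id.dist continuous_const)).isCompact
  obtain ⟨b, hb, φ, hφ, hlim⟩ := hC.tendsto_subseq' (x := fun k => ι (h ^ k)) hfr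
  have hne : ξ ≠ b := by
    rintro rfl
    have : ε₁ ≤ dist ξ ξ := hb
    rw [dist_self] at this
    linarith
  have hbf : h • b = b := by
    refine tendsto_nhds_unique (((continuous_const_smul h).tendsto b).comp hlim)
      ((slowT hS hF (hp.comp hφ.tendsto_atTop) hlim h).congr fun k => ?_)
    simp only [Function.comp_apply]
    rw [← hF.eqv, ← pow_succ, ← pow_succ']
  have hd : 0 < dist ξ b := dist_pos.2 hne
  have key : ∀ ε > 0, 3 * ε < dist ξ b →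
      ∀ᶠ k : ℕ in atTop, dist b (ι (h ^ k)) ≤ ε ∧ dist ξ (ι (h ^ k)⁻¹) ≤ ε := by
    intro ε hε h3
    obtain ⟨K, hK, h1⟩ := hF.cv ε hε
    obtain ⟨K', hK', h2⟩ := hF.slow_mul hS (Set.finite_singleton h) hε
    obtain ⟨N, hN⟩ := eventually_atTop.1 (hp (hK.union hK').compl_mem_cofinite)
    have a1 : ∀ k ≥ N, _ := fun k hk => fix2 (by linarith) (h1 _ fun a => hN k hk (Or.inl a))
      (pow_fix hξ k) (pow_fix hbf k)
    obtain ⟨j, hj1, hj2⟩ := ((Metric.tendsto_nhds.1 hlim ε hε).and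
      (hφ.tendsto_atTop.eventually_ge_atTop N)).exists
    refine eventually_atTop.2 ⟨φ j, fun k hk => ?_⟩
    induction k, hk using Nat.le_induction with
    | base =>
      refine (a1 _ hj2).resolve_right fun a => ?_
      have a2 := dist_triangle ξ (ι (h ^ φ j)) b
      have a3 : dist (ι (h ^ φ j)) b < ε := hj1
      linarith
    | succ k hk ih =>
      refine (a1 _ (by omega)).resolve_right fun a => ?_
      have a2 := h2 (h ^ k) (fun a => hN k (hj2.trans hk) (Or.inr a)) h rfl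
      have a3 := dist_triangle4 ξ (ι (h ^ (k + 1))) (ι (h ^ k)) b
      rw [← pow_succ] at a2
      rw [dist_comm (ι (h ^ k)) b] at a3
      linarith [ih.1]
  have key' : ∀ ε > 0,
      ∀ᶠ k : ℕ in atTop, dist (ι (h ^ k)) b < ε ∧ dist (ι (h⁻¹ ^ k)) ξ < ε := by
    intro ε hε
    have a1 := min_le_left (ε / 2) (dist ξ b / 4)
    have a2 := min_le_right (ε / 2) (dist ξ b / 4)
    filter_upwards [key (min (ε / 2) (dist ξ b / 4)) (by positivity) (by linarith)] with k hk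
    rw [inv_pow, dist_comm, dist_comm _ ξ]
    exact ⟨by linarith [hk.1], by linarith [hk.2]⟩
  exact ⟨b, hne, hbf, Metric.tendsto_nhds.2 fun ε hε => (key' ε hε).mono fun _ a => a.1,
    Metric.tendsto_nhds.2 fun ε hε => (key' ε hε).mono fun _ a => a.2⟩

omit [CompactSpace Z] [ContinuousConstSMul Γ Z] in
theorem attract (hF : Frame S ι) {h : Γ} (hp : Tendsto (fun k : ℕ => h ^ k) atTop cofinite)
    {ξ b z : Z} (h1 : Tendsto (fun k : ℕ => ι (h ^ k)) atTop (𝓝 b))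
    (h2 : Tendsto (fun k : ℕ => ι (h⁻¹ ^ k)) atTop (𝓝 ξ)) (hz : z ≠ ξ) :
    Tendsto (fun k : ℕ => h ^ k • z) atTop (𝓝 b) := by
  refine h1.congr_dist (Metric.tendsto_nhds.2 fun ε hε => ?_)
  have hd : 0 < dist z ξ := dist_pos.2 hz
  have a1 := min_le_left (ε / 2) (dist z ξ / 2)
  have a2 := min_le_right (ε / 2) (dist z ξ / 2)
  obtain ⟨K, hK, hc⟩ := hF.cv (min (ε / 2) (dist z ξ / 2)) (by positivity)
  filter_upwards [hp hK.compl_mem_cofinite, Metric.tendsto_nhds.1 h2 _ (half_pos hd)] with k hk a3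
  rw [Real.dist_0_eq_abs, abs_of_nonneg dist_nonneg, dist_comm]
  rw [inv_pow] at a3
  rcases hc (h ^ k) hk z with a | a
  · linarith
  · linarith [dist_triangle z (ι (h ^ k)⁻¹) ξ]

omit [CompactSpace Z] in
theorem main (hS : Gen S) (hF : Frame S ι) {h : Γ}
    (hp : Tendsto (fun k : ℕ => h ^ k) atTop cofinite) {ξ b : Z} (hξ : h • ξ = ξ) (hne : ξ ≠ b)
    (hb : h • b = b) (h1 : Tendsto (fun k : ℕ => ι (h ^ k)) atTop (𝓝 b))
    (h2 : Tendsto (fun k : ℕ => ι (h⁻¹ ^ k)) atTop (𝓝 ξ)) (Ξ : Set Z) (hΞ : Ξ.Finite) :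
    ∃ ε : ℝ, 0 < ε ∧ ∃ Φ : Set Γ, Φ.Finite ∧
      ∀ t : Γ, t⁻¹ • ξ ∈ Ξ → dist (ι t) ξ ≤ ε → ∃ n : ℕ, ∃ φ ∈ Φ, t = h⁻¹ ^ n * φ := by
  have hd : 0 < dist ξ b := dist_pos.2 hne
  obtain ⟨ε₀, hε₀, hlt, hst⟩ : ∃ ε₀ > 0, ε₀ < dist ξ b / 2 ∧
      ∀ z, dist z ξ ≤ ε₀ → dist (h • z) ξ ≤ dist ξ b / 2 := by
    obtain ⟨δ, hδ, a⟩ := Metric.continuousAt_iff.1
      ((continuous_const_smul h).continuousAt (x := ξ)) _ (half_pos hd)
    have a1 := min_le_left (δ / 2) (dist ξ b / 4)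
    have a2 := min_le_right (δ / 2) (dist ξ b / 4)
    refine ⟨min (δ / 2) (dist ξ b / 4), by positivity, by linarith, fun z hz => ?_⟩
    have := a (x := z) (by linarith)
    rw [hξ] at this
    exact this.le
  have hex : ∀ t, dist (ι t) ξ ≤ ε₀ →
      ∃ n : ℕ, ε₀ < dist (ι (h ^ n * t)) ξ ∧ dist (ι (h ^ n * t)) ξ ≤ dist ξ b / 2 := by
    intro t ht
    have a1 : ∃ n : ℕ, ε₀ < dist (ι (h ^ n * t)) ξ := by
      obtain ⟨n, hn⟩ := (Metric.tendsto_nhds.1 (slowT hS hF hp h1 t) _ (half_pos hd)).exists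
      exact ⟨n, by linarith [dist_triangle_left ξ b (ι (h ^ n * t))]⟩
    classical
    have a2 := Nat.find_spec a1
    have a3 : ∀ m, m < Nat.find a1 → _ := fun m => Nat.find_min a1
    refine ⟨_, a2, ?_⟩
    generalize Nat.find a1 = n at a2 a3
    rcases n with _ | n
    · rw [pow_zero, one_mul]; linarith
    · rw [pow_succ', mul_assoc, hF.eqv]
      exact hst _ (not_lt.1 (a3 n (Nat.lt_succ_self n)))
  obtain ⟨K, hK, hcv⟩ := hF.cv (ε₀ / 2) (half_pos hε₀)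
  have hfix : ∀ φ : Γ, φ • ξ = ξ → φ • b = b := by
    intro φ hφ
    have a0 : φ • b ≠ ξ := fun a => hne (MulAction.injective φ (hφ.trans a.symm))
    have a1 := attract hF hp h1 h2 a0
    have a2 : ((fun c : Γ => c • b) '' K \ {b})ᶜ ∈ 𝓝 b :=
      ((hK.image _).subset Set.sdiff_subset).isClosed.isOpen_compl.mem_nhds fun a => a.2 rfl
    obtain ⟨N, hN⟩ := eventually_atTop.1
      ((a1.eventually a2).and (Metric.tendsto_nhds.1 a1 _ (half_pos hε₀)))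
    have a3 : ∀ n : ℕ, ∀ᶠ i : ℕ in atTop, dist (ι (h ^ n * (φ * h⁻¹ ^ i))) ξ ≤ ε₀ := fun n => by
      have a4 := ((continuous_const_smul (h ^ n * φ)).tendsto ξ).comp h2
      rw [mul_smul, hφ, pow_fix hξ] at a4
      filter_upwards [Metric.tendsto_nhds.1 a4 _ hε₀] with i hi
      rw [← mul_assoc, hF.eqv]
      exact hi.le
    obtain ⟨i, hi⟩ := ((eventually_all_finset (Finset.range (N + 1))).2 fun n _ => a3 n).exists
    obtain ⟨n, b1, b2⟩ := hex (φ * h⁻¹ ^ i) (by simpa using hi 0 (by simp))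
    have hn : N ≤ n := by
      by_contra a
      exact b1.not_ge (hi n (Finset.mem_range.2 (by omega)))
    obtain ⟨b3, b4⟩ := hN n hn
    have c1 : (h ^ n * (φ * h⁻¹ ^ i)) • ξ = ξ := by
      rw [mul_smul, mul_smul, pow_fix (inv_fix hξ), hφ, pow_fix hξ]
    have c2 : (h ^ n * (φ * h⁻¹ ^ i)) • b = h ^ n • φ • b := by
      rw [mul_smul, mul_smul, pow_fix (inv_fix hb)]
    generalize h ^ n * (φ * h⁻¹ ^ i) = c at b1 b2 c1 c2
    by_cases hc : c ∈ K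
    · by_contra a
      refine b3 ⟨⟨c, hc, c2⟩, fun a' => a ?_⟩
      exact MulAction.injective (h ^ n) ((Set.mem_singleton_iff.1 a').trans (pow_fix hb n).symm)
    · have d1 := hcv c hc ξ
      have d2 := hcv c hc b
      rw [c1, dist_comm] at d1
      rw [c2] at d2
      have d3 := dist_triangle_right ξ b (ι c⁻¹)
      have d4 := dist_triangle_left ξ b (ι c)
      have d5 := dist_triangle_left (ι c) b (h ^ n • φ • b)
      exfalso
      rcases d1 with d1 | d1 <;> rcases d2 with d2 | d2 <;> linarith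
  have hY : ∀ ζ : Z, {y : Γ | y⁻¹ • ξ = ζ ∧ ε₀ < dist (ι y) ξ ∧
      dist (ι y) ξ ≤ dist ξ b / 2}.Finite := by
    intro ζ
    refine (Set.eq_empty_or_nonempty _).elim (fun a => Set.finite_empty.subset a.subset) ?_
    rintro ⟨y₁, e₁, -⟩
    obtain ⟨K', hK', hsl⟩ := hF.slow_mul hS (Set.finite_singleton y₁) (half_pos hε₀)
    refine ((hK.union hK').image (· * y₁)).subset fun y hy => ⟨y * y₁⁻¹, ?_, by simp⟩
    obtain ⟨e₂, e₃, e₄⟩ := hy
    by_contra a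
    have a1 : (y * y₁⁻¹) • ξ = ξ := by rw [mul_smul, e₁, ← e₂, smul_inv_smul]
    have a2 := fix2 (by linarith) (hcv _ fun a' => a (Or.inl a')) a1 (hfix _ a1)
    have a3 := hsl _ (fun a' => a (Or.inr a')) y₁ rfl
    rw [inv_mul_cancel_right] at a3
    have a4 := dist_triangle_right (ι y) ξ (ι (y * y₁⁻¹))
    have a5 := dist_triangle_right (ι y) b (ι (y * y₁⁻¹))
    have a6 := dist_triangle_left ξ b (ι y)
    rcases a2 with a2 | a2
    · linarith [a2.1]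
    · linarith
  refine ⟨ε₀, hε₀, _, hΞ.biUnion fun ζ _ => hY ζ, fun t ht hdt => ?_⟩
  obtain ⟨n, b1, b2⟩ := hex t hdt
  refine ⟨n, h ^ n * t, Set.mem_biUnion ht ⟨?_, b1, b2⟩, by simp⟩
  rw [mul_inv_rev, mul_smul, inv_fix (pow_fix hξ n)]

end LoxXAux

theorem lox (H : D.OK) : D.LOX := by
  have key : ∀ (h : Γ) (ξ : Z), h ≠ 1 → h • ξ = ξ →
      ¬ Tendsto (fun k : ℕ => D.ι (h ^ k)) atTop (𝓝 ξ) →
      ∃ g : Γ, g ≠ 1 ∧ Tendsto (fun k : ℕ => D.ι (g ^ k)) atTop (𝓝 ξ) ∧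
        ∀ Ξ : Set Z, Ξ.Finite → ∃ ε : ℝ, 0 < ε ∧ ∃ Φ : Set Γ, Φ.Finite ∧
          ∀ t : Γ, t⁻¹ • ξ ∈ Ξ → dist (D.ι t) ξ ≤ ε → ∃ n : ℕ, ∃ φ ∈ Φ, t = g ^ n * φ := by
    intro h ξ h1 hξ hn
    have hp := pow_tendsto H.tf h1
    obtain ⟨b, a1, a2, a3, a4⟩ := LoxXAux.other H.gen H.fr hp hξ hn
    exact ⟨h⁻¹, inv_ne_one.2 h1, a4, LoxXAux.main H.gen H.fr hp hξ a1 a2 a3 a4⟩
  intro p ξ h1 hξ hn
  rcases not_and_or.1 hn with a | a
  · exact key p ξ h1 hξ a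
  · exact key p⁻¹ ξ (inv_ne_one.2 h1) (LoxXAux.inv_fix hξ) a

end Vale.Agent.P239
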