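import Vale.Agent.P239.Alg

/-! The resolutions and the filling inequalities coming from a Poincare duality complex. -/

namespace Vale.Agent.P239

open scoped Pointwise symmDiff Matrix

variable {Γ : Type} [Group Γ] {S : Finset Γ}

theorem Mat_inv_of_exact {ι κ : Type*} {f : Ch Γ ι →ₗ[ZMod 2] Ch Γ κ} (hf : Eqv f)
    {ε : Ch Γ κ →ₗ[ZMod 2] ZMod 2} (hx : Function.Exact f ε) (g : Γ) (c : Ch Γ κ) :
    ε (trC g c) = ε c := by
  have h1 : ε (trC g c) = 0 ↔ ε c = 0 := by
    rw [hx, hx]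
    constructor
    · rintro ⟨b, hb⟩
      refine ⟨trC g⁻¹ b, ?_⟩
      rw [hf, hb, trC_trC]
      simp
    · rintro ⟨b, hb⟩
      exact ⟨trC g b, by rw [hf, hb]⟩
  revert h1
  generalize ε (trC g c) = a
  generalize ε c = b
  revert a b
  decide

theorem res_col (X : PD4Complex Γ) :
    ∃ ε, Res3 ε (colOp X.d₄) (colOp X.d₃) (colOp X.d₂) := by
  obtain ⟨ε, hs, hx⟩ := X.cochain₄
  let ε' : Ch Γ (Fin X.n₄) →ₗ[ZMod 2] ZMod 2 :=
    (ε.toZModLinearMap 2) ∘ₗ toCol.symm.toLinearMap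
  have hε : ∀ w, ε' (toCol w) = ε w := fun w => by simp [ε']
  have hx0 : Function.Exact (colOp X.d₄) ε' := by
    intro c
    obtain ⟨w, rfl⟩ := toCol.surjective c
    rw [hε, hx w]
    constructor
    · rintro ⟨v, rfl⟩
      exact ⟨toCol v, colOp_toCol _ _⟩
    · rintro ⟨c, hc⟩
      obtain ⟨v, rfl⟩ := toCol.surjective c
      exact ⟨v, toCol.injective (by rw [← hc, colOp_toCol])⟩
  refine ⟨ε', Mat_inv_of_exact (colOp_eqv _) hx0, fun a => ?_, colOp_eqv _, colOp_eqv _,
    colOp_eqv _, hx0, colOp_exact X.cochain₃, colOp_exact X.cochain₂⟩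
  obtain ⟨w, hw⟩ := hs a
  exact ⟨toCol w, by rw [hε, hw]⟩

theorem Mat_d1_single {n : ℕ} (gen : Fin n → Γ) (x : Γ) (i : Fin n) :
    rowOp (d₁ gen) (Finsupp.single (x, i) 1) =
      Finsupp.single (x * gen i, 0) 1 + Finsupp.single (x, 0) 1 := by
  classical
  have h1 : (Finsupp.single (x, i) 1 : Ch Γ (Fin n)) =
      toRow (Pi.single i (MonoidAlgebra.single x 1)) := by
    ext ⟨y, j⟩
    by_cases hj : j = i
    · subst hj
      simp [toRow, Finsupp.single_apply]
    · simp [toRow, hj]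
  rw [h1, rowOp_toRow, Matrix.single_vecMul]
  ext ⟨y, j⟩
  obtain rfl : j = 0 := Subsingleton.elim _ _
  have h2 : ∀ a b : ZMod 2, a - b = a + b := by decide
  simp [toRow, d₁, Matrix.row, mul_sub, MonoidAlgebra.single_mul_single, Finsupp.single_apply, h2]

theorem Mat_range_pair (X : PD4Complex Γ) (g : Γ) :
    ∀ x : Γ, (Finsupp.single (x * g, 0) 1 + Finsupp.single (x, 0) 1 : Ch Γ (Fin 1)) ∈
      LinearMap.range (rowOp (d₁ X.gen)) := by
  have hg : g ∈ Subgroup.closure (Set.range X.gen) := by rw [X.gen_top]; trivial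
  induction hg using Subgroup.closure_induction with
  | mem s hs =>
    obtain ⟨i, rfl⟩ := hs
    exact fun x => ⟨_, Mat_d1_single X.gen x i⟩
  | one =>
    intro x
    rw [mul_one, ch_add_self]
    exact zero_mem _
  | mul a b _ _ ha hb =>
    intro x
    have h := add_mem (hb (x * a)) (ha x)
    rw [add_assoc, ← add_assoc (Finsupp.single (x * a, 0) 1), ch_add_self, zero_add,
      mul_assoc] at h
    exact h
  | inv a _ ha =>
    intro x
    have h := ha (x * a⁻¹)
    rw [inv_mul_cancel_right, add_comm] at h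
    exact h

theorem res_row (X : PD4Complex Γ) :
    ∃ ε, Res3 ε (rowOp (d₁ X.gen)) (rowOp X.d₂) (rowOp X.d₃) := by
  classical
  let ε : Ch Γ (Fin 1) →ₗ[ZMod 2] ZMod 2 := Finsupp.linearCombination (ZMod 2) fun _ => 1
  have hε : ∀ p a, ε (Finsupp.single p a) = a := fun p a => by simp [ε]
  have hx0 : Function.Exact (rowOp (d₁ X.gen)) ε := by
    intro c
    constructor
    · intro hc
      have h1 : ∀ c : Ch Γ (Fin 1), c + Finsupp.single (1, 0) (ε c) ∈
          LinearMap.range (rowOp (d₁ X.gen)) := by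
        intro c
        induction c using Finsupp.induction_linear with
        | zero => simp
        | add a b ha hb =>
          have h := add_mem ha hb
          rw [map_add, Finsupp.single_add, add_add_add_comm]
          exact h
        | single p a =>
          obtain ⟨y, j⟩ := p
          obtain rfl : j = 0 := Subsingleton.elim _ _
          rw [hε]
          have h := Submodule.smul_mem _ a (Mat_range_pair X y 1)
          simpa using h
      have h := h1 c
      rw [hc, Finsupp.single_zero, add_zero] at h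
      exact h
    · rintro ⟨b, rfl⟩
      induction b using Finsupp.induction_linear with
      | zero => simp
      | add a b ha hb => rw [map_add, map_add, ha, hb, add_zero]
      | single p a =>
        obtain ⟨y, j⟩ := p
        have h1 : (Finsupp.single (y, j) a : Ch Γ (Fin X.n₁)) = a • Finsupp.single (y, j) 1 := by
          simp
        rw [h1, map_smul, map_smul, Mat_d1_single, map_add, hε, hε]
        have h2 : ∀ a : ZMod 2, a • (1 + 1 : ZMod 2) = 0 := by decide
        exact h2 a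
  exact ⟨ε, Mat_inv_of_exact (rowOp_eqv _) hx0, fun a => ⟨Finsupp.single (1, 0) a, hε _ _⟩,
    rowOp_eqv _, rowOp_eqv _, rowOp_eqv _, hx0, rowOp_exact X.chain₁, rowOp_exact X.chain₂⟩

theorem Mat_bound {C α : ℝ} {m j : ℕ} (hm : m ≠ 0) (hj : m ≤ 2 ^ j) :
    C * (m : ℝ) ^ α ≤ max C 1 * ((2 : ℝ) ^ max α 1) ^ j := by
  have h1 : (1 : ℝ) ≤ m := by exact_mod_cast Nat.one_le_iff_ne_zero.2 hm
  have h2 : (m : ℝ) ≤ 2 ^ j := by exact_mod_cast hj
  have h3 : (m : ℝ) ^ α ≤ ((2 : ℝ) ^ max α 1) ^ j := by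
    calc (m : ℝ) ^ α ≤ (m : ℝ) ^ max α 1 := Real.rpow_le_rpow_of_exponent_le h1 (le_max_left _ _)
      _ ≤ ((2 : ℝ) ^ j) ^ max α 1 :=
        Real.rpow_le_rpow (by positivity) h2 (le_trans zero_le_one (le_max_right _ _))
      _ = ((2 : ℝ) ^ max α 1) ^ j := by
        rw [← Real.rpow_natCast, ← Real.rpow_natCast, ← Real.rpow_mul (by norm_num),
          ← Real.rpow_mul (by norm_num), mul_comm]
  exact mul_le_mul (le_max_left _ _) h3 (by positivity)
    (le_trans zero_le_one (le_max_right _ _))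

theorem Mat_q_lt {α : ℝ} (h : α < 2) : (2 : ℝ) ^ max α 1 < 4 := by
  have h1 : max α 1 < 2 := max_lt h (by norm_num)
  calc (2 : ℝ) ^ max α 1 < (2 : ℝ) ^ (2 : ℝ) :=
        Real.rpow_lt_rpow_of_exponent_lt (by norm_num) h1
    _ = 4 := by norm_num

theorem subq_col (X : PD4Complex Γ) (h : SubquadraticCofilling X) : SubQ (colOp X.d₂) := by
  obtain ⟨C, α, hα, h⟩ := h
  refine ⟨max C 1, (2 : ℝ) ^ max α 1, by positivity, by positivity, Mat_q_lt hα,
    fun j z hz hj => ?_⟩
  by_cases h0 : z = 0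
  · exact ⟨0, by simp [h0], by simp; positivity⟩
  obtain ⟨w, rfl⟩ := toCol.surjective z
  obtain ⟨b, hb⟩ := hz
  obtain ⟨v, rfl⟩ := toCol.surjective b
  rw [colOp_toCol] at hb
  have hw : X.d₃ *ᵥ w = 0 := (X.cochain₂ w).2 ⟨v, toCol.injective hb⟩
  obtain ⟨c, hc, hm⟩ := h w hw
  have hcard : (toCol w).support.card = mass w := vecE_card _ w
  have hne : mass w ≠ 0 := by
    rw [← hcard]
    simpa using h0
  refine ⟨toCol c, by rw [colOp_toCol, hc], ?_⟩
  have hcard' : (toCol c).support.card = mass c := vecE_card _ c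
  rw [hcard']
  exact hm.trans (Mat_bound hne (hcard ▸ hj))

theorem subq_row (X : PD4Complex Γ) (h : SubquadraticFilling X) : SubQ (rowOp X.d₃) := by
  obtain ⟨C, α, hα, h⟩ := h
  refine ⟨max C 1, (2 : ℝ) ^ max α 1, by positivity, by positivity, Mat_q_lt hα,
    fun j z hz hj => ?_⟩
  by_cases h0 : z = 0
  · exact ⟨0, by simp [h0], by simp; positivity⟩
  obtain ⟨w, rfl⟩ := toRow.surjective z
  obtain ⟨b, hb⟩ := hz
  obtain ⟨v, rfl⟩ := toRow.surjective b
  rw [rowOp_toRow] at hb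
  have hw : w ᵥ* X.d₂ = 0 := (X.chain₂ w).2 ⟨v, toRow.injective hb⟩
  obtain ⟨c, hc, hm⟩ := h w hw
  have hcard : (toRow w).support.card = mass w := vecE_card _ w
  have hne : mass w ≠ 0 := by
    rw [← hcard]
    simpa using h0
  refine ⟨toRow c, by rw [rowOp_toRow, hc], ?_⟩
  have hcard' : (toRow c).support.card = mass c := vecE_card _ c
  rw [hcard']
  exact hm.trans (Mat_bound hne (hcard ▸ hj))

theorem exists_gen (X : PD4Complex Γ) : ∃ S : Finset Γ, Gen S ∧ (∀ i, X.gen i ∈ S) ∧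
    ∀ s ∈ S, s = 1 ∨ ∃ i, s = X.gen i ∨ s = (X.gen i)⁻¹ := by
  classical
  let T : Finset Γ := insert 1 (Finset.univ.image X.gen ∪ Finset.univ.image fun i => (X.gen i)⁻¹)
  have hT : ∀ s, s ∈ T ↔ s = 1 ∨ ∃ i, s = X.gen i ∨ s = (X.gen i)⁻¹ := by
    intro s
    simp only [T, Finset.mem_insert, Finset.mem_union, Finset.mem_image, Finset.mem_univ,
      true_and, exists_or, eq_comm]
  have hinv : ∀ s ∈ T, s⁻¹ ∈ T := by
    intro s hs
    rw [hT] at hs ⊢
    rcases hs with rfl | ⟨i, rfl | rfl⟩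
    · exact Or.inl inv_one
    · exact Or.inr ⟨i, Or.inr rfl⟩
    · exact Or.inr ⟨i, Or.inl (inv_inv _)⟩
  have hset : (T : Set Γ)⁻¹ = T := by
    ext s
    constructor
    · intro hs
      simpa using hinv _ hs
    · intro hs
      exact hinv _ hs
  refine ⟨T, ⟨(hT _).2 (Or.inl rfl), hinv, fun g => ?_⟩,
    fun i => (hT _).2 (Or.inr ⟨i, Or.inl rfl⟩), fun s hs => (hT s).1 hs⟩
  have hg : g ∈ Subgroup.closure (Set.range X.gen) := by rw [X.gen_top]; trivial
  induction hg using Subgroup.closure_induction with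
  | mem s hs =>
    obtain ⟨i, rfl⟩ := hs
    exact ⟨1, by rw [pow_one]; exact (hT _).2 (Or.inr ⟨i, Or.inl rfl⟩)⟩
  | one => exact ⟨0, by simp⟩
  | mul a b _ _ ha hb =>
    obtain ⟨n, hn⟩ := ha
    obtain ⟨m, hm⟩ := hb
    exact ⟨n + m, by rw [pow_add]; exact Set.mul_mem_mul hn hm⟩
  | inv a _ ha =>
    obtain ⟨n, hn⟩ := ha
    refine ⟨n, ?_⟩
    rw [← hset, inv_pow]
    exact Set.inv_mem_inv.2 hn

end Vale.Agent.P239
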