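import Vale.Agent.P239.Core

/-! A high wall does not split a far valley. -/

namespace Vale.Agent.P239

open scoped Pointwise symmDiff Matrix

variable {Γ : Type*} [Group Γ] {S : Finset Γ} {r : ℕ}

/-- On edges with tail in `Ω` the set `D` is a finite coboundary. -/
def TDTriv (S : Finset Γ) (Ω : Set Γ) (D : Set (Γ × S)) : Prop :=
  ∃ C' : Set Γ, (cob S C').Finite ∧ ∀ e : Γ × S, e.1 ∈ Ω → (e ∈ D ↔ e ∈ cob S C')

theorem TDTriv.symmDiff {Ω : Set Γ} {D D' : Set (Γ × S)} (h : TDTriv S Ω D) (h' : TDTriv S Ω D') :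
    TDTriv S Ω (D ∆ D') := by
  obtain ⟨C, h1, h2⟩ := h
  obtain ⟨C', h1', h2'⟩ := h'
  refine ⟨C ∆ C', by rw [cob_symmDiff]; exact h1.symmDiff h1', fun e he => ?_⟩
  rw [cob_symmDiff, Set.mem_symmDiff, Set.mem_symmDiff, h2 e he, h2' e he]

theorem TDTriv.congr {Ω : Set Γ} {D D' : Set (Γ × S)} (h : TDTriv S Ω D)
    (h' : ∀ e : Γ × S, e.1 ∈ Ω → (e ∈ D' ↔ e ∈ D)) : TDTriv S Ω D' := by
  obtain ⟨C, h1, h2⟩ := h
  exact ⟨C, h1, fun e he => (h' e he).trans (h2 e he)⟩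

theorem td_cob {Ω A : Set Γ} (h : (cob S A).Finite) : TDTriv S Ω (cob S A) :=
  ⟨A, h, fun _ _ => Iff.rfl⟩

theorem td_piece (hS : Gen S) (r : ℕ) (Ω : Set Γ) (k : ℕ) : ∀ β : Set (Γ × S), β.Finite →
    β.ncard ≤ k → ¬ TDTriv S Ω β → ∃ β' ⊆ β, ¬ TDTriv S Ω β' ∧ Def S r β' ⊆ Def S r β ∧
      ∃ x ∈ Ω, ∀ e ∈ β', Near S (k * (2 * r)) x e.1 := by
  induction k with
  | zero =>
    intro β hβ hk h
    rw [Nat.le_zero, Set.ncard_eq_zero hβ] at hk
    exact (h ⟨∅, by simp, by simp [hk]⟩).elim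
  | succ k ih =>
    intro β hβ hk h
    obtain ⟨e₀, he₀, hx⟩ : ∃ e ∈ β, e.1 ∈ Ω := by
      by_contra hc
      exact h ⟨∅, by simp, fun e he => by simpa using fun k => hc ⟨e, k, he⟩⟩
    obtain ⟨i, hi, hg⟩ := gap_lemma hS (hβ.image Prod.fst)
      ((Set.ncard_image_le hβ).trans hk) (2 * r) e₀.1
    have key : ∀ z, ∀ e ∈ β, ∀ e' ∈ β, Near S r z e.1 → Near S r z e'.1 →
        Near S (i * (2 * r)) e₀.1 e.1 → Near S (i * (2 * r)) e₀.1 e'.1 :=
      fun z e _ e' he' a1 a2 a3 => hg _ ⟨e', he', rfl⟩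
        ((a3.trans ((a1.symm hS).trans a2)).mono hS (le_of_eq (by ring)))
    by_cases h1 : TDTriv S Ω {e ∈ β | Near S (i * (2 * r)) e₀.1 e.1}
    · have h2 : ¬ TDTriv S Ω {e ∈ β | ¬ Near S (i * (2 * r)) e₀.1 e.1} := fun h2 =>
        h ((h1.symmDiff h2).congr fun e _ => by
          simp only [Set.mem_symmDiff, Set.mem_ofPred_eq]
          tauto)
      have h3 : {e ∈ β | ¬ Near S (i * (2 * r)) e₀.1 e.1}.ncard < β.ncard :=
        Set.ncard_lt_ncard ⟨Set.sep_subset _ _, fun k => (k he₀).2 (Near.refl hS _ _)⟩ hβ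
      obtain ⟨β', b1, b2, b3, x, hx', b4⟩ := ih _ (hβ.subset (Set.sep_subset _ _)) (by omega) h2
      refine ⟨β', b1.trans (Set.sep_subset _ _), b2, b3.trans fun z hz => ?_, x, hx',
        fun e he => (b4 e he).mono hS (Nat.mul_le_mul_right _ (by omega))⟩
      obtain ⟨e, he, a1⟩ := Def.exists_edge hz
      refine (Def.congr fun e' a2 => ?_).1 hz
      exact ⟨fun k => k.1, fun k => ⟨k, fun a3 => he.2 (key z e' k e he.1 a2 a1 a3)⟩⟩
    · refine ⟨_, Set.sep_subset _ _, h1, fun z hz => ?_, e₀.1, hx,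
        fun e he => he.2.mono hS (Nat.mul_le_mul_right _ hi)⟩
      obtain ⟨e, he, a1⟩ := Def.exists_edge hz
      refine (Def.congr fun e' a2 => ?_).1 hz
      exact ⟨fun k => k.1, fun k => ⟨k, key z e he.1 e' k a1 a2 he.2⟩⟩

open MeasureTheory in
omit [Group Γ] in
theorem td_avg (X : Finset Γ) (c ω : Γ → ℝ) (hω : ∀ x, 0 ≤ ω x) (n : ℕ) (τ η : ℝ)
    (h : ∑ x ∈ X, 2 * ω x < n * η) :
    ∃ t ∈ Set.Ioc (τ - η) τ, {x | x ∈ X ∧ t ∈ Set.Icc (c x - ω x) (c x + ω x)}.ncard < n := by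
  classical
  by_contra hc
  push Not at hc
  have h1 : ∫⁻ t, (Set.Ioc (τ - η) τ).indicator (fun _ => (n : ENNReal)) t ≤
      ∫⁻ t, ∑ x ∈ X, (Set.Icc (c x - ω x) (c x + ω x)).indicator 1 t := by
    refine lintegral_mono fun t => ?_
    by_cases ht : t ∈ Set.Ioc (τ - η) τ
    · have h2 := hc t ht
      rw [← Finset.coe_filter, Set.ncard_coe_finset] at h2
      simp only [Set.indicator_of_mem ht, Set.indicator_apply, Pi.one_apply, Finset.sum_boole]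
      exact_mod_cast h2
    · simp only [Set.indicator_of_notMem ht, zero_le]
  rw [lintegral_indicator_const measurableSet_Ioc,
    lintegral_finsetSum _ fun x _ => measurable_one.indicator measurableSet_Icc] at h1
  simp only [lintegral_indicator_one measurableSet_Icc, Real.volume_Icc, Real.volume_Ioc,
    sub_sub_cancel] at h1
  rw [← ENNReal.ofReal_sum_of_nonneg fun x _ => by linarith [hω x], ← ENNReal.ofReal_natCast,
    ← ENNReal.ofReal_mul (Nat.cast_nonneg n),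
    ENNReal.ofReal_le_ofReal_iff (Finset.sum_nonneg fun x _ => by linarith [hω x])] at h1
  refine h.not_ge (h1.trans_eq (Finset.sum_congr rfl fun x _ => by ring))

/-- The invariant of the descent. -/
def TDInv (S : Finset Γ) (r : ℕ) (u : Γ → ℝ) (Ω : Set Γ) (τ : ℝ) (j : ℕ) : Prop :=
  ∃ D : Set (Γ × S), D.Finite ∧ ¬ TDTriv S Ω D ∧ (Def S r D).ncard < 2 ^ j ∧
    ∀ x ∈ Def S r D, ∃ y, Near S r x y ∧ τ ≤ u y

theorem td_step (hS : Gen S) {u ω : Γ → ℝ} {Ω : Set Γ} {a τ η M e₂ : ℝ} {j m : ℕ}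
    (hc : ∀ W : Set (Γ × S), (Def S r W).Finite → (Def S r W).ncard ≤ 2 ^ (j + 1) →
      ∃ (β : Set (Γ × S)) (A : Set Γ), β.Finite ∧ (β.ncard : ℝ) ≤ M ∧ W ∆ β = cob S A)
    (hm : M ≤ m) (hω : ∀ x, 0 ≤ ω x) (hu : ∀ x y, Near S r x y → |u y - u x| ≤ ω x)
    (hΩ : ∀ x ∈ Ω, u x ≤ a) (ha : a ≤ τ - η) (hη : 0 ≤ η)
    (hX : ∀ X : Finset Γ, (∀ x ∈ X, ∃ y ∈ Ω, Near S (m * (2 * r) + r) y x) →
      ∑ x ∈ X, ω x ^ 2 ≤ e₂)
    (hb : 4 * (M * ((S : Set Γ) ^ r).ncard) * e₂ < (2 ^ j * η) ^ 2)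
    (h : TDInv S r u Ω τ (j + 1)) : TDInv S r u Ω (τ - η) j := by
  obtain ⟨D, d1, d2, d3, d4⟩ := h
  obtain ⟨β, A, b1, b2, b3⟩ := hc D (Def.finite hS d1) d3.le
  have b4 : ¬ TDTriv S Ω β := fun k => d2 ((k.symmDiff (td_cob (b3 ▸ d1.symmDiff b1))).congr
    fun e _ => by
      rw [← b3]
      simp only [Set.mem_symmDiff]
      tauto)
  obtain ⟨β', c1, c2, c3, x₀, hx₀, c4⟩ :=
    td_piece hS r Ω m β b1 (by exact_mod_cast b2.trans hm) b4
  rw [Def.of_symmDiff b3] at c3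
  have f1 : (Prod.fst '' β').Finite := (b1.subset c1).image _
  have f2 := nbhd_finite (S := S) r f1
  have f3 : (f2.toFinset.card : ℝ) ≤ M * ((S : Set Γ) ^ r).ncard := by
    rw [← Set.ncard_eq_toFinset_card _ f2]
    have g1 := nbhd_ncard (S := S) r f1
    have g2 : (Prod.fst '' β').ncard ≤ β.ncard :=
      (Set.ncard_image_le (b1.subset c1)).trans (Set.ncard_le_ncard c1 b1)
    calc (({y | ∃ x ∈ Prod.fst '' β', Near S r x y}.ncard : ℕ) : ℝ)
        ≤ (β.ncard : ℝ) * ((S : Set Γ) ^ r).ncard := by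
          exact_mod_cast g1.trans (Nat.mul_le_mul_right _ g2)
      _ ≤ _ := by gcongr
  have f4 := hX f2.toFinset fun x hx => by
    obtain ⟨_, ⟨e, he, rfl⟩, k⟩ := f2.mem_toFinset.1 hx
    exact ⟨x₀, hx₀, (c4 e he).trans k⟩
  have f5 : ∑ x ∈ f2.toFinset, 2 * ω x < (2 ^ j : ℕ) * η := by
    rw [← Finset.mul_sum]
    push_cast
    refine lt_of_pow_lt_pow_left₀ 2 (by positivity) (lt_of_le_of_lt ?_ hb)
    have g1 := sq_sum_le_card_mul_sum_sq (s := f2.toFinset) (f := ω)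
    have g2 : (f2.toFinset.card : ℝ) * ∑ x ∈ f2.toFinset, ω x ^ 2 ≤
        M * ((S : Set Γ) ^ r).ncard * e₂ :=
      mul_le_mul f3 f4 (Finset.sum_nonneg fun x _ => sq_nonneg _)
        ((Nat.cast_nonneg _).trans f3)
    nlinarith
  obtain ⟨t, ht, f6⟩ := td_avg f2.toFinset u ω hω (2 ^ j) τ η f5
  have f7 : ∀ x ∈ Def S r {e ∈ β' | u e.1 < t}, ∃ y, Near S r x y ∧ t ≤ u y := fun x hx => by
    by_contra k
    push Not at k
    have k1 : x ∈ Def S r β' := by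
      refine (Def.congr fun e he => ?_).1 hx
      exact ⟨fun k' => k'.1, fun k' => ⟨k', k _ he⟩⟩
    obtain ⟨y, y1, y2⟩ := d4 x (c3 k1)
    linarith [k y y1, ht.2]
  refine ⟨{e ∈ β' | u e.1 < t}, (b1.subset c1).subset (Set.sep_subset _ _),
    fun k => c2 (k.congr fun e he => ⟨fun k' => ⟨k', by linarith [hΩ _ he, ht.1]⟩, fun k' => k'.1⟩),
    lt_of_le_of_lt (Set.ncard_le_ncard (fun x hx => ?_)
      (f2.toFinset.finite_toSet.subset fun x hx => hx.1)) f6, fun x hx => ?_⟩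
  · obtain ⟨e, he, k⟩ := Def.exists_edge hx
    obtain ⟨y, y1, y2⟩ := f7 x hx
    refine ⟨f2.mem_toFinset.2 ⟨_, ⟨e, he.1, rfl⟩, k.symm hS⟩, ?_, ?_⟩
    · linarith [(abs_le.1 (hu x _ k)).1, he.2]
    · linarith [(abs_le.1 (hu x _ y1)).2]
  · obtain ⟨y, y1, y2⟩ := f7 x hx
    exact ⟨y, y1, ht.1.le.trans y2⟩

theorem td (hS : Gen S) (hI : Iface S r) : TDProp S := by
  intro u hu lam hlam
  obtain ⟨ω, hω, hsum, hosc⟩ := oscProp S u hu r
  obtain ⟨C, q, hC, hq, hq4, hc⟩ := hI.hc1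
  obtain ⟨θ, t0, t1, t2⟩ : ∃ θ : ℝ, 0 < θ ∧ θ < 1 ∧ (2 * θ) ^ 2 = q := by
    refine ⟨√q / 2, by positivity, ?_, by rw [mul_div_cancel₀ _ two_ne_zero, Real.sq_sqrt hq.le]⟩
    rw [div_lt_one two_pos, Real.sqrt_lt' two_pos]
    linarith
  generalize hV : (((S : Set Γ) ^ r).ncard : ℝ) = V
  have V0 : 0 ≤ V := hV ▸ Nat.cast_nonneg _
  have K0 : 0 ≤ 4 * C * q * V := by positivity
  have E0 : 0 ≤ ∑' x, ω x ^ 2 := tsum_nonneg fun x => sq_nonneg _
  obtain ⟨s₁, s0, hs₁⟩ : ∃ s : ℝ, 0 < s ∧ 4 * C * q * V * ∑' x, ω x ^ 2 < s ^ 2 :=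
    ⟨4 * C * q * V * ∑' x, ω x ^ 2 + 1, by positivity, by nlinarith [mul_nonneg K0 E0]⟩
  have t3 : 0 < 1 - θ := by linarith
  obtain ⟨J, hJ⟩ := exists_pow_lt_of_lt_one (show 0 < lam / 3 / (s₁ / (1 - θ)) by positivity) t1
  rw [lt_div_iff₀ (by positivity)] at hJ
  obtain ⟨B₀, hB₀⟩ := hsum.vanishing (gt_mem_nhds
    (show 0 < (lam / 3 * (1 - θ)) ^ 2 / (4 * C * q * V + 1) by positivity))
  refine ⟨_, nbhd_finite' hS (⌈C * 4 ^ J⌉₊ * (2 * r) + r) B₀.finite_toSet,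
    fun a W β A Ω hβ hW hΩ h1 h2 => ?_⟩
  by_cases hT : TDTriv S Ω β
  · obtain ⟨C', c1, c2⟩ := hT
    have c3 := hΩ (A ∆ C') fun e he _ => by
      have k1 : e ∉ W := fun k => by linarith [(h1 _ he).2, h2 e k]
      have k2 := c2 e he
      rw [cob_symmDiff, ← hW]
      simp only [Set.mem_symmDiff]
      tauto
    by_cases c4 : ∃ x ∈ Ω, x ∈ A ∆ C'
    · obtain ⟨x, hx, c4⟩ := c4
      have c5 : ∀ y ∈ Ω, y ∈ A ∆ C' := fun y hy => (c3 x hx y hy).1 c4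
      exact ((hI.hb C' c1).imp (fun k => k.subset fun y hy => by
        simpa [Set.mem_symmDiff, hy.2] using c5 y hy.1) fun k => k.subset fun y hy => by
        simpa [Set.mem_symmDiff, hy.2] using c5 y hy.1).symm
    · push Not at c4
      exact (hI.hb C' c1).imp (fun k => k.subset fun y hy => by
        simpa [Set.mem_symmDiff, hy.2] using c4 y hy.1) fun k => k.subset fun y hy => by
        simpa [Set.mem_symmDiff, hy.2] using c4 y hy.1
  exfalso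
  let g : ℕ → ℝ := fun j => lam / 3 * (1 - θ ^ j) + s₁ / (1 - θ) * (θ ^ J - θ ^ max j J)
  have p1 : ∀ j, θ ^ j ≤ 1 := fun j => pow_le_one₀ t0.le t1.le
  have p2 : ∀ i j, i ≤ j → θ ^ j ≤ θ ^ i := fun i j k => pow_le_pow_of_le_one t0.le t1.le k
  have s2 : 0 < s₁ / (1 - θ) := by positivity
  have g0 : ∀ j, 0 ≤ g j := fun j => add_nonneg (mul_nonneg (by positivity) (by linarith [p1 j]))
    (mul_nonneg s2.le (by linarith [p2 J _ (le_max_right j J)]))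
  have g1 : ∀ j, g j ≤ lam := fun j => by
    have a1 : 0 < θ ^ j := by positivity
    have a2 : 0 < θ ^ max j J := by positivity
    simp only [g]
    nlinarith [mul_pos s2 a2, mul_pos hlam a1]
  have g2 : ∀ j, θ ^ j * (lam / 3 * (1 - θ)) ≤ g (j + 1) - g j := fun j => by
    have := mul_nonneg s2.le (sub_nonneg.2 (p2 _ _ (max_le_max_right J (Nat.le_succ j))))
    simp only [g, pow_succ]
    nlinarith
  have g3 : ∀ j, J ≤ j → θ ^ j * s₁ ≤ g (j + 1) - g j := fun j hj => by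
    have a1 : 0 < θ ^ j * (lam / 3 * (1 - θ)) := by positivity
    have a2 : s₁ / (1 - θ) * (θ ^ j * (1 - θ)) = θ ^ j * s₁ := by field_simp
    simp only [g, max_eq_left hj, max_eq_left (Nat.le_succ_of_le hj), pow_succ]
    nlinarith
  have g4 : ∀ (j : ℕ) (s e₂ η : ℝ), 0 < s → 4 * C * q * V * e₂ < s ^ 2 → θ ^ j * s ≤ η →
      4 * (C * q ^ (j + 1) * V) * e₂ < (2 ^ j * η) ^ 2 := fun j s e₂ η a1 a2 a3 => by
    calc 4 * (C * q ^ (j + 1) * V) * e₂ = q ^ j * (4 * C * q * V * e₂) := by ring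
      _ < q ^ j * s ^ 2 := by gcongr
      _ = (2 ^ j * (θ ^ j * s)) ^ 2 := by
        rw [← t2, ← pow_mul, mul_comm 2 j, pow_mul, mul_pow 2 θ]
        ring
      _ ≤ _ := by gcongr
  have main : ∀ j, ¬ TDInv S r u Ω (a + g j) j := fun j => by
    induction j with
    | zero =>
      rintro ⟨D, d1, d2, d3, -⟩
      obtain ⟨A', rfl⟩ := hI.ha D ((Set.ncard_eq_zero (Def.finite hS d1)).1 (by simpa using d3))
      exact d2 (td_cob d1)
    | succ j ih =>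
      intro k
      have e : a + g j = a + g (j + 1) - (g (j + 1) - g j) := by ring
      have e0 : 0 ≤ g (j + 1) - g j := le_trans (by positivity) (g2 j)
      refine ih (e ▸ ?_)
      rcases le_or_gt J j with hj | hj
      · exact td_step hS (hc (j + 1)) (Nat.le_ceil _) hω hosc (fun x hx => (h1 x hx).2)
          (by linarith [g0 j]) e0 (fun X _ => hsum.sum_le_tsum X fun x _ => sq_nonneg _)
          (by rw [hV]; exact g4 j s₁ _ _ s0 hs₁ (g3 j hj)) k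
      · refine td_step hS (m := ⌈C * 4 ^ J⌉₊) (hc (j + 1)) (le_trans ?_ (Nat.le_ceil _)) hω hosc
          (fun x hx => (h1 x hx).2) (by linarith [g0 j]) e0
          (fun X hX => le_of_lt (hB₀ X (Finset.disjoint_left.2 fun x hx hx' => ?_)))
          ?_ k
        · refine mul_le_mul_of_nonneg_left ?_ hC.le
          exact (pow_le_pow_left₀ hq.le hq4.le _).trans (pow_le_pow_right₀ (by norm_num) hj)
        · obtain ⟨y, hy, k'⟩ := hX x hx
          exact (h1 y hy).1 ⟨x, hx', k'⟩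
        · rw [hV]
          refine g4 j _ _ _ (by positivity) ?_ (g2 j)
          rw [← mul_div_assoc, div_lt_iff₀ (by positivity)]
          have : 0 < (lam / 3 * (1 - θ)) ^ 2 := by positivity
          linarith
  refine main (Def S r β).ncard ⟨β, hβ, hT, Nat.lt_two_pow_self, fun x hx => ?_⟩
  rw [Def.of_symmDiff hW] at hx
  obtain ⟨e, he, k⟩ := Def.exists_edge hx
  exact ⟨e.1, k, by linarith [h2 e he, g1 (Def S r β).ncard]⟩

end Vale.Agent.P239
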