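import Vale.Agent.P239.Alg

/-! The subquadratic filling inequality does not depend on the resolution. -/

namespace Vale.Agent.P239

open scoped Pointwise symmDiff Matrix

variable {Γ : Type*} [Group Γ] {S : Finset Γ} {r : ℕ}

namespace Transfer

variable {ι κ μ : Type*}

theorem single_eq (p : Γ × ι) :
    (Finsupp.single p 1 : Ch Γ ι) = trC p.1 (Finsupp.single (1, p.2) 1) := by
  simp [trC_single]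

omit [Group Γ] in
theorem ext1 {M : Type*} [AddCommGroup M] [Module (ZMod 2) M] {f g : Ch Γ ι →ₗ[ZMod 2] M}
    (h : ∀ p, f (Finsupp.single p 1) = g (Finsupp.single p 1)) (c : Ch Γ ι) : f c = g c := by
  rw [ch_eq_sum c, map_sum, map_sum]
  exact Finset.sum_congr rfl fun p _ => h p

theorem mk (d : ι → Ch Γ κ) : ∃ h : Ch Γ ι →ₗ[ZMod 2] Ch Γ κ, Eqv h ∧
    ∀ p, h (Finsupp.single p 1) = trC p.1 (d p.2) := by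
  refine ⟨Finsupp.linearCombination (ZMod 2) fun p : Γ × ι => trC p.1 (d p.2), fun g c => ?_,
    fun p => by simp⟩
  refine ext1 (f := Finsupp.linearCombination (ZMod 2) (fun p : Γ × ι => trC p.1 (d p.2)) ∘ₗ trC g)
    (g := trC g ∘ₗ Finsupp.linearCombination (ZMod 2) fun p : Γ × ι => trC p.1 (d p.2))
    (fun p => ?_) c
  simp [trC_single, trC_trC]

theorem lift {f : Ch Γ ι →ₗ[ZMod 2] Ch Γ κ} {g : Ch Γ μ →ₗ[ZMod 2] Ch Γ κ} (hf : Eqv f)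
    (hg : Eqv g) (h : ∀ c, g c ∈ Set.range f) :
    ∃ l : Ch Γ μ →ₗ[ZMod 2] Ch Γ ι, Eqv l ∧ ∀ c, f (l c) = g c := by
  choose d hd using fun i : μ => h (Finsupp.single (1, i) 1)
  obtain ⟨l, h1, h2⟩ := mk d
  refine ⟨l, h1, ext1 (f := f ∘ₗ l) fun p => ?_⟩
  rw [LinearMap.comp_apply, h2, hf, hd, ← hg, ← single_eq]

theorem ecomp {f : Ch Γ ι →ₗ[ZMod 2] Ch Γ κ} {g : Ch Γ μ →ₗ[ZMod 2] Ch Γ ι} (hf : Eqv f)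
    (hg : Eqv g) : Eqv (f ∘ₗ g) := fun a c => by
  rw [LinearMap.comp_apply, LinearMap.comp_apply, hg, hf]

theorem sub {f g : Ch Γ ι →ₗ[ZMod 2] Ch Γ κ} (hf : Eqv f) (hg : Eqv g) : Eqv (f - g) :=
  fun a c => by rw [LinearMap.sub_apply, LinearMap.sub_apply, hf, hg, map_sub]

theorem id' : Eqv (LinearMap.id : Ch Γ ι →ₗ[ZMod 2] Ch Γ ι) := fun _ _ => rfl

theorem chain {ι₀ ι₁ ι₂ ι₃ κ₀ κ₁ κ₂ κ₃ : Type*}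
    {ε : Ch Γ ι₀ →ₗ[ZMod 2] ZMod 2} {f₁ : Ch Γ ι₁ →ₗ[ZMod 2] Ch Γ ι₀}
    {f₂ : Ch Γ ι₂ →ₗ[ZMod 2] Ch Γ ι₁} {f₃ : Ch Γ ι₃ →ₗ[ZMod 2] Ch Γ ι₂}
    {ε' : Ch Γ κ₀ →ₗ[ZMod 2] ZMod 2} {f₁' : Ch Γ κ₁ →ₗ[ZMod 2] Ch Γ κ₀}
    {f₂' : Ch Γ κ₂ →ₗ[ZMod 2] Ch Γ κ₁} {f₃' : Ch Γ κ₃ →ₗ[ZMod 2] Ch Γ κ₂}
    (h : Res3 ε f₁ f₂ f₃) (h' : Res3 ε' f₁' f₂' f₃') :
    ∃ (φ₀ : Ch Γ κ₀ →ₗ[ZMod 2] Ch Γ ι₀) (φ₁ : Ch Γ κ₁ →ₗ[ZMod 2] Ch Γ ι₁)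
      (φ₂ : Ch Γ κ₂ →ₗ[ZMod 2] Ch Γ ι₂) (φ₃ : Ch Γ κ₃ →ₗ[ZMod 2] Ch Γ ι₃),
      Eqv φ₀ ∧ Eqv φ₁ ∧ Eqv φ₂ ∧ Eqv φ₃ ∧ (∀ c, ε (φ₀ c) = ε' c) ∧
      (∀ c, f₁ (φ₁ c) = φ₀ (f₁' c)) ∧ (∀ c, f₂ (φ₂ c) = φ₁ (f₂' c)) ∧
      ∀ c, f₃ (φ₃ c) = φ₂ (f₃' c) := by
  choose d hd using fun i : κ₀ => h.surj (ε' (Finsupp.single (1, i) 1))
  obtain ⟨φ₀, e0, h2⟩ := mk d
  have a0 : ∀ c, ε (φ₀ c) = ε' c := ext1 (f := ε ∘ₗ φ₀) fun p => by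
    rw [LinearMap.comp_apply, h2, h.inv, hd, single_eq p, h'.inv]
  obtain ⟨φ₁, e1, a1⟩ := lift h.e₁ (ecomp e0 h'.e₁) fun c => (h.x₀ _).1 (by
    rw [LinearMap.comp_apply, a0, h'.x₀.apply_apply_eq_zero])
  obtain ⟨φ₂, e2, a2⟩ := lift h.e₂ (ecomp e1 h'.e₂) fun c => (h.x₁ _).1 (by
    rw [LinearMap.comp_apply, a1, LinearMap.comp_apply, h'.x₁.apply_apply_eq_zero, map_zero])
  obtain ⟨φ₃, e3, a3⟩ := lift h.e₃ (ecomp e2 h'.e₃) fun c => (h.x₂ _).1 (by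
    rw [LinearMap.comp_apply, a2, LinearMap.comp_apply, h'.x₂.apply_apply_eq_zero, map_zero])
  exact ⟨φ₀, φ₁, φ₂, φ₃, e0, e1, e2, e3, a0, a1, a2, a3⟩

end Transfer
open Transfer

theorem transfer {ι₀ ι₁ ι₂ ι₃ κ₀ κ₁ κ₂ κ₃ : Type*} [Fintype ι₀] [Fintype ι₁] [Fintype ι₂]
    [Fintype ι₃] [Fintype κ₀] [Fintype κ₁] [Fintype κ₂] [Fintype κ₃]
    {ε : Ch Γ ι₀ →ₗ[ZMod 2] ZMod 2} {f₁ : Ch Γ ι₁ →ₗ[ZMod 2] Ch Γ ι₀}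
    {f₂ : Ch Γ ι₂ →ₗ[ZMod 2] Ch Γ ι₁} {f₃ : Ch Γ ι₃ →ₗ[ZMod 2] Ch Γ ι₂}
    {ε' : Ch Γ κ₀ →ₗ[ZMod 2] ZMod 2} {f₁' : Ch Γ κ₁ →ₗ[ZMod 2] Ch Γ κ₀}
    {f₂' : Ch Γ κ₂ →ₗ[ZMod 2] Ch Γ κ₁} {f₃' : Ch Γ κ₃ →ₗ[ZMod 2] Ch Γ κ₂}
    (h : Res3 ε f₁ f₂ f₃) (h' : Res3 ε' f₁' f₂' f₃') (hq : SubQ f₃) : SubQ f₃' := by
  classical
  obtain ⟨φ₀, φ₁, φ₂, φ₃, e0, e1, e2, -, a0, a1, a2, a3⟩ := chain h h'
  obtain ⟨ψ₀, ψ₁, ψ₂, ψ₃, d0, d1, d2, d3, b0, b1, b2, b3⟩ := chain h' h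
  obtain ⟨k₀, g0, c0⟩ := lift h'.e₁ (sub id' (ecomp d0 e0)) fun c => (h'.x₀ _).1 (by
    simp [b0, a0])
  obtain ⟨k₁, g1, c1⟩ := lift h'.e₂ (sub (sub id' (ecomp d1 e1)) (ecomp g0 h'.e₁))
    fun c => (h'.x₁ _).1 (by simp [c0, b1, a1])
  obtain ⟨k₂, g2, c2⟩ := lift h'.e₃ (sub (sub id' (ecomp d2 e2)) (ecomp g1 h'.e₂))
    fun c => (h'.x₂ _).1 (by simp [c1, b2, a2, h'.x₁.apply_apply_eq_zero])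
  obtain ⟨C, q, C0, q0, q4, hq⟩ := hq
  obtain ⟨N, hN⟩ := e2.mass
  obtain ⟨M, hM⟩ := d3.mass
  obtain ⟨K, hK⟩ := g2.mass
  refine ⟨M * C * q ^ N + K + 1, max q 2, by positivity, by positivity, max_lt q4 (by norm_num),
    fun j z ⟨c', hz⟩ hj => ?_⟩
  obtain ⟨c, hc, hc'⟩ := hq (j + N) (φ₂ z) ⟨φ₃ c', by rw [a3, hz]⟩ ((hN z).trans (by
    rw [pow_add, mul_comm]
    exact Nat.mul_le_mul hj Nat.lt_two_pow_self.le))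
  refine ⟨ψ₃ c + k₂ z, ?_, ?_⟩
  · rw [map_add, b3, hc, c2, ← hz]
    simp [h'.x₂.apply_apply_eq_zero]
  · have t1 : ((ψ₃ c + k₂ z).support.card : ℝ) ≤ M * c.support.card + K * 2 ^ j := by
      exact_mod_cast (Finset.card_le_card Finsupp.support_add).trans ((Finset.card_union_le _ _).trans
        (add_le_add (hM c) ((hK z).trans (Nat.mul_le_mul_left _ hj))))
    have t2 : q ^ j ≤ max q 2 ^ j := pow_le_pow_left₀ q0.le (le_max_left _ _) j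
    have t3 : (2 : ℝ) ^ j ≤ max q 2 ^ j := pow_le_pow_left₀ zero_le_two (le_max_right _ _) j
    have t4 := mul_le_mul_of_nonneg_left hc' (Nat.cast_nonneg (α := ℝ) M)
    have t5 := mul_le_mul_of_nonneg_left t2 (show 0 ≤ M * C * q ^ N by positivity)
    have t6 := mul_le_mul_of_nonneg_left t3 (Nat.cast_nonneg (α := ℝ) K)
    have t7 : 0 ≤ max q 2 ^ j := by positivity
    rw [pow_add] at t4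
    linarith

end Vale.Agent.P239
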