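import Vale.Agent.P239.WallsA

namespace Vale.Agent.P239

open scoped Pointwise symmDiff Topology
open Filter

variable {Γ : Type*} [Group Γ] {S : Finset Γ} {r : ℕ} {V : Set (Set Γ)}

/-- An essential coarse component of the wall at level `t` outside the ball of radius `j`. -/
structure Piece (S : Finset Γ) (r : ℕ) (u : Γ → ℝ) (Op Om : Set Γ) (t : ℝ) (j : ℕ)
    (T C : Set Γ) (β : Set (Γ × S)) : Prop where
  tails : ∀ x ∈ T, ¬ Near S j 1 x ∧ ∃ s : S, (x, s) ∈ cob S {y | t < u y}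
  cconn : CConn S (2 * r) T
  fin : β.Finite
  eq : {e | e ∈ cob S {y | t < u y} ∧ e.1 ∈ T} ∆ β = cob S C
  op : (Op \ C).Finite
  om : (Om ∩ C).Finite

theorem lev_close {u : Γ → ℝ} (hu : FinEn S u) {lam : ℝ} (hl : 0 < lam) :
    ∃ K : Set Γ, K.Finite ∧ ∀ t : ℝ, ∀ e ∈ cob S {y | t < u y}, e.1 ∉ K → |u e.1 - t| ≤ lam := by
  obtain ⟨K, hK, h⟩ := hu.slow 1 hl
  refine ⟨K, hK, fun t e he hn => ?_⟩
  have h1 := abs_le.1 (h _ hn _ (near_edge e))
  simp only [mem_cob, Set.mem_ofPred_eq] at he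
  rw [abs_le]
  by_cases h2 : t < u e.1
  · have : ¬ t < u (e.1 * e.2) := fun h => he (iff_of_true h2 h)
    constructor <;> linarith [h1.1, h1.2, not_lt.1 this]
  · have : t < u (e.1 * e.2) := by
      by_contra h; exact he (iff_of_false h2 h)
    constructor <;> linarith [h1.1, h1.2, not_lt.1 h2]

theorem ev_far (hS : Gen S) {K : Set Γ} (hK : K.Finite) (g : Γ) (n : ℕ) :
    ∀ᶠ j in (hyperfilter ℕ : Filter ℕ), ∀ x, ¬ Near S j 1 x → ∀ y, Near S n (g * x) y → y ∉ K := by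
  obtain ⟨m, hm⟩ := hS.finite_sub_ball (tr_finite g⁻¹ (nbhd_finite' hS n hK)) 1
  refine hyperfilter_le_cofinite ?_
  rw [Nat.cofinite_eq_atTop]
  filter_upwards [eventually_ge_atTop m] with j hj x hx y hy hyK
  exact hx ((hm x ⟨y, hyK, by simpa using hy⟩).mono hS hj)

section
variable {u : Γ → ℝ} {Op Om : Set Γ}

theorem Piece.inf {t : ℝ} {j : ℕ} {T C : Set Γ} {β : Set (Γ × S)}
    (h : Piece S r u Op Om t j T C β) (hp : Op.Infinite) (hm : Om.Infinite) :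
    C.Infinite ∧ Cᶜ.Infinite :=
  ⟨fun hC => hp ((h.op.union hC).subset fun x hx => by by_cases x ∈ C <;> simp_all),
    fun hC => hm ((h.om.union hC).subset fun x hx => by by_cases x ∈ C <;> simp_all)⟩

theorem Piece.nonempty (hI : Iface S r) {t : ℝ} {j : ℕ} {T C : Set Γ} {β : Set (Γ × S)}
    (h : Piece S r u Op Om t j T C β) (hp : Op.Infinite) (hm : Om.Infinite) : T.Nonempty := by
  by_contra hc
  rw [Set.not_nonempty_iff_eq_empty] at hc
  have h1 := h.eq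
  have h2 : {e : Γ × S | e ∈ cob S {y | t < u y} ∧ e.1 ∈ T} = ∅ := by simp [hc]
  rw [h2, ← Set.bot_eq_empty, bot_symmDiff] at h1
  rcases hI.hb C (h1 ▸ h.fin) with h3 | h3
  exacts [(h.inf hp hm).1 h3, (h.inf hp hm).2 h3]

theorem nest_ev (hS : Gen S) (hI : Iface S r) (hTD : TDProp S) (hV : VV V) (hu : FinEn S u)
    (hp : Op.Infinite) (hm : Om.Infinite) {s t c : ℝ} {g : Γ}
    {T C T' C' : ℕ → Set Γ} {β β' : ℕ → Set (Γ × S)}
    (hP : ∀ j, Piece S r u Op Om t j (T j) (C j) (β j))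
    (hP' : ∀ j, Piece S r u Op Om s j (T' j) (C' j) (β' j))
    (hc : ∀ η, 0 < η → ∀ᶠ j in (hyperfilter ℕ : Filter ℕ), ∀ y ∈ T' j, |u (g * y) - c| ≤ η)
    (hne : c ≠ t) :
    ∀ᶠ j in (hyperfilter ℕ : Filter ℕ), Nested (tr g (vote V (C' j))) (vote V (C j)) := by
  set lam := |c - t| / 4 with hlam
  have hl : 0 < lam := by have := abs_pos.2 (sub_ne_zero.2 hne); positivity
  obtain ⟨B, hB, hT⟩ := exists_td2 hTD hu hl
  obtain ⟨K₁, hK₁, h1⟩ := lev_close hu hl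
  obtain ⟨K₂, hK₂, h2⟩ := hu.slow (2 * r + 1) hl
  filter_upwards [hc lam hl, ev_far hS hB 1 (2 * r + 1), ev_far hS hB g (2 * r + 1),
    ev_far hS (hK₁.union hK₂) 1 0, ev_far hS hK₂ g 0] with j a1 a2 a3 a4 a5
  have P := hP j
  have P' := hP' j
  have hW' : trE g {e | e ∈ cob S {y | s < u y} ∧ e.1 ∈ T' j} ∆ trE g (β' j) =
      cob S (tr g (C' j)) := by
    rw [cob_tr, ← P'.eq]; rfl
  have b1 : ∀ x ∈ T j, |u x - t| ≤ lam := fun x hx => by
    obtain ⟨h3, s, h4⟩ := P.tails x hx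
    exact h1 t (x, s) h4 fun h => a4 x h3 x (by simpa using Near.refl hS 0 x) (Or.inl h)
  have b2 : ∀ x ∈ tr g (T' j), |u x - c| ≤ lam := fun x hx => by
    simpa using a1 _ hx
  have b3 : ∀ y ∈ {y | ∃ x ∈ T j, Near S (2 * r + 1) x y}, |u y - t| ≤ 2 * lam := by
    rintro y ⟨x, hx, hxy⟩
    have := h2 x (fun h => a4 x (P.tails x hx).1 x (by simpa using Near.refl hS 0 x) (Or.inr h))
      y hxy
    have := abs_sub_le (u y) (u x) t
    linarith [b1 x hx]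
  have b4 : ∀ y ∈ {y | ∃ x ∈ tr g (T' j), Near S (2 * r + 1) x y}, |u y - c| ≤ 2 * lam := by
    rintro y ⟨x, hx, hxy⟩
    have := h2 x (a5 _ (P'.tails _ hx).1 x (by simpa using Near.refl hS 0 x)) y hxy
    have := abs_sub_le (u y) (u x) c
    linarith [b2 x hx]
  have hct : c = t + 4 * lam ∨ t = c + 4 * lam := by
    rcases abs_cases (c - t) with h | h
    · left; linarith [h.1]
    · right; linarith [h.1]
  have c1 := hT c _ _ _ _ (trE_finite g P'.fin) hW' (P.cconn.thick hS (Nat.le_succ _))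
    (by rintro y ⟨x, hx, hxy⟩; exact a2 x (P.tails x hx).1 y (by simpa using hxy))
    (fun e he => b2 _ he.2)
    (hct.imp (fun h y hy => by linarith [(abs_le.1 (b3 y hy)).2])
      (fun h y hy => by linarith [(abs_le.1 (b3 y hy)).1]))
  have c2 := hT t _ _ _ _ P.fin P.eq ((P'.cconn.tr g).thick hS (Nat.le_succ _))
    (by rintro y ⟨x, hx, hxy⟩; exact a3 _ (P'.tails _ hx).1 y (by simpa using hxy))
    (fun e he => b1 _ he.2)
    (hct.symm.imp (fun h y hy => by linarith [(abs_le.1 (b4 y hy)).2])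
      (fun h y hy => by linarith [(abs_le.1 (b4 y hy)).1]))
  rw [← vote_tr]
  refine Nested.symm (nested_vote hS hV hI.hb P.fin (trE_finite g P'.fin) P.eq hW' ?_ ?_ c1 c2
    (P.inf hp hm).1 (P.inf hp hm).2)
  · exact fun e he => ⟨⟨_, he.2, Near.refl hS _ _⟩, ⟨_, he.2, (near_edge e).mono hS (by omega)⟩⟩
  · exact fun e he => ⟨⟨_, he.2, Near.refl hS _ _⟩, ⟨_, he.2, (near_edge e).mono hS (by omega)⟩⟩

theorem exists_limit (hS : Gen S) (hI : Iface S r) (hb : ∀ x, 0 ≤ u x ∧ u x ≤ 6)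
    (hp : Op.Infinite) (hm : Om.Infinite) {s : ℝ} (hs : Good S (2 * r) u s)
    {T' C' : ℕ → Set Γ} {β' : ℕ → Set (Γ × S)}
    (hP' : ∀ j, Piece S r u Op Om s j (T' j) (C' j) (β' j)) (g : Γ) :
    ∃ c : ℝ, ∀ η, 0 < η →
      ∀ᶠ j in (hyperfilter ℕ : Filter ℕ), ∀ y ∈ T' j, |u (g * y) - c| ≤ η := by
  choose y hy using fun j => (hP' j).nonempty hI hp hm
  obtain ⟨c, -, hc⟩ := (isCompact_Icc (a := (0 : ℝ)) (b := 6)).ultrafilter_le_nhds
    ((hyperfilter ℕ).map fun j => u (g * y j))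
    (by simp only [Ultrafilter.coe_map, le_principal_iff, mem_map]
        exact univ_mem' fun j => hb _)
  refine ⟨c, fun η hη => ?_⟩
  obtain ⟨K, hK, h⟩ := hs g (η / 2) (by positivity)
  have h1 : ∀ᶠ j in (hyperfilter ℕ : Filter ℕ), dist (u (g * y j)) c < η / 2 :=
    (Metric.tendsto_nhds.1 hc) _ (by positivity)
  filter_upwards [h1, ev_far hS hK 1 0] with j a1 a2 z hz
  have := h (T' j) (fun x hx => ⟨a2 x ((hP' j).tails x hx).1 x (by simpa using Near.refl hS 0 x),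
    ((hP' j).tails x hx).2⟩) (hP' j).cconn z hz _ (hy j)
  have := abs_sub_le (u (g * z)) (u (g * y j)) c
  rw [Real.dist_eq] at a1
  linarith

end

theorem walls (hS : Gen S) (hI : Iface S r) (hTD : TDProp S) (hV : VoteProp S) (hG : GoodProp S)
    (hE : EssProp S r) {u : Γ → ℝ} (hu : FinEn S u) (hb : ∀ x, 0 ≤ u x ∧ u x ≤ 6)
    (h0 : {x | u x ≤ 0}.Infinite) (h6 : {x | 6 ≤ u x}.Infinite) :
    ∃ B Op Om, CutSys S B Op Om := by
  classical
  obtain ⟨V, hV1, hV2, hV3⟩ := hV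
  have hVV : VV V := ⟨hV1, hV2⟩
  have hL : VLoc S V u := hV3 u hu
  have hL' : VLoc S V fun x => -u x := hV3 _ hu.neg
  have q4 : (0 : ℝ) < 1 / 4 := by norm_num
  obtain ⟨B0, hB0, hT0⟩ := exists_td2 hTD hu q4
  obtain ⟨K1, hK1, hlev1⟩ := lev_close hu q4
  obtain ⟨K2, hK2, hloc2⟩ := loc hS hVV hu hL hL' q4 hB0 hT0
  obtain ⟨Kp, hKp, hp⟩ := hL.comp one_pos (hB0.union hK2)
  obtain ⟨Km, hKm, hm⟩ := hL'.comp one_pos (hB0.union hK2)
  obtain ⟨xp, hxp6, hxp⟩ := (h6.diff (hKp.union (hB0.union hK2))).nonempty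
  obtain ⟨xm, hxm0, hxm⟩ := (h0.diff (hKm.union (hB0.union hK2))).nonempty
  have hxp6' : 6 ≤ u xp := hxp6
  have hxm0' : u xm ≤ 0 := hxm0
  obtain ⟨Op, hOp⟩ : ∃ Op, Op = comp S {y | y ∉ B0 ∪ K2 ∧ 5 < u y} xp := ⟨_, rfl⟩
  obtain ⟨Om, hOm⟩ : ∃ Om, Om = comp S {y | y ∉ B0 ∪ K2 ∧ -1 < -u y} xm := ⟨_, rfl⟩
  have vp : xp ∈ vote V Op := hOp ▸ hp 5 xp xp (fun h => hxp (Or.inl h)) (by linarith)
    (mem_comp_self _ _)
  have vm : xm ∈ vote V Om := hOm ▸ hm (-1) xm xm (fun h => hxm (Or.inl h)) (by linarith)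
    (mem_comp_self _ _)
  have ip : Op.Infinite := fun h => hVV.not_vote h _ vp
  have im : Om.Infinite := fun h => hVV.not_vote h _ vm
  have cp : Conn S Op := hOp ▸ comp_conn _ _
  have cm : Conn S Om := hOm ▸ comp_conn _ _
  have mp : xp ∈ Op := hOp ▸ mem_comp_self _ _
  have mm : xm ∈ Om := hOm ▸ mem_comp_self _ _
  have up : ∀ x ∈ Op, x ∉ B0 ∪ K2 ∧ 5 < u x := fun x hx =>
    comp_subset (U := {y | y ∉ B0 ∪ K2 ∧ 5 < u y})
      ⟨fun h => hxp (Or.inr h), by linarith⟩ (hOp ▸ hx)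
  have um : ∀ x ∈ Om, x ∉ B0 ∪ K2 ∧ u x < 1 := fun x hx => by
    have := comp_subset (U := {y | y ∉ B0 ∪ K2 ∧ -1 < -u y})
      ⟨fun h => hxm (Or.inr h), by linarith⟩ (hOm ▸ hx)
    exact ⟨this.1, by linarith [this.2]⟩
  have hpiece : ∀ (t : ℝ) (j : ℕ), ∃ T C β, t ∈ Set.Icc (5 / 2 : ℝ) 3 →
      Piece S r u Op Om t j T C β ∧ ∀ x ∈ T, x ∉ K1 := by
    intro t j
    by_cases ht : t ∈ Set.Icc (5 / 2 : ℝ) 3
    swap
    · exact ⟨∅, ∅, ∅, fun h => absurd h ht⟩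
    obtain ⟨T, C, β, h1, h2, h3, h4, h5, h6⟩ := hE {y | t < u y} Op Om ({y | Near S j 1 y} ∪ K1)
      ip im cp cm (fun x hx => by have := (up x hx).2; show t < u x; linarith [ht.2])
      (fun x hx (h : t < u x) => by linarith [(um x hx).2, ht.1])
      ((ball_finite j 1).union hK1) fun W β C hW hβ hC =>
        ⟨hT0 t W β C Op hβ hC cp (fun x hx h => (up x hx).1 (Or.inl h))
          (fun e he => hlev1 t e (hW e he).1 fun h => (hW e he).2 (Or.inr h))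
          (Or.inr fun x hx => by linarith [(up x hx).2, ht.2]),
        hT0 t W β C Om hβ hC cm (fun x hx h => (um x hx).1 (Or.inl h))
          (fun e he => hlev1 t e (hW e he).1 fun h => (hW e he).2 (Or.inr h))
          (Or.inl fun x hx => by linarith [(um x hx).2, ht.1])⟩
    exact ⟨T, C, β, fun _ => ⟨⟨fun x hx => ⟨fun h => (h1 x hx).1 (Or.inl h), (h1 x hx).2⟩,
      h2, h3, h4, h5, h6⟩, fun x hx h => (h1 x hx).1 (Or.inr h)⟩⟩
  choose T C β hP using hpiece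
  let Bt : ℝ → Set Γ := fun t => ulim (hyperfilter ℕ) fun j => vote V (C t j)
  have hloc : ∀ lam : ℝ, 0 < lam → ∃ K : Set Γ, K.Finite ∧ ∀ t ∈ Set.Icc (5 / 2 : ℝ) 3,
      ∀ e ∈ cob S (Bt t), e.1 ∉ K → |u e.1 - t| ≤ 4 * lam := by
    intro lam hl
    obtain ⟨B, hB, hT⟩ := exists_td2 hTD hu hl
    obtain ⟨K, hK, h⟩ := loc hS hVV hu hL hL' hl hB hT
    obtain ⟨K', hK', h'⟩ := lev_close hu hl
    refine ⟨K, hK, fun t ht e he hn => ?_⟩
    obtain ⟨j, a1, a2⟩ := ((ulim_cob _ he).and (ev_far hS hK' 1 0)).exists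
    have P := (hP t j ht).1
    exact h t _ _ _ P.fin P.eq (fun e' he' => h' t e' he'.1
      (a2 _ (P.tails _ he'.2).1 _ (by simpa using Near.refl hS 0 _))) e a1 hn
  have hloc0 : ∀ t ∈ Set.Icc (5 / 2 : ℝ) 3, ∀ j, ∀ e ∈ cob S (vote V (C t j)), e.1 ∉ K2 →
      |u e.1 - t| ≤ 4 * (1 / 4) := fun t ht j =>
    hloc2 t _ _ _ (hP t j ht).1.fin (hP t j ht).1.eq fun e he =>
      hlev1 t e he.1 ((hP t j ht).2 _ he.2)
  have hlim : ∀ (s : ℝ) (g : Γ), ∃ c : ℝ, s ∈ Set.Icc (5 / 2 : ℝ) 3 → Good S (2 * r) u s →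
      ∀ η, 0 < η → ∀ᶠ j in (hyperfilter ℕ : Filter ℕ), ∀ y ∈ T s j, |u (g * y) - c| ≤ η := by
    intro s g
    by_cases h : s ∈ Set.Icc (5 / 2 : ℝ) 3 ∧ Good S (2 * r) u s
    · obtain ⟨c, hc⟩ := exists_limit hS hI hb ip im h.2 (fun j => (hP s j h.1).1) g
      exact ⟨c, fun _ _ => hc⟩
    · exact ⟨0, fun h1 h2 => absurd ⟨h1, h2⟩ h⟩
  choose ub hub using hlim
  haveI := hS.countable
  obtain ⟨f, hf1, hf2⟩ := exists_seq_dep
    (fun n t => t ∈ Set.Ioo (5 / 2 + 1 / (2 * (n.unpair.1 : ℝ) + 3))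
      (5 / 2 + 1 / (2 * (n.unpair.1 : ℝ) + 2)) ∧ Good S (2 * r) u t)
    (fun x y => y ≠ x ∧ ∀ g, ub x g ≠ y) (by
      intro n s
      obtain ⟨t, h1, h2, h3⟩ := hG (2 * r) u hu (s ∪ ⋃ x ∈ s, Set.range (ub x))
        (s.countable_toSet.union (s.countable_toSet.biUnion fun x _ => Set.countable_range _))
        (5 / 2 + 1 / (2 * (n.unpair.1 : ℝ) + 3)) (5 / 2 + 1 / (2 * (n.unpair.1 : ℝ) + 2))
        (by gcongr; norm_num)
      refine ⟨t, ⟨h1, h3⟩, fun x hx => ⟨?_, fun g hg => h2 (Or.inr ?_)⟩⟩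
      · rintro rfl; exact h2 (Or.inl hx)
      · simp only [Set.mem_iUnion]
        exact ⟨x, hx, g, hg⟩)
  have hfI : ∀ n, f n ∈ Set.Icc (5 / 2 : ℝ) 3 := fun n => by
    have h1 := (hf1 n).1
    have h2 : (0 : ℝ) < 1 / (2 * (n.unpair.1 : ℝ) + 3) := by positivity
    have h3 : 1 / (2 * (n.unpair.1 : ℝ) + 2) ≤ 1 / 2 := by
      gcongr; linarith [(Nat.cast_nonneg n.unpair.1 : (0 : ℝ) ≤ _)]
    constructor <;> linarith [h1.1, h1.2]
  have hnest : ∀ a b, a < b → ∀ g, Nested (tr g (Bt (f a))) (Bt (f b)) := fun a b hab g => by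
    rw [ulim_tr]
    exact ulim_nested _ (nest_ev hS hI hTD hVV hu ip im (fun j => (hP _ j (hfI b)).1)
      (fun j => (hP _ j (hfI a)).1) (hub _ g (hfI a) (hf1 a).2) ((hf2 a b hab).2 g))
  have hpair : ∀ n m : ℕ × ℕ, n ≠ m → Nat.pair n.1 n.2 ≠ Nat.pair m.1 m.2 := fun n m h h' =>
    h (Prod.ext (Nat.pair_eq_pair.1 h').1 (Nat.pair_eq_pair.1 h').2)
  have hfin : ∀ δ : ℝ, 0 < δ → ∃ K : Set (Γ × S), K.Finite ∧ ∀ a b, δ ≤ |f a - f b| →
      cob S (Bt (f a)) ∩ cob S (Bt (f b)) ⊆ K := by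
    intro δ hδ
    obtain ⟨K, hK, h⟩ := hloc (δ / 16) (by positivity)
    refine ⟨_, edges_finite hK, fun a b hab e he => ?_⟩
    by_contra hn
    have h1 := h _ (hfI a) e he.1 hn
    have h2 := h _ (hfI b) e he.2 hn
    have h3 := abs_sub_le (f a) (u e.1) (f b)
    rw [abs_sub_comm] at h1
    linarith
  have hgap : ∀ i i' l l' : ℕ, i < i' →
      1 / (2 * (i : ℝ) + 3) - 1 / (2 * (i : ℝ) + 4) ≤ |f (Nat.pair i l) - f (Nat.pair i' l')| := by
    intro i i' l l' h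
    have h1 := (hf1 (Nat.pair i l)).1.1
    have h2 := (hf1 (Nat.pair i' l')).1.2
    simp only [Nat.unpair_pair] at h1 h2
    have h3 : 1 / (2 * (i' : ℝ) + 2) ≤ 1 / (2 * (i : ℝ) + 4) := by
      have : (i : ℝ) + 1 ≤ i' := by exact_mod_cast h
      exact one_div_le_one_div_of_le (by positivity) (by linarith)
    exact le_trans (by linarith) (le_abs_self _)
  have hgap0 : ∀ i : ℕ, 0 < 1 / (2 * (i : ℝ) + 3) - 1 / (2 * (i : ℝ) + 4) := fun i => by
    rw [sub_pos]; gcongr; norm_num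
  refine ⟨fun n => Bt (f (Nat.pair n.1 n.2)), Op, Om, ?_, ?_, ?_, ip, im, cp, cm, ?_, ?_, ?_⟩
  · intro n m hnm g
    rcases lt_or_gt_of_ne (hpair n m hnm) with h | h
    · exact hnest _ _ h g
    · have := (hnest _ _ h g⁻¹).tr g
      rw [tr_tr, mul_inv_cancel, tr_one] at this
      exact this.symm
  · intro n m hnm
    have h1 : f (Nat.pair n.1 n.2) ≠ f (Nat.pair m.1 m.2) := by
      rcases lt_or_gt_of_ne (hpair n m hnm) with h | h
      exacts [(hf2 _ _ h).1.symm, (hf2 _ _ h).1]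
    obtain ⟨K, hK, h⟩ := hfin _ (abs_pos.2 (sub_ne_zero.2 h1))
    exact hK.subset (h _ _ le_rfl)
  · intro i i' hi
    rcases lt_or_gt_of_ne hi with h | h
    · obtain ⟨K, hK, h'⟩ := hfin _ (hgap0 i)
      exact ⟨K, hK, fun l l' => h' _ _ (hgap i i' l l' h)⟩
    · obtain ⟨K, hK, h'⟩ := hfin _ (hgap0 i')
      exact ⟨K, hK, fun l l' => h' _ _ (by rw [abs_sub_comm]; exact hgap i' i l' l h)⟩
  · intro n x hx
    refine Eventually.of_forall fun j => ?_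
    have ht := hfI (Nat.pair n.1 n.2)
    refine (cp _ (fun e he _ hc => ?_) xp mp x hx).1 (hVV.vote_mono (hP _ j ht).1.op vp)
    have := abs_le.1 (hloc0 _ ht j e hc fun h => (up _ he).1 (Or.inr h))
    linarith [this.2, (up _ he).2, ht.2]
  · intro n x hx h
    obtain ⟨j, hj⟩ := Filter.Eventually.exists h
    have ht := hfI (Nat.pair n.1 n.2)
    refine (Set.eq_empty_iff_forall_notMem.1 (hVV.vote_disj (hP _ j ht).1.om)) xm ⟨vm, ?_⟩
    refine (cm _ (fun e he _ hc => ?_) xm mm x hx).2 hj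
    have := abs_le.1 (hloc0 _ ht j e hc fun h => (um _ he).1 (Or.inr h))
    linarith [this.1, (um _ he).2, ht.1]
  · intro M
    obtain ⟨K, hK, h⟩ := hu.slow M q4
    refine ⟨K2 ∪ K, hK2.union hK, fun n e he hn y hy hne => ?_⟩
    have ht := hfI (Nat.pair n.1 n.2)
    obtain ⟨j, hj⟩ := (ulim_cob _ he).exists
    have h1 := abs_le.1 (hloc0 _ ht j e hj fun h => hn (Or.inl h))
    have h2 := abs_le.1 (h _ (fun h => hn (Or.inr h)) y hne)
    rcases hy with hy | hy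
    · linarith [h1.2, h2.2, (up _ hy).2, ht.2]
    · linarith [h1.1, h2.1, (um _ hy).2, ht.1]

end Vale.Agent.P239
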