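import Vale.Agent.P239.Reduce
import Vale.Agent.P239.Amen
import Vale.Agent.P239.Gap
import Vale.Agent.P239.Vote
import Vale.Agent.P239.TD
import Vale.Agent.P239.Good
import Vale.Agent.P239.Ess
import Vale.Agent.P239.Walls
import Vale.Agent.P239.Fam
import Vale.Agent.P239.Tree
import Vale.Agent.P239.Cone
import Vale.Agent.P239.GW
import Vale.Agent.P239.Transfer
import Vale.Agent.P239.Bridge
import Vale.Agent.P239.Mat
import Vale.Agent.P239.Geom

namespace Vale.Agent.P239

variable {Γ : Type} [Group Γ] {S : Finset Γ}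

theorem main_iface (hS : Gen S) {r : ℕ} (hI : Iface S r)
    (htf : ∀ g : Γ, IsOfFinOrder g → g = 1) : ReducedH1Vanishes Γ := by
  refine reduce hS fun u hu => ?_
  by_contra hA
  by_cases hF : Folner S
  · exact hA (approx_of_folner hS hF hu)
  obtain ⟨a, b, hab, ha, hb⟩ := trunc hS hu hA
  have hba : 0 < b - a := by linarith
  let φ : ℝ → ℝ := fun y => max 0 (min 6 (6 / (b - a) * (y - a)))
  have hφ : ∀ y z, |φ y - φ z| ≤ 6 / (b - a) * |y - z| := by
    intro y z
    refine (abs_max_sub_max_le_max _ _ _ _).trans (max_le (by simp; positivity) ?_)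
    refine (abs_min_sub_min_le_max _ _ _ _).trans (max_le (by simp; positivity) ?_)
    rw [← mul_sub, abs_mul, abs_of_pos (by positivity)]
    simp
  have e0 : {x | φ (u x) ≤ 0}.Infinite := ha.mono fun x (hx : u x ≤ a) => by
    have : 6 / (b - a) * (u x - a) ≤ 0 :=
      mul_nonpos_of_nonneg_of_nonpos (by positivity) (by linarith)
    exact max_le le_rfl ((min_le_right _ _).trans this)
  have e6 : {x | 6 ≤ φ (u x)}.Infinite := hb.mono fun x (hx : b ≤ u x) => by
    have : 6 ≤ 6 / (b - a) * (u x - a) := by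
      rw [div_mul_eq_mul_div, le_div_iff₀ hba]; linarith
    exact le_max_of_le_right (le_min le_rfl this)
  obtain ⟨B, Op, Om, hB⟩ := walls hS hI (td hS hI) (vote_of_gap hS (gap_of_not_folner hS hF))
    (goodProp hS) (essProp hS hI) (hu.lip hφ)
    (fun x => ⟨le_max_left _ _, max_le (by norm_num) (min_le_left _ _)⟩) e0 e6
  obtain ⟨N, A, hN⟩ := nfam hS hI hB
  exact tree_false hS hI htf hN

theorem main (X : PD4Complex Γ) (htf : ∀ g : Γ, IsOfFinOrder g → g = 1)
    (h : SubquadraticFilling X ∨ SubquadraticCofilling X ∨ IsCombable Γ ∨ IsCAT0Group Γ ∨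
      IsHyperbolicGroup Γ) : ReducedH1Vanishes Γ := by
  obtain ⟨S, hS, h1, h2⟩ := exists_gen X
  obtain ⟨ε, hε⟩ := res_col X
  have hc : Comb S → SubQ (colOp X.d₂) := fun hC =>
    gw hS hε (cone hS hC hε).1 (cone hS hC hε).2
  have hq : SubQ (colOp X.d₂) := by
    rcases h with h | h | h | h
    · obtain ⟨ε', hε'⟩ := res_row X
      exact transfer hε' hε (subq_row X h)
    · exact subq_col X h
    · exact hc (comb_of_combable hS h)
    · exact hc (comb_of_geom hS h)
  obtain ⟨r, hr⟩ := bridge X hS h1 h2 hq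
  exact main_iface hS hr htf

end Vale.Agent.P239
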