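import Vale.Agent.P239.BasY

/-! Multi scale maximal points. -/

namespace Vale.Agent.P239

open scoped Pointwise symmDiff
open Filter Topology

variable {Γ : Type*} [Group Γ] {Z : Type*} [MetricSpace Z] [CompactSpace Z] [MulAction Γ Z]
  [ContinuousConstSMul Γ Z] {D : Dat Γ Z} {π : Z → ℝ}

namespace MaxXAux

open Relation

/-- separation of `y` from the identity, seen from `x` -/
def gap (D : Dat Γ Z) (x y : Γ) : ℝ := dist (D.ι (x⁻¹ * y)) (D.ι x⁻¹)

/-- long steps with a definite gap -/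
def Rel (D : Dat Γ Z) (J E : ℕ) (x y : Γ) : Prop :=
  ¬ Near D.S E x y ∧ 1 / ((J : ℝ) + 1) < gap D x y

/-- acyclic relations with a uniform gap -/
def Acy (D : Dat Γ Z) (R : Γ → Γ → Prop) (l : ℝ) : Prop :=
  (∀ x y, TransGen R x y → l ≤ gap D x y) ∧ ∀ x, ¬ TransGen R x x

omit [CompactSpace Z] [ContinuousConstSMul Γ Z] in
theorem cvstep (H : D.OK) {a b : ℝ} (ha : 0 < a) (hb : 0 < b) : ∃ E : ℕ, ∀ x x' y,
    ¬ Near D.S E x x' → a ≤ gap D x x' → b ≤ gap D x' y → a / 2 ≤ gap D x y ∧ x ≠ y := by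
  obtain ⟨K, hK, h⟩ := H.fr.cv (min (a / 2) (b / 3)) (by positivity)
  obtain ⟨E, hE⟩ := H.gen.finite_sub_ball hK 1
  refine ⟨E, fun x x' y hn h1 h2 => ?_⟩
  have hc : x⁻¹ * x' ∉ K := fun hc => hn (near_one_iff.1 (hE _ hc))
  have m1 := min_le_left (a / 2) (b / 3)
  have m2 := min_le_right (a / 2) (b / 3)
  have a1 := h _ hc (D.ι x'⁻¹)
  have a2 := h _ hc (D.ι (x'⁻¹ * y))
  rw [← H.fr.eqv, mul_inv_cancel_right, mul_inv_rev, inv_inv] at a1
  rw [← H.fr.eqv, mul_assoc, mul_inv_cancel_left, mul_inv_rev, inv_inv] at a2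
  unfold gap at *
  rw [dist_comm] at h1
  have b1 := a1.resolve_left (by linarith)
  have t1 := dist_triangle (D.ι (x'⁻¹ * y)) (D.ι (x'⁻¹ * x)) (D.ι x'⁻¹)
  rw [dist_comm] at b1
  have b2 := a2.resolve_right (by linarith)
  have t2 := dist_triangle_left (D.ι x⁻¹) (D.ι (x⁻¹ * x')) (D.ι (x⁻¹ * y))
  refine ⟨by linarith, ?_⟩
  rintro rfl
  linarith

theorem short (H : D.OK) (E : ℕ) {a : ℝ} (ha : 0 < a) : ∃ ρ : ℝ, 0 < ρ ∧ ∀ x x' y,
    Near D.S E x x' → a ≤ gap D x' y → ρ ≤ gap D x y := by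
  obtain ⟨ρ, hρ, h⟩ := unif_smul (Z := Z) (pow_finite D.S E) (half_pos ha)
  refine ⟨ρ, hρ, fun x x' y hn h1 => ?_⟩
  by_contra hc
  have := h _ (hn.symm H.gen) _ _ (not_le.1 hc).le
  rw [← H.fr.eqv, ← H.fr.eqv, mul_inv_cancel_right, mul_assoc, mul_inv_cancel_left] at this
  unfold gap at h1
  linarith

theorem step (H : D.OK) (J : ℕ) {l : ℝ} (hl : 0 < l) : ∃ l' : ℝ, 0 < l' ∧ ∃ E : ℕ,
    ∀ R, Acy D R l → Acy D (fun x y => R x y ∨ Rel D J E x y) l' := by
  obtain ⟨a, ha, ha2⟩ : ∃ a : ℝ, 0 < a ∧ 1 / ((J : ℝ) + 1) = 2 * a :=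
    ⟨1 / ((J : ℝ) + 1) / 2, by positivity, by ring⟩
  obtain ⟨E1, h1⟩ := cvstep H hl ha
  obtain ⟨ρ, hρ, h2⟩ := short H E1 ha
  have hl' : 0 < min a (min (l / 2) ρ) := by positivity
  obtain ⟨E, h3⟩ := cvstep H (show 0 < 2 * a by positivity) hl'
  refine ⟨_, hl', E, fun R hR => ?_⟩
  have m1 : min a (min (l / 2) ρ) ≤ a := min_le_left _ _
  have m2 : min a (min (l / 2) ρ) ≤ l / 2 := (min_le_right _ _).trans (min_le_left _ _)
  have m3 : min a (min (l / 2) ρ) ≤ ρ := (min_le_right _ _).trans (min_le_right _ _)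
  have low : ∀ x y, (TransGen R x y ∨ ∃ x1, ReflTransGen R x x1 ∧ a ≤ gap D x1 y) →
      min a (min (l / 2) ρ) ≤ gap D x y := by
    rintro x y (h | ⟨x1, h, h'⟩)
    · linarith [hR.1 x y h]
    · rcases reflTransGen_iff_eq_or_transGen.1 h with rfl | h
      · linarith
      · by_cases hn : Near D.S E1 x x1
        · linarith [h2 x x1 y hn h']
        · linarith [(h1 x x1 y hn (hR.1 _ _ h) h').1]
  have key : ∀ y x, ReflTransGen (fun x y => R x y ∨ Rel D J E x y) x y →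
      x = y ∨ TransGen R x y ∨ ∃ x1, ReflTransGen R x x1 ∧ a ≤ gap D x1 y := by
    intro y x h
    induction h using ReflTransGen.head_induction_on with
    | refl => exact Or.inl rfl
    | @head x x' hs _ ih =>
      refine Or.inr ?_
      rcases hs with hs | hs
      · rcases ih with rfl | ih | ⟨x1, ih, h'⟩
        · exact Or.inl (TransGen.single hs)
        · exact Or.inl (TransGen.head hs ih)
        · exact Or.inr ⟨x1, ReflTransGen.head hs ih, h'⟩
      · have h4 := hs.2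
        rw [ha2] at h4
        refine Or.inr ⟨x, ReflTransGen.refl, ?_⟩
        rcases ih with rfl | ih
        · linarith
        · linarith [(h3 x x' y hs.1 h4.le (low _ _ ih)).1]
  have cyc : ∀ x y, TransGen (fun x y => R x y ∨ Rel D J E x y) x y → TransGen R x y ∨
      ∃ u v, ReflTransGen (fun x y => R x y ∨ Rel D J E x y) x u ∧ Rel D J E u v ∧
        ReflTransGen (fun x y => R x y ∨ Rel D J E x y) v y := by
    intro x y h
    induction h with
    | single hs =>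
      rcases hs with hs | hs
      · exact Or.inl (TransGen.single hs)
      · exact Or.inr ⟨_, _, ReflTransGen.refl, hs, ReflTransGen.refl⟩
    | tail h0 hs ih =>
      rcases ih with ih | ⟨u, v, a1, a2, a3⟩
      · rcases hs with hs | hs
        · exact Or.inl (ih.tail hs)
        · exact Or.inr ⟨_, _, h0.to_reflTransGen, hs, ReflTransGen.refl⟩
      · exact Or.inr ⟨u, v, a1, a2, a3.tail hs⟩
  have irr : ∀ x, ¬ TransGen (fun x y => R x y ∨ Rel D J E x y) x x := by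
    intro x h
    rcases cyc x x h with h | ⟨u, v, a1, a2, a3⟩
    · exact hR.2 x h
    · rcases key u v (a3.trans a1) with rfl | h
      · exact a2.1 (Near.refl H.gen _ _)
      · have h4 := a2.2
        rw [ha2] at h4
        exact (h3 u v u a2.1 h4.le (low _ _ h)).2 rfl
  refine ⟨fun x y h => ?_, irr⟩
  rcases key y x h.to_reflTransGen with rfl | h'
  · exact absurd h (irr x)
  · exact low _ _ h'

theorem seq (H : D.OK) : ∃ R : ℕ → ℕ, ∀ k : ℕ, ∃ l : ℝ, 0 < l ∧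
    Acy D (fun x y => ∃ j < k, Rel D j (R j) x y) l := by
  choose f hf E hE using fun (J : ℕ) (l : {l : ℝ // 0 < l}) => step H J l.2
  obtain ⟨L, h0⟩ : ∃ L : ℕ → {l : ℝ // 0 < l}, ∀ J, L (J + 1) = ⟨f J (L J), hf J (L J)⟩ :=
    ⟨fun n => Nat.rec ⟨1, one_pos⟩ (fun J l => ⟨f J l, hf J l⟩) n, fun _ => rfl⟩
  refine ⟨fun J => E J (L J), fun k => ⟨L k, (L k).2, ?_⟩⟩
  induction k with
  | zero =>
    have : ∀ x y : Γ, ¬ TransGen (fun x y => ∃ j < 0, Rel D j (E j (L j)) x y) x y := by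
      intro x y h
      obtain ⟨z, ⟨j, hj, -⟩, -⟩ := TransGen.head'_iff.1 h
      omega
    exact ⟨fun x y h => absurd h (this x y), fun x => this x x⟩
  | succ k ih =>
    have h1 := hE k (L k) _ ih
    have e : (fun x y => ∃ j < k + 1, Rel D j (E j (L j)) x y) =
        fun x y => (∃ j < k, Rel D j (E j (L j)) x y) ∨ Rel D k (E k (L k)) x y := by
      funext x y
      exact propext Nat.exists_lt_succ_right
    rw [e, h0]
    exact h1

end MaxXAux

theorem maxP (H : D.OK) : D.MAXP := by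
  obtain ⟨R, hR⟩ := MaxXAux.seq H
  refine ⟨R, fun k η hη K' hK' => ?_⟩
  obtain ⟨l, hl, hA⟩ := hR (k + 1)
  obtain ⟨T, hT⟩ : ∃ T, T = Relation.TransGen fun x y => ∃ j < k + 1, MaxXAux.Rel D j (R j) x y :=
    ⟨_, rfl⟩
  have tr : ∀ x y z, T x y → T y z → T x z := fun x y z => hT ▸ Relation.TransGen.trans
  have irr : ∀ x, ¬ T x x := hT ▸ hA.2
  have low : ∀ x y, T x y → l ≤ MaxXAux.gap D x y := hT ▸ hA.1
  obtain ⟨K1, hK1, h1⟩ := H.fr.cv (min η (l / 2)) (by positivity)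
  obtain ⟨K2, hK2, h2⟩ := H.fr.slow_mul H.gen hK' (half_pos hl)
  refine ⟨K' ∪ K1 ∪ K2⁻¹, (hK'.union hK1).union hK2.inv, fun I hI x₀ hx₀ hK => ?_⟩
  obtain ⟨x, ⟨hxI, hx⟩, hmin⟩ := Set.exists_min_image {x | x ∈ I ∧ (x = x₀ ∨ T x₀ x)}
    (fun x => {z | z ∈ I ∧ T x z}.ncard) (hI.subset fun _ h => h.1) ⟨x₀, hx₀, Or.inl rfl⟩
  have hmax : ∀ y ∈ I, ¬ T x y := by
    intro y hy h
    have h3 : T x₀ y := by
      rcases hx with rfl | hx
      · exact h
      · exact tr _ _ _ hx h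
    refine absurd (hmin y ⟨hy, Or.inr h3⟩) (not_le.2 (Set.ncard_lt_ncard
      ⟨fun z hz => ⟨hz.1, tr _ _ _ h hz.2⟩, fun hs => irr y (hs ⟨hy, h⟩).2⟩
      (hI.subset fun _ h => h.1)))
  have hfar : x ∉ K' ∧ dist (D.ι x) (D.ι x₀) ≤ η := by
    rcases hx with rfl | hx
    · exact ⟨fun h => hK (Or.inl (Or.inl h)), by rw [dist_self]; exact hη.le⟩
    · have h3 := low _ _ hx
      unfold MaxXAux.gap at h3
      refine ⟨fun h => ?_, ?_⟩
      · linarith [h2 x₀⁻¹ (fun h => hK (Or.inr h)) x h]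
      · have h4 := (h1 x₀ (fun h => hK (Or.inl (Or.inr h))) (D.ι (x₀⁻¹ * x))).resolve_right
          (by linarith [min_le_right η (l / 2)])
        rw [← H.fr.eqv, mul_inv_cancel_left] at h4
        exact h4.trans (min_le_left _ _)
  refine ⟨x, hxI, hfar.1, hfar.2, fun j hj y hy hn => ?_⟩
  by_contra hc
  exact hmax y hy (hT ▸ Relation.TransGen.single ⟨j, Nat.lt_succ_of_le hj, hn, not_le.1 hc⟩)

end Vale.Agent.P239
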