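import Vale.Agent.P239.Core2

/-! Existence of the harmonic mean and of the vote. -/

namespace Vale.Agent.P239

open scoped Pointwise symmDiff
open Filter Topology

variable {Γ : Type*} [Group Γ] {S : Finset Γ} {r : ℕ}

namespace MeanXAux

open Vote

/-- The `k` step probability. -/
noncomputable def pk (S : Finset Γ) (k : ℕ) (C : Set Γ) : ℝ :=
  (P S)^[k] (C.indicator fun _ => (1 : ℝ)) 1

/-- Cesaro averages. -/
noncomputable def ces (f : ℕ → ℝ) (n : ℕ) : ℝ := (∑ k ∈ Finset.range (n + 1), f k) / ((n : ℝ) + 1)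

theorem P_smul (c : ℝ) (f : Γ → ℝ) : P S (fun x => c * f x) = fun x => c * P S f x := by
  funext x
  simp only [P, ← Finset.mul_sum, mul_div_assoc]

theorem it_smul (k : ℕ) (c : ℝ) (f : Γ → ℝ) :
    (P S)^[k] (fun x => c * f x) = fun x => c * (P S)^[k] f x := by
  induction k generalizing f with
  | zero => rfl
  | succ k ih => rw [Function.iterate_succ_apply, Function.iterate_succ_apply, P_smul, ih]

theorem pk_nonneg (hS : Gen S) (k : ℕ) (C : Set Γ) : 0 ≤ pk S k C := by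
  have := it_mono (S := S) k (f := fun _ => (0 : ℝ)) (g := C.indicator fun _ => (1 : ℝ))
    (fun x => Set.indicator_nonneg (fun _ _ => zero_le_one) x) 1
  rw [it_const hS] at this
  exact this

theorem pk_le_one (hS : Gen S) (k : ℕ) (C : Set Γ) : pk S k C ≤ 1 := by
  have := it_mono (S := S) k (g := fun _ => (1 : ℝ)) (f := C.indicator fun _ => (1 : ℝ))
    (fun x => by by_cases hx : x ∈ C <;> simp [Set.indicator, hx]) 1
  rw [it_const hS] at this
  exact this

theorem pk_univ (hS : Gen S) (k : ℕ) : pk S k Set.univ = 1 := by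
  simp only [pk, Set.indicator_univ]
  rw [it_const hS]

theorem pk_add (k : ℕ) {C C' : Set Γ} (h : Disjoint C C') :
    pk S k (C ∪ C') = pk S k C + pk S k C' := by
  have h1 : (C ∪ C').indicator (fun _ => (1 : ℝ)) =
      fun x => C.indicator (fun _ => (1 : ℝ)) x + C'.indicator (fun _ => (1 : ℝ)) x := by
    exact Set.indicator_union_of_disjoint h _
  unfold pk
  rw [h1, it_add]

theorem pk_tr (k : ℕ) (x : Γ) (Ω : Set Γ) :
    pk S k {y | x * y ∈ Ω} = (P S)^[k] (Ω.indicator fun _ => (1 : ℝ)) x := by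
  have h13 : ({y | x * y ∈ Ω} : Set Γ).indicator (fun _ => (1 : ℝ)) =
      fun y => Ω.indicator (fun _ => (1 : ℝ)) (x * y) := by
    funext y; simp [Set.indicator]
  unfold pk
  rw [h13, it_tr]
  simp

theorem pk_succ (k : ℕ) (C : Set Γ) :
    pk S (k + 1) C = (∑ s ∈ S, pk S k {y | s * y ∈ C}) / (S.card : ℝ) := by
  simp only [pk_tr]
  unfold pk
  rw [Function.iterate_succ_apply']
  simp only [P, one_mul]

theorem pk_mv (hS : Gen S) {H : Γ → ℝ} (hH : ∀ x, H x ≤ P S H x) (C : Set Γ) (a b : ℝ)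
    (ha : ∀ y ∈ C, H y ≤ a) (hb : ∀ y, y ∉ C → H y ≤ b) (k : ℕ) :
    H 1 ≤ a * pk S k C + b * (1 - pk S k C) := by
  have h1 : ∀ k : ℕ, H 1 ≤ (P S)^[k] H 1 := by
    intro k
    induction k with
    | zero => exact le_rfl
    | succ k ih =>
      rw [Function.iterate_succ_apply]
      exact ih.trans (it_mono k hH 1)
  have h2 := it_mono (S := S) k (f := H)
    (g := fun x => (fun _ => b) x + (fun y => (a - b) * C.indicator (fun _ => (1 : ℝ)) y) x)
    (fun x => by
      by_cases hx : x ∈ C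
      · have := ha x hx
        simp only [Set.indicator_of_mem hx]
        linarith
      · have := hb x hx
        simp only [Set.indicator_of_notMem hx]
        linarith) 1
  rw [it_add, it_const hS, it_smul] at h2
  have h3 := h1 k
  have h4 : (P S)^[k] (fun y => C.indicator (fun _ => (1 : ℝ)) y) 1 = pk S k C := rfl
  simp only [h4] at h2
  linarith

theorem pk_fin (hG : GapProp S) {C : Set Γ} (hC : C.Finite) :
    Tendsto (fun k => pk S k C) atTop (𝓝 0) := by
  obtain ⟨θ, h0, h1, hθ⟩ := hG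
  have h2 : Tendsto (fun k => pk S k C ^ 2) atTop (𝓝 0) := by
    have h3 := (tendsto_pow_atTop_nhds_zero_of_lt_one h0 h1).mul_const
      (∑' x, C.indicator (fun _ => (1 : ℝ)) x ^ 2)
    rw [zero_mul] at h3
    exact squeeze_zero (fun k => sq_nonneg _)
      (fun k => it_pt h0 hθ k (ind_summable hC) 1) h3
  have h4 := h2.sqrt
  simp only [Real.sqrt_sq_eq_abs, Real.sqrt_zero] at h4
  exact (tendsto_zero_iff_abs_tendsto_zero _).2 h4

theorem pk_loc (hS : Gen S) (hG : GapProp S) (ω : Γ → ℝ) (hω0 : ∀ x, 0 ≤ ω x)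
    (hω1 : Summable fun x => ω x ^ 2) (lam δ : ℝ) (hl : 0 < lam) (hδ : 0 < δ) (B : Set Γ)
    (hB : B.Finite) : ∃ K : Set Γ, K.Finite ∧ ∀ u : Γ → ℝ,
      (∀ y, ∀ s ∈ S, |u (y * s) - u y| ≤ ω y) → ∀ x, x ∉ K → ∀ (a : ℝ) (Ω : Set Γ), x ∈ Ω →
      a + lam ≤ u x → (∀ y ∈ Ω, ∀ s ∈ S, y * s ∉ B → a < u (y * s) → y * s ∈ Ω) →
      ∀ k, 1 - δ ≤ pk S k {y | x * y ∈ Ω} := by
  classical
  obtain ⟨θ, h0, h1, hθ⟩ := hG
  let B' : Set Γ := {y | ∃ x ∈ B, Near S 1 y x}
  have hB' : B'.Finite := nbhd_finite' hS 1 hB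
  let ρ : Γ → ℝ := fun y => ω y / lam + B'.indicator (fun _ => (1 : ℝ)) y
  have hρ : Summable fun y => ρ y ^ 2 := by
    refine Summable.of_nonneg_of_le (fun x => sq_nonneg _) (fun x => ?_)
      (((hω1.mul_left (1 / lam ^ 2)).add (ind_summable hB')).mul_left 2)
    have : (ω x / lam) ^ 2 = 1 / lam ^ 2 * ω x ^ 2 := by field_simp
    rw [← this]
    simp only [ρ]
    nlinarith [sq_nonneg (ω x / lam - B'.indicator (fun _ => (1 : ℝ)) x)]
  have hρ' : Summable fun y => ((1 / (3 * δ)) * ρ y) ^ 2 :=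
    (hρ.mul_left ((1 / (3 * δ)) ^ 2)).congr fun y => by ring
  obtain ⟨K, hK, hK'⟩ := series_small h0 h1 hθ hρ'
  refine ⟨K, hK, fun u hω2 x hx a Ω hxΩ hxa hΩ k => ?_⟩
  let φ : Γ → ℝ := fun y => if y ∈ Ω then cl a lam (u y) else 0
  have hφ0 : ∀ y, 0 ≤ φ y := fun y => by
    simp only [φ]; split_ifs
    · exact cl_nonneg hl _
    · exact le_rfl
  have hφ1 : ∀ y, φ y ≤ Ω.indicator (fun _ => (1 : ℝ)) y := fun y => by
    simp only [φ, Set.indicator]; split_ifs
    · exact cl_le_one hl _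
    · exact le_rfl
  have hP0 : ∀ y, 0 ≤ P S φ y := fun y => by
    have := P_mono (S := S) hφ0 y
    rwa [P_const hS] at this
  have hsub : ∀ y, φ y ≤ P S φ y + ρ y := fun y => by
    have hw : 0 ≤ ω y / lam := div_nonneg (hω0 y) hl.le
    have hi : 0 ≤ B'.indicator (fun _ => (1 : ℝ)) y :=
      Set.indicator_nonneg (fun _ _ => zero_le_one) y
    have hP := hP0 y
    by_cases hy : y ∈ Ω
    swap
    · simp only [φ, ρ, if_neg hy]
      exact add_nonneg hP (add_nonneg hw hi)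
    have hφy : φ y = cl a lam (u y) := if_pos hy
    by_cases hyB : y ∈ B'
    · have : B'.indicator (fun _ => (1 : ℝ)) y = 1 := Set.indicator_of_mem hyB _
      have := cl_le_one (a := a) hl (u y)
      simp only [ρ]
      linarith
    have h3 : ∀ s ∈ S, cl a lam (u y) - ω y / lam ≤ φ (y * s) := fun s hs => by
      have h4 := cl_lip (a := a) hl (hω2 y s hs)
      have h5 : cl a lam (u (y * s)) ≤ φ (y * s) := by
        by_cases h6 : a < u (y * s)
        · have : y * s ∈ Ω := hΩ y hy s hs (fun h => hyB ⟨_, h, near_step y hs⟩) h6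
          exact le_of_eq (if_pos this).symm
        · rw [cl_eq_zero hl (not_lt.1 h6)]; exact hφ0 _
      linarith
    have h7 : cl a lam (u y) - ω y / lam ≤ P S φ y := by
      unfold P
      rw [le_div_iff₀ (card_pos hS)]
      have := Finset.card_nsmul_le_sum S (fun s => φ (y * s)) _ h3
      rwa [nsmul_eq_mul, mul_comm] at this
    simp only [ρ]
    linarith
  have h8 := sub_series hsub k x
  have h9 := hK' x hx k
  simp only [it_smul, ← Finset.mul_sum] at h9
  have h9' : ∑ i ∈ Finset.range k, (P S)^[i] ρ x ≤ δ := by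
    have h14 : ∑ i ∈ Finset.range k, (P S)^[i] ρ x =
        (3 * δ) * (1 / (3 * δ) * ∑ i ∈ Finset.range k, (P S)^[i] ρ x) := by
      field_simp
    rw [h14]
    have := mul_le_mul_of_nonneg_left h9 (by positivity : (0 : ℝ) ≤ 3 * δ)
    linarith
  have h10 : φ x = 1 := (if_pos hxΩ).trans (cl_eq_one hl hxa)
  have h11 := it_mono (S := S) k hφ1 x
  rw [pk_tr]
  linarith

theorem ces_ge {f : ℕ → ℝ} {a : ℝ} (h : ∀ k, a ≤ f k) (n : ℕ) : a ≤ ces f n := by
  unfold ces
  rw [le_div_iff₀ (by positivity)]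
  have := Finset.card_nsmul_le_sum (Finset.range (n + 1)) f a fun k _ => h k
  rw [nsmul_eq_mul, Finset.card_range] at this
  push_cast at this
  linarith

theorem ces_le {f : ℕ → ℝ} {a : ℝ} (h : ∀ k, f k ≤ a) (n : ℕ) : ces f n ≤ a := by
  unfold ces
  rw [div_le_iff₀ (by positivity)]
  have := Finset.sum_le_card_nsmul (Finset.range (n + 1)) f a fun k _ => h k
  rw [nsmul_eq_mul, Finset.card_range] at this
  push_cast at this
  linarith

theorem ces_add (f g : ℕ → ℝ) (n : ℕ) : ces (fun k => f k + g k) n = ces f n + ces g n := by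
  simp only [ces, Finset.sum_add_distrib, add_div]

theorem ces_aff (f : ℕ → ℝ) (a b : ℝ) (n : ℕ) :
    ces (fun k => a * f k + b * (1 - f k)) n = a * ces f n + b * (1 - ces f n) := by
  have h : (0 : ℝ) < (n : ℝ) + 1 := by positivity
  simp only [ces, Finset.sum_add_distrib, ← Finset.mul_sum, Finset.sum_sub_distrib,
    Finset.sum_const, Finset.card_range, nsmul_eq_mul]
  push_cast
  field_simp

theorem ces_shift (f : ℕ → ℝ) (n : ℕ) :
    ces (fun k => f (k + 1)) n = ces f n + (f (n + 1) - f 0) / ((n : ℝ) + 1) := by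
  have h1 := Finset.sum_range_succ' f (n + 1)
  have h2 := Finset.sum_range_succ f (n + 1)
  unfold ces
  rw [← add_div]
  congr 1
  linarith

theorem ces_sum {ι : Type*} (T : Finset ι) (f : ι → ℕ → ℝ) (c : ℝ) (n : ℕ) :
    ces (fun k => (∑ i ∈ T, f i k) / c) n = (∑ i ∈ T, ces (f i) n) / c := by
  simp only [ces, ← Finset.sum_div]
  rw [Finset.sum_comm, div_right_comm]

theorem ces_tendsto {f : ℕ → ℝ} (h : Tendsto f atTop (𝓝 0)) : Tendsto (ces f) atTop (𝓝 0) := by
  have h1 := (tendsto_add_atTop_iff_nat 1).2 h.cesaro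
  refine h1.congr fun n => ?_
  unfold ces
  push_cast
  rw [div_eq_inv_mul]

theorem hyper_le : (hyperfilter ℕ : Filter ℕ) ≤ atTop := by
  rw [← Nat.cofinite_eq_atTop]
  exact hyperfilter_le_cofinite

theorem ex_lim {f : ℕ → ℝ} (h0 : ∀ n, 0 ≤ f n) (h1 : ∀ n, f n ≤ 1) :
    ∃ l, Tendsto f (hyperfilter ℕ : Filter ℕ) (𝓝 l) := by
  obtain ⟨l, -, hl⟩ := (isCompact_Icc (a := (0 : ℝ)) (b := 1)).ultrafilter_le_nhds
    ((hyperfilter ℕ).map f) (by
      rw [Ultrafilter.coe_map, le_principal_iff, mem_map]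
      exact Eventually.of_forall fun n => ⟨h0 n, h1 n⟩)
  exact ⟨l, hl⟩

end MeanXAux

open MeanXAux Vote in
theorem exists_mean (hS : Gen S) (hG : GapProp S) : ∃ m, Mean S m := by
  have hex : ∀ C : Set Γ, ∃ l, Tendsto (ces fun k => pk S k C) (hyperfilter ℕ : Filter ℕ) (𝓝 l) :=
    fun C => ex_lim (ces_ge fun k => pk_nonneg hS k C) (ces_le fun k => pk_le_one hS k C)
  choose m hm using hex
  refine ⟨m, fun C => ?_, ?_, fun C C' h => ?_, fun C => ?_, fun C hC => ?_,
    fun H hH C a b ha hb => ?_, fun ω hω0 hω1 lam δ hl hδ B hB => ?_⟩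
  · exact ge_of_tendsto' (hm C) (ces_ge fun k => pk_nonneg hS k C)
  · exact le_antisymm (le_of_tendsto' (hm _) (ces_le fun k => (pk_univ hS k).le))
      (ge_of_tendsto' (hm _) (ces_ge fun k => (pk_univ hS k).ge))
  · refine tendsto_nhds_unique (hm _) (((hm C).add (hm C')).congr fun n => ?_)
    simp only [pk_add _ h]
    rw [ces_add]
  · have h1 : Tendsto (fun n => (∑ s ∈ S, ces (fun k => pk S k {y | s * y ∈ C}) n) / (S.card : ℝ))
        (hyperfilter ℕ : Filter ℕ) (𝓝 ((∑ s ∈ S, m {y | s * y ∈ C}) / (S.card : ℝ))) :=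
      (tendsto_finsetSum S fun s _ => hm _).div_const _
    have h2 : Tendsto (fun n : ℕ => (pk S (n + 1) C - pk S 0 C) / ((n : ℝ) + 1)) atTop (𝓝 0) := by
      rw [tendsto_zero_iff_abs_tendsto_zero]
      refine squeeze_zero (fun n => abs_nonneg _) (fun n => ?_)
        tendsto_one_div_add_atTop_nhds_zero_nat
      have h3 : (0 : ℝ) < (n : ℝ) + 1 := by positivity
      simp only [Function.comp, abs_div, abs_of_pos h3]
      refine div_le_div_of_nonneg_right (abs_le.2 ⟨?_, ?_⟩) h3.le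
      · linarith [pk_nonneg hS (n + 1) C, pk_le_one hS 0 C]
      · linarith [pk_nonneg hS 0 C, pk_le_one hS (n + 1) C]
    have h4 := (hm C).add (h2.mono_left hyper_le)
    rw [add_zero] at h4
    refine tendsto_nhds_unique h4 (h1.congr fun n => ?_)
    rw [← ces_sum, ← ces_shift (fun k => pk S k C)]
    simp only [pk_succ]
  · exact tendsto_nhds_unique (hm C) ((ces_tendsto (pk_fin hG hC)).mono_left hyper_le)
  · have h1 : Tendsto (fun n => a * ces (fun k => pk S k C) n +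
        b * (1 - ces (fun k => pk S k C) n)) (hyperfilter ℕ : Filter ℕ)
        (𝓝 (a * m C + b * (1 - m C))) :=
      ((hm C).const_mul a).add (((hm C).const_sub 1).const_mul b)
    refine ge_of_tendsto' h1 fun n => ?_
    rw [← ces_aff]
    exact ces_ge (fun k => pk_mv hS hH C a b ha hb k) n
  · obtain ⟨K, hK, hK'⟩ := pk_loc hS hG ω hω0 hω1 lam δ hl hδ B hB
    exact ⟨K, hK, fun φ hφ x hx a Ω hxΩ hxa hΩ =>
      ge_of_tendsto' (hm _) (ces_ge (hK' φ hφ x hx a Ω hxΩ hxa hΩ))⟩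

theorem exists_vm {m : Set Γ → ℝ} (hm : Mean S m) : ∃ V, VM m V := by
  classical
  have hsplit : ∀ A B : Set Γ, m A = m (A ∩ B) + m (A \ B) := fun A B => by
    rw [← hm.add _ _ (Set.disjoint_sdiff_inter (s := A) (t := B)).symm, Set.inter_union_sdiff]
  have hmono : ∀ A B : Set Γ, A ⊆ B → m A ≤ m B := fun A B h => by
    have h1 := hsplit B A
    rw [Set.inter_eq_right.2 h] at h1
    linarith [hm.nonneg (B \ A)]
  have hcompl : ∀ A : Set Γ, m Aᶜ = 1 - m A := fun A => by
    have h1 := hm.add A Aᶜ disjoint_compl_right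
    rw [Set.union_compl_self, hm.univ] at h1
    linarith
  have h0 : m ∅ = 0 := hm.fin _ Set.finite_empty
  let L : Set (Set (Set Γ)) := {V | ∀ D ∈ V, ∀ D' ∈ V, 0 < m (D ∩ D')}
  have hG : {D | 1 / 2 < m D} ∈ L := by
    intro D hD D' hD'
    have h1 := hsplit D D'
    have h2 := hmono (D \ D') D'ᶜ fun x hx => hx.2
    have h3 := hcompl D'
    have h4 : 1 / 2 < m D := hD
    have h5 : 1 / 2 < m D' := hD'
    linarith
  have hch : ∀ c ⊆ L, IsChain (· ⊆ ·) c → c.Nonempty → ∃ ub ∈ L, ∀ s ∈ c, s ⊆ ub := by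
    intro c hc hchain _
    refine ⟨⋃₀ c, ?_, fun s hs => Set.subset_sUnion_of_mem hs⟩
    rintro D ⟨W, hW, hD⟩ D' ⟨W', hW', hD'⟩
    rcases hchain.total hW hW' with h | h
    · exact hc hW' D (h hD) D' hD'
    · exact hc hW D hD D' (h hD')
  obtain ⟨V, hGV, hV⟩ := zorn_subset_nonempty L hch _ hG
  have huniv : Set.univ ∈ V := hGV (by
    show 1 / 2 < m Set.univ
    rw [hm.univ]; norm_num)
  have key : ∀ D : Set Γ, (∀ D1 ∈ V, 0 < m (D ∩ D1)) → D ∈ V := fun D hD => by
    have h2 : insert D V ∈ L := by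
      rintro A (rfl | hA) A' (rfl | hA')
      · simpa using hD _ huniv
      · exact hD _ hA'
      · rw [Set.inter_comm]; exact hD _ hA
      · exact hV.prop A hA A' hA'
    exact hV.le_of_ge h2 (Set.subset_insert _ _) (Set.mem_insert _ _)
  have hup : ∀ D ∈ V, ∀ D' : Set Γ, m (D \ D') = 0 → D' ∈ V := fun D hD D' hnull => by
    refine key D' fun D1 hD1 => ?_
    have h1 := hV.prop D hD D1 hD1
    have h2 := hsplit (D ∩ D1) D'
    have h3 := hmono (D ∩ D1 ∩ D') (D' ∩ D1) fun x hx => ⟨hx.2, hx.1.2⟩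
    have h4 := hmono ((D ∩ D1) \ D') (D \ D') fun x hx => ⟨hx.1.1, hx.2⟩
    linarith
  refine ⟨V, hup, fun D => ⟨fun h hD => ?_, fun h => ?_⟩, fun C hC => hGV hC⟩
  · have := hV.prop D hD _ h
    rw [Set.inter_compl_self, h0] at this
    exact lt_irrefl _ this
  · by_contra hc
    refine h (key D fun D1 hD1 => ?_)
    by_contra hle
    refine hc (hup D1 hD1 _ (le_antisymm ?_ (hm.nonneg _)))
    refine (hmono _ (D ∩ D1) ?_).trans (not_lt.1 hle)
    rintro x ⟨hx, hx'⟩
    exact ⟨by simpa using hx', hx⟩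

end Vale.Agent.P239
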