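import Vale.Agent.P239.BasY

/-! Existence of a monotone finite energy function. -/

namespace Vale.Agent.P239

open scoped Pointwise symmDiff
open Filter Topology

variable {Γ : Type*} [Group Γ] {S : Finset Γ} {r : ℕ}

namespace MonoXAux

theorem comp_mono' {U U' : Set Γ} (h : U ⊆ U') (x : Γ) : comp S U x ⊆ comp S U' x := by
  intro y hy
  induction hy with
  | refl => exact mem_comp_self _ _
  | @tail b c hb hc ih =>
    obtain ⟨hc, s, hs, rfl⟩ := hc
    exact comp_step ih hs (h hc)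

theorem conn_all (hS : Gen S) {Ω : Set Γ} (h : ∀ x, x ∈ Ω) : Conn S Ω := by
  intro A hA x _ y _
  obtain ⟨n, hn⟩ := hS.exists_near x y
  exact ball_const hS (fun e _ => hA e (h _) (h _)) hn

theorem inf_comp (hV : VoteProp S) {w : Γ → ℝ} (hw : FinEn S w)
    (h : {x | 2 ≤ w x}.Infinite) :
    ∃ x, 2 ≤ w x ∧ (comp S {y | 1 < w y} x).Infinite := by
  obtain ⟨V, h1, h2, h3⟩ := hV
  obtain ⟨K, hK, h4⟩ := h3 w hw 1 one_pos ∅ Set.finite_empty
  obtain ⟨x, hx, hxK⟩ := (h.sdiff hK).nonempty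
  refine ⟨x, hx, fun hf => ?_⟩
  have hx2 : 2 ≤ w x := hx
  have h5 := h4 x hxK 1 (comp S {y | 1 < w y} x) (mem_comp_self _ _) (by linarith)
    (fun y hy s hs _ hl => comp_step hy hs hl)
  have h6 : {y | x * y ∈ comp S {y | 1 < w y} x}.Finite :=
    hf.preimage (f := fun y => x * y) (mul_right_injective x).injOn
  have h7 : (∅ : Set Γ) ∈ V := h1 _ h5 _ (h6.subset Set.sdiff_subset)
  have h8 : (∅ : Set Γ)ᶜ ∈ V := h1 _ h5 _ (h6.subset Set.sdiff_subset)
  exact (h2 ∅).1 h8 h7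

theorem core (hS : Gen S) {w : Γ → ℝ} (hw : FinEn S w) {p q : Γ} (hp : 2 ≤ w p)
    (hq : w q ≤ -1) (ip : (comp S {y | 1 < w y} p).Infinite)
    (iq : (comp S {y | w y < 0} q).Infinite) : ∃ u, Mono S u := by
  let Q : ℝ → Set Γ := fun τ => comp S {y | τ < w y} p
  let R : ℝ → Set Γ := fun τ => comp S (Q τ)ᶜ q
  have Qs : ∀ τ, τ ≤ 1 → ∀ y ∈ Q τ, τ < w y := fun τ h y hy =>
    comp_subset (S := S) (U := {y | τ < w y}) (x := p) (by
      simp only [Set.mem_ofPred_eq]; linarith) hy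
  have RQ : ∀ τ, 0 ≤ τ → τ ≤ 1 → ∀ y ∈ R τ, y ∉ Q τ := fun τ h0 h1 y hy =>
    comp_subset (S := S) (U := (Q τ)ᶜ) (x := q) (fun h => by
      have := Qs τ h1 q h; linarith) hy
  have Qa : ∀ τ τ', τ ≤ τ' → Q τ' ⊆ Q τ := fun τ τ' h =>
    comp_mono' (fun y hy => lt_of_le_of_lt h hy) p
  have Rm : ∀ τ τ', τ ≤ τ' → R τ ⊆ R τ' := fun τ τ' h =>
    comp_mono' (Set.compl_subset_compl.2 (Qa τ τ' h)) q
  have Rc : ∀ τ, 0 ≤ τ → τ ≤ 1 → ∀ A : Set Γ,
      (∀ e : Γ × S, e.1 ∉ R τ → e.1 * e.2 ∉ R τ → e ∉ cob S A) →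
      ∀ y, y ∉ R τ → (p ∈ A ↔ y ∈ A) := by
    intro τ h0 h1 A hA
    have hQ : ∀ y ∈ Q τ, (p ∈ A ↔ y ∈ A) := fun y hy =>
      comp_conn (S := S) {y | τ < w y} p A
        (fun e h h' => hA e (fun hr => RQ τ h0 h1 _ hr h) (fun hr => RQ τ h0 h1 _ hr h'))
        p (mem_comp_self _ _) y hy
    have : ∀ n, ∀ y, Near S n p y → y ∉ R τ → (p ∈ A ↔ y ∈ A) := by
      intro n
      induction n with
      | zero => intro y hy _; rw [near_zero.1 hy]
      | succ n ih =>
        intro y hy hr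
        obtain ⟨z, s, hs, hz, rfl⟩ := near_succ.1 hy
        by_cases hyq : z * s ∈ Q τ
        · exact hQ _ hyq
        · have hzr : z ∉ R τ := fun h => hr (comp_step h hs hyq)
          have := hA (z, ⟨s, hs⟩) hzr hr
          simp only [mem_cob, not_not] at this
          exact (ih z hz hzr).trans this
    intro y hy
    obtain ⟨n, hn⟩ := hS.exists_near p y
    exact this n y hn hy
  have Re : ∀ τ, 0 ≤ τ → τ ≤ 1 → ∀ y, ∀ s ∈ S, y ∈ R τ → y * s ∉ R τ →
      w y ≤ τ ∧ τ < w (y * s) := by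
    intro τ h0 h1 y s hs hy hys
    have h2 : y * s ∈ Q τ := by
      by_contra h
      exact hys (comp_step hy hs h)
    refine ⟨?_, Qs τ h1 _ h2⟩
    by_contra h
    push Not at h
    have h3 : y * s * s⁻¹ ∈ Q τ := comp_step h2 (hS.inv s hs) (by simpa using h)
    exact RQ τ h0 h1 y hy (by simpa using h3)
  let E : Γ → Set ℝ := fun y => {τ | τ = 0 ∨ (0 ≤ τ ∧ τ ≤ 1 ∧ y ∉ R τ)}
  have Eb : ∀ y, ∀ τ ∈ E y, τ ≤ 1 := by
    rintro y τ (rfl | h)
    · exact zero_le_one
    · exact h.2.1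
  have Ebd : ∀ y, BddAbove (E y) := fun y => ⟨1, Eb y⟩
  have Ene : ∀ y, (E y).Nonempty := fun y => ⟨0, Or.inl rfl⟩
  let u : Γ → ℝ := fun y => sSup (E y)
  have u0 : ∀ y, 0 ≤ u y := fun y => le_csSup (Ebd y) (Or.inl rfl)
  have u1 : ∀ y, u y ≤ 1 := fun y => csSup_le (Ene y) (Eb y)
  have P2 : ∀ y τ, 0 ≤ τ → τ ≤ 1 → y ∉ R τ → τ ≤ u y := fun y τ h0 h1 h =>
    le_csSup (Ebd y) (Or.inr ⟨h0, h1, h⟩)
  have P3 : ∀ y τ, 0 ≤ τ → τ < u y → ∃ τ', τ < τ' ∧ τ' ≤ 1 ∧ y ∉ R τ' := by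
    intro y τ h0 h
    obtain ⟨τ', h1, h2⟩ := exists_lt_of_lt_csSup (Ene y) h
    rcases h1 with rfl | h1
    · linarith
    · exact ⟨τ', h2, h1.2.1, h1.2.2⟩
  have ed : ∀ y, ∀ s ∈ S, u y < u (y * s) → u (y * s) - u y ≤ w (y * s) - w y := by
    intro y s hs h
    have key : ∀ τ, u y < τ → τ < u (y * s) → w y ≤ τ ∧ τ < w (y * s) := by
      intro τ a b
      have h0 : 0 ≤ τ := (u0 y).trans a.le
      have h1 : τ ≤ 1 := b.le.trans (u1 _)
      refine Re τ h0 h1 y s hs ?_ ?_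
      · by_contra hc
        exact absurd (P2 y τ h0 h1 hc) (not_le.2 a)
      · obtain ⟨τ', c, _, d⟩ := P3 _ τ h0 b
        exact fun hc => d (Rm τ τ' c.le hc)
    have a : w y ≤ u y := by
      by_contra hc
      push Not at hc
      obtain ⟨τ, t1, t2⟩ := exists_between (lt_min h hc)
      have := (key τ t1 (t2.trans_le (min_le_left _ _))).1
      have := t2.trans_le (min_le_right _ _)
      linarith
    have b : u (y * s) ≤ w (y * s) := by
      by_contra hc
      push Not at hc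
      obtain ⟨τ, t1, t2⟩ := exists_between (max_lt h hc)
      have := (key τ ((le_max_left _ _).trans_lt t1) t2).2
      have := (le_max_right _ _).trans_lt t1
      linarith
    linarith
  have pR : ∀ τ, 0 ≤ τ → τ ≤ 1 → p ∉ R τ := fun τ h0 h1 h =>
    RQ τ h0 h1 p h (mem_comp_self _ _)
  refine ⟨u, fun s hs => ?_, fun x => ⟨u0 x, u1 x⟩, fun τ => ?_, fun τ => ?_, ?_, ?_⟩
  · refine Summable.of_nonneg_of_le (fun x => sq_nonneg _) (fun x => ?_) (hw s hs)
    rcases lt_trichotomy (u x) (u (x * s)) with h | h | h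
    · have := ed x s hs h
      nlinarith
    · rw [h, sub_self]; simpa using sq_nonneg _
    · have := ed (x * s) s⁻¹ (hS.inv s hs) (by simpa using h)
      simp only [mul_inv_cancel_right] at this
      nlinarith
  · by_cases h0 : τ < 0
    · exact conn_all hS fun x => h0.trans_le (u0 x)
    push Not at h0
    intro A hA
    have : ∀ y, τ < u y → (p ∈ A ↔ y ∈ A) := by
      intro y hy
      obtain ⟨τ', a, b, c⟩ := P3 y τ h0 hy
      have h0' : 0 ≤ τ' := h0.trans a.le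
      exact Rc τ' h0' b A (fun e h h' => hA e (a.trans_le (P2 _ τ' h0' b h))
        (a.trans_le (P2 _ τ' h0' b h'))) y c
    intro x hx y hy
    exact (this x hx).symm.trans (this y hy)
  · by_cases h1 : 1 < τ
    · exact conn_all hS fun x => (u1 x).trans_lt h1
    push Not at h1
    intro A hA
    have : ∀ y, u y < τ → (q ∈ A ↔ y ∈ A) := by
      intro y hy
      obtain ⟨τ', a, b⟩ := exists_between hy
      have h0' : 0 ≤ τ' := (u0 y).trans a.le
      have h1' : τ' ≤ 1 := b.le.trans h1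
      have hs : ∀ z ∈ R τ', u z < τ := by
        intro z hz
        by_contra hc
        push Not at hc
        obtain ⟨τ'', c, _, d⟩ := P3 z τ' h0' (b.trans_le hc)
        exact d (Rm τ' τ'' c.le hz)
      have hy' : y ∈ R τ' := by
        by_contra hc
        exact absurd (P2 y τ' h0' h1' hc) (not_le.2 a)
      exact comp_conn (S := S) (Q τ')ᶜ q A (fun e h h' => hA e (hs _ h) (hs _ h'))
        q (mem_comp_self _ _) y hy'
    intro x hx y hy
    exact (this x hx).symm.trans (this y hy)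
  · refine iq.mono fun y hy => ?_
    refine le_antisymm ?_ (u0 y)
    by_contra hc
    push Not at hc
    obtain ⟨τ', a, b, c⟩ := P3 y 0 le_rfl hc
    refine c (comp_mono' (U := {y | w y < 0}) (U' := (Q τ')ᶜ) (fun z hz hQ => ?_) q hy)
    have := Qs τ' b z hQ
    have hz' : w z < 0 := hz
    linarith
  · refine ip.mono fun y hy => ?_
    exact le_antisymm (u1 y) (P2 y 1 zero_le_one le_rfl fun h => RQ 1 zero_le_one le_rfl y h hy)

end MonoXAux

theorem exists_mono (hS : Gen S) (hV : VoteProp S) {v : Γ → ℝ} (hv : FinEn S v) {a b : ℝ}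
    (hab : a < b) (ha : {x | v x ≤ a}.Infinite) (hb : {x | b ≤ v x}.Infinite) :
    ∃ u, Mono S u := by
  have hd : 0 < b - a := sub_pos.2 hab
  set L : ℝ := 3 / (b - a) with hL
  have hL0 : 0 < L := by positivity
  have hL3 : L * (b - a) = 3 := by rw [hL]; field_simp
  have hw : FinEn S fun x => L * (v x - a) - 1 :=
    hv.lip (φ := fun t => L * (t - a) - 1) (L := L) fun s t => by
      rw [show L * (s - a) - 1 - (L * (t - a) - 1) = L * (s - t) by ring, abs_mul, abs_of_pos hL0]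
  have hw' : FinEn S fun x => 1 - (L * (v x - a) - 1) :=
    hw.lip (φ := fun t => 1 - t) (L := 1) fun s t => by
      rw [show 1 - s - (1 - t) = -(s - t) by ring, abs_neg, one_mul]
  obtain ⟨p, hp, ip⟩ := MonoXAux.inf_comp hV hw (hb.mono fun x hx => by
    have hx' : b ≤ v x := hx
    simp only [Set.mem_ofPred_eq]
    nlinarith)
  obtain ⟨q, hq, iq⟩ := MonoXAux.inf_comp hV hw' (ha.mono fun x hx => by
    have hx' : v x ≤ a := hx
    simp only [Set.mem_ofPred_eq]
    nlinarith)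
  refine MonoXAux.core hS hw hp (by linarith) ip ?_
  have : {y | L * (v y - a) - 1 < 0} = {y | 1 < 1 - (L * (v y - a) - 1)} := by
    ext y; simp only [Set.mem_ofPred_eq]; constructor <;> intro h <;> linarith
  rw [this]
  exact iq

end Vale.Agent.P239
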