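import Vale.Agent.P239.BasY

/-! Large connected regions far from the walls of a decreasing sequence of cuts. -/

namespace Vale.Agent.P239

open scoped Pointwise symmDiff
open Filter Topology

variable {Γ : Type*} [Group Γ] {Z : Type*} [MetricSpace Z] [CompactSpace Z] [MulAction Γ Z]
  [ContinuousConstSMul Γ Z] {D : Dat Γ Z} {π : Z → ℝ}

theorem om (H : D.OK) (h1 : D.VT) : D.OM := by
  intro B δ hδ hB hcut hm M
  set f : Γ → ℝ := fun x => ⨅ i, D.h (B i) x with hf
  have hbdd : ∀ x, BddBelow (Set.range fun i => D.h (B i) x) := fun x =>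
    ⟨0, by rintro _ ⟨i, rfl⟩; exact H.h_nonneg _ _⟩
  have hanti : ∀ x, Antitone fun i => D.h (B i) x := fun x i j hij => H.h_mono (hB hij) x
  have hlim : ∀ x, Tendsto (fun i => D.h (B i) x) atTop (𝓝 (f x)) := fun x =>
    tendsto_atTop_ciInf (hanti x) (hbdd x)
  have hle : ∀ i x, f x ≤ D.h (B i) x := fun i x => ciInf_le (hbdd x) i
  have hf1 : ∀ x, f x ≤ 1 := fun x => (hle 0 x).trans (H.h_le_one _ _)
  have hf0 : ∀ x, 0 ≤ f x := fun x => le_ciInf fun i => H.h_nonneg _ _
  have hharm : ∀ x, f x = Vote.P D.S f x := by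
    intro x
    have e1 : Tendsto (fun i => Vote.P D.S (D.h (B i)) x) atTop (𝓝 (Vote.P D.S f x)) := by
      unfold Vote.P
      exact (tendsto_finsetSum _ fun s _ => hlim (x * s)).div_const _
    have e2 : (fun i => Vote.P D.S (D.h (B i)) x) = fun i => D.h (B i) x := by
      funext i
      exact (H.h_harm _ _).symm
    rw [e2] at e1
    exact tendsto_nhds_unique (hlim x) e1
  have hδf : δ ≤ f 1 := le_ciInf fun i => by rw [Dat.h_one]; exact hm i
  have hbdd2 : BddAbove (Set.range f) := ⟨1, by rintro _ ⟨x, rfl⟩; exact hf1 x⟩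
  set s : ℝ := ⨆ x, f x with hs
  have hfs : ∀ x, f x ≤ s := fun x => le_ciSup hbdd2 x
  have hs0 : 0 ≤ s := (hf0 1).trans (hfs 1)
  have key : ∀ i, f 1 ≤ s * D.h (B i) 1 := by
    intro i
    refine le_of_forall_pos_le_add fun ε hε => ?_
    obtain ⟨ξ, hξ⟩ := hcut i
    have hv := (h1 ∅ (B i) ξ (by rw [Set.empty_union]; exact hξ.2.1)).2.2.2 ε hε
    set E : Set Γ := {y | ε < D.h (B i) y} with hE
    have a1 := H.mv_at (f := f) (fun x => (hharm x).le) E (a := s) (b := ε)
      (fun y _ => hfs y) (fun y hy => (hle i y).trans (not_lt.1 hy)) 1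
    have a2 : D.h E 1 ≤ D.h (B i) 1 := by
      rw [Dat.h_one, Dat.h_one]
      have a3 : E ⊆ B i ∪ {x | x ∉ B i ∧ ε < D.h (B i) x} := by
        intro y hy
        by_cases hyB : y ∈ B i
        · exact Or.inl hyB
        · exact Or.inr ⟨hyB, hy⟩
      have a4 := (H.m_mono a3).trans (H.m_union_le _ _)
      rw [hv, add_zero] at a4
      exact a4
    have a5 : 0 ≤ D.h E 1 := H.h_nonneg _ _
    have a6 : s * D.h E 1 ≤ s * D.h (B i) 1 := mul_le_mul_of_nonneg_left a2 hs0
    have a7 : 0 ≤ ε * D.h E 1 := mul_nonneg hε.le a5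
    linarith
  have key2 : f 1 ≤ s * f 1 :=
    ge_of_tendsto' ((hlim 1).const_mul s) key
  have hs1 : 1 ≤ s := by
    by_contra hlt
    push Not at hlt
    have : s * f 1 < 1 * f 1 := mul_lt_mul_of_pos_right hlt (hδ.trans_le hδf)
    linarith
  have hc := H.c_pos
  have hcM : 0 < D.c ^ M := pow_pos hc M
  have hθ : 0 < D.c ^ M * (D.c / 2) := mul_pos hcM (half_pos hc)
  obtain ⟨x₀, hx₀⟩ : ∃ x₀, 1 - D.c ^ M * (D.c / 2) < f x₀ :=
    exists_lt_of_lt_ciSup (by rw [← hs]; linarith)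
  refine ⟨cmp D.S {y | 1 - D.c ^ M * (D.c / 2) < f y} x₀,
    H.maxp (fun x => (hharm x).le) hx₀, cmp_conn _ _, ?_⟩
  intro i y hy z hz
  have hy'' := cmp_subset _ _ hy
  have hy' : 1 - D.c ^ M * (D.c / 2) < f y := hy''
  have hsup : ∀ x, Vote.P D.S (fun x => 1 - f x) x ≤ 1 - f x := by
    intro x
    have b1 := congrFun (Vote.P_add (S := D.S) (fun x => 1 - f x) f) x
    have b2 : (fun x => 1 - f x + f x) = fun _ : Γ => (1 : ℝ) := by
      funext x
      ring
    rw [b2, Vote.P_const H.gen] at b1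
    have b3 := hharm x
    simp only at b1
    linarith
  have hh := H.harnack (f := fun x => 1 - f x) (fun x => sub_nonneg.2 (hf1 x)) hsup
    (hz.symm H.gen)
  have b4 : D.c ^ M * (1 - f z) < D.c ^ M * (D.c / 2) := by
    linarith
  have b5 : 1 - f z < D.c / 2 := lt_of_mul_lt_mul_left b4 hcM.le
  have b6 := hle i z
  linarith

end Vale.Agent.P239
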