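import Vale.Agent.P239.BasY

/-! Parabolic points are not conical. -/

namespace Vale.Agent.P239

open scoped Pointwise symmDiff
open Filter Topology

variable {Γ : Type*} [Group Γ] {Z : Type*} [MetricSpace Z] [CompactSpace Z] [MulAction Γ Z]
  [ContinuousConstSMul Γ Z] {D : Dat Γ Z} {π : Z → ℝ}

namespace T3AXAux

omit [CompactSpace Z] in
theorem lim_mul {S : Finset Γ} {ι : Γ → Z} (hF : Frame S ι) {p : Γ} {ξ : Z}
    (hp : Tendsto (fun k : ℕ => ι (p ^ k)) atTop (𝓝 ξ)) (g : Γ) :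
    Tendsto (fun k : ℕ => ι (g * p ^ k)) atTop (𝓝 (g • ξ)) := by
  simp only [hF.eqv]
  exact hp.const_smul g

omit [CompactSpace Z] in
theorem trap {S : Finset Γ} {ι : Γ → Z} (hF : Frame S ι) {p g q : Γ} {ξ : Z} {ε : ℝ}
    (hε : 0 < ε) (hp : Tendsto (fun k : ℕ => ι (p ^ k)) atTop (𝓝 ξ)) (hq : q * g = g * p)
    (hcv : ∀ z : Z, dist (q • z) (ι q) ≤ ε ∨ dist z (ι q⁻¹) ≤ ε)
    (h1 : dist (ι (g * p)) (ι g) ≤ ε) (h2 : dist (g • ξ) (ι q⁻¹) ≤ ε) :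
    dist (ι g) (g • ξ) ≤ 10 * ε := by
  by_contra hn
  push Not at hn
  have h3 : ∀ z, dist z (ι g) ≤ 3 * ε → dist (q • z) (ι q) ≤ ε := by
    intro z hz
    refine (hcv z).resolve_right fun h => ?_
    have e1 := dist_triangle4 (ι g) z (ι q⁻¹) (g • ξ)
    rw [dist_comm (ι g) z, dist_comm (ι q⁻¹) (g • ξ)] at e1
    linarith
  have h4 : dist (ι q) (ι g) ≤ 2 * ε := by
    have e1 := h3 (ι g) (by rw [dist_self]; linarith)
    rw [← hF.eqv, hq] at e1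
    have e2 := dist_triangle_left (ι q) (ι g) (ι (g * p))
    linarith
  have h5 : ∀ k : ℕ, dist (ι (g * p ^ k)) (ι g) ≤ 3 * ε := by
    intro k
    induction k with
    | zero =>
      rw [pow_zero, mul_one, dist_self]
      linarith
    | succ k ih =>
      have e1 := h3 _ ih
      rw [← hF.eqv, ← mul_assoc, hq, mul_assoc, ← pow_succ'] at e1
      have e2 := dist_triangle (ι (g * p ^ (k + 1))) (ι q) (ι g)
      linarith
  have h6 := le_of_tendsto' ((lim_mul hF hp g).dist tendsto_const_nhds) h5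
  rw [dist_comm] at h6
  linarith

omit [CompactSpace Z] in
theorem lim_conj (H : D.OK) {p g q : Γ} {ξ : Z} (hp1 : p ≠ 1)
    (hp : Tendsto (fun k : ℕ => D.ι (p ^ k)) atTop (𝓝 ξ)) (hq : q = g * p * g⁻¹) :
    Tendsto (fun k : ℕ => D.ι (q ^ k)) atTop (𝓝 (g • ξ)) := by
  refine (lim_mul H.fr hp g).congr_dist ?_
  rw [Metric.tendsto_nhds]
  intro ε hε
  obtain ⟨K, hK, h⟩ := H.fr.slow_mul H.gen (Set.finite_singleton g⁻¹) (half_pos hε)
  have h1 : Tendsto (fun k : ℕ => g * p ^ k) atTop cofinite :=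
    (mul_right_injective g).tendsto_cofinite.comp (pow_tendsto H.tf hp1)
  filter_upwards [h1 hK.compl_mem_cofinite] with k hk
  have h2 := h _ hk g⁻¹ rfl
  rw [Real.dist_eq, sub_zero, abs_of_nonneg dist_nonneg, hq, conj_pow, dist_comm]
  linarith

omit [CompactSpace Z] in
theorem fiber (H : D.OK) {p : Γ} {ξ : Z} {ε : ℝ} (hε : 0 < ε) (hp1 : p ≠ 1)
    (hp : Tendsto (fun k : ℕ => D.ι (p ^ k)) atTop (𝓝 ξ))
    (hp' : Tendsto (fun k : ℕ => D.ι (p⁻¹ ^ k)) atTop (𝓝 ξ)) (q : Γ) :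
    {g : Γ | q = g * p * g⁻¹ ∧ 10 * ε < dist (D.ι g) (g • ξ)}.Finite := by
  rcases Set.eq_empty_or_nonempty
    {g : Γ | q = g * p * g⁻¹ ∧ 10 * ε < dist (D.ι g) (g • ξ)} with h | ⟨g0, hg0, -⟩
  · rw [h]
    exact Set.finite_empty
  obtain ⟨K, hK, hcv⟩ := H.fr.cv ε hε
  have hq1 : q ≠ 1 := by
    intro h
    rw [h, eq_comm, mul_inv_eq_one, mul_eq_left] at hg0
    exact hp1 hg0
  have a1 := lim_conj H hp1 hp hg0
  have a2 := lim_conj (q := q⁻¹) (g := g0) H (inv_ne_one.2 hp1) hp' (by rw [hg0]; group)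
  have a3 : ∀ᶠ k : ℕ in atTop, q ^ k ∉ K := pow_tendsto H.tf hq1 hK.compl_mem_cofinite
  obtain ⟨k, b1, b2, b3⟩ := ((Metric.tendsto_nhds.1 a1 ε hε).and
    ((Metric.tendsto_nhds.1 a2 ε hε).and a3)).exists
  obtain ⟨K2, hK2, h2⟩ := H.fr.slow_mul H.gen (Set.finite_singleton (p ^ k)) hε
  refine hK2.subset fun g hg => ?_
  by_contra hn
  obtain ⟨c1, c2⟩ := hg
  have c3 := h2 g hn _ rfl
  rw [tendsto_nhds_unique a1 (lim_conj H hp1 hp c1)] at b1 b2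
  rcases hcv _ b3 (D.ι g) with h | h
  · have e : q ^ k * g = g * p ^ k := by rw [c1, conj_pow, inv_mul_cancel_right]
    rw [← H.fr.eqv, e] at h
    have e1 := dist_triangle4 (D.ι g) (D.ι (g * p ^ k)) (D.ι (q ^ k)) (g • ξ)
    rw [dist_comm (D.ι g) (D.ι (g * p ^ k))] at e1
    linarith
  · rw [← inv_pow] at h
    have e1 := dist_triangle (D.ι g) (D.ι (q⁻¹ ^ k)) (g • ξ)
    linarith

end T3AXAux

open T3AXAux in
theorem t3a (H : D.OK) : D.T3A := by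
  intro p ξ hp1 hpξ hp hp' η hη
  obtain ⟨ε, hε, rfl⟩ : ∃ ε : ℝ, 0 < ε ∧ η = 10 * ε := ⟨η / 10, by linarith, by ring⟩
  obtain ⟨K, hK, hcv⟩ := H.fr.cv ε hε
  obtain ⟨K1, hK1, h1⟩ := H.fr.slow_mul H.gen (Set.toFinite {p, p⁻¹}) hε
  refine (hK1.union ((hK.union hK.inv).biUnion fun q _ => fiber H hε hp1 hp hp' q)).subset
    fun g hg => ?_
  by_contra hn
  simp only [Set.mem_union, Set.mem_iUnion, Set.mem_setOf_eq, Set.mem_inv, not_or, not_exists]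
    at hn hg
  have h2 : ¬ (g * p * g⁻¹ ∈ K ∨ (g * p * g⁻¹)⁻¹ ∈ K) := fun h => hn.2 _ h ⟨rfl, hg⟩
  rw [not_or] at h2
  have h3 : (g * p * g⁻¹) • g • ξ = g • ξ := by
    rw [← mul_smul, inv_mul_cancel_right, mul_smul, hpξ]
  refine absurd ?_ (not_le.2 hg)
  rcases hcv _ h2.1 (g • ξ) with h | h
  · rw [h3] at h
    exact trap H.fr hε hp' (q := (g * p * g⁻¹)⁻¹) (by group) (hcv _ h2.2)
      (h1 g hn.1 _ (by simp)) (by rwa [inv_inv])
  · exact trap H.fr hε hp (q := g * p * g⁻¹) (by group) (hcv _ h2.1) (h1 g hn.1 _ (by simp)) h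

end Vale.Agent.P239
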