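import Vale.Agent.P239.BasY

/-! Uniform localization of thick walls. -/

namespace Vale.Agent.P239

open scoped Pointwise symmDiff
open Filter Topology

variable {Γ : Type*} [Group Γ] {Z : Type*} [MetricSpace Z] [CompactSpace Z] [MulAction Γ Z]
  [ContinuousConstSMul Γ Z] {D : Dat Γ Z} {π : Z → ℝ}

namespace TWUXAux

omit [CompactSpace Z] [ContinuousConstSMul Γ Z] in
theorem key (H : D.OK) {Ω C C' : Set Γ} {δ : ℝ} {x : Γ} (hδ : 0 < δ) (h1 : Conn D.S Ω)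
    (h2 : ∀ y ∈ Ω, y ∉ tails D.S C') (h3 : (C' ∆ C).Finite) (h4 : 1 - δ / 2 ≤ D.h Ω x) :
    x ∉ D.Th δ C := by
  rintro ⟨h5, h6⟩
  have h7 := H.h_congr_fin h3 x
  rcases h1.const h2 with h | h
  · linarith [H.h_mono h x]
  · linarith [H.h_mono h x, H.h_compl C' x]

end TWUXAux

theorem twu (H : D.OK) : D.TWU := by
  intro ε δ hε hδ K₁ K hK₁ hK
  have hS := H.gen
  have e4 : 0 < ε / 4 := by linarith
  obtain ⟨K₀, f0, s0⟩ := H.fr.slow hS D.r e4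
  have f2 : ((⋃ k ∈ K ∪ K₁, {y | Near D.S D.r k y}) ∪ K₀).Finite :=
    ((hK.union hK₁).biUnion fun k _ => ball_finite _ k).union f0
  obtain ⟨K₃, f3, s3⟩ := H.ifc.fill_fin hS f2
  obtain ⟨K₄, f4, u4, s4⟩ := H.loc e4 (half_pos hδ) hK₁
  obtain ⟨K₅, f5, u5, s5⟩ := H.loc_nb e4 (half_pos hδ) (hK.union f3)
  refine ⟨K₄ ∪ K₅, f4.union f5, fun ξ C x₀ h1 h2 x hx => ?_⟩
  by_contra h3
  simp only [Set.mem_union, not_or] at h3
  obtain ⟨⟨n4, n5⟩, n6⟩ := h3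
  by_cases h4 : ε / 2 + ε / 4 ≤ dist (D.ι x) ξ
  · refine TWUXAux.key H hδ (C' := C) (cmp_conn _ _) (fun y hy h5 => ?_) (by simp)
      (s4 _ (Dat.lip_dist ξ) (ε / 2) x n4 h4) hx
    obtain ⟨h6, h7⟩ := cmp_subset _ _ hy
    rcases h1 h5 with h8 | h8
    · exact not_le.2 (show ε / 2 < dist (D.ι y) ξ from h6) h8
    · exact h7 h8
  have h5 : dist (D.ι x) ξ + ε / 4 ≤ ε := by linarith [not_le.1 h4]
  have h6 : x ∈ D.nb ξ ε \ K := ⟨show dist (D.ι x) ξ ≤ ε by linarith, fun h => n5 (u5 (Or.inl h))⟩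
  have h7 : {e : Γ × D.S | e ∈ cob D.S C ∧ e.1 ∈ cmp D.S (D.nb ξ ε \ K) x}.Finite := by
    refine (h2.prod Set.finite_univ).subset fun e he => ⟨⟨tail_mem he.1, fun h => n6 ?_⟩, trivial⟩
    rw [← cmp_eq_of_mem hS he.2 h]
    exact mem_cmp_self h6
  obtain ⟨F, f6, s6⟩ := s3 1 _ h7 fun y hy => by
    obtain ⟨⟨y₁, a1, a2, a3⟩, y₂, -, a4, a5⟩ := def_split hy
    by_contra h
    simp only [tr, inv_one, one_mul, Set.mem_ofPred_eq, Set.mem_union, Set.mem_iUnion, not_or,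
      not_exists] at h
    have a6 : ∀ z, Near D.S D.r y z → z ∉ K ∧ z ∉ K₁ := fun z hz =>
      ⟨fun c => h.1 z (Or.inl c) (hz.symm hS), fun c => h.1 z (Or.inr c) (hz.symm hS)⟩
    have a7 : dist (D.ι y₁) ξ ≤ ε / 2 := (h1 a1).resolve_right (a6 _ a3).2
    refine a4 ((conn_ball hS D.r y).sub_cmp hS (fun z hz => ?_) a3 a2 a5)
    refine ⟨?_, (a6 z hz).1⟩
    have a8 := s0 y h.2 z hz
    have a9 := s0 y h.2 y₁ a3
    have a10 := dist_triangle4 (D.ι z) (D.ι y) (D.ι y₁) ξ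
    rw [dist_comm (D.ι y)] at a10
    change dist (D.ι z) ξ ≤ ε
    linarith
  refine TWUXAux.key H hδ (C' := C ∆ F) (cmp_conn _ _) (fun z hz h8 => ?_)
    (by rwa [symmDiff_comm C F, symmDiff_symmDiff_cancel_right]) (s5 ξ ε x n5 h5) hx
  obtain ⟨s, h9⟩ := h8
  have h10 := s6 (z, s) (by
    simp only [tr, inv_one, one_mul, Set.mem_ofPred_eq]
    exact fun c => (cmp_subset _ _ hz).2 (Or.inr c))
  have h11 : z ∈ cmp D.S (D.nb ξ ε \ K) x :=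
    cmp_mono (Set.sdiff_subset_sdiff_right Set.subset_union_left) x hz
  simp only [cob, Set.mem_ofPred_eq, h11, and_true, Set.mem_symmDiff] at h9 h10
  tauto

end Vale.Agent.P239
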