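import Vale.Agent.P239.BasY

/-! Metric form of the transition lemma, and the limit lemma. -/

namespace Vale.Agent.P239

open scoped Pointwise symmDiff
open Filter Topology

variable {Γ : Type*} [Group Γ] {Z : Type*} [MetricSpace Z] [CompactSpace Z] [MulAction Γ Z]
  [ContinuousConstSMul Γ Z] {D : Dat Γ Z} {π : Z → ℝ}

theorem tdm (H : D.OK) (hπ : Coord D.S D.ι π) (h1 : D.TDX π) (h2 : D.TDX fun z => 1 - π z) :
    D.TDM := by
  intro ξ ε δ hε hδ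
  obtain ⟨F, lam, hl, hF⟩ := hπ.sep ε hε
  have hl3 : 0 < lam / 3 := by linarith
  obtain ⟨ε', hε', hu⟩ := unif_smul (Z := Z) F.finite_toSet hl3
  choose B1 hB1 hT1 using fun g : Γ =>
    h1 (π (g • ξ) + lam / 3) (lam / 3) δ (by linarith [(hπ.bd (g • ξ)).1]) hl3 hδ
  choose B2 hB2 hT2 using fun g : Γ =>
    h2 (1 - π (g • ξ) + lam / 3) (lam / 3) δ (by linarith [(hπ.bd (g • ξ)).2]) hl3 hδ
  refine ⟨ε', hε', ⋃ g ∈ (F : Set Γ), tr g⁻¹ (B1 g ∪ B2 g),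
    F.finite_toSet.biUnion fun g _ => tr_finite _ ((hB1 g).union (hB2 g)),
    fun C T hT hTn hfin x hx => ?_⟩
  by_cases hB : x ∈ ⋃ g ∈ (F : Set Γ), tr g⁻¹ (B1 g ∪ B2 g)
  · exact Or.inr hB
  refine Or.inl (hF _ _ fun g hg => ?_)
  have hxB : g * x ∉ B1 g ∪ B2 g := fun h =>
    hB (Set.mem_biUnion hg (by rw [mem_tr, inv_inv]; exact h))
  have hx' : g * x ∈ D.Th δ (tr g C) := by
    rw [Dat.mem_Th_tr, inv_mul_cancel_left]
    exact hx
  have hf : (tails D.S (tr g C) \ tr g T).Finite := by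
    rw [tails_tr]
    exact tr_finite g hfin
  have hc : ∀ y ∈ tr g T, |π (D.ι y) - π (g • ξ)| ≤ lam / 3 := fun y hy => by
    have h3 := hu g hg _ _ (hTn hy)
    rw [← H.fr.eqv, mul_inv_cancel_left] at h3
    exact (hπ.lip _ _).trans h3
  have h4 : ¬ π (g • ξ) + lam / 3 + lam / 3 ≤ π (D.ι (g * x)) := fun h =>
    hxB (Or.inl (hT1 g _ _ (hT.tr g) (fun y hy => by linarith [(abs_le.1 (hc y hy)).2]) hf _ hx' h))
  have h5 : ¬ 1 - π (g • ξ) + lam / 3 + lam / 3 ≤ 1 - π (D.ι (g * x)) := fun h =>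
    hxB (Or.inr (hT2 g _ _ (hT.tr g) (fun y hy => by
      change 1 - π (D.ι y) ≤ _
      linarith [(abs_le.1 (hc y hy)).1]) hf _ hx' h))
  rw [← H.fr.eqv, abs_le]
  constructor <;> linarith [not_le.1 h4, not_le.1 h5]

omit [CompactSpace Z] [ContinuousConstSMul Γ Z] in
theorem limP (H : D.OK) (h1 : D.NA) (h2 : D.TWU) (h3 : D.ZL) (h4 : D.TDM) : D.LIM := by
  intro 𝒰 C T ξ δ hδ hC hT
  have hc : 0 < D.c / 2 := half_pos H.c_pos
  obtain ⟨P, hP1, hP2, hP3⟩ := h3 𝒰 (fun n => vote D.V (C n)) ∅ ξ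
    (fun ε hε => by
      obtain ⟨ε', hε', B, hB, h⟩ := h4 ξ ε _ hε hc
      exact ⟨B, hB, (hT ε' hε' ∅ Set.finite_empty).mono fun n hn =>
        (H.tails_vote (C n)).trans
          (h (C n) (T n) (hC n).1 (hn.trans Set.sdiff_subset) (hC n).2.1)⟩)
    (fun ε hε K hK => by
      obtain ⟨K', hK', h⟩ := H.tc (2 * D.r) hε hK
      refine (hT (ε / 2) (half_pos hε) K' hK').mono fun n hn => ?_
      obtain ⟨x₀, hx⟩ := h ξ (T n) (hC n).1 hn
      obtain ⟨K'', hK'', h'⟩ := h2 ε _ hε hc _ K (hC n).2.1 hK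
      have h5 := h' ξ (C n) x₀
        (fun y hy => by
          by_cases hyT : y ∈ T n
          · exact Or.inl (hn hyT).1
          · exact Or.inr ⟨hy, hyT⟩)
        ((hC n).2.1.subset fun y hy => ⟨hy.1, fun hyT => hy.2 (hx hyT)⟩)
      refine ⟨x₀, hK''.subset fun y hy => ?_⟩
      rw [Set.empty_union] at hy
      exact (h5 (H.tails_vote (C n) hy.1)).resolve_right hy.2)
  rw [Set.empty_union] at hP2
  obtain ⟨ε, hε, hm⟩ := h1 (δ / 4) (by linarith)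
  obtain ⟨n, hn1, hn2⟩ :=
    ((hT (ε / 2) (half_pos hε) ∅ Set.finite_empty).and (hP3 (δ / 4) (by linarith))).exists
  have h6 : D.m (C n ∆ vote D.V (C n)) ≤ D.m (D.nb ξ ε) :=
    H.m_symm_vote (half_lt_self hε)
      ((hC n).2.1.subset fun y hy => ⟨hy.1, fun hyT => hy.2 (hn1 hyT).1⟩)
  have h7 := H.m_symmDiff_le (C n) (vote D.V (C n)) P
  have h8 := abs_le.1 (H.m_abs_sub (C n) P)
  have h9 := (hC n).2.2
  have h10 := hm ξ
  exact ⟨P, hP1, hP2, by linarith [h8.2, h9.1], by linarith [h8.1, h9.2]⟩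

end Vale.Agent.P239
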