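import Vale.Agent.P239.BasY

/-! A low wall has no far high transition points. -/

namespace Vale.Agent.P239

open scoped Pointwise symmDiff
open Filter Topology

variable {Γ : Type*} [Group Γ] {Z : Type*} [MetricSpace Z] [CompactSpace Z] [MulAction Γ Z]
  [ContinuousConstSMul Γ Z] {D : Dat Γ Z} {π : Z → ℝ}

namespace TdxXAux

theorem level {ι : Type*} {F : Set ι} (hF : F.Finite) (f : ι → ℝ) {a b l : ℝ} (hab : a < b)
    (hl : 0 < l) : ∃ τ ω : ℝ, a < τ ∧ τ < b ∧ 0 < ω ∧ ω ≤ l ∧ ∀ p ∈ F, 4 * ω < |τ - f p| := by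
  obtain ⟨τ, hτ, hτ'⟩ := (Set.Ioo_infinite hab).exists_notMem_finite (hF.image f)
  have h1 : ∀ᶠ ω in 𝓝 (0 : ℝ), ∀ p ∈ F, 4 * ω < |τ - f p| := by
    refine (eventually_all_finite hF).2 fun p hp => ?_
    have h2 : 0 < |τ - f p| := abs_pos.2 (sub_ne_zero.2 fun h => hτ' ⟨p, hp, h.symm⟩)
    filter_upwards [gt_mem_nhds (show (0 : ℝ) < |τ - f p| / 4 by positivity)] with ω hω
    linarith
  obtain ⟨ω, ⟨h2, h3⟩, h4⟩ :=
    (((h1.and (ge_mem_nhds hl)).filter_mono nhdsWithin_le_nhds).and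
      (self_mem_nhdsWithin (s := Set.Ioi (0 : ℝ)))).exists
  exact ⟨τ, ω, hτ.1, hτ.2, h4, h3, h2⟩

end TdxXAux

theorem tdx (H : D.OK) (hπ : Coord D.S D.ι π) (h1 : D.HF) (h2 : D.MAXP) (h3 : D.COL π)
    (h4 : D.X5 π) (h5 : D.X6a π) (h6 : D.X6b π) : D.TDX π := by
  intro t lam δ ht hlam hδ
  obtain ⟨l, rfl⟩ : ∃ l, lam = 10 * l := ⟨lam / 10, by ring⟩
  have hl : 0 < l := by linarith
  obtain ⟨δ1, θ, hδ1, hδ1', hθ, B1, hB1, R, hR1, hR2⟩ := h3 t l ht hl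
  obtain ⟨F, hF, -, hF2⟩ := h1 δ1 hδ1
  obtain ⟨τ, ω, t1, t2, w0, w1, w2⟩ := TdxXAux.level hF (fun p => π p.2)
    (show t + 6 * l < t + 8 * l by linarith) (show 0 < l / 4 by positivity)
  obtain ⟨Rm, hRm⟩ := h2
  by_contra hcon
  push Not at hcon
  have key : ∀ n : ℕ, ∃ (C T : Set Γ) (x : Γ), CConn D.S (2 * D.r) T ∧
      (∀ y ∈ T, π (D.ι y) ≤ t) ∧ (tails D.S C \ T).Finite ∧ D.Adm π t C ∧
      x ∈ D.Iset π (D.Hang π (t + l) δ1) θ (t + 2 * l) C ∧ x ∉ (D.S : Set Γ) ^ n ∧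
      |π (D.ι x) - τ| ≤ 3 * ω ∧
      ∀ j ≤ n, ∀ y ∈ D.Iset π (D.Hang π (t + l) δ1) θ (t + 2 * l) C, ¬ Near D.S (Rm j) x y →
        dist (D.ι (x⁻¹ * y)) (D.ι x⁻¹) ≤ 1 / ((j : ℝ) + 1) := by
    intro n
    obtain ⟨K2, hK2, a2⟩ := hRm n ω w0 _ (pow_finite D.S n)
    obtain ⟨K3, hK3, a3⟩ := hR2 ω w0 K2 hK2
    obtain ⟨B, hB, a4⟩ := h4 ω δ w0 hδ (K3 ∪ B1) (hK3.union hB1)
    obtain ⟨C, T, c1, c2, c3, x0, c4, c5, c6⟩ := hcon B hB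
    have adm : D.Adm π t C := c3.subset fun y hy => ⟨hy.1, fun h => hy.2 (c2 y h)⟩
    obtain ⟨b1, b2⟩ := hR1 C adm
    have hz : ∃ z ∈ tails D.S (R C), |π (D.ι z) - τ| ≤ ω ∧ z ∉ K3 ∪ B1 := by
      by_contra hz
      push Not at hz
      refine c6 (a4 τ (R C) C (b1.subset fun y hy => ⟨?_, hy.2⟩)
        (Set.Finite.subset adm fun y hy => ⟨hy.1, fun h => hy.2 ?_⟩) hz x0 c4 (by linarith))
      · linarith [hy.1]
      · have h' : π (D.ι y) ≤ t := h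
        show π (D.ι y) ≤ τ - ω
        linarith
    obtain ⟨z, z1, z2, z3⟩ := hz
    have z4 := abs_le.1 z2
    obtain ⟨y, y1, y2, y3⟩ := a3 C adm 1 z z1 (by linarith [z4.1]) (fun h => z3 (Or.inr h))
      (by simpa using fun h => z3 (Or.inl h))
    simp only [inv_one, one_mul] at y2 y3
    obtain ⟨x, x1, x2, x3, x4⟩ := a2 _ b2 y y1 y2
    refine ⟨C, T, x, c1, c2, c3, adm, x1, x2, ?_, x4⟩
    have e1 := abs_le.1 ((hπ.lip _ _).trans x3)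
    have e2 := abs_le.1 ((hπ.lip _ _).trans y3)
    rw [abs_le]
    constructor <;> linarith [e1.1, e1.2, e2.1, e2.2, z4.1, z4.2]
  choose C T x k1 k2 k3 k4 k5 k6 k7 k8 using key
  obtain ⟨K, hK, a6⟩ := h6 (t + l) δ1 θ ω hδ1 hδ1' hθ w0
  have hx : Tendsto x atTop cofinite := by
    intro s hs
    obtain ⟨n0, hn0⟩ := H.gen.finite_sub_ball (mem_cofinite.1 hs) 1
    rw [mem_map]
    filter_upwards [eventually_ge_atTop n0] with n hn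
    by_contra h
    exact k6 n (H.gen.pow_mono hn (near_one_iff.1 (hn0 _ h)))
  obtain ⟨n, P, ζ, p1, p2, p3⟩ := h5 t l θ B1 Rm C T (fun n => R (C n))
    (fun n => D.Iset π (D.Hang π (t + l) δ1) θ (t + 2 * l) (C n)) x hl hθ hB1
    (fun n => ⟨k1 n, k2 n, k3 n, (hR1 _ (k4 n)).1,
      ⟨(k5 n).2.1.1, by have := (k5 n).2.2.1; rw [H.h_compl] at this; linarith⟩,
      by linarith [(abs_le.1 (k7 n)).1], k8 n⟩) hx
    (fun ε hε K hK => by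
      obtain ⟨K', hK', a⟩ := hR2 ε hε K hK
      exact ⟨K', hK', fun n => a (C n) (k4 n) (x n)⟩) (θ / 2) (by positivity) K hK
  have e := abs_le.1 (k7 n)
  refine a6 (C n) P (x n) ζ p2 p1 p3 (k5 n).2.1 (k5 n).2.2 (by linarith [e.1]) ?_
  intro Q ξ q1 q2 q3
  obtain ⟨p, hp, -, rfl⟩ := hF2 Q ξ q1 q2 q3
  have e1 := w2 p hp
  have e2 := abs_sub_le τ (π (D.ι (x n))) (π p.2)
  rw [abs_sub_comm τ (π (D.ι (x n)))] at e2
  linarith [k7 n]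

end Vale.Agent.P239
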