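import Vale.Agent.P239.BasY

/-! The final contradiction. -/

namespace Vale.Agent.P239

open scoped Pointwise symmDiff
open Filter Topology

variable {Γ : Type*} [Group Γ] {Z : Type*} [MetricSpace Z] [CompactSpace Z] [MulAction Γ Z]
  [ContinuousConstSMul Γ Z] {D : Dat Γ Z} {π : Z → ℝ}

namespace TopXAux

omit [CompactSpace Z] [ContinuousConstSMul Γ Z] in
/-- The set of cut points is countable. -/
theorem cut_countable (h1 : D.HF) : {ξ : Z | ∃ Q, D.Cut Q ξ}.Countable := by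
  have hpos : ∀ n : ℕ, (0 : ℝ) < 1 / ((n : ℝ) + 1) := fun n => Nat.one_div_pos_of_nat
  choose R hR _ hR2 using fun n : ℕ => h1 _ (hpos n)
  refine (Set.countable_iUnion fun n => ((hR n).image Prod.snd).countable).mono ?_
  rintro ξ ⟨Q, hQ⟩
  have h0 : 0 < min (D.m Q) (1 - D.m Q) := lt_min hQ.2.2.1 (by linarith [hQ.2.2.2])
  obtain ⟨n, hn⟩ := exists_nat_one_div_lt h0
  have ha := (lt_min_iff.1 hn).1
  have hb := (lt_min_iff.1 hn).2
  obtain ⟨p, hp, _, h3⟩ := hR2 n Q ξ hQ ha.le (by linarith)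
  exact Set.mem_iUnion.2 ⟨n, p, hp, h3.symm⟩

omit [CompactSpace Z] [ContinuousConstSMul Γ Z] in
/-- A heavy high region not split by low walls. -/
theorem side (H : D.OK) (hπ : Coord D.S D.ι π) (h4 : D.TDX π) :
    ∃ Op : Set Γ, 0 < D.m Op ∧ (∀ y ∈ Op, 3 / 4 < π (D.ι y)) ∧ ∀ T C : Set Γ,
      CConn D.S (2 * D.r) T → (∀ y ∈ T, π (D.ι y) ≤ 2 / 3) → (tails D.S C \ T).Finite →
      (Op ∩ C).Finite ∨ (Op \ C).Finite := by
  obtain ⟨B, hB, hB2⟩ := h4 (2 / 3) (1 / 12) (D.c / 2) (by norm_num) (by norm_num)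
    (half_pos H.c_pos)
  have hl : D.Lip fun y => π (D.ι y) := Dat.lip_coord hπ
  have hi : {x | (3 / 4 : ℝ) + 1 / 4 ≤ π (D.ι x)}.Infinite := by
    refine hπ.mono.i1.mono fun x hx => ?_
    have hx' : π (D.ι x) = 1 := hx
    show (3 / 4 : ℝ) + 1 / 4 ≤ π (D.ι x)
    rw [hx']; norm_num
  obtain ⟨x₀, hx₀⟩ := H.pos_of_level hl (by norm_num : (0 : ℝ) < 1 / 4) hi hB
  have hsub := cmp_subset (S := D.S) ({y | (3 / 4 : ℝ) < π (D.ι y)} \ B) x₀
  refine ⟨_, hx₀, fun y hy => (hsub hy).1, fun T C hT hT2 hC => ?_⟩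
  have h5 : ∀ x ∈ cmp D.S ({y | (3 / 4 : ℝ) < π (D.ι y)} \ B) x₀,
      x ∉ tails D.S (vote D.V C) := by
    intro x hx hx2
    have h6 : (3 / 4 : ℝ) < π (D.ι x) := (hsub hx).1
    exact (hsub hx).2 (hB2 C T hT hT2 hC x (H.tails_vote C hx2) (by linarith))
  have h7 : (tails D.S C ∩ {y | (2 / 3 : ℝ) < π (D.ι y)}).Finite := by
    refine hC.subset fun x hx => ⟨hx.1, fun hxT => ?_⟩
    have h8 : (2 / 3 : ℝ) < π (D.ι x) := hx.2
    linarith [hT2 x hxT]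
  have h8 := H.vq_vote hl (by norm_num : (0 : ℝ) < 1 / 12) h7
  rcases (cmp_conn _ _).const h5 with h9 | h9
  · refine Or.inr (h8.subset fun x hx => ⟨?_, Or.inr ⟨h9 hx.1, hx.2⟩⟩)
    have h6 : (3 / 4 : ℝ) < π (D.ι x) := (hsub hx.1).1
    linarith
  · refine Or.inl (h8.subset fun x hx => ⟨?_, Or.inl ⟨hx.2, h9 hx.1⟩⟩)
    have h6 : (3 / 4 : ℝ) < π (D.ι x) := (hsub hx.1).1
    linarith

omit [CompactSpace Z] [ContinuousConstSMul Γ Z] in
/-- Far wall points of a level set have level close to the threshold. -/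
theorem near_level (H : D.OK) (hπ : Coord D.S D.ι π) (t : ℝ) {ε : ℝ} (hε : 0 < ε) :
    ∃ K : Set Γ, K.Finite ∧ ∀ x ∈ tails D.S {y | t < π (D.ι y)}, x ∉ K →
      |π (D.ι x) - t| ≤ ε := by
  obtain ⟨K, hK, h⟩ := H.fr.slow H.gen 1 hε
  refine ⟨K, hK, fun x hx hxK => ?_⟩
  obtain ⟨s, hs, h2⟩ := mem_tails.1 hx
  have h3 := (hπ.lip _ _).trans (h x hxK _ (near_step x hs))
  have h4 := abs_le.1 h3
  simp only [Set.mem_ofPred_eq] at h2
  rw [abs_le]
  by_cases h5 : t < π (D.ι x)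
  · have h6 : ¬ t < π (D.ι (x * s)) := fun h => h2 ⟨fun _ => h, fun _ => h5⟩
    constructor <;> linarith [not_lt.1 h6]
  · have h6 : t < π (D.ι (x * s)) := by
      by_contra h6
      exact h2 ⟨fun h => absurd h h5, fun h => absurd h h6⟩
    constructor <;> linarith [not_lt.1 h5]

omit [CompactSpace Z] [ContinuousConstSMul Γ Z] in
/-- Far coarse pieces of a good wall have small diameter. -/
theorem small_diam (H : D.OK) (hπ : Coord D.S D.ι π) {w : ℕ} {t : ℝ}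
    (hg : Good D.S w (fun y => π (D.ι y)) t) {ε : ℝ} (hε : 0 < ε) :
    ∃ K : Set Γ, K.Finite ∧ ∀ T : Set Γ, T ⊆ tails D.S {y | t < π (D.ι y)} \ K →
      CConn D.S w T → ∀ x ∈ T, ∀ y ∈ T, dist (D.ι x) (D.ι y) ≤ ε := by
  obtain ⟨F, lam, hlam, hF⟩ := hπ.sep ε hε
  choose K hK hK2 using fun g => hg g lam hlam
  refine ⟨⋃ g ∈ (F : Set Γ), K g, F.finite_toSet.biUnion fun g _ => hK g,
    fun T hT hc x hx y hy => hF _ _ fun g hgF => ?_⟩
  have := hK2 g T (fun z hz => ⟨fun h => (hT hz).2 (Set.mem_biUnion (Finset.mem_coe.2 hgF) h),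
    (hT hz).1⟩) hc x hx y hy
  simpa only [H.fr.eqv] using this

end TopXAux

open TopXAux in
theorem top (H : D.OK) (hπ : Coord D.S D.ι π) (h1 : D.HF) (h2 : ESS D.S D.r) (h3 : GoodProp D.S)
    (h4 : D.TDX π) (h5 : D.TDX fun z => 1 - π z) (h6 : D.LIM) : False := by
  haveI : Countable Γ := H.gen.countable
  have hE : (Set.range (fun y => π (D.ι y)) ∪ π '' {ξ : Z | ∃ Q, D.Cut Q ξ}).Countable :=
    (Set.countable_range _).union ((cut_countable h1).image π)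
  obtain ⟨t, ht, htE, hg⟩ := h3 (2 * D.r) _ hπ.mono.en _ hE (5 / 12) (7 / 12) (by norm_num)
  have hA : {y | t < π (D.ι y)}ᶜ = {y | π (D.ι y) < t} := by
    ext y
    simp only [Set.mem_compl_iff, Set.mem_ofPred_eq, not_lt]
    exact ⟨fun h => lt_of_le_of_ne h fun h' => htE (Or.inl ⟨y, h'⟩), le_of_lt⟩
  have hwc : CConn D.S (2 * D.r) (tails D.S {y | t < π (D.ι y)}) :=
    H.ifc.wc H.gen (hπ.mono.up t) (hA ▸ hπ.mono.dn t)
  obtain ⟨Op, hp0, hp1, hp2⟩ := side H hπ h4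
  obtain ⟨Om, hm0, hm1, hm2⟩ := side H hπ.flip h5
  obtain ⟨K₀, hK₀, hK₀2⟩ := near_level H hπ t (by norm_num : (0 : ℝ) < 1 / 12)
  have hinf : ∀ X : Set Γ, 0 < D.m X → X.Infinite := fun X hX hf => by
    rw [H.mean.fin X hf] at hX; exact lt_irrefl _ hX
  have hex : ∀ k : ℕ, ∃ T C : Set Γ,
      T ⊆ tails D.S {y | t < π (D.ι y)} \ ((D.S : Set Γ) ^ k ∪ K₀) ∧ CConn D.S (2 * D.r) T ∧
      (tails D.S C \ T).Finite ∧ (Op \ C).Finite ∧ (Om ∩ C).Finite := by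
    intro k
    refine h2 _ Op Om _ hwc (hinf _ hp0) (hinf _ hm0) (fun y hy => ?_) (fun y hy hy2 => ?_)
      ((pow_finite D.S k).union hK₀) fun T C hT hc hC => ?_
    · have := hp1 y hy
      show t < π (D.ι y)
      linarith [ht.2]
    · have h7 : (3 / 4 : ℝ) < 1 - π (D.ι y) := hm1 y hy
      have h8 : t < π (D.ι y) := hy2
      linarith [ht.1]
    · have h7 : ∀ y ∈ T, |π (D.ι y) - t| ≤ 1 / 12 := fun y hy =>
        hK₀2 y (hT hy).1 fun h => (hT hy).2 (Or.inr h)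
      refine ⟨hp2 T C hc (fun y hy => ?_) hC, hm2 T C hc (fun y hy => ?_) hC⟩
      · linarith [(abs_le.1 (h7 y hy)).2, ht.2]
      · show 1 - π (D.ι y) ≤ 2 / 3
        linarith [(abs_le.1 (h7 y hy)).1, ht.1]
  choose T C hT hTc hC hCp hCm using hex
  have hδ : 0 < min (D.m Op) (D.m Om) := lt_min hp0 hm0
  have hlo : ∀ k, min (D.m Op) (D.m Om) ≤ D.m (C k) := fun k =>
    (min_le_left _ _).trans (H.m_mono_fin (hCp k))
  have hhi : ∀ k, D.m (C k) ≤ 1 - min (D.m Op) (D.m Om) := fun k => by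
    have h7 : D.m Om ≤ D.m (C k)ᶜ :=
      H.m_mono_fin ((hCm k).subset fun x hx => ⟨hx.1, not_not.1 hx.2⟩)
    rw [H.m_compl] at h7
    linarith [min_le_right (D.m Op) (D.m Om)]
  have hne : ∀ k, (T k).Nonempty := fun k => by
    by_contra h7
    have h8 : (tails D.S (C k)).Finite := by
      have := hC k
      rwa [Set.not_nonempty_iff_eq_empty.1 h7, Set.sdiff_empty] at this
    rcases H.ifc.fin_or h8 with h9 | h9
    · linarith [hlo k, H.mean.fin _ h9]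
    · have := H.mean.fin _ h9
      rw [H.m_compl] at this
      linarith [hhi k]
  choose y hy using hne
  obtain ⟨ξ, -, hξ⟩ := isCompact_univ.ultrafilter_le_nhds
    ((hyperfilter ℕ).map fun k => D.ι (y k)) (by simp)
  have hξ' : ∀ ε : ℝ, 0 < ε → ∀ᶠ k in (hyperfilter ℕ : Filter ℕ), dist (D.ι (y k)) ξ < ε :=
    fun ε hε => hξ (Metric.ball_mem_nhds ξ hε)
  have hfar : ∀ K : Set Γ, K.Finite → ∀ᶠ k in (hyperfilter ℕ : Filter ℕ), ∀ x ∈ T k, x ∉ K := by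
    intro K hK
    obtain ⟨n, hn⟩ := H.gen.finite_sub_ball hK 1
    refine (eventually_ge_atTop n).filter_mono Nat.hyperfilter_le_atTop |>.mono
      fun k hk x hx hxK => ?_
    exact (hT k hx).2 (Or.inl (H.gen.pow_mono hk (near_one_iff.1 (hn x hxK))))
  obtain ⟨Q, hQ⟩ := h6 (hyperfilter ℕ) C T ξ _ hδ (fun k => ⟨hTc k, hC k, hlo k, hhi k⟩)
    (fun ε hε K hK => by
      obtain ⟨K', hK', h7⟩ := small_diam H hπ hg (half_pos hε)
      filter_upwards [hξ' _ (half_pos hε), hfar K hK, hfar K' hK'] with k h8 h9 h10 x hx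
      refine ⟨?_, h9 x hx⟩
      have h11 := h7 (T k) (fun z hz => ⟨(hT k hz).1, h10 z hz⟩) (hTc k) x hx (y k) (hy k)
      show dist (D.ι x) ξ ≤ ε
      linarith [dist_triangle (D.ι x) (D.ι (y k)) ξ])
  refine htE (Or.inr ⟨ξ, ⟨Q, hQ⟩, ?_⟩)
  refine eq_of_forall_dist_le fun ε hε => ?_
  obtain ⟨K, hK, h7⟩ := near_level H hπ t (half_pos hε)
  obtain ⟨k, h8, h9⟩ := ((hξ' _ (half_pos hε)).and (hfar K hK)).exists
  have h10 := abs_le.1 (h7 (y k) (hT k (hy k)).1 (h9 _ (hy k)))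
  have h11 := abs_le.1 (hπ.lip (D.ι (y k)) ξ)
  rw [Real.dist_eq, abs_le]
  constructor <;> linarith [h10.1, h10.2, h11.1, h11.2]

end Vale.Agent.P239
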