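import Vale.Agent.P239.BasY

/-! Thick walls of cuts are uniformly close to the cut point. -/

namespace Vale.Agent.P239

open scoped Pointwise symmDiff
open Filter Topology

variable {Γ : Type*} [Group Γ] {Z : Type*} [MetricSpace Z] [CompactSpace Z] [MulAction Γ Z]
  [ContinuousConstSMul Γ Z] {D : Dat Γ Z} {π : Z → ℝ}

namespace UHXAux

theorem thick (H : D.OK) (h1 : D.HF) {δ : ℝ} (hδ : 0 < δ) :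
    ∃ Ξ : Set Z, Ξ.Finite ∧ (∀ ζ ∈ Ξ, ∃ P, D.Cut P ζ) ∧
      ∀ Q ξ, D.Cut Q ξ → ∀ x ∈ D.Th δ Q, x⁻¹ • ξ ∈ Ξ := by
  obtain ⟨R, hR, hc, hR'⟩ := h1 δ hδ
  refine ⟨Prod.snd '' R, hR.image _, ?_, fun Q ξ hQ x hx => ?_⟩
  · rintro _ ⟨p, hp, rfl⟩
    exact ⟨p.1, hc p hp⟩
  · obtain ⟨p, hp, -, e⟩ := hR' _ _ (H.cut_tr hQ x⁻¹) (by rw [Dat.m_tr_inv]; exact hx.1)
      (by rw [Dat.m_tr_inv]; exact hx.2)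
    exact ⟨p, hp, e.symm⟩

theorem nc (H : D.OK) (h1 : D.HF) (h2 : D.T3A) (h3 : D.LOX) (h4 : D.LINE) {Q : Set Γ} {ξ : Z}
    (hQ : D.Cut Q ξ) : D.NC ξ := by
  obtain ⟨Ξ, hΞ, -, hx⟩ := thick H h1 (half_pos H.c_pos)
  have hm : ∀ t ∈ tails D.S Q, t⁻¹ • ξ ∈ Ξ := fun t ht => hx Q ξ hQ t (H.cut_tails_Th hQ ht)
  obtain ⟨t, -, t', -, hne, e⟩ :=
    (H.cut_tails_infinite hQ).exists_ne_map_eq_of_mapsTo (f := fun t : Γ => t⁻¹ • ξ) hm hΞ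
  have hp : t' * t⁻¹ ≠ 1 := fun h => hne (mul_inv_eq_one.1 h).symm
  have hfix : (t' * t⁻¹) • ξ = ξ := by
    have e' : t⁻¹ • ξ = t'⁻¹ • ξ := e
    rw [mul_smul, e', smul_inv_smul]
  by_cases hpar : Tendsto (fun k : ℕ => D.ι ((t' * t⁻¹) ^ k)) atTop (𝓝 ξ) ∧
      Tendsto (fun k : ℕ => D.ι ((t' * t⁻¹)⁻¹ ^ k)) atTop (𝓝 ξ)
  · exact h2 _ ξ hp hfix hpar.1 hpar.2
  · obtain ⟨g, hg, hgt, hΦ⟩ := h3 _ ξ hp hfix hpar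
    obtain ⟨ε, hε, Φ, hΦf, hΦ'⟩ := hΦ Ξ hΞ
    refine (h4 Q ξ g (Φ ∪ (tails D.S Q \ D.nb ξ ε)) hQ hg hgt (hΦf.union (hQ.2.1.out hε))
      fun s hs => ?_).elim
    by_cases hn : s ∈ D.nb ξ ε
    · obtain ⟨n, φ, hφ, e'⟩ := hΦ' s (hm s hs) hn
      exact ⟨n, φ, Or.inl hφ, e'⟩
    · exact ⟨0, s, Or.inr ⟨hs, hn⟩, by rw [pow_zero, one_mul]⟩

end UHXAux

theorem uh (H : D.OK) (h1 : D.HF) (h2 : D.T3A) (h3 : D.LOX) (h4 : D.LINE) : D.UH := by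
  intro δ ε hδ hε
  obtain ⟨Ξ, hΞ, hc, hx⟩ := UHXAux.thick H h1 hδ
  refine ⟨⋃ ζ ∈ Ξ, {g : Γ | ε < dist (D.ι g) (g • ζ)}, hΞ.biUnion fun ζ hζ => ?_,
    fun Q ξ hQ x hxt => ?_⟩
  · obtain ⟨P, hP⟩ := hc ζ hζ
    exact UHXAux.nc H h1 h2 h3 h4 hP ε hε
  · by_cases hn : x ∈ D.nb ξ ε
    · exact Or.inl hn
    · refine Or.inr (Set.mem_biUnion (hx Q ξ hQ x hxt) ?_)
      show ε < dist (D.ι x) (x • x⁻¹ • ξ)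
      rw [smul_inv_smul]
      exact not_le.1 hn

end Vale.Agent.P239
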