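import Vale.Agent.P239.BasY

/-! Properties of tame sets. -/

namespace Vale.Agent.P239

open scoped Pointwise symmDiff
open Filter Topology

variable {Γ : Type*} [Group Γ] {Z : Type*} [MetricSpace Z] [CompactSpace Z] [MulAction Γ Z]
  [ContinuousConstSMul Γ Z] {D : Dat Γ Z} {π : Z → ℝ}

namespace VTXAux

omit [Group Γ] [CompactSpace Z] [MulAction Γ Z] [ContinuousConstSMul Γ Z] in
theorem null_of (h1 : D.NA) {ξ : Z} {a : ℝ} (h0 : 0 ≤ a)
    (h : ∀ ε : ℝ, 0 < ε → a ≤ D.m (D.nb ξ ε)) : a = 0 := by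
  refine le_antisymm (le_of_forall_pos_le_add fun η hη => ?_) h0
  obtain ⟨ε, hε, h2⟩ := h1 η hη
  rw [zero_add]
  exact (h ε hε).trans (h2 ξ)

omit [CompactSpace Z] [MulAction Γ Z] [ContinuousConstSMul Γ Z] in
theorem thick (h2 : D.TWU) {T C : Set Γ} {ξ : Z} (h : D.Conv (T ∪ tails D.S C) ξ)
    (hout : ∀ ε : ℝ, 0 < ε → (tails D.S C \ D.nb ξ ε).Finite) {δ : ℝ} (hδ : 0 < δ) :
    D.Conv (T ∪ tails D.S C ∪ D.Th δ C) ξ := by
  intro ε hε K hK
  obtain ⟨x₀, hx⟩ := h ε hε K hK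
  obtain ⟨K', hK', h3⟩ := h2 ε δ hε hδ _ K (hout (ε / 2) (by positivity)) hK
  have h4 := h3 ξ C x₀ (fun y hy => by
    by_cases hb : y ∈ D.nb ξ (ε / 2)
    · exact Or.inl hb
    · exact Or.inr ⟨hy, hb⟩) (hx.subset fun y hy => ⟨Or.inr hy.1, hy.2⟩)
  refine ⟨x₀, (hx.union hK').subset ?_⟩
  rintro y ⟨hy | hy, hn⟩
  · exact Or.inl ⟨hy, hn⟩
  · exact Or.inr ((h4 hy).resolve_right hn)

end VTXAux

theorem vt (H : D.OK) (h1 : D.NA) (h2 : D.TWU) : D.VT := by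
  intro T C ξ h
  have hout : ∀ ε : ℝ, 0 < ε → (tails D.S C \ D.nb ξ ε).Finite :=
    fun ε hε => (h.subset Set.subset_union_right).out hε
  have h3 : ∀ δ : ℝ, 0 < δ → D.Conv (T ∪ tails D.S C ∪ D.Th δ C) ξ :=
    fun δ hδ => VTXAux.thick h2 h hout hδ
  refine ⟨(h3 (D.c / 2) (half_pos H.c_pos)).subset ?_, ?_, h3, fun δ hδ => ?_⟩
  · rintro y (hy | hy)
    · exact Or.inl (Or.inl hy)
    · exact Or.inr (H.tails_vote C hy)
  · exact VTXAux.null_of h1 (ξ := ξ) (H.mean.nonneg _) fun ε hε =>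
      H.m_symm_vote (half_lt_self hε) (hout _ (half_pos hε))
  · refine VTXAux.null_of h1 (ξ := ξ) (H.mean.nonneg _) fun ε hε => H.m_mono_fin ?_
    have hv := H.vq (Dat.lip_dist (D := D) ξ) (a := ε / 2) (half_pos hε) hδ (C := Cᶜ) (by
      rw [tails_compl]
      exact (hout _ (half_pos hε)).subset fun y hy => ⟨hy.1, fun hb =>
        absurd (show dist (D.ι y) ξ ≤ ε / 2 from hb) (not_le.2 hy.2)⟩)
    refine hv.subset fun y hy => ⟨?_, hy.1.1, ?_⟩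
    · have : ¬ dist (D.ι y) ξ ≤ ε := hy.2
      linarith [not_le.1 this]
    · rw [H.h_compl]
      linarith [hy.1.2]

end Vale.Agent.P239
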