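import Vale.Agent.P239.BasY

/-! Thick points of atoms are joined to infinity inside the thick wall. -/

namespace Vale.Agent.P239

open scoped Pointwise symmDiff
open Filter Topology

namespace WGXAux

variable {Γ : Type*} [Group Γ] {Z : Type*} [MetricSpace Z] [MulAction Γ Z] {D : Dat Γ Z}

/-- The wall of the superlevel set of the harmonic function of `A`. -/
def TA (D : Dat Γ Z) (τ : ℝ) (A : Set Γ) : Set Γ := tails D.S {x | τ < D.h A x}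

theorem exists_tau (H : D.OK) (h2 : D.AF) :
    ∃ τ : ℝ, 1 / 4 < τ ∧ τ < 3 / 4 ∧ ∀ A ξ, D.Atom A ξ → ∀ x, D.h A x ≠ τ := by
  have hΓ : Countable Γ := H.gen.countable
  have h1 : {A | ∃ ξ, D.Atom A ξ}.Countable := by
    refine (Set.countable_iUnion fun n : ℕ =>
      (h2 (1 / ((n : ℝ) + 1)) Nat.one_div_pos_of_nat).countable).mono ?_
    rintro A ⟨ξ, hA⟩
    have a1 := hA.1.2.2.1
    have a2 := hA.1.2.2.2
    obtain ⟨n, hn⟩ := exists_nat_one_div_lt (K := ℝ) (lt_min a1 (sub_pos.2 a2))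
    refine Set.mem_iUnion.2 ⟨n, ⟨ξ, hA⟩, ?_, ?_⟩
    · exact (hn.trans_le (min_le_left _ _)).le
    · linarith [hn.trans_le (min_le_right _ _)]
  have h3 : (⋃ A ∈ {A | ∃ ξ, D.Atom A ξ}, Set.range (D.h A)).Countable :=
    h1.biUnion fun A _ => Set.countable_range _
  obtain ⟨τ, h4, h5⟩ := (h3.dense_compl ℝ).exists_mem_open (isOpen_Ioo (a := (1 / 4 : ℝ))
    (b := 3 / 4)) (Set.nonempty_Ioo.2 (by norm_num))
  refine ⟨τ, h5.1, h5.2, fun A ξ hA x hx => h4 ?_⟩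
  exact Set.mem_biUnion (t := fun A => Set.range (D.h A)) ⟨ξ, hA⟩ ⟨x, hx⟩

theorem TA_sub (H : D.OK) {τ : ℝ} (h1 : 1 / 4 < τ) (h2 : τ < 3 / 4) (A : Set Γ) :
    TA D τ A ⊆ D.Th (D.c / 4) A := by
  intro x hx
  obtain ⟨s, hs, h⟩ := mem_tails.1 hx
  have hc := H.c_pos
  have hc1 := H.c_le_one
  have a1 := H.harnack_h A (near_step x hs)
  have a2 := H.harnack_h Aᶜ (near_step x hs)
  rw [H.h_compl, H.h_compl] at a2
  rw [pow_one] at a1 a2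
  simp only [Set.mem_ofPred_eq] at h
  by_cases h3 : τ < D.h A x
  · have h4 : D.h A (x * s) ≤ τ := not_lt.1 fun h5 => h ⟨fun _ => h5, fun _ => h3⟩
    refine ⟨by linarith, ?_⟩
    nlinarith [mul_le_mul_of_nonneg_left (show (1 : ℝ) / 4 ≤ 1 - D.h A (x * s) by linarith) hc.le]
  · have h4 : τ < D.h A (x * s) := by
      by_contra h5
      exact h ⟨fun h6 => absurd h6 h3, fun h6 => absurd h6 h5⟩
    refine ⟨?_, by linarith [not_lt.1 h3]⟩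
    nlinarith [mul_le_mul_of_nonneg_left (show (1 : ℝ) / 4 ≤ D.h A (x * s) by linarith) hc.le]

omit [MetricSpace Z] [MulAction Γ Z] in
theorem TA_tr (τ : ℝ) (g : Γ) (A : Set Γ) : TA D τ (tr g A) = tr g (TA D τ A) := by
  unfold TA
  rw [← tails_tr]
  congr 1
  ext x
  simp only [Set.mem_ofPred_eq, mem_tr, Dat.h, mul_assoc]

theorem exists_low (H : D.OK) (h1 : D.VT) {A : Set Γ} {ξ : Z} (hA : D.Cut A ξ) :
    ∃ x, D.h A x ≤ 1 / 4 := by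
  by_contra hc
  push Not at hc
  have h2 := (h1 ∅ A ξ (by simpa using hA.2.1)).2.2.2 (1 / 4) (by norm_num)
  have h3 : {x | x ∉ A ∧ 1 / 4 < D.h A x} = Aᶜ := by
    ext x
    exact ⟨fun h => h.1, fun h => ⟨h, hc x⟩⟩
  rw [h3, H.m_compl] at h2
  linarith [hA.2.2.2]

theorem TA_nonempty (H : D.OK) (h1 : D.VT) {τ : ℝ} (h2 : 1 / 4 < τ) (h3 : τ < 3 / 4)
    {A : Set Γ} {ξ : Z} (hA : D.Cut A ξ) : (TA D τ A).Nonempty := by
  obtain ⟨x, hx⟩ := exists_low H h1 hA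
  obtain ⟨y, hy⟩ := exists_low H h1 (H.cut_compl hA)
  rw [H.h_compl] at hy
  refine tails_nonempty H.gen ⟨y, ?_⟩ ⟨x, ?_⟩
  · show τ < D.h A y
    linarith
  · show ¬ τ < D.h A x
    linarith

theorem cmp_sub {S : Finset Γ} {U F : Set Γ} {y : Γ} (hU : y ∈ U) (hF : y ∈ F)
    (h : ∀ e ∈ cob S F, e.1 ∈ U → e.1 * e.2 ∈ U → False) : cmp S U y ⊆ F := fun z hz =>
  (cmp_conn U y F (fun e h1 h2 he => h e he (cmp_subset U y h1) (cmp_subset U y h2)) y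
    (mem_cmp_self hU) z hz).1 hF

theorem no_fin (H : D.OK) {τ : ℝ} {A F : Set Γ} (hτ : ∀ x, D.h A x ≠ τ) (hF : F.Finite)
    (hn : F.Nonempty) (h : cob D.S F ⊆ cob D.S {x | τ < D.h A x}) : False := by
  obtain ⟨y, hy⟩ := hn
  rcases lt_or_gt_of_ne (hτ y) with h1 | h1
  · have h2 : 1 - τ < D.h Aᶜ y := by
      rw [H.h_compl]
      linarith
    refine H.maxp (fun x => (H.h_harm Aᶜ x).le) h2 (hF.subset (cmp_sub h2 hy ?_))
    intro e he a1 a2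
    simp only [Set.mem_ofPred_eq, H.h_compl] at a1 a2
    refine h he ⟨fun a3 => ?_, fun a3 => ?_⟩
    · simp only [Set.mem_ofPred_eq] at a3
      linarith
    · simp only [Set.mem_ofPred_eq] at a3
      linarith
  · refine H.maxp (fun x => (H.h_harm A x).le) h1 (hF.subset (cmp_sub h1 hy ?_))
    intro e he a1 a2
    exact h he ⟨fun _ => a2, fun _ => a1⟩

theorem ccomp_infinite (H : D.OK) {τ : ℝ} {A : Set Γ} (hτ : ∀ x, D.h A x ≠ τ) :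
    ∀ x ∈ TA D τ A, (ccomp D.S (2 * D.r) (TA D τ A) x).Infinite := by
  intro x hx hY
  have h1 : Def D.S D.r {e | e ∈ cob D.S {x | τ < D.h A x} ∧
      e.1 ∈ ccomp D.S (2 * D.r) (TA D τ A) x} = ∅ := by
    refine Set.eq_empty_of_forall_notMem fun p hp => ?_
    obtain ⟨⟨y, -, a2, a3⟩, y', b1, b2, b3⟩ := def_split hp
    refine b2 (ccomp_step a2 b1 ?_)
    rw [two_mul]
    exact (a3.symm H.gen).trans b3
  obtain ⟨F, hF⟩ := H.ifc.ha _ h1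
  have h2 : (cob D.S F).Finite := by
    rw [← hF]
    exact (edges_finite hY).subset fun e he => he.2
  have h3 : cob D.S F ⊆ cob D.S {x | τ < D.h A x} := by
    rw [← hF]
    exact fun e he => he.1
  have h4 : (cob D.S F).Nonempty := by
    rw [← hF]
    obtain ⟨s, hs⟩ := hx
    exact ⟨(x, s), hs, mem_ccomp_self _ _ _⟩
  rcases H.ifc.hb F h2 with h5 | h5
  · refine no_fin H hτ h5 (Set.nonempty_iff_ne_empty.2 fun h6 => ?_) h3
    rw [h6, cob_empty] at h4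
    exact Set.not_nonempty_empty h4
  · refine no_fin H hτ h5 (Set.nonempty_iff_ne_empty.2 fun h6 => ?_) (by rwa [cob_compl])
    rw [← cob_compl, h6, cob_empty] at h4
    exact Set.not_nonempty_empty h4

variable [CompactSpace Z] [ContinuousConstSMul Γ Z]

theorem mem_AF (H : D.OK) {δ : ℝ} {A : Set Γ} {ξ : Z} (hA : D.Atom A ξ) {z : Γ}
    (hz : z ∈ D.Th δ A) :
    tr z⁻¹ A ∈ {A | (∃ ξ, D.Atom A ξ) ∧ δ ≤ D.m A ∧ D.m A ≤ 1 - δ} := by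
  refine ⟨⟨_, H.atom_tr hA z⁻¹⟩, ?_⟩
  rw [Dat.m_tr_inv]
  exact hz

theorem exists_near (H : D.OK) (h1 : D.VT) (h2 : D.AF) {τ : ℝ} (h3 : 1 / 4 < τ)
    (h4 : τ < 3 / 4) {δ : ℝ} (hδ : 0 < δ) :
    ∃ M : ℕ, ∀ A ξ, D.Atom A ξ → ∀ z ∈ D.Th δ A, ∃ y ∈ TA D τ A, Near D.S M z y := by
  have h5 : ∀ A : Set Γ, ∃ p, (∃ ξ, D.Atom A ξ) → p ∈ TA D τ A := by
    intro A
    by_cases h : ∃ ξ, D.Atom A ξ
    · obtain ⟨ξ, hA⟩ := h
      obtain ⟨p, hp⟩ := TA_nonempty H h1 h3 h4 hA.1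
      exact ⟨p, fun _ => hp⟩
    · exact ⟨1, fun h' => absurd h' h⟩
  choose p hp using h5
  obtain ⟨M, hM⟩ := H.gen.finite_sub_ball ((h2 δ hδ).image p) 1
  refine ⟨M, fun A ξ hA z hz => ?_⟩
  have h6 := mem_AF H hA hz
  have h7 := hp _ h6.1
  rw [TA_tr, mem_tr, inv_inv] at h7
  refine ⟨_, h7, ?_⟩
  have h8 := (near_mul_left z 1 _).2 (hM _ ⟨_, h6, rfl⟩)
  rwa [mul_one] at h8

theorem meet_finite (H : D.OK) (h2 : D.AF) {τ : ℝ} (h3 : 1 / 4 < τ) (h4 : τ < 3 / 4)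
    {K : Set Γ} (hK : K.Finite) :
    {A | (∃ ξ, D.Atom A ξ) ∧ ∃ y ∈ K, y ∈ TA D τ A}.Finite := by
  have h5 := h2 (D.c / 4) (by linarith [H.c_pos])
  refine (hK.biUnion fun y _ => h5.image (tr y)).subset ?_
  rintro A ⟨⟨ξ, hA⟩, y, hy, h6⟩
  refine Set.mem_biUnion hy ⟨_, mem_AF H hA (TA_sub H h3 h4 A h6), ?_⟩
  rw [tr_tr, mul_inv_cancel, tr_one]

end WGXAux

variable {Γ : Type*} [Group Γ] {Z : Type*} [MetricSpace Z] [CompactSpace Z] [MulAction Γ Z]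
  [ContinuousConstSMul Γ Z] {D : Dat Γ Z} {π : Z → ℝ}

open WGXAux in
theorem wg (H : D.OK) (h1 : D.VT) (h2 : D.AF) : D.WG := by
  intro δ hδ
  obtain ⟨τ, t1, t2, t3⟩ := exists_tau H h2
  obtain ⟨M, hM⟩ := exists_near H h1 h2 t1 t2 hδ
  refine ⟨max M (2 * D.r), fun K hK => ?_⟩
  have hB := (meet_finite H h2 t1 t2 hK).biUnion fun A hA =>
    ccomp_bad_finite H.gen (w := 2 * D.r) (T := TA D τ A) hK
      (ccomp_infinite H (hA.1.elim fun ξ h => t3 A ξ h))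
  refine ⟨_, nbhd_finite' H.gen M (hK.union hB), fun A ξ hA z hz hn => ?_⟩
  obtain ⟨y, hy, hzy⟩ := hM A ξ hA z hz
  have hyK : y ∉ K := fun h => hn ⟨y, Or.inl h, hzy⟩
  refine ⟨ccomp D.S (2 * D.r) (TA D τ A \ K) y, fun hf => ?_, ?_, ?_⟩
  · by_cases h3 : ∃ y ∈ K, y ∈ TA D τ A
    · exact hn ⟨y, Or.inr (Set.mem_biUnion
        (s := {A | (∃ ξ, D.Atom A ξ) ∧ ∃ y ∈ K, y ∈ TA D τ A}) ⟨⟨ξ, hA⟩, h3⟩
        ⟨⟨hy, hyK⟩, hf⟩), hzy⟩
    · have h4 : TA D τ A \ K = TA D τ A :=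
        Set.Subset.antisymm Set.sdiff_subset fun x hx => ⟨hx, fun h => h3 ⟨x, h, hx⟩⟩
      rw [h4] at hf
      exact ccomp_infinite H (t3 A ξ hA) y hy hf
  · intro x hx
    have h3 := ccomp_subset (show y ∈ TA D τ A \ K from ⟨hy, hyK⟩) hx
    exact ⟨TA_sub H t1 t2 A h3.1, h3.2⟩
  · exact ((ccomp_cconn _ _ _).mono H.gen (le_max_right _ _)).insert H.gen
      (mem_ccomp_self _ _ _) (hzy.mono H.gen (le_max_left _ _))

end Vale.Agent.P239
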