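import Vale.Agent.P239.BasY

/-! Hanging pieces are monochromatic. -/

namespace Vale.Agent.P239

open scoped Pointwise symmDiff
open Filter Topology

variable {Γ : Type*} [Group Γ] {Z : Type*} [MetricSpace Z] [CompactSpace Z] [MulAction Γ Z]
  [ContinuousConstSMul Γ Z] {D : Dat Γ Z} {π : Z → ℝ}

namespace X1XAux

theorem corn {S : Finset Γ} {r : ℕ} (hS : Gen S) (hI : Ifc S r) {B C L : Set Γ}
    (h1 : (tails S B ∩ C).Finite) (h2 : (tails S C \ L).Finite) (h3 : L ⊆ Bᶜ)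
    (h4 : Bᶜ.Infinite) : (B ∩ C).Finite := by
  refine corner (W := cob S B) (W' := {e | e ∈ cob S C ∧ e.1 ∈ L ∧ e.1 * e.2 ∈ L}) hS hI.hb
    Set.finite_empty (cob_out_finite hS h2) (symmDiff_bot _) ?_
    (fun e he => ⟨tail_mem he, head_mem hS he⟩) (fun e he => he.2) h1
    (Set.finite_empty.subset fun x hx => h3 hx.1 hx.2) h4
  ext e
  simp only [Set.mem_symmDiff, Set.mem_ofPred_eq]
  by_cases h : e ∈ cob S C <;> by_cases h' : e.1 ∈ L ∧ e.1 * e.2 ∈ L <;>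
    simp only [h, h', false_and, and_self, not_true, not_false_iff, or_self, or_true,
      true_or, and_false]

end X1XAux

omit [CompactSpace Z] [ContinuousConstSMul Γ Z] in
theorem x1 (H : D.OK) (hπ : Coord D.S D.ι π) (h1 : D.VT) (h2 : D.UH) : D.X1 π := by
  intro t l ht hl
  have hc := H.c_pos
  obtain ⟨K, hK, hU⟩ := h2 (D.c / 4) (l / 4) (by linarith) (by linarith)
  obtain ⟨δ₁, hδ₁, hs⟩ := H.small_on_finite hK (η := D.c / 4) (by linarith)
  set L : Set Γ := {y | π (D.ι y) < t + l / 2} with hL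
  have hLc : Conn D.S L := hπ.mono.dn _
  have mL : ∀ {x}, x ∈ L ↔ π (D.ι x) < t + l / 2 := Iff.rfl
  have hLm : 0 < D.m L := by
    obtain ⟨x, hx⟩ := H.pos_of_level (Dat.lip_coord hπ).neg (a := -(t + l / 2)) (half_pos hl)
      (hπ.mono.i0.mono fun x (hx : π (D.ι x) = 0) => show _ ≤ -π (D.ι x) by linarith)
      Set.finite_empty
    exact hx.trans_le (H.m_mono fun y hy => mL.2 (neg_lt_neg_iff.1 (cmp_subset _ _ hy).1))
  have cut : ∀ B ζ, D.Atom Bᶜ ζ → D.Cut B ζ := fun B ζ h => compl_compl B ▸ H.cut_compl h.1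
  have thk : ∀ B ζ, D.Atom Bᶜ ζ → D.m B < min δ₁ (D.m L) →
      D.Th (D.c / 4) B ⊆ D.nb ζ (l / 4) := fun B ζ h hm x hx =>
    (hU B ζ (cut B ζ h) hx).resolve_right fun hxK =>
      (hs B (hm.trans_le (min_le_left _ _)) x hxK).not_ge hx.1
  refine ⟨min δ₁ (D.m L), lt_min hδ₁ hLm, thk, ?_⟩
  rintro C hC B ⟨ζ, hA, hζ, hm⟩
  have hB := cut B ζ hA
  have high : ∀ ε, ∀ y ∈ D.nb ζ ε, t + l - ε ≤ π (D.ι y) := fun ε y (hy : _ ≤ ε) => by
    linarith [(abs_le.1 (hπ.lip (D.ι y) ζ)).1]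
  have hLB : L ⊆ Bᶜ := by
    refine (hLc.const fun x hx hx' => ?_).resolve_left fun h =>
      (hm.trans_le (min_le_right _ _)).not_ge (H.m_mono h)
    linarith [mL.1 hx, high _ x (thk B ζ hA hm (Dat.Th_mono (by linarith) B (H.cut_tails_Th hB hx')))]
  have hCL : (tails D.S C \ L).Finite := hC.subset fun x hx =>
    ⟨hx.1, fun (h : _ ≤ t) => hx.2 (mL.2 (by linarith))⟩
  have key : ∀ δ : ℝ, 0 < δ → ((tails D.S B ∪ D.Th δ B) \ C).Finite ∨
      ((tails D.S B ∪ D.Th δ B) ∩ C).Finite := by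
    intro δ hδ
    obtain ⟨x₀, hx₀⟩ := (h1 ∅ B ζ (by simpa using hB.2.1)).2.2.1 δ hδ (l / 2) (half_pos hl) _ hC
    rw [Set.empty_union] at hx₀
    refine ((cmp_conn (S := D.S) (D.nb ζ (l / 2) \ (tails D.S C \ {y | π (D.ι y) ≤ t})) x₀).const
      (C := C) fun x hx hx' => ?_).imp (fun h => hx₀.subset fun x hx => ⟨hx.1, fun e => hx.2 (h e)⟩)
      fun h => hx₀.subset fun x hx => ⟨hx.1, fun e => h e hx.2⟩
    have h3 := cmp_subset _ _ hx
    exact h3.2 ⟨hx', fun (h : _ ≤ t) => by linarith [high _ x h3.1]⟩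
  by_cases hf : (tails D.S B \ C).Finite
  · refine Or.inl ⟨X1XAux.corn (C := Cᶜ) H.gen H.ifc hf (by rwa [tails_compl]) hLB
      (H.cut_infinite hB).2, fun δ hδ => ?_⟩
    rcases key δ hδ with h | h
    · exact h.subset fun x hx => ⟨Or.inr hx.1, hx.2⟩
    · refine absurd ((hf.union h).subset fun x hx => ?_) (H.cut_tails_infinite hB)
      exact (em (x ∈ C)).elim (fun e => Or.inr ⟨Or.inl hx, e⟩) fun e => Or.inl ⟨hx, e⟩
  · have k2 : ∀ δ : ℝ, 0 < δ → ((tails D.S B ∪ D.Th δ B) ∩ C).Finite := fun δ hδ =>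
      (key δ hδ).resolve_left fun h => hf (h.subset fun x hx => ⟨Or.inl hx.1, hx.2⟩)
    exact Or.inr ⟨X1XAux.corn H.gen H.ifc ((k2 1 one_pos).subset fun x hx => ⟨Or.inl hx.1, hx.2⟩)
      hCL hLB (H.cut_infinite hB).2,
      fun δ hδ => (k2 δ hδ).subset fun x hx => ⟨Or.inr hx.1, hx.2⟩⟩

end Vale.Agent.P239
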