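import Vale.Agent.P239.BasY

/-! The corrected colouring: dichotomy and agreement far above the wall. -/

namespace Vale.Agent.P239

open scoped Pointwise symmDiff
open Filter Topology

variable {Γ : Type*} [Group Γ] {Z : Type*} [MetricSpace Z] [CompactSpace Z] [MulAction Γ Z]
  [ContinuousConstSMul Γ Z] {D : Dat Γ Z} {π : Z → ℝ}

namespace X2XAux

theorem exists_lb {α : Type*} {F : Set α} (hF : F.Finite) (f : α → ℝ) :
    ∃ k : ℝ, 0 < k ∧ ∀ a ∈ F, 0 < f a → k ≤ f a := by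
  induction F, hF using Set.Finite.induction_on with
  | empty => exact ⟨1, one_pos, by simp⟩
  | @insert a F _ _ ih =>
    obtain ⟨k, hk, h⟩ := ih
    by_cases ha : 0 < f a
    · refine ⟨min k (f a), lt_min hk ha, ?_⟩
      rintro b (rfl | hb) h0
      exacts [min_le_right _ _, (min_le_left _ _).trans (h b hb h0)]
    · refine ⟨k, hk, ?_⟩
      rintro b (rfl | hb) h0
      exacts [absurd h0 ha, h b hb h0]

omit [CompactSpace Z] [ContinuousConstSMul Γ Z] in
theorem not_ge {Hs : Set (Set Γ)} {C : Set Γ} {κ : ℝ} {x : Γ} (h : ¬ D.Ge Hs C κ x) :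
    ∃ B, (B = ∅ ∨ B ∈ Hs) ∧ D.h (C \ B) x < κ := by
  by_contra hc
  push Not at hc
  exact h ⟨by simpa using hc ∅ (Or.inl rfl), fun B hB => hc B (Or.inr hB)⟩

end X2XAux

open X2XAux in
theorem x2 (H : D.OK) (h1 : D.CF) (h2 : D.AF) : D.X2 π := by
  have hc := H.c_pos
  have hc1 := H.c_le_one
  have hF := h2 (D.c / 8) (by linarith)
  obtain ⟨k, hk, hlb⟩ := exists_lb (hF.prod hF) fun p => D.m (p.1 ∩ p.2)
  refine ⟨min (D.c / 16) (k / 2), lt_min (by linarith) (by linarith), min_le_left _ _,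
    fun a δ hδ C x hT => ?_⟩
  by_contra hn
  obtain ⟨B, hB, hb⟩ := not_ge fun h => hn (Or.inl h)
  obtain ⟨B', hB', hb'⟩ := not_ge fun h => hn (Or.inr h)
  have m1 := min_le_left (D.c / 16) (k / 2)
  have m2 := min_le_right (D.c / 16) (k / 2)
  have s1 : (B ∪ B')ᶜ ⊆ (C \ B) ∪ (Cᶜ \ B') := fun y hy => by
    by_cases hyC : y ∈ C
    · exact Or.inl ⟨hyC, fun h => hy (Or.inl h)⟩
    · exact Or.inr ⟨hyC, fun h => hy (Or.inr h)⟩
  have s2 := (H.h_mono s1 x).trans (H.h_union_le _ _ x)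
  have s3 := H.h_compl (B ∪ B') x
  have t : ∀ E, (E = ∅ ∨ E ∈ D.Hang π a δ) → D.h E x ≤ 1 - D.c / 4 := by
    rintro E (rfl | hE)
    · rw [H.h_fin Set.finite_empty]
      linarith
    · exact hT E hE
  have t1 := t B hB
  have t2 := t B' hB'
  have c1 : ¬ B ⊆ B' := fun h => by
    rw [Set.union_eq_self_of_subset_left h] at s2 s3
    linarith
  have c2 : ¬ B' ⊆ B := fun h => by
    rw [Set.union_eq_self_of_subset_right h] at s2 s3
    linarith
  have hB1 : B ∈ D.Hang π a δ := hB.resolve_left fun h => c1 (h ▸ Set.empty_subset _)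
  have hB2 : B' ∈ D.Hang π a δ := hB'.resolve_left fun h => c2 (h ▸ Set.empty_subset _)
  obtain ⟨hd, hs⟩ := ((H.hang_tri h1 hδ hB1 hB2).resolve_left c1).resolve_left c2
  have s4 := H.h_add hd x
  obtain ⟨ζ, hA, -, -⟩ := hB1
  obtain ⟨ζ', hA', -, -⟩ := hB2
  have u1 := H.h_compl B x
  have u2 := H.h_compl B' x
  have e : D.m (tr x⁻¹ Bᶜ ∩ tr x⁻¹ B'ᶜ) = D.h (B ∪ B')ᶜ x := by
    rw [← Dat.m_tr_inv, Set.compl_union]
    rfl
  have z : ¬ 0 < D.h (B ∪ B')ᶜ x := fun h0 => by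
    have := hlb (tr x⁻¹ Bᶜ, tr x⁻¹ B'ᶜ)
      ⟨⟨⟨_, H.atom_tr hA x⁻¹⟩, by rw [Dat.m_tr_inv]; linarith, by rw [Dat.m_tr_inv]; linarith⟩,
        ⟨⟨_, H.atom_tr hA' x⁻¹⟩, by rw [Dat.m_tr_inv]; linarith, by rw [Dat.m_tr_inv]; linarith⟩⟩
      (e ▸ h0)
    simp only [e] at this
    linarith
  have z2 : D.m (Bᶜ \ B'ᶜᶜ) = 0 := by
    rw [compl_compl, Set.sdiff_eq, ← Set.compl_union]
    refine le_antisymm (not_lt.1 fun h0 => z (H.h_pos (x := 1) ?_ x)) (H.mean.nonneg _)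
    rwa [Dat.h_one]
  have s5 := H.cut_sub_of_null hA.1 (H.cut_compl hA'.1) z2
  rw [compl_compl] at s5
  have e2 : B' = Bᶜ := Set.Subset.antisymm hd.subset_compl_left s5
  rw [e2] at hs
  exact hs hA.1.same_self.compl

theorem x3 (H : D.OK) (hπ : Coord D.S D.ι π) : D.X3 π := by
  intro t l κ θ Hs C hl hκ hκc hθ hA hM
  have hc := H.c_pos
  have hc1 := H.c_le_one
  have hδ : 0 < min κ θ / 2 := half_pos (lt_min hκ hθ)
  have m1 := min_le_left κ θ
  have m2 := min_le_right κ θ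
  have a1 : (tails D.S C ∩ {y | t < π (D.ι y)}).Finite :=
    hA.subset fun y hy => ⟨hy.1, fun h => lt_irrefl t (lt_of_lt_of_le hy.2 h)⟩
  have g1 := H.vq (Dat.lip_coord hπ) hl hδ a1
  have g2 := H.vq (Dat.lip_coord hπ) hl hδ (C := Cᶜ) (by rwa [tails_compl])
  constructor
  · refine (g1.union g2).subset fun x hx => ?_
    have u := H.h_compl C x
    rcases hx.2 with ⟨hcol, hC⟩ | ⟨hC, hcol⟩
    · refine Or.inr ⟨hx.1, hC, ?_⟩
      rcases hcol with h | ⟨B, _, h, hf⟩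
      · linarith [h.2.1]
      · linarith [H.h_mono_fin hf x]
    · refine Or.inl ⟨hx.1, hC, ?_⟩
      by_contra hlt
      rw [not_lt] at hlt
      refine hcol ?_
      by_cases hT : D.Tr Hs x
      · refine Or.inl ⟨hT, by linarith, fun B hB => ?_⟩
        linarith [H.h_diff C B x, hT B hB]
      · unfold Dat.Tr at hT
        push Not at hT
        obtain ⟨B, hB, h⟩ := hT
        refine Or.inr ⟨B, hB, h, ?_⟩
        rcases hM B hB with h' | h'
        · exact h'.1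
        · have := H.h_mono_fin (C := B) (C' := Cᶜ) (by rw [Set.sdiff_compl]; exact h'.1) x
          exfalso
          linarith
  · refine (g1.union g2).subset fun x hx => ?_
    have u := H.h_compl C x
    by_cases hC : x ∈ C
    · exact Or.inl ⟨hx.1, hC, by linarith [hx.2.2.1]⟩
    · exact Or.inr ⟨hx.1, hC, by linarith [hx.2.1.1]⟩

end Vale.Agent.P239
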