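import Vale.Agent.P239.BasY

/-! A window without sign change localizes the thick wall. -/

namespace Vale.Agent.P239

open scoped Pointwise symmDiff
open Filter Topology

variable {Γ : Type*} [Group Γ] {Z : Type*} [MetricSpace Z] [CompactSpace Z] [MulAction Γ Z]
  [ContinuousConstSMul Γ Z] {D : Dat Γ Z} {π : Z → ℝ}

theorem x5 (H : D.OK) (hπ : Coord D.S D.ι π) : D.X5 π := by
  intro ω δ hω hδ K₀ hK₀
  have hS := H.gen
  obtain ⟨Kr, hKr, hr⟩ := hπ.mono.en.slow D.r (half_pos hω)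
  obtain ⟨K1, hK1, h1⟩ := hπ.mono.en.slow 1 hω
  obtain ⟨K3, hK3, h3⟩ := H.ifc.fill_fin hS ((nbhd_finite' hS D.r hK₀).union hKr)
  obtain ⟨B, hB, -, hl⟩ := H.loc hω (half_pos hδ) hK3
  refine ⟨B, hB, fun τ R C hG hA hK x hx hxτ => ?_⟩
  by_contra hxB
  have hW : {e | e ∈ cob D.S R ∧ e.1 ∈ {y | τ < π (D.ι y)}}.Finite := by
    refine (edges_finite ((hK1.union (nbhd_finite' hS 1 hG)).union hA)).subset fun e he => ?_
    by_contra hc
    simp only [Set.mem_ofPred_eq, Set.mem_union, not_or] at hc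
    obtain ⟨⟨a1, a2⟩, a3⟩ := hc
    have a4 : τ < π (D.ι e.1) := he.2
    have a5 := (abs_le.1 (h1 _ a1 _ (near_edge e))).1
    have a6 : e.1 ∉ R ∆ C := fun h => a2 ⟨e.1, ⟨by linarith, h⟩, Near.refl hS _ _⟩
    have a7 : e.1 * e.2 ∉ R ∆ C := fun h => a2 ⟨e.1 * e.2, ⟨by linarith, h⟩, near_edge e⟩
    have a8 := he.1
    refine a3 ⟨tail_mem (e := e) ?_, fun h => ?_⟩
    · simp only [mem_cob, Set.mem_symmDiff] at a6 a7 a8 ⊢
      tauto
    · have a9 : π (D.ι e.1) ≤ τ - ω := h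
      linarith
  obtain ⟨F, hF, hF'⟩ := h3 1 _ hW fun z hz => by
    rw [tr_one]
    obtain ⟨⟨y, b1, b2, b3⟩, y', -, b4, b5⟩ := def_split hz
    by_cases hz' : z ∈ Kr
    · exact Or.inr hz'
    · have b6 := (abs_le.1 (hr z hz' y b3)).2
      have b7 := (abs_le.1 (hr z hz' y' b5)).1
      have b8 : τ < π (D.ι y) := b2
      have b9 : π (D.ι y') ≤ τ := not_lt.1 b4
      exact Or.inl ⟨y, hK y b1 (abs_le.2 ⟨by linarith, by linarith⟩), b3⟩
  rw [tr_one] at hF'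
  have hΩ := hl _ (Dat.lip_coord hπ) τ x hxB hxτ
  have hsub := cmp_subset (S := D.S) ({y | τ < π (D.ι y)} \ K3) x
  have hlev : ∀ y ∈ cmp D.S ({y | τ < π (D.ι y)} \ K3) x, τ - ω ≤ π (D.ι y) := fun y hy => by
    have : τ < π (D.ι y) := (hsub hy).1
    linarith
  rcases (cmp_conn (S := D.S) ({y | τ < π (D.ι y)} \ K3) x).const (C := R ∆ F) (by
      rintro y hy ⟨s, hs⟩
      have c1 := hF' (y, s) (hsub hy).2
      rw [Set.mem_ofPred_eq, and_iff_left (hsub hy).1] at c1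
      rw [cob_symmDiff, Set.mem_symmDiff] at hs
      tauto) with h | h
  · have c1 := H.h_mono_fin (C' := C) ((hF.union hG).subset fun y hy => by
      have c2 := Set.mem_symmDiff.1 (h hy.1)
      by_cases c3 : y ∈ F
      · exact Or.inl c3
      · exact Or.inr ⟨hlev y hy.1, Or.inl ⟨by tauto, hy.2⟩⟩) x
    linarith [hx.2]
  · have c1 := H.h_mono_fin (C' := Cᶜ) ((hF.union hG).subset fun y hy => by
      have c2 : y ∉ R ∆ F := h hy.1
      by_cases c3 : y ∈ F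
      · exact Or.inl c3
      · exact Or.inr ⟨hlev y hy.1, Or.inr ⟨not_not.1 hy.2, fun c4 => c2 (Or.inl ⟨c4, c3⟩)⟩⟩) x
    rw [H.h_compl] at c1
    linarith [hx.1]

end Vale.Agent.P239
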