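import Vale.Agent.P239.BasY

/-! A transition point is not explained by a single cut. -/

namespace Vale.Agent.P239

open scoped Pointwise symmDiff
open Filter Topology

variable {Γ : Type*} [Group Γ] {Z : Type*} [MetricSpace Z] [CompactSpace Z] [MulAction Γ Z]
  [ContinuousConstSMul Γ Z] {D : Dat Γ Z} {π : Z → ℝ}

theorem x6b (H : D.OK) (hπ : Coord D.S D.ι π) (h1 : D.UH) (h2 : D.AE) : D.X6b π := by
  intro a δ θ ω hδ hδ' hθ hω
  obtain ⟨K, hK, hK'⟩ := h1 (θ / 2) ω (half_pos hθ) hω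
  refine ⟨K, hK, fun C P x ζ hP hx hs g1 g2 ha hq => ?_⟩
  have b1 := abs_le.1 ((H.h_abs_sub C P x).trans hs)
  have b2 := g2.1
  rw [H.h_compl] at b2
  have b3 : x ∈ D.Th (θ / 2) P := ⟨by linarith [g1.1], by linarith⟩
  have b4 : |π (D.ι x) - π ζ| ≤ ω := (hπ.lip _ _).trans ((hK' P ζ hP b3).resolve_right hx)
  obtain ⟨A, c1, c2, c3⟩ := h2 P ζ δ hP hδ hδ' fun Q hQ _ => by
    by_contra c
    rw [not_or, not_lt, not_lt] at c
    exact (hq Q ζ hQ c.1 c.2).not_ge b4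
  have hA : Aᶜ ∈ D.Hang π a δ := ⟨ζ, by rwa [compl_compl], by linarith [(abs_le.1 b4).2],
    by rw [H.m_compl]; linarith⟩
  rcases c1.2 P hP c2.symm with d | d
  · have e : Cᶜ \ Aᶜ ⊆ C ∆ P := fun y hy => Or.inr ⟨d (not_not.1 hy.2), hy.1⟩
    linarith [g2.2 _ hA, H.h_mono e x]
  · have e : C \ Aᶜ ⊆ C ∆ P := fun y hy => Or.inl ⟨hy.1, d (not_not.1 hy.2)⟩
    linarith [g1.2 _ hA, H.h_mono e x]

end Vale.Agent.P239
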