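import Vale.Agent.P239.BasY

/-! The zoom lemma. -/

namespace Vale.Agent.P239

open scoped Pointwise symmDiff
open Filter Topology

variable {Γ : Type*} [Group Γ] {Z : Type*} [MetricSpace Z] [CompactSpace Z] [MulAction Γ Z]
  [ContinuousConstSMul Γ Z] {D : Dat Γ Z} {π : Z → ℝ}

namespace ZLXAux

theorem ulim_tails {S : Finset Γ} (𝒰 : Ultrafilter ℕ) {X : ℕ → Set Γ} {z : Γ}
    (h : z ∈ tails S (ulim 𝒰 X)) : ∀ᶠ n in (𝒰 : Filter ℕ), z ∈ tails S (X n) := by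
  obtain ⟨s, hs⟩ := h
  filter_upwards [ulim_cob 𝒰 hs] with n hn
  exact ⟨s, hn⟩

omit [Group Γ] in
theorem ulim_agree (𝒰 : Ultrafilter ℕ) (X : ℕ → Set Γ) {N : Set Γ} (hN : N.Finite) :
    ∀ᶠ n in (𝒰 : Filter ℕ), ∀ y ∈ N, y ∉ X n ∆ ulim 𝒰 X := by
  refine (eventually_all_finite hN).2 fun y _ => ?_
  by_cases h : y ∈ ulim 𝒰 X
  · have h' : ∀ᶠ n in (𝒰 : Filter ℕ), y ∈ X n := h
    filter_upwards [h'] with n hn
    simp [Set.mem_symmDiff, h, hn]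
  · have h' : ∀ᶠ n in (𝒰 : Filter ℕ), y ∉ X n := Ultrafilter.eventually_not.2 h
    filter_upwards [h'] with n hn
    simp [Set.mem_symmDiff, h, hn]

omit [CompactSpace Z] [ContinuousConstSMul Γ Z] in
theorem key (H : D.OK) (h2 : D.TWU) {𝒰 : Ultrafilter ℕ} {C : ℕ → Set Γ} {T : Set Γ} {ξ : Z}
    (a1 : ∀ ε : ℝ, 0 < ε → ∃ K : Set Γ, K.Finite ∧
      ∀ᶠ n in (𝒰 : Filter ℕ), tails D.S (C n) ⊆ D.nb ξ ε ∪ K)
    (a2 : ∀ ε : ℝ, 0 < ε → ∀ K : Set Γ, K.Finite → ∀ᶠ n in (𝒰 : Filter ℕ), ∃ x₀,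
      ((T ∪ tails D.S (C n)) \ cmp D.S (D.nb ξ ε \ K) x₀).Finite)
    {ε : ℝ} (hε : 0 < ε) {K : Set Γ} (hK : K.Finite) :
    ∃ (K' : Set Γ) (x : ℕ → Γ), K'.Finite ∧ ∀ᶠ n in (𝒰 : Filter ℕ),
      (T \ cmp D.S (D.nb ξ ε \ K) (x n)).Finite ∧
      tails D.S (vote D.V (C n)) ⊆ K' ∪ cmp D.S (D.nb ξ ε \ K) (x n) := by
  obtain ⟨K₁, hK₁, b1⟩ := a1 (ε / 2) (half_pos hε)
  obtain ⟨K', hK', b2⟩ := h2 ε (D.c / 2) hε (half_pos H.c_pos) K₁ K hK₁ hK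
  obtain ⟨x, hx⟩ := (a2 ε hε K hK).choice
  refine ⟨K', x, hK', ?_⟩
  filter_upwards [b1, hx] with n c1 c2
  exact ⟨c2.subset (Set.sdiff_subset_sdiff_left Set.subset_union_left),
    (H.tails_vote (C n)).trans (b2 ξ (C n) (x n) c1
      (c2.subset (Set.sdiff_subset_sdiff_left Set.subset_union_right)))⟩

omit [CompactSpace Z] [ContinuousConstSMul Γ Z] in
theorem conv (H : D.OK) (h2 : D.TWU) {𝒰 : Ultrafilter ℕ} {C : ℕ → Set Γ} {T : Set Γ} {ξ : Z}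
    (a1 : ∀ ε : ℝ, 0 < ε → ∃ K : Set Γ, K.Finite ∧
      ∀ᶠ n in (𝒰 : Filter ℕ), tails D.S (C n) ⊆ D.nb ξ ε ∪ K)
    (a2 : ∀ ε : ℝ, 0 < ε → ∀ K : Set Γ, K.Finite → ∀ᶠ n in (𝒰 : Filter ℕ), ∃ x₀,
      ((T ∪ tails D.S (C n)) \ cmp D.S (D.nb ξ ε \ K) x₀).Finite) :
    D.Conv (T ∪ tails D.S (ulim 𝒰 fun n => vote D.V (C n))) ξ := by
  intro ε hε K hK
  obtain ⟨K', x, hK', hx⟩ := key H h2 a1 a2 hε hK
  have hz : ∀ z ∈ tails D.S (ulim 𝒰 fun n => vote D.V (C n)), z ∉ K' →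
      ∀ᶠ n in (𝒰 : Filter ℕ), z ∈ cmp D.S (D.nb ξ ε \ K) (x n) := by
    intro z h1 h3
    filter_upwards [ulim_tails 𝒰 h1, hx] with n c1 c2
    exact (c2.2 c1).resolve_left h3
  rcases T.finite_or_infinite with hT | hT
  · by_cases hex : ∃ z ∈ tails D.S (ulim 𝒰 fun n => vote D.V (C n)), z ∉ K'
    · obtain ⟨z₀, c1, c2⟩ := hex
      refine ⟨z₀, (hT.union hK').subset ?_⟩
      rintro z ⟨d1 | d1, d2⟩
      · exact Or.inl d1
      · refine Or.inr (by_contra fun d3 => d2 ?_)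
        obtain ⟨n, e1, e2⟩ := ((hz z₀ c1 c2).and (hz z d1 d3)).exists
        rw [cmp_eq H.gen e1]
        exact e2
    · refine ⟨1, (hT.union hK').subset ?_⟩
      rintro z ⟨d1 | d1, -⟩
      · exact Or.inl d1
      · exact Or.inr (by_contra fun d3 => hex ⟨z, d1, d3⟩)
  · obtain ⟨n₀, c1, -⟩ := hx.exists
    refine ⟨x n₀, (c1.union hK').subset ?_⟩
    rintro z ⟨d1 | d1, d2⟩
    · exact Or.inl ⟨d1, d2⟩
    · refine Or.inr (by_contra fun d3 => d2 ?_)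
      obtain ⟨n, e1, e2, -⟩ := ((hz z d1 d3).and hx).exists
      obtain ⟨y, f1, f2⟩ := (hT.sdiff (c1.union e2)).nonempty
      have g1 : y ∈ cmp D.S (D.nb ξ ε \ K) (x n₀) := by_contra fun g => f2 (Or.inl ⟨f1, g⟩)
      have g2 : y ∈ cmp D.S (D.nb ξ ε \ K) (x n) := by_contra fun g => f2 (Or.inr ⟨f1, g⟩)
      rw [cmp_eq_of_mem H.gen g1 g2]
      exact e1

omit [CompactSpace Z] [ContinuousConstSMul Γ Z] in
theorem close (H : D.OK) (h2 : D.TWU) {𝒰 : Ultrafilter ℕ} {C : ℕ → Set Γ} {T : Set Γ} {ξ : Z}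
    (a1 : ∀ ε : ℝ, 0 < ε → ∃ K : Set Γ, K.Finite ∧
      ∀ᶠ n in (𝒰 : Filter ℕ), tails D.S (C n) ⊆ D.nb ξ ε ∪ K)
    (a2 : ∀ ε : ℝ, 0 < ε → ∀ K : Set Γ, K.Finite → ∀ᶠ n in (𝒰 : Filter ℕ), ∃ x₀,
      ((T ∪ tails D.S (C n)) \ cmp D.S (D.nb ξ ε \ K) x₀).Finite) {ε : ℝ} (hε : 0 < ε) :
    ∀ᶠ n in (𝒰 : Filter ℕ),
      vote D.V (C n) ∆ (ulim 𝒰 fun n => vote D.V (C n)) ⊆ D.nb ξ ε := by
  obtain ⟨K', x, hK', hx⟩ := key H h2 a1 a2 hε Set.finite_empty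
  have hV : ∀ᶠ n in (𝒰 : Filter ℕ), tails D.S (vote D.V (C n)) ⊆ K' ∪ D.nb ξ ε := by
    filter_upwards [hx] with n hn
    exact hn.2.trans (Set.union_subset_union_right _ ((cmp_subset _ _).trans Set.sdiff_subset))
  have hQ : tails D.S (ulim 𝒰 fun n => vote D.V (C n)) ⊆ K' ∪ D.nb ξ ε := by
    intro z hz
    obtain ⟨n, c1, c2⟩ := ((ulim_tails 𝒰 hz).and hV).exists
    exact c2 c1
  obtain ⟨Kc, hKc, hsub, hconn⟩ := H.fr.con ε hε (K' ∪ {1}) (hK'.union (Set.finite_singleton 1))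
  filter_upwards [hV, ulim_agree 𝒰 (fun n => vote D.V (C n)) (nbhd_finite (S := D.S) 1 hKc)]
    with n c1 c2
  have h1 : (1 : Γ) ∈ Kc := hsub (Or.inr rfl)
  rcases (hconn ξ).const (C := vote D.V (C n) ∆ (ulim 𝒰 fun n => vote D.V (C n)))
    (fun y hy ht => by
      by_cases hk : y ∈ Kc
      · obtain ⟨s, hs, h⟩ := mem_tails.1 ht
        exact h (iff_of_false (c2 y ⟨y, hk, Near.refl H.gen 1 y⟩)
          (c2 _ ⟨y, hk, near_step y hs⟩))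
      · have d1 : ε < dist (D.ι y) ξ := hy.resolve_right hk
        have d2 : y ∉ K' ∪ D.nb ξ ε := by
          rintro (d | d)
          · exact hk (hsub (Or.inl d))
          · exact absurd d1 (not_lt.2 d)
        rcases tails_symmDiff _ _ ht with d | d
        · exact d2 (c1 d)
        · exact d2 (hQ d)) with h | h
  · exact absurd (h (Or.inr h1)) (c2 1 ⟨1, h1, Near.refl H.gen 1 1⟩)
  · intro y hy
    by_contra hn
    have hn' : ε < dist (D.ι y) ξ := not_le.1 hn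
    exact h (Or.inl hn') hy

end ZLXAux

open ZLXAux

theorem zl (H : D.OK) (h1 : D.NA) (h2 : D.TWU) (h3 : D.VT) : D.ZL := by
  intro 𝒰 C T ξ a1 a2
  obtain ⟨b1, b2, -⟩ := h3 T _ ξ (conv H h2 a1 a2)
  refine ⟨_, (H.vote_congr b2).symm, b1, fun η hη => ?_⟩
  obtain ⟨ε, hε, hm⟩ := h1 (η / 2) (half_pos hη)
  obtain ⟨K₁, hK₁, c1⟩ := a1 (ε / 2) (half_pos hε)
  filter_upwards [c1, close H h2 a1 a2 hε] with n d1 d2
  have e1 := H.m_symm_vote (ξ := ξ) (half_lt_self hε) (C := C n)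
    (hK₁.subset fun y hy => (d1 hy.1).resolve_left hy.2)
  have e2 := H.m_mono d2
  have e3 := H.m_symmDiff_le (C n) (vote D.V (C n)) (ulim 𝒰 fun n => vote D.V (C n))
  have e4 := H.m_symmDiff_le (C n) (ulim 𝒰 fun n => vote D.V (C n))
    (vote D.V (ulim 𝒰 fun n => vote D.V (C n)))
  have e5 := hm ξ
  linarith

end Vale.Agent.P239
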