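import Vale.Agent.P239.Reduce
import Vale.Agent.P239.Amen
import Vale.Agent.P239.Gap
import Vale.Agent.P239.Good
import Vale.Agent.P239.Mat
import Vale.Agent.P239.Bridge2
import Vale.Agent.P239.FrameX
import Vale.Agent.P239.MonoX
import Vale.Agent.P239.CVX
import Vale.Agent.P239.MeanX
import Vale.Agent.P239.E1aX
import Vale.Agent.P239.E1bX
import Vale.Agent.P239.E1cX
import Vale.Agent.P239.E1X
import Vale.Agent.P239.EPX
import Vale.Agent.P239.EssX
import Vale.Agent.P239.NAX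
import Vale.Agent.P239.TWUX
import Vale.Agent.P239.VTX
import Vale.Agent.P239.ZLX
import Vale.Agent.P239.CFX
import Vale.Agent.P239.OMX
import Vale.Agent.P239.HFX
import Vale.Agent.P239.T3AX
import Vale.Agent.P239.LoxX
import Vale.Agent.P239.LineX
import Vale.Agent.P239.UHX
import Vale.Agent.P239.AEX
import Vale.Agent.P239.WGX
import Vale.Agent.P239.MaxX
import Vale.Agent.P239.X1X
import Vale.Agent.P239.X2X
import Vale.Agent.P239.ColX
import Vale.Agent.P239.X5X
import Vale.Agent.P239.X6aX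
import Vale.Agent.P239.X6bX
import Vale.Agent.P239.TdxX
import Vale.Agent.P239.TdmX
import Vale.Agent.P239.TopX

namespace Vale.Agent.P239

theorem dat_false {Γ : Type*} [Group Γ] {Z : Type*} [MetricSpace Z] [CompactSpace Z]
    [MulAction Γ Z] [ContinuousConstSMul Γ Z] {D : Dat Γ Z} {π : Z → ℝ} (H : D.OK)
    (hπ : Coord D.S D.ι π) : False := by
  have hNA := na H
  have hTWU := twu H
  have hVT := vt H hNA hTWU
  have hZL := zl H hNA hTWU hVT
  have hCF := cf H
  have hHF := hf H hCF (ep H.gen H.ifc (e1 H.gen (e1a H.tf) e1b e1c)) (om H hVT)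
  have hUH := uh H hHF (t3a H) (lox H) (line H hNA)
  have hAE := ae H hVT hZL hUH
  have hAF := af H hHF
  have hWG := wg H hVT hAF
  have key : ∀ π : Z → ℝ, Coord D.S D.ι π → D.TDX π := fun π hπ =>
    tdx H hπ hHF (maxP H)
      (colP H hπ hCF hAF hUH hWG (x1 H hπ hVT hUH) (x2 H hCF hAF) (x3 H hπ))
      (x5 H hπ) (x6a H hπ hZL) (x6b H hπ hUH hAE)
  have h1 := key π hπ
  have h2 := key _ hπ.flip
  exact top H hπ hHF (ess H.gen H.ifc) (goodProp H.gen) h1 h2
    (limP H hNA hTWU hZL (tdm H hπ h1 h2))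

variable {Γ : Type} [Group Γ] {S : Finset Γ}

theorem main_ifc (hS : Gen S) {r : ℕ} (hI : Ifc S r)
    (htf : ∀ g : Γ, IsOfFinOrder g → g = 1) : ReducedH1Vanishes Γ := by
  refine reduce hS fun v hv => ?_
  by_contra hA
  by_cases hF : Folner S
  · exact hA (approx_of_folner hS hF hv)
  obtain ⟨a, b, hab, ha, hb⟩ := trunc hS hv hA
  have hG := gap_of_not_folner hS hF
  obtain ⟨u, hu⟩ := exists_mono hS (vote_of_gap hS hG) hv hab ha hb
  obtain ⟨Z, _, _, _, _, ι, π, h1, h2⟩ := exists_frame hS hu (cv_of_mono hS hI hu)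
  obtain ⟨m, hm⟩ := exists_mean hS hG
  obtain ⟨V, hV⟩ := exists_vm hm
  exact dat_false (D := ⟨S, r, m, V, ι⟩) ⟨hS, hI, htf, hm, hV, h1⟩ h2

theorem main_full (X : PD4Complex Γ) (htf : ∀ g : Γ, IsOfFinOrder g → g = 1) :
    ReducedH1Vanishes Γ := by
  obtain ⟨S, hS, h1, h2⟩ := exists_gen X
  obtain ⟨r, hr⟩ := bridge2 X hS h1 h2
  exact main_ifc hS hr htf

end Vale.Agent.P239
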