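import Vale.Agent.P239.ASB

/-! Small cycles bound small chains in a contractible metric space. -/

namespace Vale.Agent.P239.AS

open scoped Pointwise symmDiff
open Filter Topology

namespace NFXAux

variable {I : Type*} [Fintype I] [DecidableEq I]

theorem supp (φ : (Finset I → ZMod 2) →ₗ[ZMod 2] (Finset I → ZMod 2)) {c : Finset I → ZMod 2}
    {τ : Finset I} (h : φ c τ ≠ 0) : ∃ σ, c σ ≠ 0 ∧ φ (Pi.single σ 1) τ ≠ 0 := by
  by_contra hn
  push Not at hn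
  apply h
  rw [pi_eq_sum_univ' c, map_sum, Finset.sum_apply]
  refine Finset.sum_eq_zero fun σ _ => ?_
  rw [map_smul, Pi.smul_apply, smul_eq_mul]
  by_cases hc : c σ = 0
  · rw [hc, zero_mul]
  · rw [hn σ hc, mul_zero]

theorem comb (hI : AC I) (h : ℕ → I → I) (h0 : ∀ i, h 0 i = i) {p : ℕ} {c : Finset I → ZMod 2}
    (hp : ∀ σ, c σ ≠ 0 → σ.card = p) (hc : bd c = 0) (M : ℕ) :
    ∃ φ, Carr (fun σ => σ.image (h M)) 0 φ ∧ ChMap φ ∧ ∃ c' : Finset I → ZMod 2,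
      (∀ τ, c' τ ≠ 0 → τ.card = p + 1 ∧ ∃ σ, c σ ≠ 0 ∧ ∃ j,
        τ ⊆ σ.image (h j) ∪ σ.image (h (j + 1))) ∧ bd c' = c + φ c := by
  induction M with
  | zero =>
    refine ⟨LinearMap.id, fun σ τ hτ => ?_, ⟨fun _ => rfl, rfl⟩, 0, fun τ hτ => absurd rfl hτ, ?_⟩
    · have e : τ = σ := by
        by_contra hne
        exact hτ (Pi.single_eq_of_ne hne _)
      subst e
      exact ⟨fun i hi => Finset.mem_image.2 ⟨i, hi, h0 i⟩, rfl⟩
    · rw [bd_zero, LinearMap.id_apply, two_self]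
  | succ M ih =>
    obtain ⟨φ, h1, h2, c', h3, h4⟩ := ih
    obtain ⟨ψ, g1, g2⟩ := (hI (fun σ => σ.image (h (M + 1)))
      (fun _ _ hh => Finset.image_subset_image hh) (fun σ hσ => by simpa using hσ)).1
    obtain ⟨P, p1, p2⟩ := (hI (fun σ => σ.image (h M) ∪ σ.image (h (M + 1)))
      (fun _ _ hh => Finset.union_subset_union (Finset.image_subset_image hh)
        (Finset.image_subset_image hh)) (fun σ hσ => by simpa using hσ)).2 φ ψ
      (fun σ τ hτ => ⟨(h1 σ τ hτ).1.trans Finset.subset_union_left, (h1 σ τ hτ).2⟩) h2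
      (fun σ τ hτ => ⟨(g1 σ τ hτ).1.trans Finset.subset_union_right, (g1 σ τ hτ).2⟩) g2
    refine ⟨ψ, g1, g2, c' + P c, fun τ hτ => ?_, ?_⟩
    · by_cases hz : c' τ = 0
      · rw [Pi.add_apply, hz, zero_add] at hτ
        obtain ⟨σ, s1, s2⟩ := supp P hτ
        exact ⟨by rw [(p1 σ τ s2).2, hp σ s1], σ, s1, M, (p1 σ τ s2).1⟩
      · exact h3 τ hz
    · have e := p2 c
      rw [hc, map_zero, add_zero] at e
      rw [bd_add, h4, e, add_assoc, ← add_assoc (φ c), two_self, zero_add]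

theorem comb' (hI : AC I) (h : ℕ → I → I) (h0 : ∀ i, h 0 i = i) {p : ℕ} (h2 : 2 ≤ p)
    {c : Finset I → ZMod 2} (hp : ∀ σ, c σ ≠ 0 → σ.card = p) (hc : bd c = 0) (M : ℕ)
    (hM : ∀ i j, h M i = h M j) : ∃ c' : Finset I → ZMod 2,
      (∀ τ, c' τ ≠ 0 → τ.card = p + 1 ∧ ∃ σ, c σ ≠ 0 ∧ ∃ j,
        τ ⊆ σ.image (h j) ∪ σ.image (h (j + 1))) ∧ bd c' = c := by
  obtain ⟨φ, g1, -, c', g2, g3⟩ := comb hI h h0 hp hc M
  refine ⟨c', g2, ?_⟩
  have e : φ c = 0 := by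
    funext τ
    by_contra hτ
    obtain ⟨σ, s1, s2⟩ := supp φ hτ
    obtain ⟨t1, t2⟩ := g1 σ τ s2
    have : τ.card ≤ 1 := Finset.card_le_one.2 fun a ha b hb => by
      obtain ⟨i, -, rfl⟩ := Finset.mem_image.1 (t1 ha)
      obtain ⟨j, -, rfl⟩ := Finset.mem_image.1 (t1 hb)
      exact hM i j
    have := hp σ s1
    omega
  rw [g3, e, add_zero]

end NFXAux

theorem nf {E : Type*} [MetricSpace E] [ContractibleSpace E] (h : ∀ N, AC (Fin N)) :
    NF E := by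
  obtain ⟨e, ⟨H⟩⟩ := id_nullhomotopic E
  intro L₀ hL₀
  have hK : IsCompact ((Set.univ : Set unitInterval) ×ˢ L₀) := isCompact_univ.prod hL₀
  refine ⟨L₀ ∪ H '' (Set.univ ×ˢ L₀), hL₀.union (hK.image H.continuous), Set.subset_union_left,
    fun ε hε => ?_⟩
  obtain ⟨δ, hδ, hu⟩ := Metric.uniformContinuousOn_iff.1
    (hK.uniformContinuousOn_of_continuous H.continuous.continuousOn) (ε / 3) (by positivity)
  obtain ⟨M, hM⟩ := exists_nat_one_div_lt hδ
  refine ⟨min δ (ε / 3), by positivity, fun N x hnet p hp c hc hbd => ?_⟩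
  by_cases hz : ∀ σ, c σ = 0
  · exact ⟨0, fun σ hσ => absurd rfl hσ, bd_zero.trans (funext hz).symm⟩
  push Not at hz
  obtain ⟨σ₀, hσ₀⟩ := hz
  obtain ⟨i₀, -⟩ : σ₀.Nonempty := Finset.card_pos.1 (by have := (hc σ₀ hσ₀).1; omega)
  have : Nonempty (Fin N) := ⟨i₀⟩
  choose! g hg using hnet
  have hM0 : (0 : ℝ) < (M : ℝ) + 1 := by positivity
  set t : ℕ → unitInterval := fun j => Set.projIcc (0 : ℝ) 1 zero_le_one (j / ((M : ℝ) + 1))
    with ht
  have t0 : t 0 = 0 := by simp [ht]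
  have t1 : t (M + 1) = 1 := by
    simp only [ht]
    rw [Nat.cast_succ, div_self hM0.ne']
    exact Set.projIcc_right _
  have td : ∀ j j' : ℕ, j ≤ j' + 1 → j' ≤ j + 1 → dist (t j) (t j') < δ := fun j j' a b => by
    refine lt_of_le_of_lt ((LipschitzWith.projIcc (zero_le_one (α := ℝ))).dist_le_mul _ _) ?_
    refine lt_of_le_of_lt ?_ hM
    rw [NNReal.coe_one, one_mul, Real.dist_eq, ← sub_div, abs_div, abs_of_pos hM0]
    refine div_le_div_of_nonneg_right (abs_le.2 ⟨?_, ?_⟩) hM0.le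
    · have : (j' : ℝ) ≤ j + 1 := by exact_mod_cast b
      linarith
    · have : (j : ℝ) ≤ j' + 1 := by exact_mod_cast a
      linarith
  set k : ℕ → Fin N → Fin N := fun j i => if j = 0 then i else g (H (t j, x i)) with hk
  have kd : ∀ j i, x i ∈ L₀ → dist (H (t j, x i)) (x (k j i)) < ε / 3 := fun j i hi => by
    by_cases hj : j = 0
    · subst hj
      simp only [hk, if_true, t0, ContinuousMap.Homotopy.apply_zero, ContinuousMap.id_apply,
        dist_self]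
      positivity
    · simp only [hk, if_neg hj]
      exact (hg _ (Or.inr ⟨_, ⟨Set.mem_univ _, hi⟩, rfl⟩)).trans_le (min_le_right _ _)
  obtain ⟨c', g1, g2⟩ := NFXAux.comb' (h N) k (fun i => if_pos rfl) hp (fun σ hσ => (hc σ hσ).1)
    hbd (M + 1) (fun i j => by simp [hk, t1])
  refine ⟨c', fun τ hτ => ⟨(g1 τ hτ).1, ?_⟩, g2⟩
  obtain ⟨σ, s1, j, s2⟩ := (g1 τ hτ).2
  have mem : ∀ a ∈ τ, ∃ i ∈ σ, ∃ j', j ≤ j' ∧ j' ≤ j + 1 ∧ k j' i = a := fun a ha => by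
    rcases Finset.mem_union.1 (s2 ha) with h' | h'
    · obtain ⟨i, hi, rfl⟩ := Finset.mem_image.1 h'
      exact ⟨i, hi, j, le_rfl, by omega, rfl⟩
    · obtain ⟨i, hi, rfl⟩ := Finset.mem_image.1 h'
      exact ⟨i, hi, j + 1, by omega, le_rfl, rfl⟩
  intro a ha b hb
  obtain ⟨i, hi, j₁, a1, a2, rfl⟩ := mem a ha
  obtain ⟨i', hi', j₂, b1, b2, rfl⟩ := mem b hb
  have xi := ((hc σ s1).2 i hi).1
  have xi' := ((hc σ s1).2 i' hi').1
  have d1 := kd j₁ i xi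
  have d2 := kd j₂ i' xi'
  have d3 : dist (H (t j₁, x i)) (H (t j₂, x i')) < ε / 3 :=
    hu _ ⟨Set.mem_univ _, xi⟩ _ ⟨Set.mem_univ _, xi'⟩ (by
      rw [Prod.dist_eq]
      exact max_lt (td _ _ (by omega) (by omega))
        ((((hc σ s1).2 i hi).2 i' hi').trans_le (min_le_left _ _)))
  have := dist_triangle4 (x (k j₁ i)) (H (t j₁, x i)) (H (t j₂, x i')) (x (k j₂ i'))
  rw [dist_comm] at d1
  linarith

end Vale.Agent.P239.AS
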