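import Vale.Agent.P239.ASB
import Vale.Agent.P239.BasY

/-! Existence of an equivariant net, and metrizability of the space. -/

namespace Vale.Agent.P239.AS

open scoped Pointwise symmDiff
open Filter Topology

variable {Γ : Type*} [Group Γ] {E : Type*} [TopologicalSpace E] [T2Space E] [MulAction Γ E]
  [ContinuousConstSMul Γ E] {S : Finset Γ} {π : E → Γ} {x₀ : E} {r₀ : ℕ} {K₀ : Set E}

namespace NetXAux

omit [TopologicalSpace E] [T2Space E] [ContinuousConstSMul Γ E] in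
/-- An equivariant section for a free action. -/
theorem exists_pi [Nonempty E] (hfree : ∀ (g : Γ) (x : E), g • x = x → g = 1) {K : Set E}
    (hK : ∀ x : E, ∃ g : Γ, g • x ∈ K) :
    ∃ (π : E → Γ) (x₀ : E), (∀ (g : Γ) (x : E), π (g • x) = g * π x) ∧ π x₀ = 1 ∧
      ∀ x, (π x)⁻¹ • x ∈ K := by
  have h0 : ∀ O : Set E, ∃ y : E, O.Nonempty → y ∈ O := fun O => by
    by_cases h : O.Nonempty
    · exact ⟨h.some, fun _ => h.some_mem⟩
    · exact ⟨Classical.arbitrary E, fun h' => absurd h' h⟩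
  choose c hc using h0
  have h1 : ∀ x : E, c (K ∩ MulAction.orbit Γ x) ∈ K ∩ MulAction.orbit Γ x := fun x => by
    obtain ⟨g, hg⟩ := hK x
    exact hc _ ⟨g • x, hg, MulAction.mem_orbit x g⟩
  have h2 : ∀ x : E, ∃ g : Γ, g⁻¹ • x = c (K ∩ MulAction.orbit Γ x) := fun x => by
    obtain ⟨g, hg⟩ := (h1 x).2
    exact ⟨g⁻¹, by rw [inv_inv]; exact hg⟩
  choose p hp using h2
  have h3 : ∀ (g : Γ) (x : E), p (g • x) = g * p x := fun g x => by
    have h4 : (p (g • x))⁻¹ • g • x = (p x)⁻¹ • x := by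
      rw [hp, hp, MulAction.orbit_smul]
    have h5 := hfree (p x * (p (g • x))⁻¹ * g) x (by
      rw [mul_smul, mul_smul, h4, smul_inv_smul])
    have h6 : p (g • x) = g * (p x * (p (g • x))⁻¹ * g) * g⁻¹ * p (g • x) := by
      rw [h5]; group
    rw [h6]; group
  obtain ⟨x⟩ := ‹Nonempty E›
  refine ⟨p, (p x)⁻¹ • x, h3, by rw [h3, inv_mul_cancel], fun y => ?_⟩
  rw [hp]
  exact (h1 y).1

theorem prop_of [ProperlyDiscontinuousSMul Γ E] (hc : IsCompact K₀)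
    (hm : ∀ x, (π x)⁻¹ • x ∈ K₀) {L : Set E} (hL : IsCompact L) : (π '' L).Finite := by
  refine (finite_disjoint_inter_image (Γ := Γ) hc hL).subset ?_
  rintro _ ⟨x, hx, rfl⟩
  exact ⟨x, ⟨_, hm x, smul_inv_smul _ _⟩, hx⟩

theorem ev_mem [LocallyCompactSpace E] [ProperlyDiscontinuousSMul Γ E] (hc : IsCompact K₀)
    (hm : ∀ x, (π x)⁻¹ • x ∈ K₀) (x : E) : ∀ᶠ y in 𝓝 x, (π y)⁻¹ • x ∈ K₀ := by
  obtain ⟨V, hV, hx⟩ := exists_compact_mem_nhds x
  have h1 : ∀ᶠ y in 𝓝 x, ∀ g ∈ π '' V, g⁻¹ • y ∈ K₀ → g⁻¹ • x ∈ K₀ := by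
    refine (eventually_all_finite (prop_of hc hm hV)).2 fun g _ => ?_
    by_cases h : g⁻¹ • x ∈ K₀
    · exact Eventually.of_forall fun _ _ => h
    · have h2 : ∀ᶠ y in 𝓝 x, g⁻¹ • y ∈ K₀ᶜ :=
        (continuous_const_smul g⁻¹).continuousAt.eventually (hc.isClosed.isOpen_compl.mem_nhds h)
      exact h2.mono fun y hy hy' => absurd hy' hy
  filter_upwards [h1, hx] with y hy hyV
  exact hy _ ⟨y, hyV, rfl⟩ (hm y)

end NetXAux

open NetXAux in
theorem exists_net [LocallyCompactSpace E] [PathConnectedSpace E]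
    [ProperlyDiscontinuousSMul Γ E] (hfree : ∀ (g : Γ) (x : E), g • x = x → g = 1)
    (hco : ∃ K : Set E, IsCompact K ∧ ∀ x : E, ∃ g : Γ, g • x ∈ K) :
    ∃ (S : Finset Γ) (π : E → Γ) (x₀ : E) (r₀ : ℕ) (K₀ : Set E), Net S π x₀ r₀ K₀ := by
  obtain ⟨K, hc, hK⟩ := hco
  obtain ⟨π, x₀, heq, hb, hm⟩ := exists_pi hfree hK
  obtain ⟨S, hS⟩ : ∃ S : Finset Γ, ∀ g, g ∈ S ↔ ∃ a ∈ K, g • a ∈ K := by
    refine ⟨(finite_disjoint_inter_image (Γ := Γ) hc hc).toFinset, fun g => ?_⟩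
    rw [Set.Finite.mem_toFinset]
    constructor
    · rintro ⟨_, ⟨a, ha, rfl⟩, hb⟩
      exact ⟨a, ha, hb⟩
    · rintro ⟨a, ha, hb⟩
      exact ⟨_, ⟨a, ha, rfl⟩, hb⟩
  have hloc : ∀ x : E, ∃ W ∈ 𝓝 x, ∀ y ∈ W, ∀ y' ∈ W, (π y)⁻¹ * π y' ∈ S := fun x =>
    ⟨_, ev_mem hc hm x, fun y hy y' hy' => (hS _).2 ⟨_, hy', by
      rw [mul_smul, smul_inv_smul]; exact hy⟩⟩
  have hstep : ∀ y y' : E, (π y)⁻¹ * π y' ∈ S → (∃ n : ℕ, π y ∈ (S : Set Γ) ^ n) →
      ∃ n : ℕ, π y' ∈ (S : Set Γ) ^ n := by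
    rintro y y' h ⟨n, hn⟩
    refine ⟨n + 1, ?_⟩
    rw [pow_succ]
    exact ⟨_, hn, _, h, by simp⟩
  have hlc : IsLocallyConstant fun y : E => ∃ n : ℕ, π y ∈ (S : Set Γ) ^ n := by
    refine (IsLocallyConstant.iff_eventually_eq _).2 fun x => ?_
    obtain ⟨W, hW, h⟩ := hloc x
    filter_upwards [hW] with y hy
    exact propext ⟨hstep y x (h y hy x (mem_of_mem_nhds hW)),
      hstep x y (h x (mem_of_mem_nhds hW) y hy)⟩
  have hg : Gen S := by
    refine ⟨(hS 1).2 ⟨_, hm x₀, by rw [one_smul]; exact hm x₀⟩, fun s hs => ?_, fun g => ?_⟩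
    · obtain ⟨a, ha, hb⟩ := (hS s).1 hs
      exact (hS _).2 ⟨_, hb, by rw [inv_smul_smul]; exact ha⟩
    · have h1 := hlc.apply_eq_of_preconnectedSpace x₀ (g • x₀)
      have h2 : ∃ n : ℕ, π x₀ ∈ (S : Set Γ) ^ n := ⟨0, by rw [hb, pow_zero]; rfl⟩
      have h3 := h1.mp h2
      rwa [heq, hb, mul_one] at h3
  have hP : IsCompact (⋃ s ∈ S, Set.range (PathConnectedSpace.somePath x₀ (s • x₀))) :=
    S.isCompact_biUnion fun s _ => isCompact_range (PathConnectedSpace.somePath _ _).continuous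
  obtain ⟨r, hr⟩ := hg.finite_sub_ball (prop_of hc hm hP) 1
  refine ⟨S, π, x₀, r, K, hg, heq, hb, hc, hm, hloc, fun s hs => ?_, fun L hL => prop_of hc hm hL⟩
  refine ⟨Set.range (PathConnectedSpace.somePath x₀ (s • x₀)),
    isPreconnected_range (PathConnectedSpace.somePath _ _).continuous,
    ⟨0, Path.source _⟩, ⟨1, Path.target _⟩, fun y hy => ?_⟩
  have h1 := hr (π y) ⟨y, Set.mem_biUnion hs hy, rfl⟩
  unfold Near at h1
  rwa [inv_one, one_mul] at h1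

theorem metrizable_of_net [ChartedSpace R4 E] (h : Net S π x₀ r₀ K₀) :
    TopologicalSpace.MetrizableSpace E := by
  have := h.gen.countable
  have : SigmaCompactSpace E := by
    refine SigmaCompactSpace.of_countable (Set.range fun g : Γ => (fun x : E => g • x) '' K₀)
      (Set.countable_range _) ?_ ?_
    · rintro _ ⟨g, rfl⟩
      exact h.cpt.image (continuous_const_smul g)
    · refine Set.eq_univ_of_forall fun x => ?_
      exact ⟨_, ⟨π x, rfl⟩, _, h.mem x, smul_inv_smul _ _⟩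
  have := ChartedSpace.locallyCompactSpace R4 E
  have := ChartedSpace.secondCountable_of_sigmaCompact R4 E
  exact TopologicalSpace.metrizableSpace_of_t3_secondCountable E

end Vale.Agent.P239.AS
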