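import Vale.Agent.P239.ASB

/-! The union of a pattern has the cohomology of a sphere. -/

namespace Vale.Agent.P239.AS

open scoped Pointwise symmDiff
open Filter Topology

variable {k : Type*} [Field k] {X Y : Type*} [TopologicalSpace X] [TopologicalSpace Y]

namespace PNXAux

theorem ex_neg {K : Set X} {f g : Co k X} (h : Ex K f) (e : g = 0 - f) : Ex K g :=
  e ▸ (Ex.of_nul (Nul k K).zero_mem).sub h

theorem step [T2Space X] {A B : Set X} (hA : IsCompact A) (hB : IsCompact B) (aA : Acyc k A)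
    (aB : Acyc k B) {n : ℕ} {γ' : Co k X} (h1 : ∀ m, m ≠ n → HK k m (A ∩ B)) (h2 : Deg n γ')
    (h3 : d γ' ∈ Nul k (A ∩ B))
    (h4 : ∀ f : Co k X, Deg n f → d f ∈ Nul k (A ∩ B) → Ex (A ∩ B) f ∨ Ex (A ∩ B) (f - γ')) :
    (∀ m, m ≠ n + 1 → HK k m (A ∪ B)) ∧ ∃ γ : Co k X, Deg (n + 1) γ ∧ d γ ∈ Nul k (A ∪ B) ∧
      (∀ A' ⊆ A, ∀ B' ⊆ B, Acyc k A' → Acyc k B' → Ex (A' ∪ B') γ → Ex (A' ∩ B') γ') ∧
      ∀ f : Co k X, Deg (n + 1) f → d f ∈ Nul k (A ∪ B) →
        Ex (A ∪ B) f ∨ Ex (A ∪ B) (f - γ) := by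
  have eA : ∀ f : Co k X, d f ∈ Nul k (A ∪ B) → Ex A f :=
    fun f hf => aA f (Nul.mono Set.subset_union_left hf)
  have eB : ∀ f : Co k X, d f ∈ Nul k (A ∪ B) → Ex B f :=
    fun f hf => aB f (Nul.mono Set.subset_union_right hf)
  constructor
  · intro m hm f hf hd
    cases m with
    | zero =>
      rw [(eA f hd).graded_zero hf]
      exact Ex.of_nul (Nul k _).zero_mem
    | succ m => exact glue_hk hA hB hf (eA f hd) (eB f hd) (h1 m (by omega))
  obtain ⟨O, o1, o2⟩ := split hA hB h3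
  have hγ : Deg (n + 1) (d γ' - cut O (d γ')) := h2.d.sub (h2.d.cut O)
  have o3 : d γ' - cut O (d γ') - d γ' ∈ Nul k B := by
    rw [sub_sub_cancel_left]
    exact (Nul k B).neg_mem o2
  generalize d γ' - cut O (d γ') = γ at hγ o1 o3
  refine ⟨γ, hγ, Nul.union (d_mem_Nul o1) ?_, ?_, ?_⟩
  · have := d_mem_Nul o3
    rwa [map_sub, d_d, sub_zero] at this
  · rintro A' sA B' sB aA' aB' ⟨e, he⟩
    have a1 := (Nul k A').sub_mem (Nul.mono sA o1) (Nul.mono Set.subset_union_left he)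
    have a2 := (Nul k B').sub_mem (Nul.mono sB o3) (Nul.mono Set.subset_union_right he)
    rw [sub_sub_cancel] at a1
    rw [sub_sub_sub_cancel_left, ← map_sub] at a2
    have a3 := ((aA' e a1).mono (Set.inter_subset_left (t := B'))).sub
      ((aB' _ a2).mono Set.inter_subset_right)
    rwa [sub_sub_cancel] at a3
  · intro f hf hd
    obtain ⟨g1, d1, e1⟩ := (eA f hd).graded hf
    obtain ⟨g2, d2, e2⟩ := (eB f hd).graded hf
    have a1 := (Nul k (A ∩ B)).sub_mem (Nul.mono Set.inter_subset_left e1)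
      (Nul.mono Set.inter_subset_right e2)
    rw [sub_sub_sub_cancel_left, ← map_sub] at a1
    refine (h4 _ (d2.sub d1) a1).imp (fun h => glue hA hB e1 e2 (ex_neg h (by abel))) fun h => ?_
    refine glue hA hB (g₁ := g1) (g₂ := g2 - γ') ?_ ?_ (ex_neg h (by abel))
    · rw [sub_right_comm]
      exact (Nul k A).sub_mem e1 o1
    · rw [show f - γ - d (g2 - γ') = f - d g2 - (γ - d γ') by rw [map_sub]; abel]
      exact (Nul k B).sub_mem e2 o3

theorem parts {𝒦 : Set (Set X)} (hc : Cvx 𝒦) {n : ℕ} {K : Fin (n + 2) → Set X}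
    (h : Pattern 𝒦 K) : Acyc (ZMod 2) (⋃ i : Fin (n + 1), K i.castSucc) ∧
      Acyc (ZMod 2) (K (Fin.last _)) ∧
      Pattern 𝒦 (fun i : Fin (n + 1) => K i.castSucc ∩ K (Fin.last _)) := by
  obtain ⟨h1, h2, h3⟩ := h
  refine ⟨?_, ?_, fun i => hc.inter _ (h1 _) _ (h1 _), fun j => ?_, fun x => ?_⟩
  · obtain ⟨x, hx⟩ := h2 (Fin.last _)
    exact hc.star n _ x fun i => ⟨h1 _, hx _ (Fin.castSucc_lt_last i).ne⟩
  · obtain ⟨x, hx⟩ := h2 (Fin.castSucc 0)
    have := hc.star 0 (fun _ => K (Fin.last _)) x fun _ =>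
      ⟨h1 _, hx _ (Fin.castSucc_lt_last 0).ne'⟩
    rwa [Set.iUnion_const] at this
  · obtain ⟨x, hx⟩ := h2 j.castSucc
    exact ⟨x, fun i hi => ⟨hx _ fun e => hi (Fin.castSucc_injective _ e),
      hx _ (Fin.castSucc_lt_last j).ne'⟩⟩
  · obtain ⟨i, hi⟩ := h3 x
    induction i using Fin.lastCases with
    | last => exact ⟨0, fun hx => hi hx.2⟩
    | cast i => exact ⟨i, fun hx => hi hx.1⟩

omit [TopologicalSpace X] in
theorem uni {n : ℕ} (K : Fin (n + 2) → Set X) :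
    ⋃ i, K i = (⋃ i : Fin (n + 1), K i.castSucc) ∪ K (Fin.last _) :=
  Set.iUnion_fin_add_one_eq_iUnion_castSucc K

end PNXAux

theorem pn [T2Space X] : PN X := by
  intro 𝒦 hc n
  induction n with
  | zero =>
    intro K hK
    have e : ⋃ i, K i = ∅ := by
      refine Set.eq_empty_of_forall_notMem fun x hx => ?_
      obtain ⟨i, hi⟩ := hK.2.2 x
      obtain ⟨j, hj⟩ := Set.mem_iUnion.1 hx
      exact hi (Subsingleton.elim (α := Fin 1) j i ▸ hj)
    rw [e]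
    refine ⟨fun m hm => ?_, proj 0 1, deg_proj 0 1, ⟨rfl, fun y hy => hy.elim⟩,
      fun F _ _ h => ?_, fun f _ _ => ?_⟩
    · obtain ⟨m, rfl⟩ := Nat.exists_eq_succ_of_ne_zero hm
      exact hk_subsingleton Set.subsingleton_empty m
    · have : (1 : ZMod 2) = 0 := congrFun (h.graded_zero (deg_proj 0 1)) []
      exact one_ne_zero this
    · have : ∀ t : ZMod 2, t = 0 ∨ t - 1 = 0 := by decide
      exact (this (f [])).imp (fun h => Ex.of_nul ⟨h, fun y hy => hy.elim⟩)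
        fun h => Ex.of_nul ⟨h, fun y hy => hy.elim⟩
  | succ n ih =>
    intro K hK
    obtain ⟨p1, p2, p3⟩ := PNXAux.parts hc hK
    obtain ⟨q1, γ', q2, q3, q4, q5⟩ := ih _ p3
    rw [← Set.iUnion_inter] at q1 q3 q5
    obtain ⟨r1, γ, r2, r3, r4, r5⟩ := PNXAux.step
      (isCompact_iUnion fun i => hc.cpt _ (hK.1 _)) (hc.cpt _ (hK.1 _)) p1 p2 q1 q2 q3 q5
    rw [PNXAux.uni K]
    refine ⟨r1, γ, r2, r3, fun F hF hs h => ?_, r5⟩
    obtain ⟨s1, s2, s3⟩ := PNXAux.parts hc hF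
    rw [PNXAux.uni F] at h
    refine q4 _ s3 (fun i => Set.inter_subset_inter (hs _) (hs _)) ?_
    rw [← Set.iUnion_inter]
    exact r4 _ (Set.iUnion_mono fun i => hs _) _ (hs _) s1 s2 h

end Vale.Agent.P239.AS
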