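import Vale.Agent.P239.ASB

/-! Free actions of finite groups: invariant cohomology and the absence of torsion. -/

namespace Vale.Agent.P239.AS

open scoped Pointwise symmDiff
open Filter Topology

namespace TorsXAux

variable {k : Type*} [Field k] {G : Type*} [Group G] {E : Type*} [MulAction G E]

/-- The action on cochains. -/
def act (u : G) : Co k E →ₗ[k] Co k E := pull fun x : E => u • x

theorem act_act (u v : G) (f : Co k E) : act u (act v f) = act (v * u) f := by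
  simp only [act, pull_pull, mul_smul]

theorem act_one (f : Co k E) : act (1 : G) f = f := by
  simp only [act, one_smul, pull_id]

theorem d_act (u : G) (f : Co k E) : d (act u f) = act u (d f) := d_pull _ f

theorem act_nil (u : G) (f : Co k E) : act u f [] = f [] := rfl

theorem act_cut (u : G) (O : Set E) (f : Co k E) :
    act u (cut O f) = cut {x | u • x ∈ O} (act u f) := pull_cut _ O f

/-- Invariant cochains. -/
def Inv (G : Type*) [Group G] [MulAction G E] (f : Co k E) : Prop := ∀ u : G, act u f = f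

/-- Invariant sets. -/
def InvS (G : Type*) [Group G] [MulAction G E] (K : Set E) : Prop := ∀ u : G, ∀ x ∈ K, u • x ∈ K

/-- The saturation of a set. -/
def orb (G : Type*) [Group G] [MulAction G E] (D : Set E) : Set E := {y | ∃ u : G, u • y ∈ D}

theorem Inv.sub {f g : Co k E} (hf : Inv G f) (hg : Inv G g) : Inv G (f - g) := fun u => by
  rw [map_sub, hf u, hg u]

theorem Inv.d {f : Co k E} (hf : Inv G f) : Inv G (d f) := fun u => by
  rw [← d_act, hf u]

theorem Inv.cut {f : Co k E} {O : Set E} (hf : Inv G f) (hO : InvS G O) : Inv G (cut O f) := by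
  intro u
  rw [act_cut, hf u]
  congr 2
  ext x
  exact ⟨fun h => by simpa using hO u⁻¹ _ h, hO u x⟩

theorem invS_orb (D : Set E) : InvS G (orb G D) := fun u x ⟨v, hv⟩ =>
  ⟨v * u⁻¹, by rwa [mul_smul, inv_smul_smul]⟩

theorem sub_orb (D : Set E) : D ⊆ orb G D := fun x hx => ⟨1, by rwa [one_smul]⟩

theorem InvS.inter_orb {K : Set E} (hK : InvS G K) (D : Set E) :
    K ∩ orb G D = orb G (K ∩ D) := by
  ext x
  exact ⟨fun ⟨h1, u, h2⟩ => ⟨u, hK u x h1, h2⟩,
    fun ⟨u, h1, h2⟩ => ⟨by simpa using hK u⁻¹ _ h1, u, h2⟩⟩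

theorem inv_of_gen {γ : G} (hγ : ∀ u : G, ∃ j : ℕ, γ ^ j = u) {f : Co k E} (h : act γ f = f) :
    Inv G f := by
  intro u
  obtain ⟨j, rfl⟩ := hγ u
  induction j with
  | zero => rw [pow_zero, act_one]
  | succ j ih => rw [pow_succ, ← act_act, ih, h]

theorem invS_of_gen {γ : G} (hγ : ∀ u : G, ∃ j : ℕ, γ ^ j = u) {K : Set E}
    (h : ∀ x ∈ K, γ • x ∈ K) : InvS G K := by
  intro u
  obtain ⟨j, rfl⟩ := hγ u
  induction j with
  | zero => intro x hx; rwa [pow_zero, one_smul]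
  | succ j ih => intro x hx; rw [pow_succ, mul_smul]; exact ih _ (h x hx)

theorem exists_rep (hfree : ∀ (u : G) (x : E), u • x = x → u = 1) :
    ∃ R : Set E, ∀ x : E, ∃! u : G, u • x ∈ R := by
  refine ⟨{x | (Quotient.mk (MulAction.orbitRel G E) x).out = x}, fun x => ?_⟩
  have e : ∀ u : G, Quotient.mk (MulAction.orbitRel G E) (u • x) =
      Quotient.mk (MulAction.orbitRel G E) x := fun u => Quotient.sound ⟨u, rfl⟩
  obtain ⟨u, hu⟩ : (Quotient.mk (MulAction.orbitRel G E) x).out ∈ MulAction.orbit G x :=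
    Quotient.exact (Quotient.out_eq (Quotient.mk (MulAction.orbitRel G E) x))
  refine ⟨u, ?_, fun v hv => ?_⟩
  · change _ = _
    rw [e]
    exact hu.symm
  · change _ = _ at hv
    rw [e, ← hu] at hv
    have := hfree (v⁻¹ * u) x (by rw [mul_smul, inv_smul_eq_iff]; exact hv)
    exact inv_mul_eq_one.1 this

variable [Fintype G]

/-- The norm map. -/
noncomputable def sg (G : Type*) [Group G] [MulAction G E] [Fintype G] : Co k E →ₗ[k] Co k E :=
  ∑ u : G, act u

theorem sg_apply (f : Co k E) : sg G f = ∑ u : G, act u f := LinearMap.sum_apply _ _ _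

theorem inv_sg (f : Co k E) : Inv G (sg G f) := fun v => by
  rw [sg_apply, map_sum]
  simp only [act_act]
  exact Equiv.sum_comp (Equiv.mulRight v) fun u => act u f

theorem sg_act (v : G) (f : Co k E) : sg G (act v f) = sg G f := by
  rw [sg_apply, sg_apply]
  simp only [act_act]
  exact Equiv.sum_comp (Equiv.mulLeft v) fun u => act u f

theorem d_sg (f : Co k E) : d (sg G f) = sg G (d f) := by
  rw [sg_apply, sg_apply, map_sum]
  simp only [d_act]

theorem deg_sg {n : ℕ} {f : Co k E} (h : Deg n f) : Deg n (sg G f) := by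
  rw [sg_apply]
  exact Deg.sum fun u _ => h.pull _

theorem sum_cut {R : Set E} (hR : ∀ x : E, ∃! u : G, u • x ∈ R) {f : Co k E} (h0 : f [] = 0) :
    ∑ u : G, act u (cut R (act u⁻¹ f)) = f := by
  funext l
  simp only [act_cut, act_act, inv_mul_cancel, act_one, Finset.sum_apply]
  cases l with
  | nil => simp only [cut_nil, Finset.sum_const_zero, h0]
  | cons x l =>
    obtain ⟨u, h1, h2⟩ := hR x
    exact (Finset.sum_eq_single (f := fun c : G => cut {x | c • x ∈ R} f (x :: l)) u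
      (fun v _ hv => cut_cons_of_notMem (O := {x | v • x ∈ R}) f (fun h => hv (h2 v h)) l)
      (fun h => absurd (Finset.mem_univ u) h)).trans
      (cut_cons_of_mem (O := {x | u • x ∈ R}) f h1 l)

theorem ker_tau {R : Set E} (hR : ∀ x : E, ∃! u : G, u • x ∈ R) {n : ℕ} {f : Co k E}
    (hf : Deg (n + 1) f) (h : Inv G f) : ∃ e, Deg (n + 1) e ∧ sg G e = f := by
  refine ⟨cut R f, hf.cut R, ?_⟩
  have := sum_cut hR hf.nil
  simp only [h _] at this
  rw [sg_apply, this]

omit [Fintype G] in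
theorem act_sub {γ : G} (hγ : ∀ u : G, ∃ j : ℕ, γ ^ j = u) (u : G) {n : ℕ} {f : Co k E}
    (hf : Deg n f) : ∃ e, Deg n e ∧ e - act γ e = act u f - f := by
  obtain ⟨j, rfl⟩ := hγ u
  induction j with
  | zero => exact ⟨0, Deg.zero n, by rw [pow_zero, act_one, map_zero, sub_self, sub_self]⟩
  | succ j ih =>
    obtain ⟨e, h1, h2⟩ := ih
    refine ⟨e - act (γ ^ j) f, h1.sub (hf.pull _), ?_⟩
    rw [map_sub, act_act, ← pow_succ]
    linear_combination h2

theorem ker_sg {R : Set E} (hR : ∀ x : E, ∃! u : G, u • x ∈ R) {γ : G}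
    (hγ : ∀ u : G, ∃ j : ℕ, γ ^ j = u) {n : ℕ} {f : Co k E}
    (hf : Deg (n + 1) f) (h : sg G f = 0) : ∃ e, Deg (n + 1) e ∧ e - act γ e = f := by
  choose e h1 h2 using fun u : G => act_sub hγ u ((hf.pull fun x : E => u⁻¹ • x).cut R)
  refine ⟨∑ u, e u, Deg.sum fun u _ => h1 u, ?_⟩
  have h3 : ∑ u : G, cut R (act u⁻¹ f) = 0 := by
    have e : ∑ u : G, act u⁻¹ f = ∑ u : G, act u f :=
      Equiv.sum_comp (Equiv.inv G) fun u => act u f
    rw [← map_sum, e, ← sg_apply, h, map_zero]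
  rw [map_sum, ← Finset.sum_sub_distrib, Finset.sum_congr rfl fun u _ => h2 u,
    Finset.sum_sub_distrib]
  change ∑ u : G, act u (cut R (act u⁻¹ f)) - ∑ u : G, cut R (act u⁻¹ f) = f
  rw [h3, sub_zero, sum_cut hR hf.nil]

theorem up {R : Set E} (hR : ∀ x : E, ∃! u : G, u • x ∈ R) {γ : G}
    (hγ : ∀ u : G, ∃ j : ℕ, γ ^ j = u) {n : ℕ} {e : Co k E} (he : Deg n e) (h : Inv G (d e)) :
    ∃ e' e'', sg G e' = d e ∧ d e' = e'' - act γ e'' ∧ Deg (n + 2) e'' ∧ Inv G (d e'') := by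
  obtain ⟨e', h1, h2⟩ := ker_tau hR he.d h
  obtain ⟨e'', h3, h4⟩ := ker_sg hR hγ h1.d (by rw [← d_sg, h2, d_d])
  refine ⟨e', e'', h2, h4.symm, h3, inv_of_gen hγ ?_⟩
  have := congrArg d h4
  rw [d_d, map_sub, d_act, sub_eq_zero] at this
  exact this.symm

variable [TopologicalSpace E] [ContinuousConstSMul G E]

omit [Fintype G] in
theorem act_nul {K : Set E} (hK : InvS G K) (u : G) {f : Co k E} (h : f ∈ Nul k K) :
    act u f ∈ Nul k K :=
  pull_mem_Nul (fun _ _ => (continuous_const_smul u).continuousAt) (hK u) h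

theorem sg_nul {K : Set E} (hK : InvS G K) {f : Co k E} (h : f ∈ Nul k K) :
    sg G f ∈ Nul k K := by
  rw [sg_apply]
  exact Submodule.sum_mem _ fun u _ => act_nul hK u h

omit [Fintype G] in
theorem nul_orb {D : Set E} {f : Co k E} (hf : Inv G f) (h : f ∈ Nul k D) :
    f ∈ Nul k (orb G D) := by
  refine ⟨h.1, fun y ⟨u, hu⟩ => ?_⟩
  rw [← hf u]
  exact Van.pull (continuous_const_smul u).continuousAt (h.2 _ hu)

theorem cpt_orb {D : Set E} (h : IsCompact D) : IsCompact (orb G D) := by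
  have : orb G D = ⋃ u : G, (Homeomorph.smul u) ⁻¹' D := by
    ext x
    simp [orb]
  rw [this]
  exact isCompact_iUnion fun u => (Homeomorph.smul u).isCompact_preimage.2 h

/-- Invariant cocycles on `K` have invariant primitives. -/
def IVK (k : Type*) [Field k] (G : Type*) [Group G] [MulAction G E] (K : Set E) (n : ℕ) : Prop :=
  ∀ f : Co k E, Deg (n + 1) f → Inv G f → d f ∈ Nul k K →
    ∃ b : Co k E, Deg n b ∧ Inv G b ∧ f - d b ∈ Nul k K

/-- Small open sets moved off themselves. -/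
def Good (k : Type*) [Field k] (G : Type*) [Group G] [MulAction G E] (O : Set E) : Prop :=
  IsOpen O ∧ (∀ K ⊆ O, IsCompact K → ∀ n, 5 ≤ n → HK k n K) ∧
    ∀ u : G, u ≠ 1 → ∀ y ∈ O, u • y ∉ O

theorem exists_good [T2Space E] (h : Dim4 k E) (hfree : ∀ (u : G) (x : E), u • x = x → u = 1)
    (x : E) : ∃ O, Good k G O ∧ x ∈ O := by
  obtain ⟨O, hO, h1⟩ := h x
  have h2 : ∀ u : G, ∃ V ∈ 𝓝 x, u ≠ 1 → ∀ y ∈ V, u • y ∉ V := by
    intro u
    by_cases hu : u = 1
    · exact ⟨Set.univ, univ_mem, fun h => absurd hu h⟩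
    · obtain ⟨A, B, hA, hB, hAB⟩ := t2_separation_nhds fun e => hu (hfree u x e)
      exact ⟨B ∩ {y | u • y ∈ A}, inter_mem hB ((continuous_const_smul u).continuousAt hA),
        fun _ y hy hy' => Set.disjoint_left.1 hAB hy.2 hy'.1⟩
  choose V h3 h4 using h2
  have h5 : O ∩ ⋂ u, V u ∈ 𝓝 x := inter_mem hO (iInter_mem.2 h3)
  refine ⟨interior (O ∩ ⋂ u, V u), ⟨isOpen_interior,
    fun K hK => h1 K fun y hy => (interior_subset (hK hy)).1, fun u hu y hy hy' => ?_⟩,
    mem_interior_iff_mem_nhds.2 h5⟩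
  exact h4 u hu y (Set.mem_iInter.1 (interior_subset hy).2 u)
    (Set.mem_iInter.1 (interior_subset hy').2 u)

theorem base {O D : Set E} (hO : Good k G O) (hD : IsCompact D) (hDO : D ⊆ O) {n : ℕ}
    (hn : 4 ≤ n) : IVK k G (orb G D) n := by
  classical
  intro f hf hi hd
  obtain ⟨b, hb, h1⟩ := (hO.2.1 D hDO hD (n + 1) (by omega) f hf
    (Nul.mono (sub_orb D) hd)).graded hf
  obtain ⟨m, rfl⟩ : ∃ m, n = m + 1 := ⟨n - 1, by omega⟩
  refine ⟨sg G (cut O b), deg_sg (hb.cut O), inv_sg _, nul_orb (hi.sub (inv_sg _).d) ?_⟩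
  have h2 : b - cut O b ∈ Nul k D :=
    ⟨by rw [Pi.sub_apply, hb.nil, cut_nil, sub_zero],
      fun y hy => van_sub_cut (hO.1.mem_nhds (hDO hy)) hb.nil⟩
  have h3 : ∑ u ∈ Finset.univ.erase (1 : G), act u (cut O b) ∈ Nul k D := by
    refine Submodule.sum_mem _ fun u hu => ?_
    rw [act_cut]
    exact ⟨cut_nil _ _, fun y hy => van_cut_of_compl (mem_of_superset (hO.1.mem_nhds (hDO hy))
      fun z hz => hO.2.2 u (Finset.ne_of_mem_erase hu) z hz) _⟩
  have h4 := (Nul k D).add_mem h1 (d_mem_Nul ((Nul k D).sub_mem h2 h3))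
  rw [sg_apply, ← Finset.add_sum_erase _ _ (Finset.mem_univ (1 : G)), act_one]
  simp only [map_sub, map_add] at h4 ⊢
  convert h4 using 1
  abel

theorem split_inv [T2Space E] {A B : Set E} (hA : IsCompact A) (hB : IsCompact B) (iA : InvS G A)
    {f : Co k E} (hi : Inv G f) (h : f ∈ Nul k (A ∩ B)) :
    ∃ O : Set E, InvS G O ∧ f - cut O f ∈ Nul k A ∧ cut O f ∈ Nul k B := by
  have hN := isOpen_van f
  obtain ⟨U, V, hU, hV, h1, h2, h3⟩ := SeparatedNhds.of_isCompact_isCompact (hA.diff hN)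
    (hB.diff hN) (Set.disjoint_left.2 fun y hy hy' => hy.2 (h.2 y ⟨hy.1, hy'.1⟩))
  refine ⟨⋂ u : G, {x | u • x ∈ U}, fun u x hx => Set.mem_iInter.2 fun v => ?_,
    ⟨by rw [Pi.sub_apply, h.1, cut_nil, sub_zero], fun y hy => ?_⟩, cut_nil _ _, fun y hy => ?_⟩
  · have := Set.mem_iInter.1 hx (v * u)
    rwa [Set.mem_ofPred_eq, mul_smul] at this
  · by_cases hy' : Van f y
    · exact hy'.sub (hy'.cut _)
    · refine van_sub_cut (iInter_mem.2 fun u => (continuous_const_smul u).continuousAt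
        (hU.mem_nhds (h1 ⟨iA u y hy, fun hv => hy' ?_⟩))) h.1
      rw [← hi u]
      exact Van.pull (continuous_const_smul u).continuousAt hv
  · by_cases hy' : Van f y
    · exact hy'.cut _
    · refine van_cut_of_compl (mem_of_superset (hV.mem_nhds (h2 ⟨hy, hy'⟩)) fun z hz hz' => ?_) _
      have := Set.mem_iInter.1 hz' 1
      rw [Set.mem_ofPred_eq, one_smul] at this
      exact Set.disjoint_left.1 h3 this hz

theorem glue_inv [T2Space E] {A B : Set E} (hA : IsCompact A) (hB : IsCompact B) (iA : InvS G A)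
    {n : ℕ} (h1 : IVK k G A (n + 1)) (h2 : IVK k G B (n + 1)) (h3 : IVK k G (A ∩ B) n) :
    IVK k G (A ∪ B) (n + 1) := by
  intro f hf hi hd
  obtain ⟨b1, a1, a2, a3⟩ := h1 f hf hi (Nul.mono Set.subset_union_left hd)
  obtain ⟨b2, c1, c2, c3⟩ := h2 f hf hi (Nul.mono Set.subset_union_right hd)
  obtain ⟨c, e1, e2, e3⟩ := h3 (b1 - b2) (a1.sub c1) (a2.sub c2) (by
    have := (Nul k (A ∩ B)).sub_mem (Nul.mono Set.inter_subset_right c3)
      (Nul.mono Set.inter_subset_left a3)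
    rwa [sub_sub_sub_cancel_left, ← map_sub] at this)
  have i1 := (a2.sub c2).sub e2.d
  have g1 := (a1.sub c1).sub e1.d
  obtain ⟨O, o1, o2, o3⟩ := split_inv hA hB iA i1 e3
  refine ⟨b1 - (b1 - b2 - d c - cut O (b1 - b2 - d c)), a1.sub (g1.sub (g1.cut O)),
    a2.sub (i1.sub (i1.cut o1)), Nul.union ?_ ?_⟩
  · have := (Nul k A).add_mem a3 (d_mem_Nul o2)
    rw [map_sub d b1]
    convert this using 1
    abel
  · have := (Nul k B).sub_mem c3 (d_mem_Nul o3)
    generalize cut O (b1 - b2 - d c) = w at this ⊢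
    simp only [map_sub, d_d]
    convert this using 1
    abel

theorem iv_gen [T2Space E] (h : Dim4 k E) (hfree : ∀ (u : G) (x : E), u • x = x → u = 1)
    {K : Set E} (hK : IsCompact K) (iK : InvS G K) {n : ℕ} (hn : 5 ≤ n) : IVK k G K n := by
  classical
  choose O h1 h2 using exists_good h hfree
  obtain ⟨t, ht⟩ := hK.elim_finite_subcover O (fun x => (h1 x).1)
    fun x _ => Set.mem_iUnion.2 ⟨x, h2 x⟩
  obtain ⟨D, d1, d2, d3⟩ := hK.finite_compact_cover t O (fun x _ => (h1 x).1) ht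
  obtain ⟨m, rfl⟩ : ∃ m, n = m + 1 := ⟨n - 1, by omega⟩
  have key : ∀ s : Finset E, IVK k G (K ∩ orb G (⋃ x ∈ s, D x)) (m + 1) := by
    intro s
    induction s using Finset.induction with
    | empty =>
      intro f hf _ _
      refine ⟨0, Deg.zero _, fun u => map_zero _, ?_, fun y ⟨_, u, hu⟩ => by simp at hu⟩
      rw [map_zero, sub_zero, hf.nil]
    | insert x s _ ih =>
      have e : K ∩ orb G (⋃ y ∈ insert x s, D y) =
          orb G (K ∩ D x) ∪ K ∩ orb G (⋃ y ∈ s, D y) := by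
        rw [← iK.inter_orb, ← Set.inter_union_distrib_left, Finset.set_biUnion_insert]
        congr 1
        ext y
        exact exists_or
      have hB : IsCompact (K ∩ orb G (⋃ y ∈ s, D y)) :=
        hK.inter (cpt_orb (s.isCompact_biUnion fun y _ => d1 y))
      have iB : InvS G (K ∩ orb G (⋃ y ∈ s, D y)) := fun u y hy =>
        ⟨iK u y hy.1, invS_orb _ u y hy.2⟩
      rw [e]
      refine glue_inv (cpt_orb (hK.inter (d1 x))) hB (invS_orb _)
        (base (h1 x) (hK.inter (d1 x)) (fun y hy => d2 x hy.2) (by omega)) ih ?_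
      rw [Set.inter_comm, iB.inter_orb]
      exact base (h1 x) (hB.inter (hK.inter (d1 x))) (fun y hy => d2 x hy.2.2) (by omega)
  have := key t
  rwa [← d3, Set.inter_eq_left.2 (sub_orb K)] at this

theorem tower (h : HT k E) {K : Set E} (hK : IsCompact K) :
    ∃ L, IsCompact L ∧ InvS G L ∧ ∀ f : Co k E, d f ∈ Nul k L → Ex K f := by
  obtain ⟨L, h1, -, h2⟩ := h K hK
  exact ⟨orb G L, cpt_orb h1, invS_orb L, fun f hf => h2 f (Nul.mono (sub_orb L) hf)⟩

theorem down (h : HT k E) (γ : G) {K : Set E} (hK : IsCompact K) (iK : InvS G K) :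
    ∃ L, IsCompact L ∧ InvS G L ∧ ∀ e e' e'' : Co k E, sg G e' = d e → d e' = e'' - act γ e'' →
      ∀ b, Inv G b → d (e'' - b) ∈ Nul k L → ∃ a, d (e - sg G a) ∈ Nul k K := by
  obtain ⟨M, m1, m2, m3⟩ := tower (G := G) h hK
  obtain ⟨L, l1, l2, l3⟩ := tower (G := G) h m1
  refine ⟨L, l1, l2, fun e e' e'' h1 h2 b h3 h4 => ?_⟩
  obtain ⟨a, ha⟩ := l3 _ h4
  obtain ⟨a', ha'⟩ := m3 (e' - (a - act γ a)) (by
    have := (Nul k M).sub_mem ha (act_nul m2 γ ha)
    simp only [map_sub, h2, d_act, h3 γ] at this ⊢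
    convert this using 1
    abel)
  refine ⟨a', ?_⟩
  have := sg_nul iK ha'
  simp only [map_sub, sg_act, h1, sub_self, sub_zero, ← d_sg] at this ⊢
  exact this

theorem tors_gen [Nonempty E] (hc : (Fintype.card G : k) = 0) {γ : G}
    (hγ : ∀ u : G, ∃ j : ℕ, γ ^ j = u) (hfree : ∀ (u : G) (x : E), u • x = x → u = 1)
    (h1 : HT k E) (h2 : ∀ K : Set E, IsCompact K → InvS G K → IVK k G K 6) : False := by
  obtain ⟨R, hR⟩ := exists_rep hfree
  obtain ⟨y⟩ := ‹Nonempty E›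
  obtain ⟨K2, k1, k2, k3⟩ := down h1 γ (cpt_orb (G := G) (isCompact_singleton (x := y)))
    (invS_orb _)
  obtain ⟨K4, l1, l2, l3⟩ := down h1 γ k1 k2
  obtain ⟨K6, m1, m2, m3⟩ := down h1 γ l1 l2
  have i0 : Inv G (proj 0 (1 : Co k E)) := fun u => by
    funext l
    change (if (l.map _).length = 0 then (1 : k) else 0) = if l.length = 0 then 1 else 0
    rw [List.length_map]
  obtain ⟨e1, e2, a1, a2, a3, a4⟩ := up hR hγ (deg_proj 0 (1 : Co k E)) i0.d
  obtain ⟨e3, e4, b1, b2, b3, b4⟩ := up hR hγ a3 a4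
  obtain ⟨e5, e6, c1, c2, c3, c4⟩ := up hR hγ b3 b4
  obtain ⟨b, -, d1, d2⟩ := h2 K6 m1 m2 (d e6) c3.d c4 (by rw [d_d]; exact (Nul k K6).zero_mem)
  obtain ⟨x4, h4⟩ := m3 _ _ _ c1 c2 b d1 (by rwa [map_sub])
  obtain ⟨x2, h5⟩ := l3 _ _ _ b1 b2 _ (inv_sg x4) h4
  obtain ⟨x0, h6⟩ := k3 _ _ _ a1 a2 _ (inv_sg x2) h5
  obtain ⟨W, hW, h7⟩ := h6.2 y (sub_orb _ rfl)
  have h8 := h7 [y] fun x hx => by rw [List.mem_singleton.1 hx]; exact mem_of_mem_nhds hW
  rw [d_single, Pi.sub_apply, sg_apply, Finset.sum_apply] at h8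
  simp only [act_nil, Finset.sum_const, Finset.card_univ, nsmul_eq_mul, hc, zero_mul,
    sub_zero] at h8
  exact one_ne_zero h8

end TorsXAux

variable {Γ : Type*} [Group Γ] {E : Type*} [TopologicalSpace E] [T2Space E] [MulAction Γ E]
  [ContinuousConstSMul Γ E] {S : Finset Γ} {π : E → Γ} {x₀ : E} {r₀ : ℕ} {K₀ : Set E}

theorem TorsXAux.gen {g : Γ} (hg : IsOfFinOrder g) (u : Subgroup.zpowers g) :
    ∃ j : ℕ, (⟨g, Subgroup.mem_zpowers g⟩ : Subgroup.zpowers g) ^ j = u := by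
  obtain ⟨j, hj⟩ := hg.mem_powers_iff_mem_zpowers.2 u.2
  exact ⟨j, Subtype.ext hj⟩

theorem iv {k : Type*} [Field k] (h : Dim4 k E) {g : Γ} (hg : IsOfFinOrder g)
    (hfree : ∀ (g : Γ) (x : E), g • x = x → g = 1) : IV k E g := by
  have : Finite (Subgroup.zpowers g) := (finite_zpowers.2 hg).to_subtype
  have := Fintype.ofFinite (Subgroup.zpowers g)
  have : ContinuousConstSMul (Subgroup.zpowers g) E := ⟨fun u => continuous_const_smul (u : Γ)⟩
  intro K hK iK n hn f hf hi hd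
  obtain ⟨b, h1, h2, h3⟩ := TorsXAux.iv_gen (G := Subgroup.zpowers g) h
    (fun u x e => Subtype.ext (hfree u x e)) hK (TorsXAux.invS_of_gen (TorsXAux.gen hg) iK) hn f hf
    (TorsXAux.inv_of_gen (TorsXAux.gen hg) hi) hd
  exact ⟨b, h1, h2 ⟨g, Subgroup.mem_zpowers g⟩, h3⟩

omit [T2Space E] in
theorem tors [Nonempty E] {p : ℕ} [Fact p.Prime] {g : Γ} (hg : orderOf g = p)
    (hfree : ∀ (g : Γ) (x : E), g • x = x → g = 1) (h1 : HT (ZMod p) E)
    (h2 : IV (ZMod p) E g) : False := by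
  have hg' : IsOfFinOrder g := orderOf_pos_iff.1 (hg ▸ (Fact.out : p.Prime).pos)
  have : Finite (Subgroup.zpowers g) := (finite_zpowers.2 hg').to_subtype
  have := Fintype.ofFinite (Subgroup.zpowers g)
  have : ContinuousConstSMul (Subgroup.zpowers g) E := ⟨fun u => continuous_const_smul (u : Γ)⟩
  refine TorsXAux.tors_gen (G := Subgroup.zpowers g) ?_ (TorsXAux.gen hg')
    (fun u x e => Subtype.ext (hfree u x e)) h1 fun K hK iK f hf hi hd => ?_
  · rw [← Nat.card_eq_fintype_card, Nat.card_zpowers, hg, ZMod.natCast_self]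
  · obtain ⟨b, a1, a2, a3⟩ := h2 K hK (iK ⟨g, Subgroup.mem_zpowers g⟩) 6 (by norm_num) f hf
      (hi ⟨g, Subgroup.mem_zpowers g⟩) hd
    exact ⟨b, a1, TorsXAux.inv_of_gen (TorsXAux.gen hg') a2, a3⟩

end Vale.Agent.P239.AS
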