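import Vale.Agent.P239.PDV
import Vale.Agent.P239.Main2
import Vale.Agent.P239.HomotX
import Vale.Agent.P239.ChartX
import Vale.Agent.P239.PNX
import Vale.Agent.P239.LocX
import Vale.Agent.P239.G1X
import Vale.Agent.P239.ACX
import Vale.Agent.P239.NFX
import Vale.Agent.P239.NetX
import Vale.Agent.P239.FWX
import Vale.Agent.P239.IfcX
import Vale.Agent.P239.TorsX
import Vale.Agent.P239.CoverX

/-! The manifold level statement. -/

namespace Vale.Agent.P239.AS

open Filter Topology

theorem tf_of_action {Γ : Type*} [Group Γ] {E : Type*} [TopologicalSpace E] [T2Space E]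
    [MulAction Γ E] [ContinuousConstSMul Γ E] [ContractibleSpace E] [ChartedSpace R4 E]
    (hfree : ∀ (g : Γ) (x : E), g • x = x → g = 1) (g : Γ) (hg : IsOfFinOrder g) : g = 1 := by
  by_contra h
  have h1 : orderOf g ≠ 1 := fun h' => h (orderOf_eq_one_iff.1 h')
  obtain ⟨p, hp, hd⟩ := Nat.exists_prime_and_dvd h1
  have := Fact.mk hp
  have h2 : orderOf (g ^ (orderOf g / p)) = p :=
    orderOf_pow_orderOf_div hg.orderOf_pos.ne' hd
  exact tors h2 hfree ht_of_contractible (iv dim4 hg.pow hfree)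

theorem main_action {Γ : Type} [Group Γ] {E : Type*} [TopologicalSpace E] [T2Space E]
    [MulAction Γ E] [ContinuousConstSMul Γ E] [ProperlyDiscontinuousSMul Γ E]
    [ContractibleSpace E] [ChartedSpace R4 E] (hfree : ∀ (g : Γ) (x : E), g • x = x → g = 1)
    (hco : ∃ K : Set E, IsCompact K ∧ ∀ x : E, ∃ g : Γ, g • x ∈ K) : ReducedH1Vanishes Γ := by
  have : LocallyCompactSpace E := ChartedSpace.locallyCompactSpace R4 E
  have : LocallyPathConnectedSpace E := ChartedSpace.locallyPathConnectedSpace R4 E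
  obtain ⟨S, π, x₀, r₀, K₀, hN⟩ := exists_net hfree hco
  have hF := fw hN
  have hG : G1 E := g1 ht_of_contractible
  obtain ⟨𝒱, hl⟩ := locS (X := E) pn
    (fun φ C x h1 h2 h3 h4 => tr_acyc φ h1 (star_acyc h2 h3 h4))
    fun φ K h1 h2 n hn => hk_chart φ h1 h2 hn
  have hw := wd hl (dec hl)
  have hP : ∀ n, n = 1 ∨ n = 2 → HC (ZMod 2) (n + 1) (Set.univ : Set E) := by
    have := metrizable_of_net hN
    let : MetricSpace E := TopologicalSpace.metrizableSpaceMetric E
    exact fun n hn => pdv hl hw (nf fun _ => ac) hn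
  exact main_ifc hN.gen ⟨Nat.le_add_left _ _, ifc_ha hN hF hG, ifc_hb hN hF (hP 1 (Or.inl rfl)),
    ifc_hc hN hF hG (hP 2 (Or.inr rfl))⟩ (tf_of_action hfree)

theorem main_manifold {M E : Type} [TopologicalSpace M] [T2Space M] [CompactSpace M]
    [ChartedSpace R4 M] [TopologicalSpace E] [ContractibleSpace E] {p : E → M}
    (hp : IsCoveringMap p) (hs : Function.Surjective p) (x : M) :
    ReducedH1Vanishes (FundamentalGroup M x) := by
  obtain ⟨_, ⟨_⟩, Γ, _, _, _, _, h1, h2, ⟨e⟩⟩ := cover hp hs x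
  exact red_congr e (main_action h1 h2)

end Vale.Agent.P239.AS
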