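import Vale.Agent.P239.VNA

namespace Vale.Agent.P239.VN

open scoped InnerProductSpace

theorem norm_shift {Γ : Type} (e : Γ ≃ Γ) (ξ : H2 Γ) : ‖shift e ξ‖ = ‖ξ‖ := by
  rw [norm_eq_sqrt_re_inner (𝕜 := ℂ), inner_shift, ← norm_eq_sqrt_re_inner]

theorem red_rho {Γ : Type} [Group Γ] (h : ReducedH1Vanishes Γ) (β : Γ → H2 Γ)
    (hβ : ∀ g h, β (g * h) = β g + rhoHom Γ g • β h) (T : Finset Γ) (ε : ℝ) (hε : 0 < ε) :
    ∃ ξ : H2 Γ, ∀ g ∈ T, ‖β g - (rhoHom Γ g • ξ - ξ)‖ < ε := by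
  have hJ : ∀ (g : Γ) (ξ : H2 Γ), shift (Equiv.inv Γ) (rhoHom Γ g • ξ) =
      leftReg g (shift (Equiv.inv Γ) ξ) := fun g ξ => by
    ext x
    exact congrArg ξ (show x⁻¹ * g = (g⁻¹ * x)⁻¹ by simp)
  have hJJ : ∀ ξ : H2 Γ, shift (Equiv.inv Γ) (shift (Equiv.inv Γ) ξ) = ξ := fun ξ => by
    ext x
    exact congrArg ξ (inv_inv x)
  obtain ⟨ξ, hξ⟩ := h (fun g => shift (Equiv.inv Γ) (β g))
    (fun g h => by rw [hβ, map_add, hJ]) T ε hε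
  refine ⟨shift (Equiv.inv Γ) ξ, fun g hg => ?_⟩
  rw [← norm_shift (Equiv.inv Γ), map_sub, map_sub, hJ, hJJ]
  exact hξ g hg

end Vale.Agent.P239.VN
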