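import Vale.Agent.P239.KeyX
import Vale.Agent.P239.CocX
import Vale.Agent.P239.ConeX
import Vale.Agent.P239.RedX
import Vale.Agent.P239.Main3

/-! The first L2-Betti number of the universal cover vanishes. -/

namespace Vale.Agent.P239.VN

variable {Γ : Type} [Group Γ] {E : Type} [TopologicalSpace E] [MulAction Γ E]
  [ContinuousConstSMul Γ E]

/-- Chains representing zero in homology. -/
noncomputable def BB (Γ : Type) [Group Γ] (E : Type) [TopologicalSpace E] [MulAction Γ E]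
    [ContinuousConstSMul Γ E] : Submodule (NG Γ) (Sx 1 E →₀ NG Γ) :=
  (LinearMap.range (tbd (rho (Γ := Γ)) E 1)).comap (Rel (rho (Γ := Γ)) E 1).mkQ

theorem bdry_mem_BB (y : Sx 2 E →₀ NG Γ) : bdry (NG Γ) E 1 y ∈ BB Γ E :=
  ⟨(Rel (rho (Γ := Γ)) E 2).mkQ y, rfl⟩

theorem cycle_mem_BB [ContractibleSpace E] (w : Γ × Sx 1 E →₀ ℤ)
    (h : (w.mapDomain fun e => e.1 • e.2.comp (face 0)) =
      w.mapDomain fun e => e.1 • e.2.comp (face 1)) :
    (w.sum fun e n => n • Finsupp.single e.2 (rho e.1)) ∈ BB Γ E := by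
  have h1 : ∀ {V : Type} (f : Γ × Sx 1 E → V) (f' : Sx 1 E → V), (∀ e, f e = f' (e.1 • e.2)) →
      (w.sum fun e n => n • Finsupp.single (e.1 • e.2) (1 : NG Γ)).mapDomain f' =
        (w.mapDomain f).sum fun v n => n • Finsupp.single v (1 : NG Γ) := by
    intro V f f' hf
    rw [Finsupp.sum_mapDomain_index (h := fun v (n : ℤ) => n • Finsupp.single v (1 : NG Γ))
      (fun _ => zero_zsmul _) (fun _ _ _ => add_zsmul _ _ _), ← Finsupp.lmapDomain_apply (NG Γ) (NG Γ), map_finsuppSum]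
    refine Finsupp.sum_congr fun e _ => ?_
    rw [map_zsmul, Finsupp.lmapDomain_apply, Finsupp.mapDomain_single, hf]
  obtain ⟨y, hy⟩ := cone (w.sum fun e n => n • Finsupp.single (e.1 • e.2) (1 : NG Γ)) (by
    rw [bdry_zero, h1 (fun e => e.1 • e.2.comp (face 0)) _ fun _ => rfl,
      h1 (fun e => e.1 • e.2.comp (face 1)) _ fun _ => rfl, h, sub_self])
  have h2 := bdry_mem_BB y
  rw [hy] at h2
  have h3 : (Rel (rho (Γ := Γ)) E 1).mkQ (w.sum fun e n => n • Finsupp.single e.2 (rho e.1)) =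
      (Rel (rho (Γ := Γ)) E 1).mkQ (w.sum fun e n => n • Finsupp.single (e.1 • e.2) (1 : NG Γ)) := by
    rw [map_finsuppSum, map_finsuppSum]
    refine Finsupp.sum_congr fun e _ => ?_
    rw [map_zsmul, map_zsmul]
    congr 1
    refine ((Submodule.Quotient.eq _).2 (Submodule.subset_span ?_)).symm
    exact ⟨e.1, e.2, 1, by rw [one_mul]⟩
  simp only [BB, Submodule.mem_comap] at h2 ⊢
  rwa [h3]

theorem ann [ContractibleSpace E] (hR : ReducedH1Vanishes Γ) (S : Finset Γ)
    (hS : Subgroup.closure (S : Set Γ) = ⊤) (z : Sx 1 E →₀ NG Γ)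
    (hz : bdry (NG Γ) E 0 z ∈ Rel (rho (Γ := Γ)) E 0) (a : NG Γ)
    (h : ∀ b : NG Γ, b • z ∈ BB Γ E → b * a = 0) : a = 0 := by
  classical
  obtain ⟨e₀⟩ : Nonempty E := inferInstance
  let x₀ : Sx 0 E := ContinuousMap.const _ e₀
  choose p hp1 hp0 using fun y : Sx 0 E => exists_edge x₀ y
  let F : Finset (Sx 1 E) := z.support ∪ (S.image fun g => p (g • x₀)) ∪
    z.support.image fun σ => p (σ.comp (face 1))
  refine key' F (BB Γ E) z (Finset.subset_union_left.trans Finset.subset_union_left)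
    (fun c hc => ?_) a h
  refine coc (fun a : NG Γ => a.1.continuous) (rhoHom Γ) (red_rho hR)
    (fun σ : Sx 1 E => σ.comp (face 1)) (fun σ => σ.comp (face 0)) F c x₀ (fun w hw h0 => ?_)
    S hS (fun g hg => ⟨p (g • x₀), ?_, hp1 _, hp0 _⟩) z
    (fun σ hσ => ⟨?_, p (σ.comp (face 1)), ?_, hp1 _, hp0 _⟩) ?_
  · have h1 := hc _ (cycle_mem_BB w h0) (by
      intro σ hσ
      obtain ⟨e, he, h2⟩ := Finset.mem_biUnion.1 (Finsupp.support_sum hσ)
      have := Finsupp.support_single_subset (Finsupp.support_smul h2)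
      rw [Finset.mem_singleton.1 this]
      exact hw e he)
    rw [← Finsupp.linearCombination_apply, map_finsuppSum] at h1
    refine Eq.trans (Finsupp.sum_congr fun e _ => ?_) h1
    rw [map_zsmul, Finsupp.linearCombination_single]
    rfl
  · exact Finset.mem_union_left _ (Finset.mem_union_right _ (Finset.mem_image_of_mem _ hg))
  · exact Finset.mem_union_left _ (Finset.mem_union_left _ hσ)
  · exact Finset.mem_union_right _ (Finset.mem_image_of_mem _ hσ)
  · rw [← bdry_zero]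
    exact hz

theorem row_ann {R H : Type} [Ring R] [AddCommGroup H] [Module R H] {n : ℕ}
    (A : Matrix (Fin n) (Fin n) R) (f : LinearMap.range A.vecMulLinear →ₗ[R] H)
    (hf : Function.Injective f) (i j : Fin n) : ∃ x : H, ∀ b : R, b • x = 0 → b * A i j = 0 := by
  let v : LinearMap.range A.vecMulLinear := ⟨A i, Pi.single i 1, by
    rw [Matrix.vecMulLinear_apply, Matrix.single_one_vecMul]
    rfl⟩
  refine ⟨f v, fun b hb => ?_⟩
  have h2 : b • v = 0 := hf (by rw [map_smul, hb, map_zero])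
  exact congrFun (congrArg Subtype.val h2) j

theorem betti1_eq_zero [ContractibleSpace E] (hR : ReducedH1Vanishes Γ) (S : Finset Γ)
    (hS : Subgroup.closure (S : Set Γ) = ⊤) : betti1 Γ E = 0 := by
  suffices h : ∀ τ : NG Γ → ℝ, τ 0 = 0 → dimH1 (rho : Γ → NG Γ) E τ = 0 from
    h (trace (Γ := Γ)) rfl
  intro τ hτ
  simp only [dimH1, homDim, extDim, ENNReal.iSup_eq_zero]
  rintro n A _ ⟨f, hf⟩
  suffices hA : A = 0 by simp [hA, hτ]
  ext1 i j
  obtain ⟨y, hy⟩ := row_ann A f hf i j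
  obtain ⟨⟨x, hx⟩, rfl⟩ := Submodule.Quotient.mk_surjective _ y
  obtain ⟨z, rfl⟩ := Submodule.Quotient.mk_surjective _ x
  refine ann hR S hS z ((Submodule.Quotient.mk_eq_zero _).1 hx) _ fun b hb => hy b ?_
  rw [← Submodule.Quotient.mk_smul, Submodule.Quotient.mk_eq_zero]
  exact hb

open scoped Pointwise in
theorem main_betti {M : Type} [TopologicalSpace M] [T2Space M] [CompactSpace M]
    [ChartedSpace AS.R4 M] [ContractibleSpace E] {p : E → M} (hp : IsQuotientCoveringMap p Γ) :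
    betti1 Γ E = 0 := by
  have := AS.CoverXAux.t2 hp.isCoveringMap
  obtain ⟨_⟩ := AS.CoverXAux.charted hp.isCoveringMap
  have := ChartedSpace.locallyCompactSpace AS.R4 E
  have := AS.CoverXAux.prop hp
  have hco := AS.CoverXAux.cocpt hp
  have hfree : ∀ (g : Γ) (x : E), g • x = x → g = 1 := fun g x h => by
    obtain ⟨U, hU, h'⟩ := hp.disjoint x
    exact h' g ⟨x, ⟨x, mem_of_mem_nhds hU, h⟩, mem_of_mem_nhds hU⟩
  obtain ⟨S, π, x₀, r₀, K₀, hN⟩ := AS.exists_net hfree hco
  refine betti1_eq_zero (AS.main_action hfree hco) S (top_unique fun g _ => ?_)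
  obtain ⟨n, hn⟩ := hN.gen.gen g
  clear * - hn
  induction n generalizing g with
  | zero =>
    rw [pow_zero, Set.mem_one] at hn
    exact hn ▸ one_mem _
  | succ n ih =>
    rw [pow_succ] at hn
    obtain ⟨a, ha, b, hb, rfl⟩ := hn
    exact mul_mem (ih a ha) (Subgroup.subset_closure hb)

end Vale.Agent.P239.VN
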