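import Vale.Agent.P239.BasY

/-! The mean has uniformly no atoms. -/

namespace Vale.Agent.P239

open scoped Pointwise symmDiff
open Filter Topology

variable {Γ : Type*} [Group Γ] {Z : Type*} [MetricSpace Z] [CompactSpace Z] [MulAction Γ Z]
  [ContinuousConstSMul Γ Z] {D : Dat Γ Z} {π : Z → ℝ}

namespace NAXAux

omit [CompactSpace Z] [ContinuousConstSMul Γ Z] in
theorem harn (H : D.OK) (C : Set Γ) (t : ℝ) (n : ℕ)
    (hb : ∀ y, Near D.S n 1 y → D.h C y ≤ t) :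
    ∀ k ≤ n, ∀ y, Near D.S k 1 y → D.c ^ k * (t - D.h C y) ≤ t - D.h C 1 := by
  intro k
  induction k with
  | zero =>
    intro _ y hy
    rw [← near_zero.1 hy, pow_zero, one_mul]
  | succ k ih =>
    intro hk y hy
    obtain ⟨z, s, hs, hz, rfl⟩ := near_succ.1 hy
    refine le_trans ?_ (ih (by omega) z hz)
    rw [pow_succ, mul_assoc]
    refine mul_le_mul_of_nonneg_left ?_ (pow_nonneg H.c_pos.le k)
    have hcard : (0 : ℝ) < D.S.card := by
      exact_mod_cast Finset.card_pos.2 ⟨1, H.gen.one⟩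
    have e : t - D.h C z = (∑ s' ∈ D.S, (t - D.h C (z * s'))) / (D.S.card : ℝ) := by
      rw [H.h_harm C z, Finset.sum_sub_distrib, Finset.sum_const, nsmul_eq_mul, sub_div,
        mul_div_cancel_left₀ _ hcard.ne']
      rfl
    rw [e, Dat.c, inv_mul_eq_div]
    refine div_le_div_of_nonneg_right ?_ hcard.le
    exact Finset.single_le_sum (f := fun s' => t - D.h C (z * s'))
      (fun s' hs' => sub_nonneg.2 (hb _ ((hz.trans (near_step z hs')).mono H.gen hk))) hs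

theorem step (H : D.OK) {η : ℝ} (hη : 0 < η) : ∃ γ : ℝ, 0 < γ ∧ ∀ t, η ≤ t →
    (∃ ε : ℝ, 0 < ε ∧ ∀ ξ, D.m (D.nb ξ ε) ≤ t) →
    ∃ ε : ℝ, 0 < ε ∧ ∀ ξ, D.m (D.nb ξ ε) ≤ t - γ := by
  obtain ⟨ρ, hρ, hnt⟩ := H.fr.nt
  obtain ⟨K', hK', -, hloc⟩ := H.loc (lam := ρ / 4) (δ := η / 2) (by positivity) (by positivity)
    Set.finite_empty
  obtain ⟨x0, hx0, x1, hx1, hd⟩ := hnt K' hK'
  obtain ⟨n0, h0⟩ := H.gen.exists_near 1 x0
  obtain ⟨n1, h1⟩ := H.gen.exists_near 1 x1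
  have h0' := h0.mono H.gen (le_max_left n0 n1)
  have h1' := h1.mono H.gen (le_max_right n0 n1)
  generalize max n0 n1 = n at h0' h1'
  have hc := pow_pos H.c_pos n
  refine ⟨D.c ^ n * (η / 2), by positivity, fun t ht ⟨ε1, hε1, hm⟩ => ?_⟩
  obtain ⟨ε, hε, hu⟩ := unif_smul (Z := Z) (pow_finite D.S n) hε1
  refine ⟨min ε (ρ / 4), by positivity, fun ξ => ?_⟩
  have hb : ∀ y, Near D.S n 1 y → D.h (D.nb ξ (min ε (ρ / 4))) y ≤ t := fun x hx => by
    refine le_trans (H.m_mono fun y hy => ?_) (hm (x⁻¹ • ξ))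
    have := hu x⁻¹ (H.gen.inv_mem_pow (near_one_iff.1 hx)) _ _
      (le_trans hy (min_le_left _ _))
    rw [← H.fr.eqv, inv_mul_cancel_left] at this
    exact this
  have key : ∀ x, x ∉ K' → Near D.S n 1 x → ρ / 2 ≤ dist (D.ι x) ξ →
      D.m (D.nb ξ (min ε (ρ / 4))) ≤ t - D.c ^ n * (η / 2) := fun x hx hn hdx => by
    have a1 := hloc _ (Dat.lip_dist ξ) (ρ / 4) x hx (by linarith)
    have a2 : D.h (cmp D.S ({y | ρ / 4 < dist (D.ι y) ξ} \ ∅) x) x ≤
        D.h (D.nb ξ (min ε (ρ / 4)))ᶜ x := by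
      refine H.h_mono (fun y hy => ?_) x
      intro hy'
      have b1 : ρ / 4 < dist (D.ι y) ξ := (cmp_subset _ _ hy).1
      have b2 : dist (D.ι y) ξ ≤ min ε (ρ / 4) := hy'
      linarith [min_le_right ε (ρ / 4)]
    rw [H.h_compl] at a2
    have a3 := harn H _ t n hb n le_rfl x hn
    rw [Dat.h_one] at a3
    have a4 : D.c ^ n * (η / 2) ≤ D.c ^ n * (t - D.h (D.nb ξ (min ε (ρ / 4))) x) :=
      mul_le_mul_of_nonneg_left (by linarith) hc.le
    linarith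
  by_cases hx : ρ / 2 ≤ dist (D.ι x0) ξ
  · exact key x0 hx0 h0' hx
  · refine key x1 hx1 h1' ?_
    linarith [dist_triangle_right (D.ι x0) (D.ι x1) ξ, not_le.1 hx]

end NAXAux

theorem na (H : D.OK) : D.NA := by
  intro η hη
  obtain ⟨γ, hγ, hs⟩ := NAXAux.step H hη
  have key : ∀ k : ℕ, ∃ ε : ℝ, 0 < ε ∧ ∀ ξ, D.m (D.nb ξ ε) ≤ max η (1 - k * γ) := by
    intro k
    induction k with
    | zero => exact ⟨1, one_pos, fun ξ => (H.m_le_one _).trans (by simp)⟩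
    | succ k ih =>
      rcases le_total η (1 - k * γ) with h | h
      · rw [max_eq_right h] at ih
        obtain ⟨ε, hε, h'⟩ := hs _ h ih
        refine ⟨ε, hε, fun ξ => (h' ξ).trans (le_max_of_le_right (le_of_eq ?_))⟩
        push_cast
        ring
      · rw [max_eq_left h] at ih
        obtain ⟨ε, hε, h'⟩ := ih
        exact ⟨ε, hε, fun ξ => (h' ξ).trans (le_max_left _ _)⟩
  obtain ⟨k, hk⟩ := exists_nat_ge (1 / γ)
  obtain ⟨ε, hε, h⟩ := key k
  rw [div_le_iff₀ hγ] at hk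
  exact ⟨ε, hε, fun ξ => (h ξ).trans (max_le le_rfl (by linarith))⟩

end Vale.Agent.P239
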