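import Vale.Agent.P239.ASB

/-! The duality zigzag. -/

namespace Vale.Agent.P239.AS

open scoped Pointwise symmDiff
open Filter Topology

variable {ι : Type*} [Fintype ι] [DecidableEq ι] {Q : Type*} [AddCommGroup Q] [Module (ZMod 2) Q]

namespace ZZXAux

/-- Rows with values in submodules. -/
def RW (S : Finset ι → Submodule (ZMod 2) Q) (p : ℕ) (a : Finset ι → Q) : Prop :=
  Row (fun σ => (S σ : Set Q)) p a

/-- The coboundary of a row. -/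
def DD (δ : Q →ₗ[ZMod 2] Q) (a : Finset ι → Q) : Finset ι → Q := fun σ => δ (a σ)

variable {δ : Q →ₗ[ZMod 2] Q} {S T : Finset ι → Submodule (ZMod 2) Q} {p : ℕ} {a b : Finset ι → Q}

theorem bd_DD (a : Finset ι → Q) : bd (DD δ a) = DD δ (bd a) := bd_map δ.toAddMonoidHom a

omit [Fintype ι] [DecidableEq ι] in
theorem DD_add (a b : Finset ι → Q) : DD δ (a + b) = DD δ a + DD δ b :=
  funext fun σ => map_add δ (a σ) (b σ)

omit [Fintype ι] [DecidableEq ι] in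
theorem DD_zero : DD δ (0 : Finset ι → Q) = 0 := funext fun _ => map_zero δ

omit [Fintype ι] [DecidableEq ι] in
theorem self_add (a : Finset ι → Q) : a + a = 0 := funext fun σ => two_self (a σ)

omit [Fintype ι] [DecidableEq ι] in
theorem RW.add (ha : RW S p a) (hb : RW S p b) : RW S p (a + b) :=
  ⟨fun σ => (S σ).add_mem (ha.1 σ) (hb.1 σ), fun σ h => by
    rw [Pi.add_apply, ha.2 σ h, hb.2 σ h, add_zero]⟩

omit [Fintype ι] [DecidableEq ι] in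
theorem RW.mono (ha : RW S p a) (h : ∀ σ, S σ ≤ T σ) : RW T p a := ⟨fun σ => h σ (ha.1 σ), ha.2⟩

theorem RW.bd (ha : RW S (p + 1) a) (h : ∀ σ τ, σ ⊆ τ → S τ ≤ S σ) : RW S p (bd a) := by
  refine ⟨fun σ => (S σ).sum_mem fun i _ => h _ _ (Finset.subset_insert i σ) (ha.1 _),
    fun σ hσ => Finset.sum_eq_zero fun i hi => ha.2 _ ?_⟩
  rw [Finset.card_insert_of_notMem (Finset.mem_compl.1 hi)]
  omega

omit [Fintype ι] [DecidableEq ι] in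
theorem RW.dd (ha : RW S p a) (h : ∀ σ, ∀ x ∈ S σ, δ x ∈ T σ) : RW T p (DD δ a) :=
  ⟨fun σ => h σ _ (ha.1 σ), fun σ hσ => by rw [DD, ha.2 σ hσ, map_zero]⟩

omit [Fintype ι] [DecidableEq ι] in
theorem lift (ha : ∀ σ, σ.card ≠ p → a σ = 0) (h : ∀ σ, σ.card = p → ∃ y ∈ T σ, δ y = a σ) :
    ∃ b, RW T p b ∧ DD δ b = a := by
  have : ∀ σ, ∃ y ∈ T σ, δ y = a σ ∧ (σ.card ≠ p → y = 0) := by
    intro σ
    by_cases hσ : σ.card = p
    · obtain ⟨y, h1, h2⟩ := h σ hσ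
      exact ⟨y, h1, h2, fun h3 => absurd hσ h3⟩
    · exact ⟨0, (T σ).zero_mem, by rw [map_zero, ha σ hσ], fun _ => rfl⟩
  choose b h1 h2 h3 using this
  exact ⟨b, ⟨h1, h3⟩, funext h2⟩

theorem ne_empty {σ : Finset ι} (h : σ.card = p + 1) : σ ≠ ∅ := by
  rintro rfl
  simp at h

theorem rowz' {S : ℕ → Finset ι → Submodule (ZMod 2) Q} (h : RowSys δ S) (k : ℕ) :
    ∀ p, Fintype.card ι < p + k → ∀ m, 5 ≤ m → ∀ a, RW (S m) p a → DD δ a = 0 → bd a = 0 →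
      ∃ b, RW (S m) (p + 1) b ∧ DD δ b = 0 ∧ bd b = a := by
  induction k with
  | zero =>
    intro p hp m _ a ha _ _
    refine ⟨0, ⟨fun σ => (S m σ).zero_mem, fun _ _ => rfl⟩, DD_zero, ?_⟩
    rw [bd_zero]
    funext σ
    have := Finset.card_le_univ σ
    exact (ha.2 σ (by omega)).symm
  | succ k ih =>
    intro p hp m hm a ha h1 h2
    obtain ⟨b, hb, e1⟩ := h.row m p a ha h2
    obtain ⟨e, he, e2, e3⟩ := ih (p + 1) (by omega) (m + 1) (by omega) (DD δ b)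
      (RW.dd hb (h.d_mem m)) (funext fun σ => h.dd _) (by rw [bd_DD, e1, h1])
    obtain ⟨e', he', e4⟩ := lift (T := S m) he.2 fun σ hσ =>
      h.high m hm σ (ne_empty hσ) _ (he.1 σ) (congrFun e2 σ)
    refine ⟨b + bd e', RW.add hb (he'.bd (h.anti m)), ?_, ?_⟩
    · rw [DD_add, ← bd_DD, e4, e3, self_add]
    · rw [bd_add, bd_bd, add_zero, e1]

variable {S : ℕ → ℕ → Finset ι → Submodule (ZMod 2) Q} {t : Q → ZMod 2} {s₀ s₁ : Finset ι → Prop}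

/-- The statement carried down the zigzag. -/
def QS (δ : Q →ₗ[ZMod 2] Q) (S : ℕ → ℕ → Finset ι → Submodule (ZMod 2) Q) (m p j : ℕ) : Prop :=
  ∀ a, RW (S 0 m) p a → bd (DD δ a) = 0 → ∃ b, RW (S j m) (p + 1) b ∧ DD δ (bd b) = DD δ a

theorem step (h : ZZ δ S t s₀ s₁) {m p j : ℕ} (hm : m ≤ 3) (hj : j ≤ 5)
    (hq : QS δ S (m + 1) (p + 1) j) {w : Finset ι → Q} (hw : RW (S 0 (m + 1)) p w)
    (h1 : DD δ w = 0) (h2 : bd w = 0) : ∃ b, RW (S (j + 1) m) (p + 1) b ∧ DD δ (bd b) = w := by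
  obtain ⟨a, ha, e1⟩ := h.rs.row (m + 1) p w hw h2
  obtain ⟨b, hb, e2⟩ := hq a ha (by rw [bd_DD, e1, h1])
  have hc : RW (S j (m + 1)) (p + 1) (a + bd b) :=
    RW.add (RW.mono ha fun σ => h.mono 0 j _ σ (Nat.zero_le j)) (hb.bd (h.anti j _))
  have e3 : DD δ (a + bd b) = 0 := by rw [DD_add, e2, self_add]
  obtain ⟨c, hc', e4⟩ := lift (T := S (j + 1) m) hc.2 fun σ hσ =>
    h.low j hj m hm σ (ne_empty hσ) _ (hc.1 σ) (congrFun e3 σ)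
  exact ⟨c, hc', by rw [← bd_DD, e4, bd_add, bd_bd, add_zero, e1]⟩

theorem down (h : ZZ δ S t s₀ s₁) {m p j : ℕ} (hm : m ≤ 3) (hj : j ≤ 5)
    (hq : QS δ S (m + 1) (p + 1) j) : QS δ S m p (j + 1) := fun _ ha h0 =>
  step h hm hj hq (ha.dd (h.d_mem 0 m)) (funext fun _ => h.rs.dd _) h0

theorem t_zero (h : ZZ δ S t s₀ s₁) {σ : Finset ι} (hσ : σ ≠ ∅) : t 0 = 0 := by
  have := h.t_d σ hσ 0 (S 1 4 σ).zero_mem
  rwa [map_zero] at this

theorem t_sum (h : ZZ δ S t s₀ s₁) {σ : Finset ι} (hσ : σ ≠ ∅) (s : Finset ι) (f : ι → Q)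
    (h1 : ∀ i, f i ∈ S 1 5 σ) (h2 : ∀ i, δ (f i) = 0) : t (∑ i ∈ s, f i) = ∑ i ∈ s, t (f i) := by
  induction s using Finset.induction_on with
  | empty => rw [Finset.sum_empty, Finset.sum_empty, t_zero h hσ]
  | insert i s hi ih =>
    rw [Finset.sum_insert hi, Finset.sum_insert hi, ← ih]
    exact h.t_add σ hσ _ (h1 i) _ ((S 1 5 σ).sum_mem fun i _ => h1 i) (h2 i)
      (by rw [map_sum]; exact Finset.sum_eq_zero fun i _ => h2 i)

theorem t_bd (h : ZZ δ S t s₀ s₁) {σ : Finset ι} (hσ : σ ≠ ∅) {a : Finset ι → Q}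
    (h1 : ∀ τ, a τ ∈ S 1 5 τ) (h2 : DD δ a = 0) : t (bd a σ) = bd (fun τ => t (a τ)) σ :=
  t_sum h hσ _ _ (fun i => h.anti 1 5 _ _ (Finset.subset_insert i σ) (h1 _))
    fun _ => congrFun h2 _

theorem top (h : ZZ δ S t s₀ s₁) (p : ℕ) : QS δ S 4 (p + 1) 2 := by
  intro a ha h0
  obtain ⟨u, hu, e1, e2⟩ := rowz' h.rs (Fintype.card ι) (p + 1) (by omega) 5 le_rfl (DD δ a)
    (ha.dd (h.d_mem 0 4)) (funext fun _ => h.rs.dd _) h0
  have hu1 : RW (S 1 5) (p + 1 + 1) u := hu.mono fun σ => h.mono 0 1 5 σ zero_le_one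
  obtain ⟨c, hc0, hc⟩ : ∃ c : Finset ι → ZMod 2, c ∅ = 0 ∧ ∀ σ, σ ≠ ∅ → c σ = t (u σ) :=
    ⟨fun σ => if σ = ∅ then 0 else t (u σ), if_pos rfl, fun σ hσ => if_neg hσ⟩
  obtain ⟨c', k1, k2⟩ := h.fill (p + 1 + 1) (by omega) c (fun σ hσ => by
    have h1 : σ ≠ ∅ := by
      rintro rfl
      exact hσ hc0
    have h2 : u σ ≠ 0 := fun e => hσ (by rw [hc σ h1, e, t_zero h h1])
    exact ⟨by_contra fun e => h2 (hu.2 σ e), h.supp σ _ (hu.1 σ) h2⟩) (by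
    funext τ
    have e : bd c τ = bd (fun τ => t (u τ)) τ :=
      Finset.sum_congr rfl fun i _ => hc _ (Finset.insert_ne_empty i τ)
    rw [e]
    by_cases hτ : τ = ∅
    · refine Finset.sum_eq_zero fun i hi => ?_
      show t (u (insert i τ)) = 0
      rw [hu.2 (insert i τ) (by rw [hτ]; simp), t_zero h (Finset.insert_ne_empty i τ)]
    · rw [← t_bd h hτ hu1.1 e1, e2]
      exact h.t_d τ hτ _ (h.mono 0 1 4 τ zero_le_one (ha.1 τ)))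
  have : ∀ σ, ∃ x ∈ S 1 5 σ, δ x = 0 ∧ (σ.card ≠ p + 1 + 1 + 1 → x = 0) ∧
      (σ ≠ ∅ → t x = c' σ) := by
    intro σ
    by_cases hσ : c' σ = 0
    · exact ⟨0, (S 1 5 σ).zero_mem, map_zero δ, fun _ => rfl, fun e => by rw [hσ, t_zero h e]⟩
    · obtain ⟨ω, a1, a2, a3⟩ := h.gen σ (ne_empty (k1 σ hσ).1) (k1 σ hσ).2
      refine ⟨ω, a1, a2, fun e => absurd (k1 σ hσ).1 e, fun _ => ?_⟩
      rw [a3]
      revert hσ
      generalize c' σ = x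
      decide +revert
  choose v v1 v2 v3 v4 using this
  have hv : RW (S 1 5) (p + 1) (bd (bd v)) ∧ RW (S 1 5) (p + 1 + 1) (bd v) :=
    ⟨(RW.bd ⟨v1, v3⟩ (h.anti 1 5)).bd (h.anti 1 5), RW.bd ⟨v1, v3⟩ (h.anti 1 5)⟩
  have e3 : DD δ v = 0 := funext v2
  have e4 : DD δ (bd v) = 0 := by rw [← bd_DD, e3, bd_zero]
  have e5 : DD δ (u + bd v) = 0 := by rw [DD_add, e1, e4, add_zero]
  obtain ⟨b, hb, e6⟩ := lift (δ := δ) (T := S 2 4) (hu1.add hv.2).2 fun σ hσ => by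
    have h1 := ne_empty hσ
    refine h.t_ker σ h1 _ ((hu1.add hv.2).1 σ) (congrFun e5 σ) ?_
    have e : bd (fun τ => t (v τ)) σ = bd c' σ :=
      Finset.sum_congr rfl fun i _ => v4 _ (Finset.insert_ne_empty i σ)
    rw [Pi.add_apply, h.t_add σ h1 _ (hu1.1 σ) _ (hv.2.1 σ) (congrFun e1 σ) (congrFun e4 σ),
      t_bd h h1 v1 e3, e, k2, hc σ h1]
    exact two_self _
  exact ⟨b, hb, by rw [← bd_DD, e6, bd_add, bd_bd, add_zero, e2]⟩

end ZZXAux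

theorem rowz {δ : Q →ₗ[ZMod 2] Q} {S : ℕ → Finset ι → Submodule (ZMod 2) Q} (h : RowSys δ S)
    {m : ℕ} (hm : 5 ≤ m) {p : ℕ} {a : Finset ι → Q}
    (ha : Row (fun σ => {x | x ∈ S m σ ∧ δ x = 0}) p a) (h0 : bd a = 0) :
    ∃ b, Row (fun σ => {x | x ∈ S m σ ∧ δ x = 0}) (p + 1) b ∧ bd b = a := by
  obtain ⟨b, h1, h2, h3⟩ := ZZXAux.rowz' h (Fintype.card ι + 1) p (by omega) m hm a
    ⟨fun σ => (ha.1 σ).1, ha.2⟩ (funext fun σ => (ha.1 σ).2) h0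
  exact ⟨b, ⟨fun σ => ⟨h1.1 σ, congrFun h2 σ⟩, h1.2⟩, h3⟩

theorem zz {δ : Q →ₗ[ZMod 2] Q} {S : ℕ → ℕ → Finset ι → Submodule (ZMod 2) Q} {t : Q → ZMod 2}
    {s₀ s₁ : Finset ι → Prop} (h : ZZ δ S t s₀ s₁) {n : ℕ} (hn : n = 1 ∨ n = 2) {z : Q}
    (hz : z ∈ S 0 (n + 1) ∅) (h0 : δ z = 0) : ∃ y ∈ S 6 n ∅, δ y = z := by
  have hq : ∃ j ≤ 5, ZZXAux.QS δ S (n + 1) (0 + 1) j := by
    rcases hn with rfl | rfl
    · exact ⟨4, by norm_num, ZZXAux.down h (by norm_num) (by norm_num)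
        (ZZXAux.down h le_rfl (by norm_num) (ZZXAux.top h 2))⟩
    · exact ⟨3, by norm_num, ZZXAux.down h le_rfl (by norm_num) (ZZXAux.top h 1)⟩
  obtain ⟨j, hj, hq⟩ := hq
  obtain ⟨w, hs, h1⟩ : ∃ w : Finset ι → Q, (∀ σ, σ ≠ ∅ → w σ = 0) ∧ w ∅ = z :=
    ⟨fun σ => if σ = ∅ then z else 0, fun σ hσ => if_neg hσ, if_pos rfl⟩
  obtain ⟨b, hb, e⟩ := ZZXAux.step h (by omega) hj hq (w := w)
    ⟨fun σ => by
      by_cases hσ : σ = ∅
      · rw [hσ, h1]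
        exact hz
      · rw [hs σ hσ]
        exact (S 0 _ σ).zero_mem, fun σ hσ => hs σ (by rintro rfl; exact hσ rfl)⟩
    (funext fun σ => by
      unfold ZZXAux.DD
      by_cases hσ : σ = ∅
      · rw [hσ, h1]
        exact h0
      · rw [hs σ hσ]
        exact map_zero δ)
    (funext fun σ => Finset.sum_eq_zero fun i _ => hs _ (Finset.insert_ne_empty i σ))
  exact ⟨bd b ∅, h.mono _ _ _ _ (by omega) ((hb.bd (h.anti _ _)).1 ∅), (congrFun e ∅).trans h1⟩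

end Vale.Agent.P239.AS
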