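import Vale.Agent.P239.RowX
import Vale.Agent.P239.ZZX

/-! Poincare duality in the two degrees needed. -/

namespace Vale.Agent.P239.AS

open Filter Topology Metric

section
variable {X : Type*} [TopologicalSpace X]

omit [TopologicalSpace X] in
theorem UU_empty {I : Type*} (U : I → Set X) : UU U ∅ = ⋃ i, U i := by simp [UU]

omit [TopologicalSpace X] in
theorem mem_UU {I : Type*} {U : I → Set X} {σ : Finset I} {i₀ : I} (h : i₀ ∈ σ) {y : X} :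
    y ∈ UU U σ ↔ ∀ i ∈ σ, y ∈ U i := by
  simp only [UU, Set.mem_inter_iff, Set.mem_iUnion, Set.mem_iInter]
  exact ⟨fun h' => h'.2, fun h' => ⟨⟨i₀, h' i₀ h⟩, h'⟩⟩

omit [TopologicalSpace X] in
theorem UU_anti {I : Type*} (U : I → Set X) {σ τ : Finset I} (h : σ ⊆ τ) : UU U τ ⊆ UU U σ := by
  intro y hy
  simp only [UU, Set.mem_inter_iff, Set.mem_iUnion, Set.mem_iInter] at hy ⊢
  exact ⟨hy.1, fun i hi => hy.2 i (h hi)⟩

omit [TopologicalSpace X] in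
theorem UU_mono {I : Type*} {U U' : I → Set X} (h : ∀ i, U i ⊆ U' i) (σ : Finset I) :
    UU U σ ⊆ UU U' σ := by
  intro y hy
  simp only [UU, Set.mem_inter_iff, Set.mem_iUnion, Set.mem_iInter] at hy ⊢
  obtain ⟨⟨i, hi⟩, h2⟩ := hy
  exact ⟨⟨i, h i hi⟩, fun j hj => h j (h2 j hj)⟩

theorem isOpen_UU {I : Type*} {U : I → Set X} (h : ∀ i, IsOpen (U i)) (σ : Finset I) :
    IsOpen (UU U σ) :=
  (isOpen_iUnion h).inter (isOpen_biInter_finset fun i _ => h i)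

theorem Zc.mk_mem {n : ℕ} {U : Set X} {f : Co (ZMod 2) X} (h : Zc n U f) :
    (Submodule.Quotient.mk f : QQ X) ∈ SQ n U := ⟨f, h.1, h.2.1, rfl⟩

theorem Zc.d_mk {δ : QQ X →ₗ[ZMod 2] QQ X} (hδ : IsD δ) {n : ℕ} {U : Set X}
    {f : Co (ZMod 2) X} (h : Zc n U f) : δ (Submodule.Quotient.mk f) = 0 := by
  rw [hδ]
  exact (Submodule.Quotient.mk_eq_zero _).2 h.2.2

theorem dec [T2Space X] [LocallyCompactSpace X] {𝒱 : Set (Set X)} (h : LocS 𝒱) (N : ℕ)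
    (U : Fin N → Set X) (hU : ∀ i, U i ∈ 𝒱) (f : Co (ZMod 2) X) (hf : Zc 5 (⋃ i, U i) f) :
    ∃ g : Fin N → Co (ZMod 2) X, (∀ i, Zc 5 (U i) (g i)) ∧
      f - ∑ i, g i ∈ Nul (ZMod 2) (Set.univ : Set X) := by
  obtain ⟨δ, hδ⟩ := exists_isD (X := X)
  have hr := rowsys h U (fun i => ⟨h.op _ (hU i), _, hU i, le_rfl⟩) hδ
  have hf' : Zc 5 (UU U ∅) f := by rwa [UU_empty]
  obtain ⟨b, hb, hbd⟩ := rowz hr (m := 5) le_rfl (p := 0)
    (a := Pi.single ∅ (Submodule.Quotient.mk f)) ⟨fun σ => by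
      by_cases hσ : σ = ∅
      · subst hσ
        rw [Pi.single_eq_same]
        exact ⟨hf'.mk_mem, hf'.d_mk hδ⟩
      · rw [Pi.single_eq_of_ne hσ]
        exact ⟨Submodule.zero_mem _, map_zero _⟩, fun σ hσ =>
      Pi.single_eq_of_ne (fun h' => hσ (by simp [h'])) _⟩ (by
      funext τ
      exact Finset.sum_eq_zero fun i _ => Pi.single_eq_of_ne (Finset.insert_ne_empty _ _) _)
  choose g hg using fun i : Fin N => hδ.zc (hb.1 {i}).1 (hb.1 {i}).2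
  refine ⟨g, fun i => (hg i).1.mono fun y hy =>
    (mem_UU (Finset.mem_singleton_self i)).1 hy i (Finset.mem_singleton_self i), ?_⟩
  have h1 := congrFun hbd ∅
  rw [Pi.single_eq_same] at h1
  rw [← Submodule.Quotient.eq, ← h1]
  simp only [bd, Finset.compl_empty, insert_empty_eq, ← (hg _).2]
  exact (map_sum (Nul (ZMod 2) (Set.univ : Set X)).mkQ g Finset.univ).symm

open Classical in
/-- The local orientation class. -/
noncomputable def tt (𝒱 : Set (Set X)) (x : QQ X) : ZMod 2 :=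
  if ∃ V ∈ 𝒱, ∃ f, Zc 5 V f ∧ Submodule.Quotient.mk f = x ∧ Exc V f then 0 else 1

theorem tt_zero {𝒱 : Set (Set X)} {V : Set X} (hV : V ∈ 𝒱) {f : Co (ZMod 2) X} (hf : Zc 5 V f)
    (h : Exc V f) : tt 𝒱 (Submodule.Quotient.mk f) = 0 := if_pos ⟨V, hV, f, hf, rfl, h⟩

theorem tt_one [T2Space X] {𝒱 : Set (Set X)} (hw : WD 𝒱) {V : Set X} (hV : V ∈ 𝒱)
    {f : Co (ZMod 2) X} (hf : Zc 5 V f) (h : ¬ Exc V f) :
    tt 𝒱 (Submodule.Quotient.mk f) = 1 := by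
  refine if_neg ?_
  rintro ⟨V', hV', f', hf', he, h'⟩
  rw [Submodule.Quotient.eq] at he
  have h1 : f' ∈ Sc (ZMod 2) V := by
    have := (Sc (ZMod 2) V).add_mem (nul_le_Sc V he) hf.2.1
    simpa using this
  exact h ((hw V' hV' V hV f' ⟨hf'.1, Sc.inter hf'.2.1 h1, hf'.2.2⟩ h').congr he)

theorem tt_add [T2Space X] {𝒱 : Set (Set X)} (hl : LocS 𝒱) (hw : WD 𝒱) {V : Set X} (hV : V ∈ 𝒱)
    {f g : Co (ZMod 2) X} (hf : Zc 5 V f) (hg : Zc 5 V g) :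
    tt 𝒱 (Submodule.Quotient.mk (f + g)) =
      tt 𝒱 (Submodule.Quotient.mk f) + tt 𝒱 (Submodule.Quotient.mk g) := by
  obtain ⟨ω, -, -, hω⟩ := hl.top V hV
  by_cases h1 : Exc V f <;> by_cases h2 : Exc V g
  · rw [tt_zero hV hf h1, tt_zero hV hg h2, tt_zero hV (hf.add hg) (h1.add h2), add_zero]
  · rw [tt_zero hV hf h1, tt_one hw hV hg h2, tt_one hw hV (hf.add hg)
      fun h => h2 (by simpa using h.sub h1), zero_add]
  · rw [tt_one hw hV hf h1, tt_zero hV hg h2, tt_one hw hV (hf.add hg)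
      fun h => h1 (by simpa using h.sub h2), add_zero]
  · have h3 := ((hω f hf).resolve_left h1).add ((hω g hg).resolve_left h2)
    have h4 : f - ω + (g - ω) = f + g := by
      have := two_self ω
      rw [show f - ω + (g - ω) = f + g - (ω + ω) by abel, this, sub_zero]
    rw [h4] at h3
    rw [tt_one hw hV hf h1, tt_one hw hV hg h2, tt_zero hV (hf.add hg) h3]
    rfl

/-- The zigzag data from a nested family of covers. -/
theorem zz_of_cover [T2Space X] [LocallyCompactSpace X] {𝒱 : Set (Set X)} (hl : LocS 𝒱)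
    (hw : WD 𝒱) {δ : QQ X →ₗ[ZMod 2] QQ X} (hδ : IsD δ) {N : ℕ} (U : ℕ → Fin N → Set X)
    {s₀ s₁ : Finset (Fin N) → Prop} (h0 : ∀ j i, IsOpen (U j i))
    (h1 : ∀ j j' i, j ≤ j' → U j i ⊆ U j' i)
    (h2 : ∀ j ≤ 5, ∀ σ, σ ≠ ∅ → ∃ V ∈ 𝒱, UU (U j) σ ⊆ V ∧
      ((UU (U j) σ).Nonempty → V ⊆ UU (U (j + 1)) σ))
    (h3 : ∀ σ, σ ≠ ∅ → s₁ σ → (UU (U 1) σ).Nonempty)
    (h4 : ∀ σ, (UU (U 0) σ).Nonempty → s₀ σ)
    (h5 : ∀ p, 2 ≤ p → ∀ c : Finset (Fin N) → ZMod 2, (∀ σ, c σ ≠ 0 → σ.card = p ∧ s₀ σ) →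
      bd c = 0 → ∃ c' : Finset (Fin N) → ZMod 2,
        (∀ σ, c' σ ≠ 0 → σ.card = p + 1 ∧ s₁ σ) ∧ bd c' = c) :
    ZZ δ (fun j n σ => SQ n (UU (U j) σ)) (tt 𝒱) s₀ s₁ := by
  have key : ∀ j ≤ 5, ∀ n σ, σ ≠ ∅ → ∀ x ∈ SQ (n + 1) (UU (U j) σ), δ x = 0 →
      (∀ V ∈ 𝒱, ∀ f, Zc (n + 1) V f → Submodule.Quotient.mk f = x → Exc V f) →
      ∃ y ∈ SQ n (UU (U (j + 1)) σ), δ y = x := by
    intro j hj n σ hσ x hx hx0 hV
    rcases (UU (U j) σ).eq_empty_or_nonempty with he | he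
    · rw [he] at hx
      exact ⟨0, Submodule.zero_mem _, by rw [SQ_empty hx, map_zero]⟩
    obtain ⟨V, hV1, hV2, hV3⟩ := h2 j hj σ hσ
    obtain ⟨f, hf, rfl⟩ := hδ.zc hx hx0
    exact (hδ.exc hf.1).1 ((hV V hV1 f (hf.mono hV2) rfl).mono (hV3 he))
  refine ⟨rowsys hl (U 0) (fun i => ⟨h0 0 i, ?_⟩) hδ, fun j n σ x hx => hδ.mem hx,
    fun j n σ τ h => SQ.mono n (UU_anti _ h),
    fun j j' n σ h => SQ.mono n (UU_mono (fun i => h1 j j' i h) σ),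
    fun j hj n hn σ hσ x hx hx0 => key j hj n σ hσ x hx hx0 fun V hV f hf _ =>
      hl.low V hV (n + 1) (by omega) f hf, ?_, ?_, ?_, ?_, ?_, h5⟩
  · obtain ⟨V, hV1, hV2, -⟩ := h2 0 (by omega) {i} (Finset.singleton_ne_empty i)
    refine ⟨V, hV1, fun y hy => hV2 ((mem_UU (Finset.mem_singleton_self i)).2 fun j hj => ?_)⟩
    rwa [Finset.mem_singleton.1 hj]
  · intro σ hσ x hx y hy hx0 hy0
    obtain ⟨V, hV1, hV2, -⟩ := h2 1 (by omega) σ hσ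
    obtain ⟨f, hf, rfl⟩ := hδ.zc hx hx0
    obtain ⟨g, hg, rfl⟩ := hδ.zc hy hy0
    exact tt_add hl hw hV1 (hf.mono hV2) (hg.mono hV2)
  · intro σ hσ y hy
    obtain ⟨V, hV1, hV2, -⟩ := h2 1 (by omega) σ hσ
    obtain ⟨f, hf, he⟩ := hδ.zc (hδ.mem hy) (hδ.dd y)
    rw [← he]
    exact tt_zero hV1 (hf.mono hV2) (((hδ.exc hf.1).2 ⟨y, hy, he.symm⟩).mono hV2)
  · intro σ hσ x hx hx0 ht
    refine key 1 (by omega) 4 σ hσ x hx hx0 fun V hV f hf he => ?_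
    by_contra hn
    rw [← he, tt_one hw hV hf hn] at ht
    exact one_ne_zero ht
  · intro σ hσ hs
    obtain ⟨y, hy⟩ := h3 σ hσ hs
    obtain ⟨V, hV, -, hVU⟩ := hl.basis y _ ((isOpen_UU (h0 1) σ).mem_nhds hy)
    obtain ⟨ω, hω, hω', -⟩ := hl.top V hV
    exact ⟨_, (hω.mono hVU).mk_mem, hω.d_mk hδ, tt_one hw hV hω hω'⟩
  · intro σ x hx hx0
    rcases (UU (U 0) σ).eq_empty_or_nonempty with he | he
    · simp only [he] at hx
      exact absurd (SQ_empty hx) hx0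
    · exact h4 σ he

end

variable {E : Type*} [MetricSpace E]

theorem scale {𝒱 : Set (Set E)} (hl : LocS 𝒱) {L : Set E} (hL : IsCompact L) {ε : ℝ}
    (hε : 0 < ε) : ∃ δ : ℝ, 0 < δ ∧ δ ≤ ε / 4 ∧
      ∀ x ∈ L, ∃ V ∈ 𝒱, ball x δ ⊆ V ∧ V ⊆ ball x (ε / 2) := by
  choose V hV hV1 hV2 using fun y : E => hl.basis y _ (ball_mem_nhds y (by linarith : 0 < ε / 4))
  obtain ⟨δ, hδ, h⟩ := lebesgue_number_lemma_of_metric hL (fun y => hl.op _ (hV y))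
    fun y _ => Set.mem_iUnion.2 ⟨y, hV1 y⟩
  refine ⟨min δ (ε / 4), lt_min hδ (by linarith), min_le_right _ _, fun x hx => ?_⟩
  obtain ⟨y, hy⟩ := h x hx
  refine ⟨V y, hV y, (ball_subset_ball (min_le_left _ _)).trans hy, fun w hw => ?_⟩
  have h1 := mem_ball.1 (hV2 y hw)
  have h2 := mem_ball.1 (hV2 y (hy (mem_ball_self hδ)))
  have := dist_triangle_right w x y
  rw [mem_ball]
  linarith

theorem scales {𝒱 : Set (Set E)} (hl : LocS 𝒱) {L : Set E} (hL : IsCompact L)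
    {P : ℝ → ℝ → Prop} (hP : ∀ ε, 0 < ε → ∃ η, 0 < η ∧ P ε η) :
    ∃ (ρ : ℕ → ℝ) (η : ℝ), P (ρ 1) η ∧ ρ 0 ≤ η ∧ 0 < ρ 0 ∧ Monotone ρ ∧ ∀ j ≤ 5,
      ρ j ≤ ρ (j + 1) / 4 ∧ ∀ x ∈ L, ∃ V ∈ 𝒱, ball x (ρ j) ⊆ V ∧ V ⊆ ball x (ρ (j + 1) / 2) := by
  obtain ⟨δ₅, p5, h5⟩ := scale hl hL one_pos
  obtain ⟨δ₄, p4, h4⟩ := scale hl hL p5
  obtain ⟨δ₃, p3, h3⟩ := scale hl hL p4
  obtain ⟨δ₂, p2, h2⟩ := scale hl hL p3
  obtain ⟨δ₁, p1, h1⟩ := scale hl hL p2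
  obtain ⟨δ₀, p0, h0⟩ := scale hl hL p1
  obtain ⟨η, hη, hP⟩ := hP δ₁ p1
  have hm := min_le_left δ₀ η
  refine ⟨fun j => match j with
    | 0 => min δ₀ η | 1 => δ₁ | 2 => δ₂ | 3 => δ₃ | 4 => δ₄ | 5 => δ₅ | _ => 1, η, hP,
    min_le_right _ _, lt_min p0 hη, monotone_nat_of_le_succ fun j => ?_, fun j hj => ?_⟩
  · match j with
    | 0 => exact (by linarith [h0.1] : min δ₀ η ≤ δ₁)
    | 1 => exact (by linarith [h1.1] : δ₁ ≤ δ₂)
    | 2 => exact (by linarith [h2.1] : δ₂ ≤ δ₃)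
    | 3 => exact (by linarith [h3.1] : δ₃ ≤ δ₄)
    | 4 => exact (by linarith [h4.1] : δ₄ ≤ δ₅)
    | 5 => exact (by linarith [h5.1] : δ₅ ≤ 1)
    | _ + 6 => exact le_rfl
  · match j, hj with
    | 0, _ =>
      refine ⟨hm.trans h0.1, fun x hx => ?_⟩
      obtain ⟨V, hV, h, h'⟩ := h0.2 x hx
      exact ⟨V, hV, (ball_subset_ball hm).trans h, h'⟩
    | 1, _ => exact h1
    | 2, _ => exact h2
    | 3, _ => exact h3
    | 4, _ => exact h4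
    | 5, _ => exact h5

theorem pdv [LocallyCompactSpace E] {𝒱 : Set (Set E)} (hl : LocS 𝒱) (hw : WD 𝒱) (hN : NF E)
    {n : ℕ} (hn : n = 1 ∨ n = 2) : HC (ZMod 2) (n + 1) (Set.univ : Set E) := by
  classical
  intro f hf
  obtain ⟨K, hK, -, hfK⟩ := hf.2.1
  obtain ⟨ε₀, hε₀, hL₀⟩ := hK.exists_isCompact_cthickening
  obtain ⟨L₁, hL₁, hL, hN⟩ := hN _ hL₀
  obtain ⟨ρ, η, ⟨hη₀, η', hη, hF⟩, h0, hpos, hmono, hρ⟩ := scales hl hL₁
    (P := fun ε η => η ≤ ε₀ ∧ ∃ η', 2 * η ≤ η' ∧ ∀ (N : ℕ) (x : Fin N → E),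
      (∀ y ∈ L₁, ∃ i, dist y (x i) < η') → ∀ p, 2 ≤ p → ∀ c : Finset (Fin N) → ZMod 2,
        (∀ σ, c σ ≠ 0 → σ.card = p ∧ ∀ i ∈ σ, x i ∈ cthickening ε₀ K ∧
          ∀ j ∈ σ, dist (x i) (x j) < η') →
        bd c = 0 → ∃ c' : Finset (Fin N) → ZMod 2,
          (∀ σ, c' σ ≠ 0 → σ.card = p + 1 ∧ ∀ i ∈ σ, ∀ j ∈ σ, dist (x i) (x j) < ε) ∧ bd c' = c)
    fun ε hε => by
      obtain ⟨η, hη, h⟩ := hN ε hε
      exact ⟨min ε₀ (η / 2), lt_min hε₀ (by linarith), min_le_left _ _, η,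
        by linarith [min_le_right ε₀ (η / 2)], h⟩
  obtain ⟨T, hT, hTf, hTc⟩ := finite_cover_balls_of_compact hL₁ hpos
  obtain ⟨N, x, rfl⟩ := hTf.fin_embedding
  have hx : ∀ i, x i ∈ L₁ := fun i => hT ⟨i, rfl⟩
  have hnet : ∀ y ∈ L₁, ∃ i, dist y (x i) < ρ 0 := fun y hy => by
    simpa using hTc hy
  let U : ℕ → Fin N → Set E := fun j i =>
    if j = 0 ∧ x i ∉ cthickening ε₀ K then ∅ else ball (x i) (ρ j)
  have hU : ∀ j i, U j i ⊆ ball (x i) (ρ j) := fun j i => by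
    simp only [U]
    split_ifs
    · exact Set.empty_subset _
    · exact le_rfl
  have hU' : ∀ j i, U (j + 1) i = ball (x i) (ρ (j + 1)) := fun j i => by simp [U]
  obtain ⟨δ, hδ⟩ := exists_isD (X := E)
  have hZ := zz_of_cover hl hw hδ U
    (s₀ := fun σ => ∀ i ∈ σ, x i ∈ cthickening ε₀ K ∧ ∀ j ∈ σ, dist (x i) (x j) < η')
    (s₁ := fun σ => ∀ i ∈ σ, ∀ j ∈ σ, dist (x i) (x j) < ρ 1) ?_ ?_ ?_ ?_ ?_
    (hF N x fun y hy => (hnet y hy).imp fun i hi => by linarith)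
  · have hz : Zc (n + 1) (UU (U 0) ∅) f := by
      refine ⟨hf.1, ⟨K, hK, fun y hy => ?_, hfK⟩, hf.2.2⟩
      obtain ⟨i, hi⟩ := hnet y (hL (self_subset_cthickening K hy))
      have : x i ∈ cthickening ε₀ K :=
        mem_cthickening_of_dist_le _ y _ _ hy (by rw [dist_comm]; linarith)
      rw [UU_empty]
      refine Set.mem_iUnion.2 ⟨i, ?_⟩
      simp only [U]
      rw [if_neg fun h => h.2 this]
      exact hi
    exact ((hδ.exc hf.1).2 (zz hZ hn hz.mk_mem (hz.d_mk hδ))).mono (Set.subset_univ _)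
  · intro j i
    simp only [U]
    split_ifs
    · exact isOpen_empty
    · exact isOpen_ball
  · intro j j' i h
    rcases j' with _ | j'
    · rw [Nat.le_zero.1 h]
    · rw [hU']
      exact (hU j i).trans (ball_subset_ball (hmono h))
  · intro j hj σ hσ
    obtain ⟨i₀, hi₀⟩ := Finset.nonempty_iff_ne_empty.2 hσ
    obtain ⟨V, hV, h1, h2⟩ := (hρ j hj).2 _ (hx i₀)
    refine ⟨V, hV, fun y hy => h1 (hU j i₀ ((mem_UU hi₀).1 hy i₀ hi₀)), ?_⟩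
    rintro ⟨w, hw⟩ y hy
    refine (mem_UU hi₀).2 fun i hi => ?_
    have a1 := mem_ball.1 (hU j i ((mem_UU hi₀).1 hw i hi))
    have a2 := mem_ball.1 (hU j i₀ ((mem_UU hi₀).1 hw i₀ hi₀))
    have a3 := mem_ball.1 (h2 hy)
    have a4 := dist_triangle y (x i₀) (x i)
    have a5 := dist_triangle_left (x i₀) (x i) w
    rw [hU', mem_ball]
    linarith [(hρ j hj).1]
  · intro σ hσ hs
    obtain ⟨i₀, hi₀⟩ := Finset.nonempty_iff_ne_empty.2 hσ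
    exact ⟨x i₀, (mem_UU hi₀).2 fun i hi => by
      rw [hU' 0]
      exact hs i₀ hi₀ i hi⟩
  · rintro σ ⟨w, hw⟩ i hi
    have a1 := (mem_UU hi).1 hw
    refine ⟨?_, fun j hj => ?_⟩
    · by_contra h
      have := a1 i hi
      simp only [U] at this
      rw [if_pos ⟨trivial, h⟩] at this
      exact this
    · have a2 := mem_ball.1 (hU 0 i (a1 i hi))
      have a3 := mem_ball.1 (hU 0 j (a1 j hj))
      have a4 := dist_triangle_left (x i) (x j) w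
      linarith

end Vale.Agent.P239.AS
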