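import Vale.Agent.P239.Defs
import Vale.Agent.P239.Core

/-! Reduction to real functions of finite energy, and truncation. -/

namespace Vale.Agent.P239

open scoped Pointwise symmDiff Matrix
open Filter Topology

section
variable {Γ : Type*} [Group Γ] {S : Finset Γ}

theorem reduce_key {u : Γ → ℝ} (hu : FinEn S u) (ψ : ℕ → ℝ → ℝ)
    (h1 : ∀ n a b, |ψ n a - ψ n b| ≤ |a - b|)
    (h2 : ∀ a b, Tendsto (fun n => ψ n a - ψ n b) atTop (𝓝 0))
    (h3 : ∀ n, {x | ψ n (u x) ≠ u x}.Finite) : Approx S u := by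
  intro ε hε
  have h : ∀ s ∈ S, ∀ᶠ n in atTop, ∑' x, (ψ n (u (x * s)) - ψ n (u x)) ^ 2 < ε := fun s hs => by
    have := tendsto_tsum_of_dominated_convergence (𝓕 := atTop)
      (f := fun n x => (ψ n (u (x * s)) - ψ n (u x)) ^ 2) (g := fun _ => (0 : ℝ)) (hu s hs)
      (fun x => by simpa using (h2 (u (x * s)) (u x)).pow 2)
      (Eventually.of_forall fun n x => by
        rw [Real.norm_of_nonneg (sq_nonneg _)]
        exact sq_le_sq.2 (h1 n _ _))
    rw [tsum_zero] at this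
    exact this.eventually (gt_mem_nhds hε)
  obtain ⟨n, hn⟩ := ((eventually_all_finset S).2 h).exists
  refine ⟨fun x => u x - ψ n (u x), (h3 n).subset fun x hx e => hx (by simp [e]),
    fun s hs => ?_⟩
  simpa using hn s hs

theorem trunc (hS : Gen S) {u : Γ → ℝ} (hu : FinEn S u) (h : ¬ Approx S u) :
    ∃ a b : ℝ, a < b ∧ {x | u x ≤ a}.Infinite ∧ {x | b ≤ u x}.Infinite := by
  have _ := hS
  by_contra hc
  apply h
  by_cases hA : ∀ a, {x | u x ≤ a}.Finite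
  · refine reduce_key hu (fun n t => max t n) (fun n a b => abs_max_sub_max_le_abs a b n)
      (fun a b => tendsto_const_nhds.congr' ?_) fun n => (hA n).subset fun x hx => ?_
    · filter_upwards [tendsto_natCast_atTop_atTop.eventually_ge_atTop a,
        tendsto_natCast_atTop_atTop.eventually_ge_atTop b] with n ha hb
      rw [max_eq_right ha, max_eq_right hb, sub_self]
    · by_contra h'
      exact hx (max_eq_left (not_le.1 h').le)
  by_cases hB : ∀ b, {x | b ≤ u x}.Finite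
  · refine reduce_key hu (fun n t => min t (-n))
      (fun n a b => (abs_min_sub_min_le_max _ _ _ _).trans (by simp))
      (fun a b => tendsto_const_nhds.congr' ?_) fun n => (hB (-n)).subset fun x hx => ?_
    · filter_upwards [tendsto_natCast_atTop_atTop.eventually_ge_atTop (-a),
        tendsto_natCast_atTop_atTop.eventually_ge_atTop (-b)] with n ha hb
      rw [min_eq_right (by linarith), min_eq_right (by linarith), sub_self]
    · by_contra h'
      exact hx (min_eq_left (not_le.1 h').le)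
  obtain ⟨a₀, ha₀⟩ := not_forall.1 hA
  obtain ⟨b₀, hb₀⟩ := not_forall.1 hB
  have hne : {a | {x | u x ≤ a}.Finite}.Nonempty :=
    ⟨b₀ - 1, by_contra fun h' => hc ⟨b₀ - 1, b₀, by linarith, h', hb₀⟩⟩
  have hbd : BddAbove {a | {x | u x ≤ a}.Finite} := ⟨a₀, fun a ha => by_contra fun h' =>
    ha₀ (Set.Finite.subset ha fun x hx => le_trans hx (not_le.1 h').le)⟩
  obtain ⟨c, hc'⟩ : ∃ c, c = sSup {a | {x | u x ≤ a}.Finite} := ⟨_, rfl⟩
  have hδ : ∀ n : ℕ, (0 : ℝ) < 1 / (n + 1) := fun n => by positivity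
  refine reduce_key hu (fun n t => max (c - 1 / (n + 1)) (min t (c + 1 / (n + 1))))
    (fun n a b => (abs_max_sub_max_le_max _ _ _ _).trans (max_le (by simp)
      ((abs_min_sub_min_le_max _ _ _ _).trans (by simp)))) (fun a b => ?_) fun n => ?_
  · have h0 := (tendsto_one_div_add_atTop_nhds_zero_nat (𝕜 := ℝ)).const_mul 2
    rw [mul_zero] at h0
    refine squeeze_zero_norm (fun n => ?_) h0
    have k : ∀ t, c - 1 / (n + 1) ≤ max (c - 1 / (n + 1)) (min t (c + 1 / (n + 1))) ∧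
        max (c - 1 / (n + 1)) (min t (c + 1 / ((n : ℝ) + 1))) ≤ c + 1 / (n + 1) := fun t =>
      ⟨le_max_left _ _, max_le (by linarith [hδ n]) (min_le_right _ _)⟩
    exact abs_le.2 ⟨by linarith [(k a).1, (k b).2], by linarith [(k a).2, (k b).1]⟩
  · obtain ⟨a, ha, hlt⟩ := exists_lt_of_lt_csSup hne (b := c - 1 / (n + 1))
      (by linarith [hδ n])
    have h2 : {x | c + 1 / (n + 1) ≤ u x}.Finite := by_contra fun h' =>
      hc ⟨c + 1 / (n + 1) / 2, _, by linarith [hδ n],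
        fun hf => by linarith [le_csSup hbd hf, hδ n], h'⟩
    refine (Set.Finite.union ha h2).subset fun x hx => by_contra fun h' => hx ?_
    simp only [Set.mem_union, Set.mem_ofPred_eq, not_or, not_le] at h'
    rw [min_eq_left h'.2.le, max_eq_right (by linarith [h'.1])]

end

variable {Γ : Type} [Group Γ] {S : Finset Γ}

omit [Group Γ] in
theorem reduce_norm_sq (ξ : L2 Γ) : ‖ξ‖ ^ 2 = ∑' x, ‖ξ x‖ ^ 2 := by
  simpa using lp.norm_rpow_eq_tsum (p := 2) (by norm_num) ξ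

omit [Group Γ] in
theorem reduce_summable (ξ : L2 Γ) : Summable fun x => ‖ξ x‖ ^ 2 := by
  simpa using (lp.memℓp ξ).summable (by norm_num)

theorem reduce_norm_leftReg (g : Γ) (ξ : L2 Γ) : ‖leftReg g ξ‖ = ‖ξ‖ := by
  rw [← sq_eq_sq₀ (norm_nonneg _) (norm_nonneg _), reduce_norm_sq, reduce_norm_sq]
  exact (Equiv.mulLeft g⁻¹).tsum_eq fun x => ‖ξ x‖ ^ 2

theorem reduce (hS : Gen S) (h : ∀ u : Γ → ℝ, FinEn S u → Approx S u) :
    ReducedH1Vanishes Γ := by
  intro b hb F ε hε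
  have hU : ∀ g y, -b (y * g)⁻¹ (y * g)⁻¹ - -b y⁻¹ y⁻¹ = b g y⁻¹ := fun g y => by
    have h1 := congrArg (fun ξ : L2 Γ => ξ y⁻¹) (hb g (g⁻¹ * y⁻¹))
    have h2 : b y⁻¹ y⁻¹ = b g y⁻¹ + b (g⁻¹ * y⁻¹) (g⁻¹ * y⁻¹) := by
      rw [mul_inv_cancel_left] at h1
      exact h1
    rw [mul_inv_rev, h2]; ring
  have hs : ∀ (ξ : L2 Γ) (L : ℂ → ℝ), (∀ z, |L z| ≤ ‖z‖) → Summable fun y => L (ξ y⁻¹) ^ 2 :=
    fun ξ L hL => ((Equiv.inv Γ).summable_iff.2 (reduce_summable ξ)).of_nonneg_of_le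
      (fun _ => sq_nonneg _) fun y => sq_le_sq' (abs_le.1 (hL _)).1 (abs_le.1 (hL _)).2
  choose m hm using hS.gen
  obtain ⟨δ, hδ⟩ : ∃ δ : ℝ, δ = ε / (F.sup m + 1 : ℕ) := ⟨_, rfl⟩
  have hδ0 : 0 < δ := by rw [hδ]; positivity
  obtain ⟨f1, f1s, hf1⟩ := h (fun y => (-b y⁻¹ y⁻¹).re) (fun s _ => by
    simp only [← Complex.sub_re, hU]
    exact hs (b s) _ Complex.abs_re_le_norm) (δ ^ 2 / 2) (by positivity)
  obtain ⟨f2, f2s, hf2⟩ := h (fun y => (-b y⁻¹ y⁻¹).im) (fun s _ => by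
    simp only [← Complex.sub_im, hU]
    exact hs (b s) _ Complex.abs_im_le_norm) (δ ^ 2 / 2) (by positivity)
  have hfin : Memℓp (fun x : Γ => (⟨f1 x⁻¹, f2 x⁻¹⟩ : ℂ)) 2 := by
    refine (memℓp_zero ?_).of_exponent_ge (by norm_num)
    refine ((f1s.union f2s).preimage inv_injective.injOn).subset fun x hx => by_contra fun h' => ?_
    simp only [Set.mem_preimage, Set.mem_union, Function.mem_support, not_or, not_not] at h'
    exact hx (Complex.ext h'.1 h'.2)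
  let ξ : L2 Γ := ⟨_, hfin⟩
  let c : Γ → L2 Γ := fun g => b g - (leftReg g ξ - ξ)
  have hc : ∀ g k, c (g * k) = c g + leftReg g (c k) := fun g k => by
    ext x
    have h1 : b (g * k) x = b g x + b k (g⁻¹ * x) := congrArg (fun ξ : L2 Γ => ξ x) (hb g k)
    change b (g * k) x - (ξ ((g * k)⁻¹ * x) - ξ x) = b g x - (ξ (g⁻¹ * x) - ξ x) +
      (b k (g⁻¹ * x) - (ξ (k⁻¹ * (g⁻¹ * x)) - ξ (g⁻¹ * x)))
    rw [h1, mul_inv_rev, mul_assoc]; ring
  have hcs : ∀ s ∈ S, ‖c s‖ ≤ δ := fun s hsS => by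
    have e : ∀ y, c s y⁻¹ = -b (y * s)⁻¹ (y * s)⁻¹ - -b y⁻¹ y⁻¹ -
        (⟨f1 (y * s), f2 (y * s)⟩ - ⟨f1 y, f2 y⟩) := fun y => by
      rw [hU]
      change b s y⁻¹ - (⟨f1 (s⁻¹ * y⁻¹)⁻¹, f2 (s⁻¹ * y⁻¹)⁻¹⟩ - ⟨f1 y⁻¹⁻¹, f2 y⁻¹⁻¹⟩) = _
      simp only [mul_inv_rev, inv_inv]
    have a1 : ∑' y, (c s y⁻¹).re ^ 2 < δ ^ 2 / 2 := by
      refine lt_of_eq_of_lt (tsum_congr fun y => ?_) (hf1 s hsS)
      simp only [e, Complex.sub_re]; ring
    have a2 : ∑' y, (c s y⁻¹).im ^ 2 < δ ^ 2 / 2 := by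
      refine lt_of_eq_of_lt (tsum_congr fun y => ?_) (hf2 s hsS)
      simp only [e, Complex.sub_im]; ring
    have a3 : ‖c s‖ ^ 2 = ∑' y, (c s y⁻¹).re ^ 2 + ∑' y, (c s y⁻¹).im ^ 2 := by
      rw [reduce_norm_sq, ← (Equiv.inv Γ).tsum_eq, ← (hs (c s) _ Complex.abs_re_le_norm).tsum_add
        (hs (c s) _ Complex.abs_im_le_norm)]
      refine tsum_congr fun y => ?_
      rw [Complex.sq_norm, Complex.normSq_apply, sq, sq]
      rfl
    exact (abs_le_of_sq_le_sq' (by linarith) hδ0.le).2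
  have hn : ∀ (n : ℕ) (g : Γ), g ∈ (S : Set Γ) ^ n → ‖c g‖ ≤ n * δ := fun n => by
    induction n with
    | zero =>
      intro g hg
      rw [pow_zero, Set.mem_one] at hg
      have h1 := hc 1 1
      rw [mul_one, left_eq_add] at h1
      rw [hg, ← reduce_norm_leftReg 1, h1]
      simp
    | succ n ih =>
      intro g hg
      rw [pow_succ] at hg
      obtain ⟨a, ha, s, hsS, rfl⟩ := hg
      rw [hc]
      refine (norm_add_le _ _).trans ?_
      rw [reduce_norm_leftReg]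
      push_cast
      linarith [ih a ha, hcs s hsS]
  refine ⟨ξ, fun g hg => (hn _ g (hm g)).trans_lt ?_⟩
  rw [hδ, ← mul_div_assoc, div_lt_iff₀ (by positivity), mul_comm]
  have : m g < F.sup m + 1 := Nat.lt_succ_of_le (Finset.le_sup hg)
  exact mul_lt_mul_of_pos_left (by exact_mod_cast this) hε

end Vale.Agent.P239
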