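import Vale.Agent.P239.ASB

/-! Exactness of the rows, and independence of the basic open set. -/

namespace Vale.Agent.P239.AS

open scoped Pointwise symmDiff
open Filter Topology

variable {k : Type*} [Field k] {X Y : Type*} [TopologicalSpace X] [TopologicalSpace Y]

namespace RowXAux

theorem bd_cone {I : Type*} [Fintype I] [DecidableEq I] {Q : Type*} [AddCommGroup Q]
    [Module (ZMod 2) Q] (T : I → Q →ₗ[ZMod 2] Q) (a : Finset I → Q)
    (hT : ∀ τ, ∑ i, T i (a τ) = a τ) (ha : bd a = 0) :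
    bd (fun σ => ∑ i ∈ σ, T i (a (σ.erase i))) = a := by
  funext τ
  have h1 : ∀ i ∈ τ, ∑ j ∈ τᶜ, a (insert j (τ.erase i)) = a τ := fun i hi => by
    have h2 := congrFun ha (τ.erase i)
    unfold bd at h2
    rw [Finset.compl_erase, Finset.sum_insert (by simpa using hi), Finset.insert_erase hi,
      Pi.zero_apply] at h2
    rw [eq_neg_of_add_eq_zero_right h2, neg_eq_of_add_eq_zero_right (two_self (a τ))]
  have h3 : ∀ j ∈ τᶜ, ∑ i ∈ insert j τ, T i (a ((insert j τ).erase i)) =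
      T j (a τ) + ∑ i ∈ τ, T i (a (insert j (τ.erase i))) := fun j hj => by
    have hj' : j ∉ τ := Finset.mem_compl.1 hj
    rw [Finset.sum_insert hj', Finset.erase_insert hj']
    congr 1
    refine Finset.sum_congr rfl fun i hi => ?_
    rw [Finset.erase_insert_of_ne fun h : j = i => hj' (h ▸ hi)]
  have h4 : ∀ i ∈ τ, ∑ j ∈ τᶜ, T i (a (insert j (τ.erase i))) = T i (a τ) := fun i hi => by
    rw [← map_sum, h1 i hi]
  unfold bd
  rw [Finset.sum_congr rfl h3, Finset.sum_add_distrib, Finset.sum_comm,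
    Finset.sum_congr rfl h4, add_comm, Finset.sum_add_sum_compl, hT]

omit [TopologicalSpace X] in
theorem exists_part {ι : Type*} [Fintype ι] (L : ι → Set X) : ∃ c : ι → Set X,
    (∀ i, c i ⊆ L i) ∧ ∀ f : Co k X, ∑ i, cut (c i) f = cut (⋃ i, L i) f := by
  classical
  refine ⟨fun i => {x | ∃ h : ∃ j, x ∈ L j, h.choose = i}, ?_, fun f => ?_⟩
  · rintro i x ⟨h, rfl⟩
    exact h.choose_spec
  · funext l
    rw [Finset.sum_apply]
    rcases l with _ | ⟨x, l⟩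
    · simp
    by_cases h : ∃ j, x ∈ L j
    · rw [cut_cons_of_mem f (Set.mem_iUnion.2 h), Finset.sum_eq_single h.choose]
      · exact cut_cons_of_mem f (by exact ⟨h, rfl⟩) l
      · exact fun i _ hi => cut_cons_of_notMem f (by rintro ⟨_, h'⟩; exact hi h'.symm) l
      · simp
    · rw [cut_cons_of_notMem f fun h' => h (Set.mem_iUnion.1 h')]
      exact Finset.sum_eq_zero fun i _ =>
        cut_cons_of_notMem f (by rintro ⟨h', _⟩; exact h h') l

theorem inc {𝒱 : Set (Set X)} (h : LocS 𝒱) {V V' : Set X} (hV : V ∈ 𝒱) (hV' : V' ∈ 𝒱)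
    (hs : V' ⊆ V) {f : Co (ZMod 2) X} (hf : Zc 5 V' f) (he : Exc V f) : Exc V' f := by
  obtain ⟨ω, h1, h2, h3⟩ := h.top V' hV'
  obtain ⟨x, hx⟩ : V'.Nonempty := by
    by_contra hn
    rw [Set.not_nonempty_iff_eq_empty.1 hn] at h1 h2
    exact h2 (Exc.of_nul (Sc_empty (k := ZMod 2) (X := X) ▸ h1.2.1))
  obtain ⟨W, hW, -, hW1, -, hW2⟩ := h.inc V hV x (hs hx) V' ((h.op V' hV').mem_nhds hx)
  obtain ⟨ω', h4, h5, -⟩ := h.top W hW
  have h6 : ¬ Exc V ω' := fun hh => h5 (hW2 ω' h4 hh)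
  have h7 : Exc V (ω' - ω) := ((h3 ω' (h4.mono hW1)).resolve_left fun hh => h6 (hh.mono hs)).mono hs
  refine (h3 f hf).resolve_right fun hh => h6 ?_
  have h8 := h7.add (he.sub (hh.mono hs))
  rwa [sub_sub_cancel, sub_add_cancel] at h8

theorem exc_add {𝒱 : Set (Set X)} (h : LocS 𝒱) {V : Set X} (hV : V ∈ 𝒱) {a b : Co (ZMod 2) X}
    (ha : Zc 5 V a) (hb : Zc 5 V b) : Exc V (a + b) ↔ (Exc V a ↔ Exc V b) := by
  refine ⟨fun hh => ⟨fun h1 => ?_, fun h1 => ?_⟩, fun hh => ?_⟩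
  · simpa using hh.sub h1
  · simpa using hh.sub h1
  · by_cases h1 : Exc V a
    · exact h1.add (hh.1 h1)
    · obtain ⟨ω, -, -, h3⟩ := h.top V hV
      have h4 := ((h3 a ha).resolve_left h1).add ((h3 b hb).resolve_left fun h5 => h1 (hh.2 h5))
      rwa [sub_add_sub_comm, two_self ω, sub_zero] at h4

theorem zc_sum {ι : Type*} {n : ℕ} {V : Set X} (s : Finset ι) {g : ι → Co k X}
    (hg : ∀ i, Zc n V (g i)) : Zc n V (∑ i ∈ s, g i) :=
  ⟨Deg.sum fun i _ => (hg i).1, Submodule.sum_mem _ fun i _ => (hg i).2.1, by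
    rw [map_sum]; exact Submodule.sum_mem _ fun i _ => (hg i).2.2⟩

end RowXAux

open RowXAux

theorem rowsys [T2Space X] [LocallyCompactSpace X] {𝒱 : Set (Set X)} (h : LocS 𝒱) {ι : Type*}
    [Fintype ι] [DecidableEq ι] (U : ι → Set X) (hU : ∀ i, IsOpen (U i) ∧ ∃ V ∈ 𝒱, U i ⊆ V)
    {δ : QQ X →ₗ[ZMod 2] QQ X} (hδ : IsD δ) : RowSys δ fun n σ => SQ n (UU U σ) where
  dd := hδ.dd
  d_mem := fun _ _ _ hx => hδ.mem hx
  anti := fun n σ τ hs => SQ.mono n fun x hx =>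
    ⟨hx.1, Set.mem_iInter₂.2 fun i hi => Set.mem_iInter₂.1 hx.2 i (hs hi)⟩
  row := fun n p a ha hb => by
    choose f hf1 hf2 hf3 using ha.1
    choose K hK1 hK2 hK3 using hf2
    obtain ⟨K', h1, h2, h3⟩ := (isCompact_iUnion hK1).finite_compact_cover Finset.univ U
      (fun i _ => (hU i).1) (Set.iUnion_subset fun σ x hx => by simpa using (hK2 σ hx).1)
    choose L hL1 hL2 hL3 using fun i => exists_compact_between (h1 i) (hU i).1 (h2 i)
    obtain ⟨c, hc1, hc2⟩ := exists_part (k := ZMod 2) L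
    let T : ι → QQ X →ₗ[ZMod 2] QQ X := fun i =>
      Submodule.mapQ _ _ (cut (c i)) fun g hg => cut_mem_Nul _ hg
    have hT : ∀ i g, T i (Submodule.Quotient.mk g) = Submodule.Quotient.mk (cut (c i) g) :=
      fun _ _ => rfl
    refine ⟨fun σ => ∑ i ∈ σ, T i (a (σ.erase i)), ⟨fun σ => ?_, fun σ hσ => ?_⟩,
      bd_cone T a (fun τ => ?_) hb⟩
    · refine Submodule.sum_mem (SQ n (UU U σ)) fun i hi => ?_
      rw [← hf3, hT]
      refine ⟨_, (hf1 _).cut _, Sc.mono (U := UU U (σ.erase i) ∩ U i) (fun x hx => ?_)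
        (cut_mem_Sc ⟨_, hK1 _, hK2 _, hK3 _⟩ (hL1 i) (hc1 i) (hL3 i)), rfl⟩
      refine ⟨hx.1.1, Set.mem_iInter₂.2 fun j hj => ?_⟩
      by_cases hji : j = i
      · exact hji ▸ hx.2
      · exact Set.mem_iInter₂.1 hx.1.2 j (Finset.mem_erase.2 ⟨hji, hj⟩)
    · refine Finset.sum_eq_zero fun i hi => ?_
      rw [ha.2 _ fun hh => hσ (by rw [← hh, Finset.card_erase_add_one hi]), map_zero]
    · rw [← hf3]
      simp only [hT]
      have e : ∑ i, (Submodule.Quotient.mk (cut (c i) (f τ)) : QQ X) =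
          Submodule.Quotient.mk (∑ i, cut (c i) (f τ)) := (map_sum (Submodule.mkQ _) _ _).symm
      rw [e, hc2, eq_comm, Submodule.Quotient.eq]
      refine ⟨by simp [(hK3 τ).1], fun y _ => ?_⟩
      by_cases hy : y ∈ K τ
      · have e1 : y ∈ ⋃ i ∈ Finset.univ, K' i := h3 ▸ Set.mem_iUnion.2 ⟨τ, hy⟩
        obtain ⟨i, -, hi⟩ := Set.mem_iUnion₂.1 e1
        exact van_sub_cut (mem_of_superset (mem_interior_iff_mem_nhds.1 (hL2 i hi))
          (Set.subset_iUnion L i)) (hK3 τ).1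
      · exact ((hK3 τ).2 y hy).sub (((hK3 τ).2 y hy).cut _)
  high := fun n hn σ hσ x hx h0 => by
    obtain ⟨f, hf, rfl⟩ := hδ.zc hx h0
    obtain ⟨i, hi⟩ := Finset.nonempty_iff_ne_empty.2 hσ
    obtain ⟨V, hV, hs⟩ := (hU i).2
    refine (hδ.exc hf.1).1 (h.high V hV (UU U σ) (fun y hy => hs (Set.mem_iInter₂.1 hy.2 i hi))
      ((isOpen_iUnion fun j => (hU j).1).inter (isOpen_biInter_finset fun j _ => (hU j).1))
      (n + 1) (by omega) f hf)

theorem wd [T2Space X] {𝒱 : Set (Set X)} (h : LocS 𝒱)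
    (h1 : ∀ (N : ℕ) (U : Fin N → Set X), (∀ i, U i ∈ 𝒱) → ∀ f : Co (ZMod 2) X,
      Zc 5 (⋃ i, U i) f → ∃ g : Fin N → Co (ZMod 2) X, (∀ i, Zc 5 (U i) (g i)) ∧
        f - ∑ i, g i ∈ Nul (ZMod 2) (Set.univ : Set X)) : WD 𝒱 := by
  classical
  intro V hV V' hV' f hf he
  obtain ⟨K, hK1, hK2, hK3⟩ := hf.2.1
  choose W hW1 hW2 hW3 using fun x : K =>
    h.basis x (V ∩ V') (((h.op V hV).inter (h.op V' hV')).mem_nhds (hK2 x.2))
  obtain ⟨t, ht⟩ := hK1.elim_finite_subcover W (fun x => h.op _ (hW1 x))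
    fun x hx => Set.mem_iUnion.2 ⟨⟨x, hx⟩, hW2 _⟩
  obtain ⟨g, hg1, hg2⟩ := h1 t.card (fun i => W (t.equivFin.symm i)) (fun i => hW1 _) f
    ⟨hf.1, ⟨K, hK1, fun x hx => by
      obtain ⟨y, hy, hxy⟩ := Set.mem_iUnion₂.1 (ht hx)
      exact Set.mem_iUnion.2 ⟨t.equivFin ⟨y, hy⟩, by simpa using hxy⟩, hK3⟩, hf.2.2⟩
  have hz : ∀ i, Zc 5 V (g i) := fun i => (hg1 i).mono fun x hx => (hW3 _ hx).1
  have hz' : ∀ i, Zc 5 V' (g i) := fun i => (hg1 i).mono fun x hx => (hW3 _ hx).2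
  have key : ∀ s : Finset (Fin t.card), Exc V (∑ i ∈ s, g i) ↔ Exc V' (∑ i ∈ s, g i) := fun s => by
    induction s using Finset.induction_on with
    | empty => exact iff_of_true (Exc.of_nul (zero_mem _)) (Exc.of_nul (zero_mem _))
    | insert i s hi ih =>
      have e : Exc V (g i) ↔ Exc V' (g i) :=
        ⟨fun hh => (inc h hV (hW1 _) (fun x hx => (hW3 _ hx).1) (hg1 i) hh).mono
          fun x hx => (hW3 _ hx).2,
        fun hh => (inc h hV' (hW1 _) (fun x hx => (hW3 _ hx).2) (hg1 i) hh).mono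
          fun x hx => (hW3 _ hx).1⟩
      rw [Finset.sum_insert hi, exc_add h hV (hz i) (zc_sum s hz),
        exc_add h hV' (hz' i) (zc_sum s hz'), e, ih]
  refine ((key Finset.univ).1 (he.congr hg2)).congr ?_
  simpa using neg_mem hg2

end Vale.Agent.P239.AS
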