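import Vale.Agent.P239.Core4

/-! Basic facts on invariant subspaces and their dimension. -/

namespace Vale.Agent.P239.VN

open scoped InnerProductSpace

variable {Γ : Type} [Group Γ] {I J K : Type} [Fintype I] [Fintype J] [Fintype K]

omit [Group Γ] in
theorem shift_apply (e : Γ ≃ Γ) (ξ : H2 Γ) (x : Γ) : shift e ξ x = ξ (e x) := rfl

theorem lam_apply (g : Γ) (ξ : H2 Γ) (x : Γ) : lam g ξ x = ξ (g⁻¹ * x) := rfl

omit [Group Γ] in
theorem inner_shift (e : Γ ≃ Γ) (ξ η : H2 Γ) : ⟪shift e ξ, shift e η⟫_ℂ = ⟪ξ, η⟫_ℂ := by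
  rw [lp.inner_eq_tsum, lp.inner_eq_tsum]
  exact e.tsum_eq fun x => ⟪ξ x, η x⟫_ℂ

theorem mem_NG {T : H2 Γ →L[ℂ] H2 Γ} :
    T ∈ NG Γ ↔ ∀ (g : Γ) ξ, T (lam g ξ) = lam g (T ξ) := by
  rw [NG, Subring.mem_centralizer_iff]
  constructor
  · intro h g ξ
    exact (DFunLike.congr_fun (h _ ⟨g, rfl⟩) ξ).symm
  · rintro h _ ⟨g, rfl⟩
    exact ContinuousLinearMap.ext fun ξ => (h g ξ).symm

omit [Fintype I] in
theorem lamI_apply (g : Γ) (ξ : HI Γ I) (i : I) : lamI g ξ i = lam g (ξ i) := rfl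

omit [Fintype I] in
theorem lamI_mul (g h : Γ) (ξ : HI Γ I) : lamI (g * h) ξ = lamI g (lamI h ξ) := by
  ext i x
  simp only [lamI_apply, lam_apply, mul_inv_rev, mul_assoc]

omit [Fintype I] in
theorem lamI_one (ξ : HI Γ I) : lamI (1 : Γ) ξ = ξ := by
  ext i x
  simp only [lamI_apply, lam_apply, inv_one, one_mul]

omit [Fintype I] in
theorem lamI_add (g : Γ) (ξ η : HI Γ I) : lamI g (ξ + η) = lamI g ξ + lamI g η := by
  ext1 i
  simp only [lamI_apply, PiLp.add_apply, map_add]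

omit [Fintype I] in
theorem lamI_sub (g : Γ) (ξ η : HI Γ I) : lamI g (ξ - η) = lamI g ξ - lamI g η := by
  ext1 i
  simp only [lamI_apply, PiLp.sub_apply, map_sub]

omit [Fintype I] in
theorem lamI_smul (g : Γ) (c : ℂ) (ξ : HI Γ I) : lamI g (c • ξ) = c • lamI g ξ := by
  ext1 i
  simp only [lamI_apply, PiLp.smul_apply, map_smul]

omit [Fintype I] in
theorem continuous_lamI (g : Γ) : Continuous (lamI g : HI Γ I → HI Γ I) := by
  unfold lamI
  fun_prop

theorem inner_lamI (g : Γ) (ξ η : HI Γ I) : ⟪lamI g ξ, lamI g η⟫_ℂ = ⟪ξ, η⟫_ℂ := by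
  rw [PiLp.inner_apply, PiLp.inner_apply]
  exact Finset.sum_congr rfl fun i _ => inner_shift _ _ _

theorem inner_lamI_left (g : Γ) (ξ η : HI Γ I) : ⟪lamI g ξ, η⟫_ℂ = ⟪ξ, lamI g⁻¹ η⟫_ℂ := by
  rw [← inner_lamI g ξ, ← lamI_mul, mul_inv_cancel, lamI_one]

theorem inner_dl (g : Γ) (i : I) (ξ : HI Γ I) : ⟪lamI g (dl i), ξ⟫_ℂ = ξ i g := by
  classical
  rw [inner_lamI_left, dl, PiLp.inner_apply, Finset.sum_eq_single i]
  · rw [PiLp.single_eq_same, lp.inner_single_left, lamI_apply, lam_apply]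
    simp
  · intro j _ hj
    rw [PiLp.single_eq_of_ne _ hj, inner_zero_left]
  · simp

theorem Eqv.adjoint {T : HI Γ I →L[ℂ] HI Γ J} (h : Eqv T) :
    Eqv (ContinuousLinearMap.adjoint T) := fun g ξ => ext_inner_right ℂ fun η => by
  rw [ContinuousLinearMap.adjoint_inner_left, inner_lamI_left, inner_lamI_left,
    ContinuousLinearMap.adjoint_inner_left, h]

omit [Fintype I] [Fintype J] [Fintype K] in
theorem Eqv.comp {S : HI Γ J →L[ℂ] HI Γ K} {T : HI Γ I →L[ℂ] HI Γ J} (hS : Eqv S) (hT : Eqv T) :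
    Eqv (S ∘L T) := fun g ξ => by
  rw [ContinuousLinearMap.comp_apply, ContinuousLinearMap.comp_apply, hT, hS]

omit [Fintype I] [Fintype J] in
theorem Eqv.inv_range {T : HI Γ I →L[ℂ] HI Γ J} (h : Eqv T) : Inv T.range := by
  rintro g _ ⟨ξ, rfl⟩
  exact ⟨lamI g ξ, h g ξ⟩

omit [Fintype I] [Fintype J] in
theorem Eqv.inv_ker {T : HI Γ I →L[ℂ] HI Γ J} (h : Eqv T) : Inv T.ker := by
  intro g ξ hξ
  have h1 : T ξ = 0 := hξ
  show T (lamI g ξ) = 0
  rw [h, h1]
  simpa using lamI_smul g 0 (0 : HI Γ J)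

theorem Inv.orth {W : Submodule ℂ (HI Γ I)} (h : Inv W) : Inv Wᗮ := fun g ξ hξ =>
  (Submodule.mem_orthogonal' _ _).2 fun u hu => by
    rw [inner_lamI_left]
    exact (Submodule.mem_orthogonal' _ _).1 hξ _ (h _ _ hu)

theorem Inv.closure {W : Submodule ℂ (HI Γ I)} (h : Inv W) : Inv W.topologicalClosure :=
  fun g _ hξ => map_mem_closure (continuous_lamI g) hξ (h g)

omit [Fintype I] in
theorem Inv.inf {W V : Submodule ℂ (HI Γ I)} (h : Inv W) (h' : Inv V) : Inv (W ⊓ V) :=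
  fun g ξ hξ => ⟨h g ξ hξ.1, h' g ξ hξ.2⟩

theorem Inv.pr {W : Submodule ℂ (HI Γ I)} (h : Inv W) : Eqv (pr W) := fun g ξ =>
  Submodule.eq_starProjection_of_mem_orthogonal
    (h.closure g _ (Submodule.starProjection_apply_mem _ ξ)) (by
      rw [← lamI_sub]
      exact h.closure.orth g _ (Submodule.sub_starProjection_mem_orthogonal ξ))

theorem dm_nonneg (W : Submodule ℂ (HI Γ I)) : 0 ≤ dm W :=
  Finset.sum_nonneg fun _ _ => sq_nonneg _

theorem dm_closure (W : Submodule ℂ (HI Γ I)) : dm W.topologicalClosure = dm W := by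
  have : W.topologicalClosure.topologicalClosure = W.topologicalClosure :=
    W.isClosed_topologicalClosure.submodule_topologicalClosure_eq
  simp only [dm, pr, this]

theorem dm_add {W V : Submodule ℂ (HI Γ I)} (h : W ≤ V.topologicalClosure) :
    dm V = dm W + dm (Wᗮ ⊓ V.topologicalClosure) := by
  rw [dm, dm, dm, ← Finset.sum_add_distrib]
  refine Finset.sum_congr rfl fun i _ => ?_
  generalize dl (Γ := Γ) i = ξ
  have h1 : W.topologicalClosure ≤ V.topologicalClosure :=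
    W.topologicalClosure_minimal h V.isClosed_topologicalClosure
  have h2 : (Wᗮ ⊓ V.topologicalClosure).topologicalClosure ≤ Wᗮ ⊓ V.topologicalClosure :=
    Submodule.topologicalClosure_minimal _ le_rfl
      (W.isClosed_orthogonal.inter V.isClosed_topologicalClosure)
  have hW : pr W ξ ∈ W.topologicalClosure := Submodule.starProjection_apply_mem _ ξ
  have hV : pr V ξ ∈ V.topologicalClosure := Submodule.starProjection_apply_mem _ ξ
  have hW' : ξ - pr W ξ ∈ W.topologicalClosureᗮ := Submodule.sub_starProjection_mem_orthogonal ξ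
  have hV' : ξ - pr V ξ ∈ V.topologicalClosureᗮ := Submodule.sub_starProjection_mem_orthogonal ξ
  have h3 : pr V ξ - pr W ξ ∈ W.topologicalClosureᗮ := by
    have := sub_mem hW' (Submodule.orthogonal_le h1 hV')
    rwa [sub_sub_sub_cancel_left] at this
  have h4 : pr (Wᗮ ⊓ V.topologicalClosure) ξ = pr V ξ - pr W ξ := by
    refine Submodule.eq_starProjection_of_mem_orthogonal (Submodule.le_topologicalClosure _
      ⟨Submodule.orthogonal_le W.le_topologicalClosure h3, sub_mem hV (h1 hW)⟩) ?_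
    rw [show ξ - (pr V ξ - pr W ξ) = (ξ - pr V ξ) + pr W ξ by abel]
    refine add_mem (Submodule.orthogonal_le (h2.trans inf_le_right) hV')
      (Submodule.orthogonal_le (h2.trans inf_le_left) ?_)
    rwa [Submodule.orthogonal_orthogonal_eq_closure]
  have h5 := norm_add_sq_eq_norm_sq_add_norm_sq_of_inner_eq_zero (𝕜 := ℂ) (pr W ξ)
    (pr V ξ - pr W ξ) (Submodule.inner_right_of_mem_orthogonal hW h3)
  rw [add_sub_cancel] at h5
  rw [h4, sq, sq, sq, h5]

theorem dm_mono {W V : Submodule ℂ (HI Γ I)} (h : W ≤ V.topologicalClosure) :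
    dm W ≤ dm V := by
  rw [dm_add h]
  exact le_add_of_nonneg_right (dm_nonneg _)

theorem dm_eq_zero {W : Submodule ℂ (HI Γ I)} (h : Inv W) (h0 : dm W = 0) : W = ⊥ := by
  rw [dm, Finset.sum_eq_zero_iff_of_nonneg fun _ _ => sq_nonneg _] at h0
  refine (Submodule.eq_bot_iff _).2 fun ξ hξ => ?_
  ext i g
  have h1 : pr W (dl i) = 0 := by simpa using h0 i (Finset.mem_univ _)
  have h2 : pr W (lamI g⁻¹ ξ) = lamI g⁻¹ ξ :=
    Submodule.starProjection_eq_self_iff.2 (W.le_topologicalClosure (h _ _ hξ))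
  rw [← inner_dl, inner_lamI_left, ← h2, pr, ← Submodule.inner_starProjection_left_eq_right]
  exact (congrArg (fun y => ⟪y, lamI g⁻¹ ξ⟫_ℂ) h1).trans (inner_zero_left _)

theorem dm_approx {ι : Type} (W : ι → Submodule ℂ (HI Γ I)) {ε : ℝ} (hε : 0 < ε) :
    ∃ R : Finset ι, dm (⨆ r, W r) ≤ dm (⨆ r ∈ R, W r) + ε := by
  classical
  obtain ⟨δ, hδ, hδ'⟩ : ∃ δ : ℝ, 0 < δ ∧ Fintype.card I * δ ^ 2 ≤ ε := by
    refine ⟨Real.sqrt (ε / (Fintype.card I + 1)), by positivity, ?_⟩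
    rw [Real.sq_sqrt (by positivity), ← mul_div_assoc, div_le_iff₀ (by positivity)]
    nlinarith
  have h1 : ∀ i : I, ∃ (R : Finset ι) (y : HI Γ I), y ∈ ⨆ r ∈ R, W r ∧
      dist (pr (⨆ r, W r) (dl i)) y < δ := fun i => by
    obtain ⟨y, hy, h⟩ := Metric.mem_closure_iff.1
      (Submodule.starProjection_apply_mem (⨆ r, W r).topologicalClosure (dl i)) δ hδ
    obtain ⟨R, hR⟩ := Submodule.mem_iSup_iff_exists_finset.1 hy
    exact ⟨R, y, hR, h⟩
  choose R y hy h using h1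
  refine ⟨Finset.univ.biUnion R, ?_⟩
  have hle : (⨆ r ∈ Finset.univ.biUnion R, W r) ≤ ⨆ r, W r := iSup₂_le fun r _ => le_iSup W r
  rw [dm_add (hle.trans (Submodule.le_topologicalClosure _))]
  refine add_le_add_right (le_trans ?_ hδ') _
  rw [dm, ← nsmul_eq_mul, ← Finset.card_univ]
  refine Finset.sum_le_card_nsmul _ _ _ fun i _ => pow_le_pow_left₀ (norm_nonneg _) ?_ 2
  set U := (⨆ r ∈ Finset.univ.biUnion R, W r)ᗮ ⊓ (⨆ r, W r).topologicalClosure
  have h2 : U.topologicalClosure ≤ U := Submodule.topologicalClosure_minimal _ le_rfl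
    ((Submodule.isClosed_orthogonal _).inter (Submodule.isClosed_topologicalClosure _))
  have h3 : pr U (y i) = 0 := by
    refine (Submodule.starProjection_apply_eq_zero_iff _).2
      (Submodule.orthogonal_le (h2.trans inf_le_left) (Submodule.le_orthogonal_orthogonal _ ?_))
    exact (iSup₂_le fun r hr => le_iSup₂_of_le (f := fun r (_ : r ∈ Finset.univ.biUnion R) => W r)
      r (Finset.mem_biUnion.2 ⟨i, Finset.mem_univ _, hr⟩) le_rfl :
        (⨆ r ∈ R i, W r) ≤ _) (hy i)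
  have h4 : pr U (dl i - pr (⨆ r, W r) (dl i)) = 0 :=
    (Submodule.starProjection_apply_eq_zero_iff _).2 (Submodule.orthogonal_le
      (h2.trans inf_le_right) (Submodule.sub_starProjection_mem_orthogonal _))
  have h5 : pr U (dl i) = pr U (pr (⨆ r, W r) (dl i) - y i) := by
    rw [map_sub, h3, sub_zero, ← sub_eq_zero, ← map_sub, h4]
  rw [h5]
  exact (Submodule.norm_starProjection_apply_le _ _).trans (by rw [← dist_eq_norm]; exact (h i).le)

end Vale.Agent.P239.VN
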