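import Vale.Agent.P239.VNA

/-! The trace property and the rank formula. -/

namespace Vale.Agent.P239.VN

open scoped InnerProductSpace
open ContinuousLinearMap Filter Topology

section
variable {E F : Type} [NormedAddCommGroup E] [InnerProductSpace ℂ E] [CompleteSpace E]
  [NormedAddCommGroup F] [InnerProductSpace ℂ F] [CompleteSpace F]

/-- `R` is the inverse of `T†T + ε`. -/
structure Res (T : E →L[ℂ] F) (ε : ℝ) (R : E →L[ℂ] E) : Prop where
  l : ∀ x, adjoint T (T (R x)) + (ε : ℂ) • R x = x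
  r : ∀ x, R (adjoint T (T x) + (ε : ℂ) • x) = x

theorem re_res (T : E →L[ℂ] F) (ε : ℝ) (x : E) :
    (⟪adjoint T (T x) + (ε : ℂ) • x, x⟫_ℂ).re = ‖T x‖ ^ 2 + ε * ‖x‖ ^ 2 := by
  rw [inner_add_left, adjoint_inner_left, inner_smul_left, inner_self_eq_norm_sq_to_K,
    inner_self_eq_norm_sq_to_K]
  simp [← Complex.ofReal_pow]

theorem exists_res (T : E →L[ℂ] F) {ε : ℝ} (hε : 0 < ε) : ∃ R, Res T ε R := by
  obtain ⟨u, hu⟩ := isUnit_of_forall_le_norm_inner_map (adjoint T ∘L T + (ε : ℂ) • (1 : E →L[ℂ] E))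
    (c := ⟨ε, hε.le⟩) hε fun x => by
      refine le_trans ?_ (Complex.re_le_norm _)
      have := re_res T ε x
      change _ ≤ (⟪adjoint T (T x) + (ε : ℂ) • x, x⟫_ℂ).re
      rw [this]
      change ‖x‖ ^ 2 * ε ≤ _
      nlinarith [sq_nonneg ‖T x‖]
  refine ⟨(u⁻¹ : (E →L[ℂ] E)ˣ), fun x => ?_, fun x => ?_⟩
  · have := DFunLike.congr_fun u.mul_inv x
    rwa [hu] at this
  · have := DFunLike.congr_fun u.inv_mul x
    rwa [hu] at this

theorem re_le (x y : E) : (⟪x, y⟫_ℂ).re ≤ ‖x‖ * ‖y‖ :=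
  (Complex.re_le_norm _).trans (norm_inner_le_norm x y)

variable {T : E →L[ℂ] F} {ε : ℝ} {R : E →L[ℂ] E}

theorem Res.upper (h : Res T ε R) (hε : 0 < ε) {x p : E} (hp : T (x - p) = 0) :
    (⟪x, adjoint T (T (R x))⟫_ℂ).re ≤ ‖p‖ ^ 2 := by
  have h1 : T (R (x - p)) = 0 := by
    have := h.r (x - p)
    rw [hp, map_zero, zero_add, map_smul] at this
    have h2 := congrArg T this
    rw [map_smul, hp] at h2
    exact (smul_eq_zero.1 h2).resolve_left (by exact_mod_cast hε.ne')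
  rw [map_sub, map_sub, sub_eq_zero] at h1
  rw [map_sub, sub_eq_zero] at hp
  rw [h1, adjoint_inner_right, hp, ← adjoint_inner_right, eq_sub_of_add_eq (h.l p),
    inner_sub_right, inner_smul_right, inner_self_eq_norm_sq_to_K]
  have h3 := re_res T ε (R p)
  rw [h.l] at h3
  have h4 : 0 ≤ ε * (⟪p, R p⟫_ℂ).re := by rw [h3]; positivity
  simpa [← Complex.ofReal_pow] using h4

theorem Res.norm_le (h : Res T ε R) (hε : 0 < ε) (y : F) : ‖T (R (adjoint T y))‖ ≤ ‖y‖ := by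
  have h3 := re_res T ε (R (adjoint T y))
  rw [h.l, adjoint_inner_left] at h3
  have h4 := re_le y (T (R (adjoint T y)))
  have h5 : 0 ≤ ε * ‖R (adjoint T y)‖ ^ 2 := by positivity
  by_contra hc
  nlinarith [norm_nonneg y]

theorem Res.defect (h : Res T ε R) (hε : 0 < ε) (x : E) :
    ‖T x - T (R (adjoint T (T x)))‖ ≤ √ε * ‖x‖ := by
  have h1 : T x - T (R (adjoint T (T x))) = (ε : ℂ) • T (R x) := by
    have := congrArg T (h.r x)
    rw [map_add, map_add, map_smul, map_smul] at this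
    rw [sub_eq_iff_eq_add', this]
  have h3 := re_res T ε (R x)
  rw [h.l] at h3
  have h4 := re_le x (R x)
  rw [h1, norm_smul, Complex.norm_real, Real.norm_of_nonneg hε.le]
  refine abs_le_of_sq_le_sq' ?_ (by positivity) |>.2
  rw [mul_pow, mul_pow, Real.sq_sqrt hε.le]
  have h5 : ε * ‖T (R x)‖ ^ 2 ≤ ‖x‖ ^ 2 := by
    nlinarith [sq_nonneg (‖x‖ - ε * ‖R x‖), mul_le_mul_of_nonneg_left (h3.symm.le.trans h4) hε.le,
      sq_nonneg (ε * ‖R x‖), sq_nonneg ‖x‖]
  nlinarith [mul_le_mul_of_nonneg_left h5 hε.le]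

theorem lower (T : E →L[ℂ] F) {y q : F} (hq : q ∈ T.range.topologicalClosure)
    (h0 : adjoint T (y - q) = 0) {κ : ℝ} (hκ : 0 < κ) : ∀ᶠ ε in 𝓝[>] (0 : ℝ), ∀ R, Res T ε R →
      y - q ∈ T.rangeᗮ → ‖q‖ ^ 2 ≤ (⟪y, T (R (adjoint T y))⟫_ℂ).re + κ := by
  obtain ⟨_, ⟨x, rfl⟩, hx⟩ := Metric.mem_closure_iff.1 hq (κ / (4 * (‖q‖ + 1))) (by positivity)
  have h1 : Tendsto (fun ε : ℝ => ‖q‖ * (√ε * ‖x‖)) (𝓝[>] 0) (𝓝 (‖q‖ * (√0 * ‖x‖))) :=
    (Continuous.tendsto (by fun_prop) 0).mono_left nhdsWithin_le_nhds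
  rw [Real.sqrt_zero, zero_mul, mul_zero] at h1
  filter_upwards [h1.eventually (gt_mem_nhds (half_pos hκ)), self_mem_nhdsWithin]
    with ε h2 hε R h hy
  rw [map_sub, sub_eq_zero] at h0
  have h3 : ⟪y, T (R (adjoint T y))⟫_ℂ = ⟪q, T (R (adjoint T q))⟫_ℂ := by
    rw [← adjoint_inner_left, h0, adjoint_inner_left]
  have h4 : ‖q - T (R (adjoint T q))‖ ≤ 2 * (κ / (4 * (‖q‖ + 1))) + √ε * ‖x‖ := by
    have e : q - T (R (adjoint T q)) = (q - T x) - T (R (adjoint T (q - T x))) +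
        (T x - T (R (adjoint T (T x)))) := by
      simp only [map_sub]
      abel
    have a1 := h.norm_le hε (q - T x)
    have a2 := h.defect hε x
    have a3 : ‖q - T x‖ < κ / (4 * (‖q‖ + 1)) := by rwa [← dist_eq_norm]
    rw [e]
    refine (norm_add_le _ _).trans ?_
    linarith [norm_sub_le (q - T x) (T (R (adjoint T (q - T x))))]
  have h5 := re_le q (q - T (R (adjoint T q)))
  rw [inner_sub_right, inner_self_eq_norm_sq_to_K, Complex.sub_re] at h5
  have h6 : (((‖q‖ : ℂ)) ^ 2).re = ‖q‖ ^ 2 := by simp [← Complex.ofReal_pow]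
  have h7 : ‖q‖ * (2 * (κ / (4 * (‖q‖ + 1)))) ≤ κ / 2 := by
    rw [← mul_div_assoc, ← mul_div_assoc, div_le_div_iff₀ (by positivity) two_pos]
    nlinarith [norm_nonneg q]
  have h8 := mul_le_mul_of_nonneg_left h4 (norm_nonneg q)
  rw [h3]
  change ((‖q‖ : ℂ) ^ 2).re - _ ≤ _ at h5
  rw [mul_add] at h8
  linarith

end

variable {Γ : Type} [Group Γ] {I J : Type} [Fintype I] [Fintype J]

theorem Eqv.adjoint_apply {T : HI Γ I →L[ℂ] HI Γ J} (h : Eqv T) (i : I) (j : J) (g : Γ) :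
    ContinuousLinearMap.adjoint T (dl j) i g = starRingEnd ℂ (T (dl i) j g⁻¹) := by
  rw [← inner_dl, adjoint_inner_right, h, inner_lamI_left, ← inner_dl, inner_conj_symm]

theorem tr_comm {S : HI Γ J →L[ℂ] HI Γ I} {T : HI Γ I →L[ℂ] HI Γ J} (hS : Eqv S) (hT : Eqv T) :
    ∑ i, ⟪dl i, S (T (dl i))⟫_ℂ = ∑ j, ⟪dl j, T (S (dl j))⟫_ℂ := by
  have e1 : ∀ i, ⟪dl i, S (T (dl i))⟫_ℂ = ⟪adjoint S (dl i), T (dl i)⟫_ℂ := fun i =>
    (adjoint_inner_left _ _ _).symm
  have e2 : ∀ j, ⟪dl j, T (S (dl j))⟫_ℂ = ⟪adjoint T (dl j), S (dl j)⟫_ℂ := fun i =>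
    (adjoint_inner_left _ _ _).symm
  simp only [e1, e2]
  simp only [PiLp.inner_apply]
  rw [Finset.sum_comm]
  refine Finset.sum_congr rfl fun j _ => Finset.sum_congr rfl fun i _ => ?_
  rw [lp.inner_eq_tsum, lp.inner_eq_tsum, ← (Equiv.inv Γ).tsum_eq]
  refine tsum_congr fun g => ?_
  rw [hS.adjoint_apply, hT.adjoint_apply]
  simp [mul_comm]

theorem Res.eqv {T : HI Γ I →L[ℂ] HI Γ J} (h : Eqv T) {ε : ℝ} {R : HI Γ I →L[ℂ] HI Γ I}
    (hR : Res T ε R) : Eqv R := fun g ξ => by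
  conv_lhs => rw [← hR.l ξ, lamI_add, lamI_smul, ← h.adjoint, ← h, hR.r]

theorem dm_range_le {T : HI Γ I →L[ℂ] HI Γ J} (h : Eqv T) : dm T.range ≤ dm T.kerᗮ := by
  refine le_of_forall_pos_le_add fun κ hκ => ?_
  have hy : ∀ y, y - pr T.range y ∈ T.rangeᗮ := fun y =>
    Submodule.orthogonal_le T.range.le_topologicalClosure
      (Submodule.sub_starProjection_mem_orthogonal y)
  have h1 := eventually_all.2 fun j : J => lower T (y := dl j) (q := pr T.range (dl j))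
    (Submodule.starProjection_apply_mem _ _) (by
      have := hy (dl j)
      rwa [ContinuousLinearMap.orthogonal_range] at this)
    (show 0 < κ / (Fintype.card J + 1) by positivity)
  obtain ⟨ε, h2, hε⟩ := (h1.and self_mem_nhdsWithin).exists
  obtain ⟨R, hR⟩ := exists_res T hε
  have h3 := congrArg Complex.re (tr_comm h.adjoint (h.comp (hR.eqv h)))
  rw [Complex.re_sum, Complex.re_sum] at h3
  have h4 : dm T.range ≤ ∑ j : J, ((⟪dl j, T (R (adjoint T (dl j)))⟫_ℂ).re +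
      κ / (Fintype.card J + 1)) := Finset.sum_le_sum fun j _ => h2 j R hR (hy _)
  have h5 : ∑ i : I, (⟪dl i, adjoint T (T (R (dl i)))⟫_ℂ).re ≤ dm T.kerᗮ := by
    refine Finset.sum_le_sum fun i _ => hR.upper hε ?_
    have := Submodule.orthogonal_le T.kerᗮ.le_topologicalClosure
      (Submodule.sub_starProjection_mem_orthogonal (dl i))
    rwa [Submodule.orthogonal_orthogonal] at this
  rw [Finset.sum_add_distrib, Finset.sum_const, Finset.card_univ, nsmul_eq_mul] at h4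
  have h6 : Fintype.card J * (κ / (Fintype.card J + 1)) ≤ κ := by
    rw [← mul_div_assoc, div_le_iff₀ (by positivity)]
    nlinarith
  simp only [comp_apply] at h3
  linarith

theorem dm_range {T : HI Γ I →L[ℂ] HI Γ J} (h : Eqv T) : dm T.range = dm T.kerᗮ := by
  refine le_antisymm (dm_range_le h) ?_
  have := dm_range_le h.adjoint
  rwa [← ContinuousLinearMap.orthogonal_range, Submodule.orthogonal_orthogonal_eq_closure,
    dm_closure, ← dm_closure, ← ContinuousLinearMap.orthogonal_ker] at this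

end Vale.Agent.P239.VN
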