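import Vale.Agent.P239.Core

namespace Vale.Agent.P239

open scoped Pointwise symmDiff
open Filter

variable {Γ : Type*} [Group Γ] {S : Finset Γ} {r : ℕ}

/-- The set of points voting for `C`. -/
def vote (V : Set (Set Γ)) (C : Set Γ) : Set Γ := {x | {y | x * y ∈ C} ∈ V}

/-- Monotone self dual family. -/
structure VV (V : Set (Set Γ)) : Prop where
  mono : ∀ D ∈ V, ∀ D' : Set Γ, (D \ D').Finite → D' ∈ V
  dual : ∀ D : Set Γ, Dᶜ ∈ V ↔ D ∉ V

/-- Locality of the vote for `u`. -/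
def VLoc (S : Finset Γ) (V : Set (Set Γ)) (u : Γ → ℝ) : Prop :=
  ∀ lam : ℝ, 0 < lam → ∀ B : Set Γ, B.Finite →
    ∃ K : Set Γ, K.Finite ∧ ∀ x, x ∉ K → ∀ (a : ℝ) (Ω : Set Γ), x ∈ Ω → a + lam ≤ u x →
      (∀ y ∈ Ω, ∀ s ∈ S, y * s ∉ B → a < u (y * s) → y * s ∈ Ω) → {y | x * y ∈ Ω} ∈ V

/-- Two sided form of the valley lemma. -/
def TD2 (S : Finset Γ) (u : Γ → ℝ) (lam : ℝ) (B : Set Γ) : Prop :=
  ∀ (t : ℝ) (W β : Set (Γ × S)) (C Ω : Set Γ), β.Finite → W ∆ β = cob S C → Conn S Ω →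
    (∀ x ∈ Ω, x ∉ B) → (∀ e ∈ W, |u e.1 - t| ≤ lam) →
    ((∀ x ∈ Ω, u x ≤ t - 2 * lam) ∨ (∀ x ∈ Ω, t + 2 * lam ≤ u x)) →
    (Ω ∩ C).Finite ∨ (Ω \ C).Finite

variable {V : Set (Set Γ)}

theorem VV.vote_mono (h : VV V) {C C' : Set Γ} (hf : (C \ C').Finite) : vote V C ⊆ vote V C' := by
  intro x hx
  refine h.mono _ hx _ ?_
  exact (hf.preimage (f := fun y => x * y) (mul_right_injective x).injOn).subset
    fun y hy => hy

theorem VV.vote_compl (h : VV V) (C : Set Γ) : vote V Cᶜ = (vote V C)ᶜ := by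
  ext x
  exact h.dual {y | x * y ∈ C}

theorem vote_tr (g : Γ) (C : Set Γ) : vote V (tr g C) = tr g (vote V C) := by
  ext x
  simp [vote, mul_assoc]

theorem VV.not_vote (h : VV V) {C : Set Γ} (hC : C.Finite) (x : Γ) : x ∉ vote V C := by
  intro hx
  have h1 : x ∈ vote V Cᶜ := h.vote_mono (hC.subset Set.sdiff_subset) hx
  rw [h.vote_compl] at h1
  exact h1 hx

theorem VV.vote_disj (h : VV V) {C C' : Set Γ} (hf : (C ∩ C').Finite) :
    vote V C ∩ vote V C' = ∅ := by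
  refine Set.eq_empty_of_forall_notMem fun x hx => ?_
  have h1 : x ∈ vote V C'ᶜ := h.vote_mono (by simpa [Set.sdiff_eq] using hf) hx.1
  rw [h.vote_compl] at h1
  exact h1 hx.2

theorem exists_td2 (hTD : TDProp S) {u : Γ → ℝ} (hu : FinEn S u) {lam : ℝ} (hl : 0 < lam) :
    ∃ B : Set Γ, B.Finite ∧ TD2 S u lam B := by
  obtain ⟨B, hB, h⟩ := hTD u hu lam hl
  obtain ⟨B', hB', h'⟩ := hTD _ hu.neg lam hl
  refine ⟨B ∪ B', hB.union hB', fun t W β C Ω hβ hW hΩ hΩB hWu hs => ?_⟩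
  rcases hs with hs | hs
  · refine h (t - 2 * lam) W β C Ω hβ hW hΩ
      (fun x hx => ⟨fun hb => hΩB x hx (Or.inl hb), hs x hx⟩) fun e he => ?_
    have := abs_le.1 (hWu e he)
    linarith [this.1]
  · refine h' (-(t + 2 * lam)) W β C Ω hβ hW hΩ
      (fun x hx => ⟨fun hb => hΩB x hx (Or.inr hb), by linarith [hs x hx]⟩) fun e he => ?_
    have := abs_le.1 (hWu e he)
    linarith [this.2]

theorem TD2.neg {u : Γ → ℝ} {lam : ℝ} {B : Set Γ} (h : TD2 S u lam B) :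
    TD2 S (fun x => -u x) lam B := by
  intro t W β C Ω hβ hW hΩ hΩB hWu hs
  refine h (-t) W β C Ω hβ hW hΩ hΩB (fun e he => ?_) ?_
  · have := hWu e he
    rwa [← abs_neg, neg_sub', neg_neg] at this
  · rcases hs with hs | hs
    · exact Or.inr fun x hx => by linarith [hs x hx]
    · exact Or.inl fun x hx => by linarith [hs x hx]

/-- A far point high above level `a` votes for its component. -/
theorem VLoc.comp {u : Γ → ℝ} (h : VLoc S V u) {lam : ℝ} (hl : 0 < lam) {B : Set Γ}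
    (hB : B.Finite) : ∃ K : Set Γ, K.Finite ∧ ∀ (a : ℝ) (x₀ x : Γ), x ∉ K → a + lam ≤ u x →
      x ∈ comp S {y | y ∉ B ∧ a < u y} x₀ → x ∈ vote V (comp S {y | y ∉ B ∧ a < u y} x₀) := by
  obtain ⟨K, hK, h⟩ := h lam hl B hB
  exact ⟨K, hK, fun a x₀ x hx ha hc =>
    h x hx a _ hc ha fun y hy s hs h1 h2 => comp_step hy hs ⟨h1, h2⟩⟩

theorem loc_up (hS : Gen S) (hV : VV V) {u : Γ → ℝ} (hu : FinEn S u) (hL : VLoc S V u)
    {lam : ℝ} (hl : 0 < lam) {B : Set Γ} (hB : B.Finite) (hT : TD2 S u lam B) :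
    ∃ K : Set Γ, K.Finite ∧ ∀ (t : ℝ) (W β : Set (Γ × S)) (C : Set Γ), β.Finite →
      W ∆ β = cob S C → (∀ e ∈ W, |u e.1 - t| ≤ lam) →
      ∀ e ∈ cob S (vote V C), e.1 ∉ K → u e.1 ≤ t + 4 * lam := by
  obtain ⟨K₁, hK₁, h1⟩ := hL.comp hl hB
  obtain ⟨K₂, hK₂, h2⟩ := hu.slow 1 hl
  refine ⟨{y | ∃ x ∈ K₁ ∪ B, Near S 1 y x} ∪ K₂, (nbhd_finite' hS 1 (hK₁.union hB)).union hK₂,
    fun t W β C hβ hW hWu e he hK => ?_⟩
  by_contra hc
  push Not at hc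
  simp only [Set.mem_union, Set.mem_ofPred_eq, not_or, not_exists, not_and] at hK
  have a1 : e.1 ∉ K₁ ∧ e.1 ∉ B :=
    ⟨fun h => hK.1 _ (Or.inl h) (Near.refl hS _ _), fun h => hK.1 _ (Or.inr h) (Near.refl hS _ _)⟩
  have a2 : e.1 * e.2 ∉ K₁ ∧ e.1 * e.2 ∉ B :=
    ⟨fun h => hK.1 _ (Or.inl h) (near_edge e), fun h => hK.1 _ (Or.inr h) (near_edge e)⟩
  have a3 := abs_le.1 (h2 _ hK.2 _ (near_edge e))
  set U : Set Γ := {y | y ∉ B ∧ t + 2 * lam < u y} with hU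
  have b1 : e.1 ∈ U := ⟨a1.2, by linarith⟩
  have b2 : e.1 * e.2 ∈ comp S U e.1 :=
    comp_step (mem_comp_self _ _) e.2.2 ⟨a2.2, by linarith [a3.1]⟩
  have c1 := h1 (t + 2 * lam) e.1 e.1 a1.1 (by linarith) (mem_comp_self _ _)
  have c2 := h1 (t + 2 * lam) e.1 (e.1 * e.2) a2.1 (by linarith [a3.1]) b2
  rcases hT t W β C _ hβ hW (comp_conn U e.1) (fun x hx => (comp_subset b1 hx).1) hWu
    (Or.inr fun x hx => (comp_subset b1 hx).2.le) with h | h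
  · have d := hV.vote_disj h
    have d1 : e.1 ∉ vote V C := fun h' => (Set.eq_empty_iff_forall_notMem.1 d) _ ⟨c1, h'⟩
    have d2 : e.1 * e.2 ∉ vote V C := fun h' => (Set.eq_empty_iff_forall_notMem.1 d) _ ⟨c2, h'⟩
    exact he (by tauto)
  · have d := hV.vote_mono h
    exact he (iff_of_true (d c1) (d c2))

/-- Localization of the boundary of a vote. -/
theorem loc (hS : Gen S) (hV : VV V) {u : Γ → ℝ} (hu : FinEn S u) (hL : VLoc S V u)
    (hL' : VLoc S V fun x => -u x)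
    {lam : ℝ} (hl : 0 < lam) {B : Set Γ} (hB : B.Finite) (hT : TD2 S u lam B) :
    ∃ K : Set Γ, K.Finite ∧ ∀ (t : ℝ) (W β : Set (Γ × S)) (C : Set Γ), β.Finite →
      W ∆ β = cob S C → (∀ e ∈ W, |u e.1 - t| ≤ lam) →
      ∀ e ∈ cob S (vote V C), e.1 ∉ K → |u e.1 - t| ≤ 4 * lam := by
  obtain ⟨K, hK, h⟩ := loc_up hS hV hu hL hl hB hT
  obtain ⟨K', hK', h'⟩ := loc_up hS hV hu.neg hL' hl hB hT.neg
  refine ⟨K ∪ K', hK.union hK', fun t W β C hβ hW hWu e he hn => abs_le.2 ⟨?_, ?_⟩⟩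
  · have := h' (-t) W β C hβ hW (fun e he => by
      have := hWu e he
      rwa [← abs_neg, neg_sub'] at this) e he fun h => hn (Or.inr h)
    linarith
  · have := h t W β C hβ hW hWu e he fun h => hn (Or.inl h)
    linarith

/-- A corner with finite coboundary is finite. -/
theorem corner (hS : Gen S) (hb : ∀ A : Set Γ, (cob S A).Finite → A.Finite ∨ Aᶜ.Finite)
    {W β W' β' : Set (Γ × S)} {C C' N N' : Set Γ} (hβ : β.Finite) (hβ' : β'.Finite)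
    (hW : W ∆ β = cob S C) (hW' : W' ∆ β' = cob S C')
    (hN : ∀ e ∈ W, e.1 ∈ N ∧ e.1 * e.2 ∈ N) (hN' : ∀ e ∈ W', e.1 ∈ N' ∧ e.1 * e.2 ∈ N')
    (h1 : (N ∩ C').Finite) (h2 : (N' ∩ C).Finite) (h3 : Cᶜ.Infinite) : (C ∩ C').Finite := by
  have key : (cob S (C ∩ C')).Finite := by
    refine ((hβ.union hβ').union (edges_finite (nbhd_finite' hS 1 (h1.union h2)))).subset
      fun e he => ?_
    have k1 : e ∈ W ∆ β ↔ e ∈ cob S C := by rw [hW]
    have k2 : e ∈ W' ∆ β' ↔ e ∈ cob S C' := by rw [hW']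
    by_contra hc
    simp only [Set.mem_union, Set.mem_ofPred_eq, not_or, not_exists, not_and,
      Set.mem_inter_iff] at hc
    have t1 := fun h => hc.2 e.1 h (Near.refl hS _ _)
    have t2 := fun h => hc.2 (e.1 * e.2) h (near_edge e)
    by_cases hw : e ∈ W
    · have t3 := hN e hw
      have p1 : e.1 ∉ C' := fun h => t1 (Or.inl ⟨t3.1, h⟩)
      have p2 : e.1 * e.2 ∉ C' := fun h => t2 (Or.inl ⟨t3.2, h⟩)
      exact he (iff_of_false (fun h => p1 h.2) (fun h => p2 h.2))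
    by_cases hw' : e ∈ W'
    · have t3 := hN' e hw'
      have p1 : e.1 ∉ C := fun h => t1 (Or.inr ⟨t3.1, h⟩)
      have p2 : e.1 * e.2 ∉ C := fun h => t2 (Or.inr ⟨t3.2, h⟩)
      exact he (iff_of_false (fun h => p1 h.1) (fun h => p2 h.1))
    have q1 : e ∉ cob S C := fun h => by
      rcases k1.2 h with h | h
      exacts [hw h.1, hc.1.1 h.1]
    have q2 : e ∉ cob S C' := fun h => by
      rcases k2.2 h with h | h
      exacts [hw' h.1, hc.1.2 h.1]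
    simp only [mem_cob, not_not] at q1 q2
    exact he (and_congr q1 q2)
  rcases hb _ key with h | h
  · exact h
  · exact absurd (h.subset (Set.compl_subset_compl.2 Set.inter_subset_left)) h3

theorem nested_vote (hS : Gen S) (hV : VV V)
    (hb : ∀ A : Set Γ, (cob S A).Finite → A.Finite ∨ Aᶜ.Finite)
    {W β W' β' : Set (Γ × S)} {C C' N N' : Set Γ} (hβ : β.Finite) (hβ' : β'.Finite)
    (hW : W ∆ β = cob S C) (hW' : W' ∆ β' = cob S C')
    (hN : ∀ e ∈ W, e.1 ∈ N ∧ e.1 * e.2 ∈ N) (hN' : ∀ e ∈ W', e.1 ∈ N' ∧ e.1 * e.2 ∈ N')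
    (h1 : (N ∩ C').Finite ∨ (N \ C').Finite) (h2 : (N' ∩ C).Finite ∨ (N' \ C).Finite)
    (h3 : C.Infinite) (h4 : Cᶜ.Infinite) : Nested (vote V C) (vote V C') := by
  have hWc : W ∆ β = cob S Cᶜ := by rw [cob_compl]; exact hW
  have hWc' : W' ∆ β' = cob S C'ᶜ := by rw [cob_compl]; exact hW'
  unfold Nested
  rw [← hV.vote_compl, ← hV.vote_compl]
  rcases h1 with h1 | h1 <;> rcases h2 with h2 | h2
  · exact Or.inl (hV.vote_disj (corner hS hb hβ hβ' hW hW' hN hN' h1 h2 h4))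
  · exact Or.inr (Or.inr (Or.inl
      (hV.vote_disj (corner hS hb hβ hβ' hWc hW' hN hN' h1 h2 (by simpa using h3)))))
  · exact Or.inr (Or.inl (hV.vote_disj (corner hS hb hβ hβ' hW hWc' hN hN' h1 h2 h4)))
  · exact Or.inr (Or.inr (Or.inr
      (hV.vote_disj (corner hS hb hβ hβ' hWc hWc' hN hN' h1 h2 (by simpa using h3)))))

/-- Pointwise ultralimit of sets. -/
def ulim (𝒰 : Ultrafilter ℕ) (X : ℕ → Set Γ) : Set Γ := {x | ∀ᶠ j in (𝒰 : Filter ℕ), x ∈ X j}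

omit [Group Γ] in
theorem ulim_compl (𝒰 : Ultrafilter ℕ) (X : ℕ → Set Γ) :
    (ulim 𝒰 X)ᶜ = ulim 𝒰 fun j => (X j)ᶜ := by
  ext x
  exact Ultrafilter.eventually_not.symm

omit [Group Γ] in
theorem ulim_disj (𝒰 : Ultrafilter ℕ) {X Y : ℕ → Set Γ}
    (h : ∀ᶠ j in (𝒰 : Filter ℕ), X j ∩ Y j = ∅) : ulim 𝒰 X ∩ ulim 𝒰 Y = ∅ := by
  refine Set.eq_empty_of_forall_notMem fun x hx => ?_
  obtain ⟨j, h1, h2, h3⟩ := (h.and (Filter.Eventually.and hx.1 hx.2)).exists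
  exact (Set.eq_empty_iff_forall_notMem.1 h1) x ⟨h2, h3⟩

omit [Group Γ] in
theorem ulim_nested (𝒰 : Ultrafilter ℕ) {X Y : ℕ → Set Γ}
    (h : ∀ᶠ j in (𝒰 : Filter ℕ), Nested (X j) (Y j)) : Nested (ulim 𝒰 X) (ulim 𝒰 Y) := by
  unfold Nested at *
  rw [ulim_compl, ulim_compl]
  simp only [Ultrafilter.eventually_or] at h
  rcases h with h | h | h | h
  · exact Or.inl (ulim_disj 𝒰 h)
  · exact Or.inr (Or.inl (ulim_disj 𝒰 h))
  · exact Or.inr (Or.inr (Or.inl (ulim_disj 𝒰 h)))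
  · exact Or.inr (Or.inr (Or.inr (ulim_disj 𝒰 h)))

theorem ulim_cob (𝒰 : Ultrafilter ℕ) {X : ℕ → Set Γ} {e : Γ × S} (he : e ∈ cob S (ulim 𝒰 X)) :
    ∀ᶠ j in (𝒰 : Filter ℕ), e ∈ cob S (X j) := by
  by_cases h1 : e.1 ∈ ulim 𝒰 X
  · have h2 : e.1 * e.2 ∈ (ulim 𝒰 X)ᶜ := fun h => he (iff_of_true h1 h)
    rw [ulim_compl] at h2
    exact (Filter.Eventually.and h1 h2).mono fun j hj h => hj.2 (h.1 hj.1)
  · have h2 : e.1 * e.2 ∈ ulim 𝒰 X := by
      by_contra h; exact he (iff_of_false h1 h)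
    have h3 : e.1 ∈ (ulim 𝒰 X)ᶜ := h1
    rw [ulim_compl] at h3
    exact (Filter.Eventually.and h2 h3).mono fun j hj h => hj.2 (h.2 hj.1)

theorem ulim_tr (𝒰 : Ultrafilter ℕ) (g : Γ) (X : ℕ → Set Γ) :
    tr g (ulim 𝒰 X) = ulim 𝒰 fun j => tr g (X j) := rfl

omit [Group Γ] in
theorem Nested.symm {X Y : Set Γ} (h : Nested X Y) : Nested Y X := by
  unfold Nested at *
  rw [Set.inter_comm Y X, Set.inter_comm Y Xᶜ, Set.inter_comm Yᶜ X, Set.inter_comm Yᶜ Xᶜ]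
  tauto

theorem Nested.tr {X Y : Set Γ} (h : Nested X Y) (g : Γ) : Nested (tr g X) (tr g Y) := by
  unfold Nested at *
  simp only [Set.eq_empty_iff_forall_notMem] at *
  rcases h with h | h | h | h
  · exact Or.inl fun x hx => h (g⁻¹ * x) hx
  · exact Or.inr (Or.inl fun x hx => h (g⁻¹ * x) hx)
  · exact Or.inr (Or.inr (Or.inl fun x hx => h (g⁻¹ * x) hx))
  · exact Or.inr (Or.inr (Or.inr fun x hx => h (g⁻¹ * x) hx))

theorem tr_tr (g h : Γ) (X : Set Γ) : tr g (tr h X) = tr (g * h) X := by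
  ext x; simp [mul_assoc]

theorem tr_one (X : Set Γ) : tr 1 X = X := by ext x; simp

theorem CConn.tr {w : ℕ} {T : Set Γ} (h : CConn S w T) (g : Γ) : CConn S w (tr g T) := by
  intro A hA x hx y hy
  have := h {z | g * z ∈ A} (fun a ha b hb hab =>
    hA (g * a) (by simpa using ha) (g * b) (by simpa using hb) (by simpa using hab))
    (g⁻¹ * x) hx (g⁻¹ * y) hy
  simpa using this

/-- Recursive choice of a sequence with index dependent constraints. -/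
theorem exists_seq_dep {α : Type*} (P : ℕ → α → Prop) (R : α → α → Prop)
    (h : ∀ (n : ℕ) (s : Finset α), ∃ y, P n y ∧ ∀ x ∈ s, R x y) :
    ∃ f : ℕ → α, (∀ n, P n (f n)) ∧ ∀ m n, m < n → R (f m) (f n) := by
  classical
  choose F hF hF' using h
  let f : ℕ → α := fun n => Nat.strongRecOn n fun n ih =>
    F n (Finset.image (fun i : Fin n => ih i i.2) Finset.univ)
  have hf : ∀ n, f n = F n (Finset.image (fun i : Fin n => f i) Finset.univ) := by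
    intro n
    simp only [f]
    rw [Nat.strongRecOn_eq]
  refine ⟨f, fun n => by rw [hf]; exact hF _ _, fun m n hmn => ?_⟩
  rw [hf n]
  exact hF' _ _ _ (Finset.mem_image.2 ⟨⟨m, hmn⟩, Finset.mem_univ _, rfl⟩)

end Vale.Agent.P239
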