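import Vale.Agent.P239.BasY

/-! Zooming at maximal transition points gives a cut. -/

namespace Vale.Agent.P239

open scoped Pointwise symmDiff
open Filter Topology

variable {Γ : Type*} [Group Γ] {Z : Type*} [MetricSpace Z] [CompactSpace Z] [MulAction Γ Z]
  [ContinuousConstSMul Γ Z] {D : Dat Γ Z} {π : Z → ℝ}

namespace X6aXAux

omit [CompactSpace Z] [ContinuousConstSMul Γ Z] in
/-- A point at a lower level is sent close to the inverse. -/
theorem low (H : D.OK) (hπ : Coord D.S D.ι π) {ε l : ℝ} (hε : 0 < ε) (hl : 0 < l) :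
    ∃ K : Set Γ, K.Finite ∧ ∀ x, x ∉ K → ∀ w, π (D.ι (x * w)) + l ≤ π (D.ι x) →
      dist (D.ι w) (D.ι x⁻¹) ≤ ε := by
  obtain ⟨K, hK, h⟩ := H.fr.cv (min ε (l / 2)) (lt_min hε (by linarith))
  refine ⟨K, hK, fun x hx w hw => ?_⟩
  rcases h x hx (D.ι w) with h1 | h1
  · rw [← H.fr.eqv] at h1
    have h2 := (abs_le.1 (hπ.lip (D.ι (x * w)) (D.ι x))).1
    have h3 := min_le_right ε (l / 2)
    linarith
  · exact h1.trans (min_le_left _ _)

/-- The modified colouring. -/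
def md (U R C : Set Γ) : Set Γ := (R ∩ U) ∪ (C \ U)

omit [Group Γ] in
theorem md_in {U R C : Set Γ} {y : Γ} (h : y ∈ U) : y ∈ md U R C ↔ y ∈ R := by
  simp [md, h]

omit [Group Γ] in
theorem md_symm {U R C : Set Γ} {y : Γ} (h : y ∈ md U R C ∆ C) : y ∈ U ∧ y ∈ R ∆ C := by
  simp only [md, Set.mem_symmDiff, Set.mem_union, Set.mem_inter_iff, Set.mem_diff] at h ⊢
  tauto

omit [Group Γ] in
theorem ev_out {x : ℕ → Γ} (hx : Tendsto x atTop cofinite) {K : Set Γ} (hK : K.Finite) :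
    ∀ᶠ n in atTop, x n ∉ K := hx hK.compl_mem_cofinite

theorem ev_out' {x : ℕ → Γ} (hx : Tendsto x atTop cofinite) {K : Set Γ} (hK : K.Finite) :
    ∀ᶠ n in atTop, (x n)⁻¹ ∉ K := ev_out hx hK.inv

end X6aXAux

open X6aXAux in
theorem x6a (H : D.OK) (hπ : Coord D.S D.ι π) (h1 : D.ZL) : D.X6a π := by
  intro t l θ B₁ R₀ C T R I x hl hθ hB hyp hx hR η hη K hK
  have hU : ((hyperfilter ℕ : Ultrafilter ℕ) : Filter ℕ) ≤ atTop := by
    rw [← Nat.cofinite_eq_atTop]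
    exact hyperfilter_le_cofinite
  obtain ⟨ξ, -, hξ⟩ := isCompact_univ.ultrafilter_le_nhds
    ((hyperfilter ℕ).map fun n => D.ι (x n)⁻¹) (by simp)
  have hξ' : ∀ ε : ℝ, 0 < ε →
      ∀ᶠ n in ((hyperfilter ℕ : Ultrafilter ℕ) : Filter ℕ), dist (D.ι (x n)⁻¹) ξ ≤ ε :=
    fun ε hε => hξ (Metric.closedBall_mem_nhds ξ hε)
  set U : Set Γ := {y | t + 4 * l < π (D.ι y)} with hUdef
  have hfin : ∀ n, (md U (R n) (C n) ∆ C n).Finite := fun n =>
    (hyp n).2.2.2.1.subset fun y hy => by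
      obtain ⟨h2, h3⟩ := md_symm hy
      have h4 : t + 4 * l < π (D.ι y) := h2
      exact ⟨by linarith, h3⟩
  obtain ⟨P, hP1, hP2, hP3⟩ := h1 (hyperfilter ℕ) (fun n => tr (x n)⁻¹ (md U (R n) (C n))) ∅ ξ
    (by
      intro ε hε
      obtain ⟨j, hj⟩ := exists_nat_one_div_lt (show 0 < ε / 4 by linarith)
      obtain ⟨K', hK', h2⟩ := hR (ε / 4) (by linarith) _ (pow_finite D.S (R₀ j))
      obtain ⟨K₁, hK₁, h3⟩ := low H hπ (show 0 < ε / 2 by linarith) (show 0 < l / 2 by linarith)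
      obtain ⟨K₂, hK₂, h4⟩ := H.fr.slow H.gen 1 (show 0 < l / 2 by linarith)
      obtain ⟨K₃, hK₃, h5⟩ := H.fr.slow_mul H.gen (hB.union hK₂) (show 0 < ε / 2 by linarith)
      refine ⟨K', hK', ?_⟩
      filter_upwards [hξ' (ε / 2) (by linarith), hU (ev_out hx hK₁), hU (ev_out' hx hK₃),
        hU (eventually_ge_atTop j)] with n e1 e2 e3 e4 w hw
      rw [tails_tr, mem_tr, inv_inv] at hw
      by_cases hw' : w ∈ K'
      · exact Or.inr hw'
      refine Or.inl ?_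
      suffices dist (D.ι w) (D.ι (x n)⁻¹) ≤ ε / 2 by
        change dist (D.ι w) ξ ≤ ε
        linarith [dist_triangle (D.ι w) (D.ι (x n)⁻¹) ξ]
      have hxn := (hyp n).2.2.2.2.2.1
      have ew : (x n)⁻¹ * (x n * w) = w := inv_mul_cancel_left _ _
      by_cases c1 : π (D.ι (x n * w)) ≤ t + 9 * l / 2
      · exact h3 _ e2 w (by linarith)
      by_cases c2 : x n * w ∈ B₁ ∪ K₂
      · have := h5 _ e3 _ c2
        rwa [ew] at this
      rw [Set.mem_union, not_or] at c2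
      obtain ⟨s, hs, h6⟩ := mem_tails.1 hw
      have h7 := h4 _ c2.2 _ (near_step (x n * w) hs)
      have h8 := (abs_le.1 (hπ.lip (D.ι (x n * w * s)) (D.ι (x n * w)))).1
      have u1 : x n * w ∈ U := by
        change t + 4 * l < _
        linarith
      have u2 : x n * w * s ∈ U := by
        change t + 4 * l < _
        linarith
      rw [md_in u1, md_in u2] at h6
      obtain ⟨y, hy, h9, h10⟩ := h2 n _ (mem_tails.2 ⟨s, hs, h6⟩) (by linarith) c2.1
        (by rwa [ew])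
      rw [ew] at h10
      have h11 := (hyp n).2.2.2.2.2.2 j e4 y hy h9
      linarith [dist_triangle_left (D.ι w) (D.ι (x n)⁻¹) (D.ι ((x n)⁻¹ * y))])
    (by
      intro ε hε K₀ hK₀
      obtain ⟨K', hK', h2⟩ := H.tc (2 * D.r) hε hK₀
      obtain ⟨K₁, hK₁, h3⟩ := low H hπ (show 0 < ε / 4 by linarith) hl
      obtain ⟨K₃, hK₃, h5⟩ := H.fr.slow_mul H.gen hK' hl
      filter_upwards [hξ' (ε / 4) (by linarith), hU (ev_out hx hK₁), hU (ev_out hx hK₃)]
        with n e1 e2 e3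
      have hxn := (hyp n).2.2.2.2.2.1
      obtain ⟨x₀, h6⟩ := h2 ξ (tr (x n)⁻¹ (T n)) ((hyp n).1.tr _) (by
        intro w hw
        rw [mem_tr, inv_inv] at hw
        have h7 := (hyp n).2.1 _ hw
        refine ⟨?_, fun hw' => ?_⟩
        · have := h3 _ e2 w (by linarith)
          change dist (D.ι w) ξ ≤ ε / 2
          linarith [dist_triangle (D.ι w) (D.ι (x n)⁻¹) ξ]
        · have h8 := h5 _ e3 w hw'
          have h9 := (abs_le.1 (hπ.lip (D.ι (x n * w)) (D.ι (x n)))).1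
          linarith)
      refine ⟨x₀, (tr_finite (x n)⁻¹
        ((tails_congr_fin H.gen (hfin n)).union (hyp n).2.2.1)).subset fun w hw => ?_⟩
      obtain ⟨h7, h8⟩ := hw
      rw [Set.empty_union, tails_tr, mem_tr] at h7
      have h9 : (x n)⁻¹⁻¹ * w ∉ T n := fun h => h8 (h6 h)
      rw [mem_tr]
      by_cases c : (x n)⁻¹⁻¹ * w ∈ tails D.S (C n)
      · exact Or.inr ⟨c, h9⟩
      · exact Or.inl ⟨h7, c⟩)
  have hcut : D.Cut P ξ := by
    obtain ⟨n, hn⟩ := (hP3 (θ / 2) (by linarith)).exists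
    have h2 := abs_le.1 ((H.m_abs_sub _ _).trans hn)
    rw [Dat.m_tr_inv, H.h_congr_fin (hfin n)] at h2
    obtain ⟨h3, h4⟩ := (hyp n).2.2.2.2.1
    rw [Set.empty_union] at hP2
    exact ⟨hP1, hP2, by linarith [h2.2], by linarith [h2.1]⟩
  obtain ⟨n, hn1, hn2⟩ := ((hP3 η hη).and (hU (ev_out hx hK))).exists
  refine ⟨n, tr (x n) P, x n • ξ, hn2, H.cut_tr hcut _, ?_⟩
  have e1 : D.h (C n ∆ tr (x n) P) (x n) = D.h (md U (R n) (C n) ∆ tr (x n) P) (x n) := by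
    refine H.h_congr_fin ((hfin n).subset fun y hy => ?_) _
    simp only [Set.mem_symmDiff] at hy ⊢
    tauto
  have e2 : tr (x n)⁻¹ (md U (R n) (C n) ∆ tr (x n) P) = tr (x n)⁻¹ (md U (R n) (C n)) ∆ P := by
    ext y
    simp [Set.mem_symmDiff]
  rw [e1, ← Dat.m_tr_inv, e2]
  exact hn1

end Vale.Agent.P239
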